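import Vale.Agent.P054.Hf

namespace Vale.Agent.P054

open MvPolynomial

noncomputable section

variable {K : Type} [Field K]

theorem homog_aeval_scale {σ A : Type} [CommRing A] [Algebra K A] (x : σ → A) (d : A)
    (u : σ →₀ ℕ) (c : K) :
    aeval (fun k => d * x k) (monomial u c) = d ^ u.degree * aeval x (monomial u c) := by
  rw [aeval_monomial, aeval_monomial, Finsupp.prod, Finsupp.prod, Finsupp.degree_apply]
  simp only [mul_pow, Finset.prod_mul_distrib, Finset.prod_pow_eq_pow_sum]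
  ring

/-- homogenisation with the extra variable `none`. -/
theorem exists_homog {σ : Type} (Q : MvPolynomial σ K) {e : ℕ} (he : Q.totalDegree ≤ e) :
    ∃ H : MvPolynomial (Option σ) K, H.IsHomogeneous e ∧
      ∀ (A : Type) [CommRing A] [Algebra K A] (x : σ → A) (d : A),
        aeval (fun o : Option σ => o.elim d (fun k => d * x k)) H = d ^ e * aeval x Q := by
  have hu : ∀ u ∈ Q.support, u.degree ≤ e := fun u hu => (le_totalDegree hu).trans he
  refine ⟨∑ u ∈ Q.support, X none ^ (e - u.degree) * rename some (monomial u (coeff u Q)), ?_, ?_⟩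
  · refine IsHomogeneous.sum _ _ _ fun u h => ?_
    have := (isHomogeneous_X_pow (R := K) (none : Option σ) (e - u.degree)).mul
      ((isHomogeneous_monomial (coeff u Q) (rfl : u.degree = u.degree)).rename_isHomogeneous
        (f := some))
    rwa [Nat.sub_add_cancel (hu u h)] at this
  · intro A _ _ x d
    conv_rhs => rw [Q.as_sum]
    rw [map_sum, map_sum, Finset.mul_sum]
    refine Finset.sum_congr rfl fun u h => ?_
    rw [map_mul, map_pow, aeval_X, aeval_rename]
    have := homog_aeval_scale x d u (coeff u Q)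
    simp only [Function.comp_def, Option.elim_some, Option.elim_none]
    rw [this, ← mul_assoc, ← pow_add, Nat.sub_add_cancel (hu u h)]

/-- finitely many nonzero polynomials have a common non-zero point. -/
theorem exists_aeval_ne_zero [Infinite K] {σ Λ : Type} (S : Finset Λ)
    (Q : Λ → MvPolynomial σ K) (hQ : ∀ l ∈ S, Q l ≠ 0) :
    ∃ x : σ → K, ∀ l ∈ S, aeval x (Q l) ≠ 0 := by
  have h : ∏ l ∈ S, Q l ≠ 0 := Finset.prod_ne_zero_iff.2 hQ
  by_contra hx
  refine h (MvPolynomial.funext fun x => ?_)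
  rw [map_zero, map_prod]
  by_contra h0
  exact hx ⟨x, fun l hl => Finset.prod_ne_zero_iff.1 h0 l hl⟩

theorem homog_comp_mul {β : Type} (f : MvPolynomial β K) {g : MvPolynomial β K} {m : ℕ}
    (hg : g.IsHomogeneous m) (n : ℕ) : homogeneousComponent n (f * g) =
      (∑ i ∈ Finset.range (f.totalDegree + 1),
        if n = i + m then homogeneousComponent i f else 0) * g := by
  conv_lhs => rw [← sum_homogeneousComponent f]
  rw [Finset.sum_mul, Finset.sum_mul, map_sum]
  refine Finset.sum_congr rfl fun i _ => ?_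
  rw [homogeneousComponent_of_mem ((homogeneousComponent_isHomogeneous i f).mul hg), ite_mul,
    zero_mul]

theorem homog_comp_span {β : Type} (I : Ideal (MvPolynomial β K)) {f : MvPolynomial β K}
    (hf : f ∈ Ideal.span {F | F ∈ I ∧ ∃ m, F.IsHomogeneous m}) (n : ℕ) :
    homogeneousComponent n f ∈ I := by
  obtain ⟨k, c, g, rfl⟩ := Submodule.mem_span_set'.1 hf
  rw [map_sum]
  refine I.sum_mem fun i _ => ?_
  obtain ⟨h1, m, h2⟩ := (g i).2
  rw [smul_eq_mul, homog_comp_mul _ h2]
  exact I.mul_mem_left _ h1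

/-- base point freeness gives integral equations. -/
theorem null_integral [IsAlgClosed K] {β κ : Type} [Fintype β] [Fintype κ]
    (I : Ideal (MvPolynomial β K)) (t : κ → MvPolynomial β K) (ht : ∀ j, (t j).IsHomogeneous 1)
    (h : ∀ v : β → K, (∀ (F : MvPolynomial β K) (m : ℕ), F.IsHomogeneous m → F ∈ I →
      aeval v F = 0) → (∀ j, aeval v (t j) = 0) → v = 0) :
    ∃ s : ℕ, ∀ i : β, ∃ a : κ → MvPolynomial β K, (∀ j, (a j).IsHomogeneous s) ∧
      X i ^ (s + 1) - ∑ j, a j * t j ∈ I := by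
  obtain ⟨J, hJ⟩ : ∃ J : Ideal (MvPolynomial β K),
    J = Ideal.span {F | F ∈ I ∧ ∃ m, F.IsHomogeneous m} ⊔ Ideal.span (Set.range t) := ⟨_, rfl⟩
  have h1 : ∀ i, ∃ n : ℕ, (X i : MvPolynomial β K) ^ n ∈ J := fun i => by
    show X i ∈ J.radical
    rw [← vanishingIdeal_zeroLocus_eq_radical (K := K)]
    intro v hv
    have : v = 0 := h v
      (fun F m hF hI => hv F (hJ ▸ Ideal.mem_sup_left (Ideal.subset_span ⟨hI, m, hF⟩)))
      (fun j => hv _ (hJ ▸ Ideal.mem_sup_right (Ideal.subset_span ⟨j, rfl⟩)))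
    simp [this]
  choose n hn using h1
  refine ⟨Finset.univ.sup n, fun i => ?_⟩
  obtain ⟨s, hs⟩ : ∃ s, s = Finset.univ.sup n := ⟨_, rfl⟩
  rw [← hs]
  have h2 : (X i : MvPolynomial β K) ^ (s + 1) ∈ J :=
    J.pow_mem_of_pow_mem (hn i) ((hs ▸ Finset.le_sup (Finset.mem_univ i)).trans (Nat.le_succ s))
  rw [hJ] at h2
  obtain ⟨f, hf, g, hg, hfg⟩ := Submodule.mem_sup.1 h2
  obtain ⟨c, rfl⟩ := Ideal.mem_span_range_iff_exists_fun.1 hg
  refine ⟨fun j => ∑ k ∈ Finset.range ((c j).totalDegree + 1),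
    if s + 1 = k + 1 then homogeneousComponent k (c j) else 0, fun j => ?_, ?_⟩
  · refine IsHomogeneous.sum _ _ _ fun k _ => ?_
    split_ifs with hk
    · obtain rfl : s = k := by omega
      exact homogeneousComponent_isHomogeneous _ _
    · exact isHomogeneous_zero _ _ _
  · have h3 := congrArg (homogeneousComponent (s + 1)) hfg
    rw [homogeneousComponent_eq_self (isHomogeneous_X_pow i (s + 1)), map_add, map_sum] at h3
    simp only [homog_comp_mul _ (ht _)] at h3
    rw [← h3, add_sub_cancel_right]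
    exact homog_comp_span I hf _

/-- combinations of the reduced monomials with coefficients of degree at most `D`. -/
def homogV (K : Type) [Field K] {β κ A : Type} [Fintype β] [DecidableEq β] [CommRing A]
    [Algebra K A] (x : β → A) (y : κ → A) (s D : ℕ) : Submodule K A where
  carrier := {z | ∃ r : (β → Fin (s + 1)) → MvPolynomial κ K, (∀ u, (r u).totalDegree ≤ D) ∧
    z = ∑ u, aeval y (r u) * ∏ i, x i ^ (u i : ℕ)}
  zero_mem' := ⟨0, by simp, by simp⟩
  add_mem' := by
    rintro _ _ ⟨r, hr, rfl⟩ ⟨r', hr', rfl⟩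
    refine ⟨r + r', fun u => (totalDegree_add _ _).trans (max_le (hr u) (hr' u)), ?_⟩
    simp [add_mul, Finset.sum_add_distrib]
  smul_mem' := by
    rintro c _ ⟨r, hr, rfl⟩
    refine ⟨c • r, fun u => (totalDegree_smul_le _ _).trans (hr u), ?_⟩
    simp [Finset.smul_sum]

theorem homogV_mul {β κ A : Type} [Fintype β] [DecidableEq β] [CommRing A] [Algebra K A]
    {x : β → A} {y : κ → A} {s D : ℕ} {z : A} (hz : z ∈ homogV K x y s D) (j : κ) :
    z * y j ∈ homogV K x y s (D + 1) := by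
  obtain ⟨r, hr, rfl⟩ := hz
  refine ⟨fun u => r u * X j, fun u => (totalDegree_mul _ _).trans ?_, ?_⟩
  · rw [totalDegree_X]
    exact Nat.succ_le_succ (hr u)
  · rw [Finset.sum_mul]
    refine Finset.sum_congr rfl fun u _ => ?_
    rw [map_mul, aeval_X]
    ring

theorem homogV_mono {β κ A : Type} [Fintype β] [DecidableEq β] [CommRing A] [Algebra K A]
    {x : β → A} {y : κ → A} {s D : ℕ} {z : A} (hz : z ∈ homogV K x y s D) :
    z ∈ homogV K x y s (D + 1) := by
  obtain ⟨r, hr, rfl⟩ := hz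
  exact ⟨r, fun u => (hr u).trans (Nat.le_succ D), rfl⟩

theorem homogV_small {β κ A : Type} [Fintype β] [DecidableEq β] [CommRing A] [Algebra K A]
    (x : β → A) (y : κ → A) {s : ℕ} (D : ℕ) {u : β →₀ ℕ} (hu : ∀ i, u i ≤ s) :
    aeval x (monomial u (1 : K)) ∈ homogV K x y s D := by
  classical
  refine ⟨Pi.single (fun i => ⟨u i, Nat.lt_succ_of_le (hu i)⟩) 1, fun v => ?_, ?_⟩
  · rw [Pi.single_apply]
    split_ifs <;> simp
  · rw [Finset.sum_eq_single (fun i => ⟨u i, Nat.lt_succ_of_le (hu i)⟩)]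
    · simp [aeval_monomial, Finsupp.prod_fintype]
    · intro v _ hv
      simp [Pi.single_eq_of_ne hv]
    · simp

theorem homogV_of_monomial {β κ A : Type} [Fintype β] [DecidableEq β] [CommRing A] [Algebra K A]
    {x : β → A} {y : κ → A} {s D : ℕ}
    (h : ∀ u : β →₀ ℕ, u.degree ≤ D → aeval x (monomial u (1 : K)) ∈ homogV K x y s D)
    {F : MvPolynomial β K} (hF : F.totalDegree ≤ D) : aeval x F ∈ homogV K x y s D := by
  rw [F.as_sum, map_sum]
  refine Submodule.sum_mem _ fun u hu => ?_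
  have : monomial u (coeff u F) = coeff u F • monomial u (1 : K) := by
    rw [smul_monomial, smul_eq_mul, mul_one]
  rw [this, map_smul]
  exact Submodule.smul_mem _ _ (h u ((le_totalDegree hu).trans hF))

/-- reduction of polynomials modulo integral equations. -/
theorem reduce_integral {β κ A : Type} [Fintype β] [DecidableEq β] [Fintype κ] [CommRing A]
    [Algebra K A] (x : β → A) (y : κ → A) (s : ℕ)
    (h : ∀ i : β, ∃ (a0 : MvPolynomial β K) (a : κ → MvPolynomial β K), a0.totalDegree ≤ s ∧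
      (∀ j, (a j).totalDegree ≤ s) ∧
      x i ^ (s + 1) = aeval x a0 + ∑ j, aeval x (a j) * y j)
    (F : MvPolynomial β K) :
    ∃ r : (β → Fin (s + 1)) → MvPolynomial κ K, (∀ u, (r u).totalDegree ≤ F.totalDegree) ∧
      aeval x F = ∑ u, aeval y (r u) * ∏ i, x i ^ (u i : ℕ) := by
  suffices H : ∀ (D : ℕ) (F : MvPolynomial β K), F.totalDegree ≤ D →
      aeval x F ∈ homogV K x y s D from H _ F le_rfl
  intro D
  induction D with
  | zero =>
    refine fun F hF => homogV_of_monomial (fun u hu => homogV_small x y _ fun i => ?_) hF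
    exact ((Finsupp.le_degree i u).trans hu).trans (Nat.zero_le s)
  | succ D ih =>
    refine fun F hF => homogV_of_monomial (fun u hu => ?_) hF
    by_cases hs : ∀ i, u i ≤ s
    · exact homogV_small x y _ hs
    obtain ⟨i, hi⟩ := not_forall.1 hs
    obtain ⟨a0, a, h0, h1, h2⟩ := h i
    obtain ⟨v, rfl⟩ : ∃ v, u = v + Finsupp.single i (s + 1) :=
      ⟨u - Finsupp.single i (s + 1), (tsub_add_cancel_of_le
        (Finsupp.single_le_iff.2 (Nat.succ_le_of_lt (not_le.1 hi)))).symm⟩
    rw [map_add, Finsupp.degree_single] at hu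
    have hd : ∀ b : MvPolynomial β K, b.totalDegree ≤ s →
        aeval x (monomial v (1 : K) * b) ∈ homogV K x y s D := fun b hb => by
      refine ih _ ((totalDegree_mul _ _).trans ?_)
      have : (monomial v (1 : K)).totalDegree ≤ v.degree := totalDegree_monomial_le _ _
      omega
    rw [monomial_add_single, map_mul, map_pow, aeval_X, h2, mul_add, Finset.mul_sum, ← map_mul]
    refine Submodule.add_mem _ (homogV_mono (hd _ h0)) (Submodule.sum_mem _ fun j _ => ?_)
    rw [← mul_assoc, ← map_mul]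
    exact homogV_mul (hd _ (h1 j)) j

/-- powers of a non zero divisor times an independent family. -/
theorem homog_indM_cut {σ ι : Type} [Fintype ι] {I I' : Ideal (MvPolynomial σ K)}
    {G : MvPolynomial σ K} (hI : I ≤ I') (hG : G ∈ I') (hnz : ∀ f, G * f ∈ I → f ∈ I)
    {v : ι → MvPolynomial σ K} (hv : IndM I' v) (n : ℕ) :
    IndM I fun z : Fin n × ι => G ^ (z.1 : ℕ) * v z.2 := by
  induction n with
  | zero => exact fun a _ z => z.1.elim0
  | succ n ih =>
    intro a ha
    have e : ∑ z : Fin (n + 1) × ι, a z • (G ^ (z.1 : ℕ) * v z.2) = ∑ i, a (0, i) • v i +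
        G * ∑ z : Fin n × ι, a (z.1.succ, z.2) • (G ^ (z.1 : ℕ) * v z.2) := by
      rw [Fintype.sum_prod_type, Fin.sum_univ_succ, Fintype.sum_prod_type, Finset.mul_sum]
      simp only [Fin.val_zero, pow_zero, one_mul, Fin.val_succ, Finset.mul_sum, pow_succ',
        mul_smul_comm, mul_assoc]
    rw [e] at ha
    have h0 := hv _ ((I'.add_mem_iff_left (I'.mul_mem_right _ hG)).1 (hI ha))
    simp only [h0, zero_smul, Finset.sum_const_zero, zero_add] at ha
    have h1 := ih _ (hnz _ ha)
    rintro ⟨k, i⟩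
    refine Fin.cases (h0 i) (fun k => h1 (k, i)) k

theorem homog_symm_C {σ : Type} (f : MvPolynomial σ K) :
    (optionEquivLeft K σ).symm (Polynomial.C f) = rename some f := by
  induction f using MvPolynomial.induction_on with
  | C a => simp
  | add p q hp hq => simp only [map_add, hp, hq]
  | mul_X p i hp => simp only [map_mul, hp, optionEquivLeft_symm_C_X, rename_X]

theorem homog_prime {σ : Type} {b : Ideal (MvPolynomial σ K)} (hb : b.IsPrime) :
    (b.map (rename (R := K) (some : σ → Option σ))).IsPrime := by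
  have h : (Ideal.map (optionEquivLeft K σ).symm (b.map Polynomial.C)).IsPrime :=
    Ideal.map_isPrime_of_equiv _
  have e : Ideal.map (optionEquivLeft K σ).symm (b.map Polynomial.C) =
      b.map (rename (R := K) (some : σ → Option σ)) := by
    refine le_antisymm (Ideal.map_le_iff_le_comap.2 (Ideal.map_le_iff_le_comap.2 fun f hf => ?_))
      (Ideal.map_le_iff_le_comap.2 fun f hf => ?_)
    · rw [Ideal.mem_comap, Ideal.mem_comap, homog_symm_C]
      exact Ideal.mem_map_of_mem _ hf
    · rw [Ideal.mem_comap, ← homog_symm_C]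
      exact Ideal.mem_map_of_mem _ (Ideal.mem_map_of_mem _ hf)
  rwa [e] at h

theorem homog_pderiv_rename {σ : Type} (f : MvPolynomial σ K) :
    pderiv none (rename some f) = 0 := by
  induction f using MvPolynomial.induction_on with
  | C a => simp
  | add p q hp hq => simp only [map_add, hp, hq, add_zero]
  | mul_X p i hp => simp [hp]

theorem homog_pderiv_mem {σ : Type} {b : Ideal (MvPolynomial σ K)} {f : MvPolynomial (Option σ) K}
    (hf : f ∈ b.map (rename (R := K) (some : σ → Option σ))) :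
    pderiv none f ∈ b.map (rename (R := K) (some : σ → Option σ)) := by
  obtain ⟨k, c, g, rfl⟩ := Submodule.mem_span_set'.1 hf
  rw [map_sum]
  refine Ideal.sum_mem _ fun i _ => ?_
  obtain ⟨g', h1, h2⟩ := (g i).2
  rw [smul_eq_mul, ← h2, Derivation.leibniz, homog_pderiv_rename, smul_zero, zero_add, smul_eq_mul]
  exact Ideal.mul_mem_right _ _ (Ideal.mem_map_of_mem _ h1)

theorem homog_expand {σ : Type} (P : MvPolynomial (Option σ) K) {N : ℕ}
    (hN : degreeOf none P ≤ N) :
    P = ∑ n : Fin (N + 1), X none ^ (n : ℕ) * rename some ((optionEquivLeft K σ P).coeff n) := by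
  have h := (optionEquivLeft K σ P).as_sum_range' (N + 1)
    (by rw [natDegree_optionEquivLeft]; omega)
  rw [Finset.sum_range] at h
  calc P = (optionEquivLeft K σ).symm (optionEquivLeft K σ P) :=
        ((optionEquivLeft K σ).symm_apply_apply P).symm
    _ = _ := by
      conv_lhs => rw [h]
      rw [map_sum]
      refine Finset.sum_congr rfl fun n _ => ?_
      rw [← Polynomial.C_mul_X_pow_eq_monomial, map_mul, map_pow, homog_symm_C,
        optionEquivLeft_symm_X, mul_comm]

theorem homog_span {σ ι : Type} [Fintype ι] {I : Ideal (MvPolynomial σ K)}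
    {J : Ideal (MvPolynomial (Option σ) K)} (hJ : ∀ f ∈ I, rename some f ∈ J) {M N : ℕ}
    {w : ι → MvPolynomial σ K}
    (hw : ∀ f : MvPolynomial σ K, f.totalDegree ≤ M → ∃ a : ι → K, f - ∑ i, a i • w i ∈ I)
    (P : MvPolynomial (Option σ) K) (hM : P.totalDegree ≤ M) (hN : degreeOf none P ≤ N) :
    ∃ a : Fin (N + 1) × ι → K,
      P - ∑ z : Fin (N + 1) × ι, a z • (X none ^ (z.1 : ℕ) * rename some (w z.2)) ∈ J := by
  choose a ha using fun n : Fin (N + 1) => hw ((optionEquivLeft K σ P).coeff n)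
    ((totalDegree_coeff_optionEquivLeft_le K σ P n).trans hM)
  refine ⟨fun z => a z.1 z.2, ?_⟩
  have h := J.sum_mem (t := Finset.univ) fun (n : Fin (N + 1)) _ =>
    J.mul_mem_left (X none ^ (n : ℕ)) (hJ _ (ha n))
  simp only [map_sub, mul_sub, Finset.sum_sub_distrib] at h
  rw [← homog_expand P hN] at h
  simpa only [Fintype.sum_prod_type, map_sum, map_smul, Finset.mul_sum, mul_smul_comm] using h

theorem homog_degreeOf_rename {σ : Type} (f : MvPolynomial σ K) :
    degreeOf none (rename some f) = 0 := by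
  rw [← natDegree_optionEquivLeft, ← homog_symm_C, AlgEquiv.apply_symm_apply,
    Polynomial.natDegree_C]

/-- double cut: a lifted variable of bounded degree. -/
theorem hb_dcut {σ Λ : Type} [Fintype σ] (S : Finset Λ) (b p : Λ → Ideal (MvPolynomial σ K))
    (B q : Λ → Ideal (MvPolynomial (Option σ) K)) (hb : ∀ l ∈ S, (b l).IsPrime)
    (hB : ∀ l ∈ S, (B l).IsPrime) (hbB : ∀ l ∈ S, ∀ f ∈ b l, rename some f ∈ B l)
    (hBq : ∀ l ∈ S, B l ≤ q l) (hqp : ∀ l ∈ S, ∀ f, rename some f ∈ q l → f ∈ p l)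
    {Φ G : MvPolynomial (Option σ) K} (hΦ : ∀ l ∈ S, Φ ∈ B l)
    (hΦ' : ∀ l ∈ S, pderiv none Φ ∉ B l) (hG : ∀ l ∈ S, G ∈ q l) (hG' : ∀ l ∈ S, G ∉ B l)
    {φ δ : ℝ} {j s : ℕ} (hδ : 1 ≤ δ) (hdΦ : (Φ.totalDegree : ℝ) ≤ δ)
    (hdG : (G.totalDegree : ℝ) ≤ δ) (hsΦ : degreeOf none Φ ≤ s) (hsG : degreeOf none G ≤ s)
    (h : HB (⨅ l ∈ S, b l) φ (j + 1)) :
    HB (⨅ l ∈ S, p l) ((2 * s + 1) * 3 ^ (j + 1) * φ * δ) j := by
  intro m hm
  obtain ⟨d, hd1, hdδ, hd2, hd3⟩ : ∃ d : ℕ, 1 ≤ d ∧ (d : ℝ) ≤ δ ∧ Φ.totalDegree ≤ d ∧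
      G.totalDegree ≤ d := by
    refine ⟨max 1 (max Φ.totalDegree G.totalDegree), le_max_left _ _, ?_, by omega, by omega⟩
    push_cast
    exact max_le hδ (max_le hdΦ hdG)
  obtain ⟨a, ha1, ha2⟩ : ∃ a : ℕ, a * d ≤ m ∧ m ≤ (a + 1) * d :=
    ⟨m / d, Nat.div_mul_le_self m d, (mul_comm d _ ▸ Nat.lt_mul_div_succ m hd1).le⟩
  obtain ⟨v, hv1, hv2⟩ := exists_indM (⨅ l ∈ S, p l) m
  obtain ⟨w, -, hw⟩ := exists_span_hf (⨅ l ∈ S, b l) (3 * m)
  have hJB : ∀ l ∈ S, (b l).map (rename (R := K) (some : σ → Option σ)) ≤ B l := fun l hl =>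
    Ideal.map_le_iff_le_comap.2 (hbB l hl)
  have i1 : IndM (⨅ l ∈ S, q l) fun i => rename some (v i) := fun c hc => by
    refine hv2 c ?_
    simp only [Ideal.mem_iInf] at hc ⊢
    refine fun l hl => hqp l hl _ ?_
    simpa only [map_sum, map_smul] using hc l hl
  have i2 := homog_indM_cut (I := ⨅ l ∈ S, B l) (G := G) (iInf₂_mono hBq)
    (by simpa only [Ideal.mem_iInf] using hG) (fun f hf => by
      simp only [Ideal.mem_iInf] at hf ⊢
      exact fun l hl => ((hB l hl).mem_or_mem (hf l hl)).resolve_left (hG' l hl)) i1 (a + 1)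
  have i3 := homog_indM_cut (I := ⨅ l ∈ S, (b l).map (rename (R := K) (some : σ → Option σ)))
    (G := Φ) (iInf₂_mono hJB) (by simpa only [Ideal.mem_iInf] using hΦ) (fun f hf => by
      simp only [Ideal.mem_iInf] at hf ⊢
      exact fun l hl => ((homog_prime (hb l hl)).mem_or_mem (hf l hl)).resolve_left
        fun h0 => hΦ' l hl (hJB l hl (homog_pderiv_mem h0))) i2 (a + 1)
  have key := card_le_of_span _
    (fun z : Fin (2 * a * s + 1) × Fin _ => X none ^ (z.1 : ℕ) * rename some (w z.2)) i3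
    fun z => homog_span (fun f hf => by
      simp only [Ideal.mem_iInf] at hf ⊢
      exact fun l hl => Ideal.mem_map_of_mem _ (hf l hl)) hw _ (by
        have e1 : (z.1 : ℕ) * Φ.totalDegree ≤ a * d := Nat.mul_le_mul (Nat.le_of_lt_succ z.1.2) hd2
        have e2 : (z.2.1 : ℕ) * G.totalDegree ≤ a * d :=
          Nat.mul_le_mul (Nat.le_of_lt_succ z.2.1.2) hd3
        have e3 := totalDegree_pow Φ z.1
        have e4 := totalDegree_pow G z.2.1
        have e5 := (totalDegree_rename_le some (v z.2.2)).trans (hv1 z.2.2)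
        have e6 := totalDegree_mul (G ^ (z.2.1 : ℕ)) (rename some (v z.2.2))
        refine (totalDegree_mul _ _).trans ?_
        omega) (by
        have e1 : (z.1 : ℕ) * degreeOf none Φ ≤ a * s :=
          Nat.mul_le_mul (Nat.le_of_lt_succ z.1.2) hsΦ
        have e2 : (z.2.1 : ℕ) * degreeOf none G ≤ a * s :=
          Nat.mul_le_mul (Nat.le_of_lt_succ z.2.1.2) hsG
        have e3 := degreeOf_pow_le none Φ z.1
        have e4 := degreeOf_pow_le none G z.2.1
        have e5 := homog_degreeOf_rename (v z.2.2)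
        have e6 := degreeOf_mul_le none (G ^ (z.2.1 : ℕ)) (rename some (v z.2.2))
        refine (degreeOf_mul_le _ _ _).trans ?_
        rw [mul_assoc 2]
        omega)
  simp only [Fintype.card_prod, Fintype.card_fin] at key
  have k1 : (a + 1) * hf (⨅ l ∈ S, p l) m ≤ (2 * s + 1) * hf (⨅ l ∈ S, b l) (3 * m) := by
    refine Nat.le_of_mul_le_mul_left (key.trans ?_) (Nat.succ_pos a)
    rw [← mul_assoc]
    exact Nat.mul_le_mul_right _ (by nlinarith)
  have k2 : m * hf (⨅ l ∈ S, p l) m ≤ d * ((2 * s + 1) * hf (⨅ l ∈ S, b l) (3 * m)) := by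
    refine (Nat.mul_le_mul_right _ ha2).trans ?_
    rw [mul_comm (a + 1), mul_assoc]
    exact Nat.mul_le_mul_left _ k1
  have k3 : (m : ℝ) * hf (⨅ l ∈ S, p l) m ≤ d * ((2 * s + 1) * hf (⨅ l ∈ S, b l) (3 * m)) := by
    exact_mod_cast k2
  have k4 := h (3 * m) (by omega)
  have hφ := h.nonneg
  have m0 : (0 : ℝ) < m := by exact_mod_cast hm
  refine le_of_mul_le_mul_left (k3.trans ?_) m0
  calc (d : ℝ) * ((2 * s + 1) * hf (⨅ l ∈ S, b l) (3 * m))
      ≤ δ * ((2 * s + 1) * (φ * ((3 * m : ℕ) : ℝ) ^ (j + 1))) := by gcongr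
    _ = _ := by push_cast; ring

end

end Vale.Agent.P054
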