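import Vale.Agent.P054.Geo

namespace Vale.Agent.P054

open MvPolynomial

noncomputable section

variable {K : Type} [Field K] {σ : Type}

/-- a point viewed in an extension. -/
abbrev am {F : Type} [CommRing F] (Ω : Type) [CommRing Ω] [Algebra F Ω] (p : σ → F) : σ → Ω :=
  fun k => algebraMap F Ω (p k)

/-- point of the line through `p` with direction `v`. -/
def lp {Ω : Type} [CommRing Ω] (p v : σ → Ω) (s : Ω) : σ → Ω := fun k => p k + s * v k

/-- derivative of `f` at `x` in the direction `v`. -/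
def dg [Fintype σ] {Ω : Type} [CommRing Ω] [Algebra K Ω] (f : MvPolynomial σ K) (x v : σ → Ω) :
    Ω := ∑ k, aeval x (pderiv k f) * v k

/-- parameters of the good points of level `t` on a line. -/
def Rt [Fintype σ] (g J : ℕ → MvPolynomial σ K) (t : ℕ) {Ω : Type} [Field Ω] [Algebra K Ω]
    (p v : σ → Ω) : Set Ω :=
  {s | s ≠ 0 ∧ (∀ i, i < t → aeval (lp p v s) (g i) = 0) ∧
    (∀ r, r ≤ t → aeval (lp p v s) (J r) ≠ 0) ∧ dg (g 0) (lp p v s) v ≠ 0}

def RtB [Fintype σ] (g J : ℕ → MvPolynomial σ K) (t : ℕ) {Ω : Type} [Field Ω] [Algebra K Ω]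
    (p v : σ → Ω) (μ : ℝ) : Prop :=
  ∀ T : Finset Ω, (∀ s ∈ T, s ∈ Rt g J t p v) → (T.card : ℝ) ≤ μ

/-- at most `μ` further good points of level `t` on the line through `p` and `q`. -/
def RB [Fintype σ] (g J : ℕ → MvPolynomial σ K) (t : ℕ) {Ω : Type} [Field Ω] [Algebra K Ω]
    (p q : σ → Ω) (μ : ℝ) : Prop :=
  ∀ T : Finset Ω, (∀ s ∈ T, s ≠ 1 ∧ s ∈ Rt g J t p (fun k => q k - p k)) → (T.card : ℝ) ≤ μ

/-- first order term of `g 0` at the apex along the directions `u`. -/
def fone [Fintype σ] {τ : Type} (f : MvPolynomial σ K) (p : σ → K) (u : σ → MvPolynomial τ K) :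
    MvPolynomial τ K := ∑ k, C (aeval p (pderiv k f)) * u k

/-- the lifted point with weight two coordinate. -/
def wpt {τ : Type} (f1 : MvPolynomial τ K) {Ω : Type} [Field Ω] [Algebra K Ω] (x : τ → Ω)
    (s : Ω) : Option τ → Ω := fun o => o.elim (aeval x f1 / s) x

/-- the root with ideal `r` persists at level `l` over the generic point of `b`. -/
def Pers [Fintype σ] {τ : Type} (g J : ℕ → MvPolynomial σ K) (l : ℕ) (p : σ → K)
    (u : σ → MvPolynomial τ K) (b : Ideal (MvPolynomial τ K))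
    (r : Ideal (MvPolynomial (Option τ) K)) : Prop :=
  ∃ (Ω : Type) (_ : Field Ω) (_ : Algebra K Ω) (x : τ → Ω) (s : Ω), kr K x = b ∧
    s ∈ Rt g J l (am Ω p) (fun k => aeval x (u k)) ∧ kr K (wpt (fone (g 0) p u) x s) ≤ r

/-- the chain of Jacobian minors. -/
def Jc (g : ℕ → MvPolynomial σ K) (c : (r : ℕ) → Fin r → σ) (r : ℕ) : MvPolynomial σ K :=
  Jac (gs g r) (c r)

/-- root bound for a generic pair of points of the level `t` branches. -/
def Gen [Fintype σ] (g J : ℕ → MvPolynomial σ K) (t : ℕ) (μ : ℝ) (a a' : σ → K) : Prop :=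
  ∀ (K' Ω : Type) [Field K'] [IsAlgClosed K'] [Field Ω] [Algebra K K'] [Algebra K Ω]
    [Algebra K' Ω] [IsScalarTower K K' Ω] (p : σ → K') (q : σ → Ω),
    kr K p = Br (Set.range (gs g t)) (kr K a) →
    kr K' q = Br (Set.range fun i => map (algebraMap K K') (gs g t i)) (kr K' (am K' a')) →
    RB g J t (am Ω p) q μ

/-- root bound for a generic apex of level `s` at `a` and all arcs of level `t` at `a'`. -/
def Bd [Fintype σ] (g J : ℕ → MvPolynomial σ K) (t s : ℕ) (μ : ℝ) (a a' : σ → K) : Prop :=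
  ∀ (K' Ω : Type) [Field K'] [IsAlgClosed K'] [Field Ω] [Algebra K K'] [Algebra K Ω]
    [Algebra K' Ω] [IsScalarTower K K' Ω] (p : σ → K') (q : σ → Ω),
    kr K p = Br (Set.range (gs g s)) (kr K a) → kr K' q ≤ kr K' (am K' a') →
    (∀ i, i < t → aeval q (g i) = 0) → RB g J t (am Ω p) q μ

/-- the line through `a` and `a'` is transverse to the first hypersurface at both points. -/
def NT [Fintype σ] (f : MvPolynomial σ K) (a a' : σ → K) : Prop :=
  dg f a (fun k => a' k - a k) ≠ 0 ∧ dg f a' (fun k => a' k - a k) ≠ 0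

/-- affine form vanishing at `a`. -/
def linF [Fintype σ] (l a : σ → K) : MvPolynomial σ K := ∑ k, C (l k) * (X k - C (a k))

/-- real points as complex points. -/
abbrev cx (a : σ → ℝ) : σ → ℂ := fun k => (a k : ℂ)

/-- at most `H` points on a hyperplane. -/
def HypB [Fintype σ] (P : Finset (σ → ℝ)) (H : ℝ) : Prop :=
  ∀ (l : σ → ℝ) (b : ℝ) (S : Finset (σ → ℝ)), l ≠ 0 → S ⊆ P → (∀ a ∈ S, ∑ k, l k * a k = b) →
    (S.card : ℝ) ≤ H

/-- squared distance. -/
def sqd [Fintype σ] (a b : σ → ℝ) : ℝ := ∑ k, (a k - b k) ^ 2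

open Classical in
/-- number of distinct distances. -/
def nd [Fintype σ] (P : Finset (σ → ℝ)) : ℕ :=
  (((P ×ˢ P).filter fun x => x.1 ≠ x.2).image fun x => sqd x.1 x.2).card

/-- `z` lies on the line through `x` and `y`. -/
def Col {σ : Type} (x y z : σ → ℝ) : Prop := ∃ s : ℝ, z = fun k => x k + s * (y k - x k)

end

end Vale.Agent.P054
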