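import Vale.Agent.P054.STplane
import Vale.Agent.P054.RootDefs
import Vale.Agent.P054.Homog

namespace Vale.Agent.P054

open MvPolynomial

noncomputable section

theorem wb_dual {M : Type} [AddCommGroup M] [Module ℝ M] {ι : Type} (S : Finset ι) (v : ι → M)
    (hv : ∀ i ∈ S, v i ≠ 0) : ∃ f : Module.Dual ℝ M, ∀ i ∈ S, f (v i) ≠ 0 := by
  obtain ⟨f, hf⟩ := Module.exists_dual_forall_apply_ne_zero (K := ℝ)
    (fun i : S => v i) fun i => hv i i.2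
  exact ⟨f, fun i hi => hf ⟨i, hi⟩⟩

theorem wb_col_iff {σ : Type} {x y z : σ → ℝ} : Col x y z ↔ ∃ s : ℝ, z = x + s • (y - x) :=
  Iff.rfl

theorem wb_col_left {σ : Type} (x y : σ → ℝ) : Col x y x := ⟨0, by funext k; simp⟩

theorem wb_col_right {σ : Type} (x y : σ → ℝ) : Col x y y := ⟨1, by funext k; simp⟩

open Classical in
/-- a generic projection to the plane -/
theorem wb_proj {σ : Type} (P : Finset (σ → ℝ)) : ∃ α β : Module.Dual ℝ (σ → ℝ),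
    (∀ x ∈ P, ∀ y ∈ P, α x = α y → x = y) ∧ ∀ x ∈ P, ∀ y ∈ P, x ≠ y → ∃ l : ℝ × ℝ,
      ∀ z ∈ P, (Col x y z ↔ β z = l.1 * α z + l.2) := by
  obtain ⟨α, hα⟩ := wb_dual ((P ×ˢ P).filter fun p => p.1 ≠ p.2) (fun p => p.1 - p.2)
    fun p hp => sub_ne_zero.2 (Finset.mem_filter.1 hp).2
  have hinj : ∀ x ∈ P, ∀ y ∈ P, α x = α y → x = y := by
    intro x hx y hy h
    by_contra hne
    refine hα (x, y) (Finset.mem_filter.2 ⟨Finset.mem_product.2 ⟨hx, hy⟩, hne⟩) ?_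
    rw [map_sub, h, sub_self]
  obtain ⟨β, hβ⟩ := wb_dual
    ((P ×ˢ P ×ˢ P).filter fun p => p.1 ≠ p.2.1 ∧ ¬ Col p.1 p.2.1 p.2.2)
    (fun p => (α p.2.1 - α p.1) • (p.2.2 - p.1) - (α p.2.2 - α p.1) • (p.2.1 - p.1)) (by
      rintro ⟨x, y, z⟩ hp h
      obtain ⟨hm, hne, hc⟩ := Finset.mem_filter.1 hp
      simp only [Finset.mem_product] at hm
      have hd : α y - α x ≠ 0 := fun h0 => hne (hinj x hm.1 y hm.2.1 (by linarith))
      refine hc ⟨(α z - α x) / (α y - α x), funext fun k => ?_⟩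
      have h1 := congrFun h k
      simp only [Pi.sub_apply, Pi.smul_apply, smul_eq_mul, Pi.zero_apply] at h1
      field_simp
      linarith)
  refine ⟨α, β, hinj, fun x hx y hy hne => ?_⟩
  have hd : α y - α x ≠ 0 := fun h0 => hne (hinj x hx y hy (by linarith))
  refine ⟨((β y - β x) / (α y - α x), β x - (β y - β x) / (α y - α x) * α x), fun z hz => ?_⟩
  constructor
  · intro hc
    obtain ⟨s, rfl⟩ := wb_col_iff.1 hc
    simp only [map_add, map_smul, map_sub, smul_eq_mul]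
    field_simp
    ring
  · intro h
    by_contra hc
    refine hβ (x, y, z) (Finset.mem_filter.2
      ⟨by simp only [Finset.mem_product]; exact ⟨hx, hy, hz⟩, hne, hc⟩) ?_
    simp only [map_smul, map_sub, smul_eq_mul]
    simp only at h
    rw [h]
    field_simp
    ring

open Classical in
/-- Szemeredi-Trotter for rich lines in any dimension. -/
theorem st_rich : ∃ C : ℝ, 0 < C ∧ ∀ (σ : Type) [Fintype σ] (P : Finset (σ → ℝ))
    (𝓛 : Finset (Finset (σ → ℝ))) (k : ℕ), 2 ≤ k →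
    (∀ L ∈ 𝓛, k ≤ L.card ∧ ∃ x ∈ P, ∃ y ∈ P, x ≠ y ∧ L = P.filter fun z => Col x y z) →
    (𝓛.card : ℝ) ≤ C * ((P.card : ℝ) ^ 2 / (k : ℝ) ^ 3 + (P.card : ℝ) / k) := by
  obtain ⟨C, hC, hst⟩ := st_plane
  refine ⟨C, hC, fun σ _ P 𝓛 k hk h𝓛 => ?_⟩
  obtain ⟨α, β, hinj, hl⟩ := wb_proj P
  have hex : ∀ L : Finset (σ → ℝ), ∃ l : ℝ × ℝ, L ∈ 𝓛 →
      L = P.filter fun z => β z = l.1 * α z + l.2 := by
    intro L
    by_cases hL : L ∈ 𝓛
    · obtain ⟨-, x, hx, y, hy, hne, rfl⟩ := h𝓛 L hL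
      obtain ⟨l, hl'⟩ := hl x hx y hy hne
      exact ⟨l, fun _ => Finset.filter_congr hl'⟩
    · exact ⟨0, fun h => absurd h hL⟩
  choose g hg using hex
  have hπ : Set.InjOn (fun z : σ → ℝ => (α z, β z)) (P : Set (σ → ℝ)) :=
    fun x hx y hy h => hinj x hx y hy (congrArg Prod.fst h)
  have h1 := hst (P.image fun z => (α z, β z)) (𝓛.image g) k hk ?_ ?_
  · rw [Finset.card_image_of_injOn hπ, Finset.card_image_of_injOn] at h1
    · exact h1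
    · intro L hL L' hL' h
      rw [hg L hL, hg L' hL', h]
  · intro p hp q hq h
    obtain ⟨x, hx, rfl⟩ := Finset.mem_image.1 (Finset.mem_coe.1 hp)
    obtain ⟨y, hy, rfl⟩ := Finset.mem_image.1 (Finset.mem_coe.1 hq)
    rw [hinj x hx y hy h]
  · intro l hl'
    obtain ⟨L, hL, rfl⟩ := Finset.mem_image.1 hl'
    rw [Finset.filter_image, Finset.card_image_of_injOn
      (hπ.mono (Finset.coe_subset.2 (Finset.filter_subset _ _))), ← hg L hL]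
    exact (h𝓛 L hL).1

theorem wb_sq_le {m s K : ℕ} (hm : m ≤ s) (hK : s ≤ K) :
    (s : ℝ) ^ 2 ≤ (m : ℝ) ^ 2 + ∑ k ∈ Finset.Ioc m K, if k ≤ s then 2 * (k : ℝ) else 0 := by
  have h1 : ∀ s, m ≤ s → (s : ℝ) ^ 2 ≤ (m : ℝ) ^ 2 + ∑ k ∈ Finset.Ioc m s, 2 * (k : ℝ) := by
    intro s hs
    induction s, hs using Nat.le_induction with
    | base => simp
    | succ n hn ih =>
      rw [Finset.sum_Ioc_succ_top hn]
      push_cast
      nlinarith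
  rw [← Finset.sum_filter]
  have e : (Finset.Ioc m K).filter (fun k => k ≤ s) = Finset.Ioc m s := by
    ext k
    simp only [Finset.mem_filter, Finset.mem_Ioc]
    omega
  rw [e]
  exact h1 s hm

/-- summation by parts -/
theorem wb_parts {Λ : Type} (T : Finset Λ) (s : Λ → ℕ) {m K : ℕ} {C n : ℝ} (hC : 0 ≤ C)
    (hn : 0 ≤ n) (hm : 1 ≤ m) (hmK : m ≤ K) (hs : ∀ L ∈ T, m ≤ s L ∧ s L ≤ K)
    (hN : ∀ k, m ≤ k → ((T.filter fun L => k ≤ s L).card : ℝ)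
      ≤ C * (n ^ 2 / (k : ℝ) ^ 3 + n / k)) :
    ∑ L ∈ T, (s L : ℝ) ^ 2 ≤ 3 * C * (n ^ 2 / m + n * K) := by
  have hm0 : (0 : ℝ) < m := by exact_mod_cast hm
  have hmK' : (m : ℝ) ≤ K := by exact_mod_cast hmK
  have h1 : ∑ L ∈ T, (s L : ℝ) ^ 2 ≤ (T.card : ℝ) * (m : ℝ) ^ 2 +
      ∑ k ∈ Finset.Ioc m K, ((T.filter fun L => k ≤ s L).card : ℝ) * (2 * (k : ℝ)) := by
    refine (Finset.sum_le_sum fun L hL => wb_sq_le (hs L hL).1 (hs L hL).2).trans (le_of_eq ?_)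
    rw [Finset.sum_add_distrib, Finset.sum_const, nsmul_eq_mul, Finset.sum_comm]
    refine congrArg _ (Finset.sum_congr rfl fun k _ => ?_)
    rw [← Finset.sum_filter, Finset.sum_const, nsmul_eq_mul]
  have h2 : (T.card : ℝ) * (m : ℝ) ^ 2 ≤ C * (n ^ 2 / m + n * K) := by
    have h3 := hN m le_rfl
    rw [Finset.filter_true_of_mem fun L hL => (hs L hL).1] at h3
    calc (T.card : ℝ) * (m : ℝ) ^ 2 ≤ C * (n ^ 2 / (m : ℝ) ^ 3 + n / m) * (m : ℝ) ^ 2 :=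
          mul_le_mul_of_nonneg_right h3 (by positivity)
      _ = C * (n ^ 2 / m + n * m) := by field_simp
      _ ≤ C * (n ^ 2 / m + n * K) := by gcongr
  have h4 : ∑ k ∈ Finset.Ioc m K, ((T.filter fun L => k ≤ s L).card : ℝ) * (2 * (k : ℝ))
      ≤ ∑ k ∈ Finset.Ioc m K, (2 * C * n ^ 2 * ((k : ℝ) ^ 2)⁻¹ + 2 * C * n) := by
    refine Finset.sum_le_sum fun k hk => ?_
    have hk1 := (Finset.mem_Ioc.1 hk).1
    have hk0 : (0 : ℝ) < k := by exact_mod_cast (by omega : 0 < k)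
    refine (mul_le_mul_of_nonneg_right (hN k hk1.le) (by positivity)).trans (le_of_eq ?_)
    field_simp
  rw [Finset.sum_add_distrib, ← Finset.mul_sum, Finset.sum_const, nsmul_eq_mul,
    Nat.card_Ioc] at h4
  have h5 : ∑ k ∈ Finset.Ioc m K, ((k : ℝ) ^ 2)⁻¹ ≤ (m : ℝ)⁻¹ :=
    (sum_Ioc_inv_sq_le_sub (α := ℝ) (by omega) hmK).trans
      (sub_le_self _ (by positivity))
  have h6 : ((K - m : ℕ) : ℝ) ≤ K := by exact_mod_cast Nat.sub_le K m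
  have h7 : 2 * C * n ^ 2 * ∑ k ∈ Finset.Ioc m K, ((k : ℝ) ^ 2)⁻¹ ≤ 2 * C * n ^ 2 * (m : ℝ)⁻¹ :=
    mul_le_mul_of_nonneg_left h5 (by positivity)
  have h8 : ((K - m : ℕ) : ℝ) * (2 * C * n) ≤ K * (2 * C * n) :=
    mul_le_mul_of_nonneg_right h6 (by positivity)
  rw [div_eq_mul_inv] at h2 ⊢
  nlinarith

open Classical in
/-- weighted form of the theorem of Beck. -/
theorem weighted_beck : ∃ C : ℝ, 0 < C ∧ ∀ (σ : Type) [Fintype σ] (P : Finset (σ → ℝ))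
    (w : (σ → ℝ) → ℕ) (E : Finset ((σ → ℝ) × (σ → ℝ))) (f W H μ θ : ℝ),
    (P.card : ℝ) ≤ f → (∀ x ∈ P, (w x : ℝ) ≤ W) → 1 ≤ μ → 0 < θ → θ ≤ 1 →
    (∀ x ∈ E, x.1 ∈ P ∧ x.2 ∈ P ∧ x.1 ≠ x.2 ∧
      μ ≤ ((P.filter fun z => Col x.1 x.2 z).card : ℝ) ∧
      ((∑ z ∈ P.filter (fun z => Col x.1 x.2 z), w z : ℕ) : ℝ) ≤ H) →
    ((∑ x ∈ E, w x.1 * w x.2 : ℕ) : ℝ) ≤
      C * (W ^ 2 * f ^ 2 / μ + θ * W ^ 2 * f ^ 2 + H ^ 2 / θ ^ 2) := by
  obtain ⟨C, hC, hst⟩ := st_rich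
  refine ⟨3 * C, by positivity, fun σ _ P w E f W H μ θ hf hW hμ hθ hθ1 hE => ?_⟩
  have hμ0 : 0 < μ := by linarith
  have hn0 : (0 : ℝ) ≤ P.card := Nat.cast_nonneg _
  have hf0 : 0 ≤ f := hn0.trans hf
  set ln : (σ → ℝ) × (σ → ℝ) → Finset (σ → ℝ) := fun x => P.filter fun z => Col x.1 x.2 z
    with hln
  set 𝓛 := E.image ln with h𝓛
  have hL : ∀ L ∈ 𝓛, (2 ≤ L.card ∧ μ ≤ L.card ∧ ((∑ z ∈ L, w z : ℕ) : ℝ) ≤ H ∧ L ⊆ P) ∧
      ∃ x ∈ P, ∃ y ∈ P, x ≠ y ∧ L = P.filter fun z => Col x y z := by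
    intro L hL
    obtain ⟨x, hx, rfl⟩ := Finset.mem_image.1 hL
    obtain ⟨h1, h2, h3, h4, h5⟩ := hE x hx
    refine ⟨⟨Finset.one_lt_card.2 ⟨x.1, Finset.mem_filter.2 ⟨h1, wb_col_left _ _⟩, x.2,
      Finset.mem_filter.2 ⟨h2, wb_col_right _ _⟩, h3⟩, h4, h5, Finset.filter_subset _ _⟩,
      x.1, h1, x.2, h2, h3, rfl⟩
  have hrich : ∀ T : Finset (Finset (σ → ℝ)), T ⊆ 𝓛 → ∀ k : ℕ, 2 ≤ k → (∀ L ∈ T, k ≤ L.card) →
      (T.card : ℝ) ≤ C * (f ^ 2 / (k : ℝ) ^ 3 + f / k) := by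
    intro T hT k hk hTk
    refine (hst σ P T k hk fun L hLT => ⟨hTk L hLT, (hL L (hT hLT)).2⟩).trans ?_
    gcongr
  have h1 : ∑ x ∈ E, w x.1 * w x.2 ≤ ∑ L ∈ 𝓛, (∑ z ∈ L, w z) ^ 2 := by
    rw [← Finset.sum_fiberwise_of_maps_to (g := ln) (t := 𝓛)
      fun x hx => Finset.mem_image_of_mem ln hx]
    refine Finset.sum_le_sum fun L _ => ?_
    rw [sq, Finset.sum_mul_sum, ← Finset.sum_product']
    refine Finset.sum_le_sum_of_subset fun x hx => ?_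
    obtain ⟨hxE, rfl⟩ := Finset.mem_filter.1 hx
    obtain ⟨h1, h2, -⟩ := hE x hxE
    exact Finset.mem_product.2 ⟨Finset.mem_filter.2 ⟨h1, wb_col_left _ _⟩,
      Finset.mem_filter.2 ⟨h2, wb_col_right _ _⟩⟩
  have h2 : ((∑ x ∈ E, w x.1 * w x.2 : ℕ) : ℝ) ≤ ∑ L ∈ 𝓛, ((∑ z ∈ L, w z : ℕ) : ℝ) ^ 2 := by
    exact_mod_cast h1
  rw [← Finset.sum_filter_add_sum_filter_not 𝓛 fun L => θ * f ≤ L.card] at h2
  have hbig : ∑ L ∈ 𝓛.filter (fun L => θ * f ≤ L.card), ((∑ z ∈ L, w z : ℕ) : ℝ) ^ 2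
      ≤ 2 * C * (H ^ 2 / θ ^ 2) := by
    have h3 : ((𝓛.filter fun L => θ * f ≤ L.card).card : ℝ) ≤ C * (2 / θ ^ 2) := by
      have hk1 : (2 : ℝ) ≤ ((max 2 ⌈θ * f⌉₊ : ℕ) : ℝ) := by exact_mod_cast le_max_left _ _
      have hk2 : θ * f ≤ ((max 2 ⌈θ * f⌉₊ : ℕ) : ℝ) :=
        (Nat.le_ceil _).trans (by exact_mod_cast le_max_right _ _)
      refine (hrich _ (Finset.filter_subset _ _) (max 2 ⌈θ * f⌉₊) (le_max_left _ _)
        fun L hL' => ?_).trans (mul_le_mul_of_nonneg_left ?_ hC.le)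
      · obtain ⟨hL1, hL2⟩ := Finset.mem_filter.1 hL'
        exact max_le (hL L hL1).1.1 (Nat.ceil_le.2 hL2)
      · generalize ((max 2 ⌈θ * f⌉₊ : ℕ) : ℝ) = k at hk1 hk2
        have hk0 : 0 < k := by linarith
        have a1 : f / k ≤ 1 / θ := by
          rw [div_le_div_iff₀ hk0 hθ]
          linarith
        have a2 : 1 / θ ≤ 1 / θ ^ 2 :=
          one_div_le_one_div_of_le (by positivity) (by nlinarith)
        have a3 : f ^ 2 / k ^ 3 ≤ 1 / θ ^ 2 := by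
          rw [div_le_div_iff₀ (by positivity) (by positivity)]
          have a4 : (θ * f) ^ 2 ≤ k ^ 2 := pow_le_pow_left₀ (by positivity) hk2 2
          have a5 : k ^ 2 * 1 ≤ k ^ 2 * k := mul_le_mul_of_nonneg_left (by linarith) (by positivity)
          nlinarith
        have a6 : 2 / θ ^ 2 = 1 / θ ^ 2 + 1 / θ ^ 2 := by ring
        linarith
    calc _ ≤ ∑ L ∈ 𝓛.filter (fun L => θ * f ≤ L.card), H ^ 2 :=
          Finset.sum_le_sum fun L hL' => pow_le_pow_left₀ (Nat.cast_nonneg _)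
            (hL L (Finset.mem_filter.1 hL').1).1.2.2.1 2
      _ = ((𝓛.filter fun L => θ * f ≤ L.card).card : ℝ) * H ^ 2 := by
          rw [Finset.sum_const, nsmul_eq_mul]
      _ ≤ C * (2 / θ ^ 2) * H ^ 2 := mul_le_mul_of_nonneg_right h3 (sq_nonneg H)
      _ = 2 * C * (H ^ 2 / θ ^ 2) := by ring
  have hsm : ∑ L ∈ 𝓛.filter (fun L => ¬ θ * f ≤ L.card), ((L.card : ℕ) : ℝ) ^ 2
      ≤ 3 * C * (f ^ 2 / μ + θ * f ^ 2) := by
    rcases (𝓛.filter fun L => ¬ θ * f ≤ L.card).eq_empty_or_nonempty with he | ⟨L0, hL0⟩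
    · rw [he, Finset.sum_empty]
      positivity
    have hs : ∀ L ∈ 𝓛.filter (fun L => ¬ θ * f ≤ L.card),
        max 2 ⌈μ⌉₊ ≤ L.card ∧ L.card ≤ ⌊θ * f⌋₊ := by
      intro L hL'
      obtain ⟨hL1, hL2⟩ := Finset.mem_filter.1 hL'
      exact ⟨max_le (hL L hL1).1.1 (Nat.ceil_le.2 (hL L hL1).1.2.1),
        Nat.le_floor (not_le.1 hL2).le⟩
    refine (wb_parts _ (fun L => L.card) hC.le hf0 ((by norm_num : 1 ≤ 2).trans (le_max_left _ _))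
      ((hs L0 hL0).1.trans (hs L0 hL0).2) hs fun k hk => hrich _
        ((Finset.filter_subset _ _).trans (Finset.filter_subset _ _)) k
        ((le_max_left _ _).trans hk) fun L hL' => (Finset.mem_filter.1 hL').2).trans ?_
    have b1 : μ ≤ ((max 2 ⌈μ⌉₊ : ℕ) : ℝ) :=
      (Nat.le_ceil _).trans (by exact_mod_cast le_max_right _ _)
    have b2 : ((⌊θ * f⌋₊ : ℕ) : ℝ) ≤ θ * f := Nat.floor_le (by positivity)
    have b3 : f ^ 2 / ((max 2 ⌈μ⌉₊ : ℕ) : ℝ) ≤ f ^ 2 / μ :=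
      div_le_div_of_nonneg_left (sq_nonneg f) hμ0 b1
    have b4 : f * ((⌊θ * f⌋₊ : ℕ) : ℝ) ≤ θ * f ^ 2 := by nlinarith
    exact mul_le_mul_of_nonneg_left (add_le_add b3 b4) (by positivity)
  have hsmall : ∑ L ∈ 𝓛.filter (fun L => ¬ θ * f ≤ L.card), ((∑ z ∈ L, w z : ℕ) : ℝ) ^ 2
      ≤ W ^ 2 * (3 * C * (f ^ 2 / μ + θ * f ^ 2)) := by
    refine le_trans ?_ (mul_le_mul_of_nonneg_left hsm (sq_nonneg W))
    rw [Finset.mul_sum]
    refine Finset.sum_le_sum fun L hL' => ?_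
    rw [← mul_pow]
    refine pow_le_pow_left₀ (Nat.cast_nonneg _) ?_ 2
    rw [Nat.cast_sum, mul_comm, ← nsmul_eq_mul]
    exact Finset.sum_le_card_nsmul _ _ _ fun z hz =>
      hW z ((hL L (Finset.mem_filter.1 hL').1).1.2.2.2 hz)
  have c1 : 0 ≤ C * (H ^ 2 / θ ^ 2) := by positivity
  have c2 : W ^ 2 * (3 * C * (f ^ 2 / μ + θ * f ^ 2))
      = 3 * C * (W ^ 2 * f ^ 2 / μ + θ * W ^ 2 * f ^ 2) := by ring
  rw [c2] at hsmall
  nlinarith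

theorem wb_line {N : Type} [AddCommGroup N] [Module ℝ N] [FiniteDimensional ℝ N]
    (S : Submodule ℝ N) (hS : Module.finrank ℝ S ≤ 1) {x y : N} (hx : x ∈ S) (hy : y ∈ S)
    (h0 : x ≠ 0) : ∃ c : ℝ, c • x = y := by
  have hne : (⟨x, hx⟩ : S) ≠ 0 := fun h => h0 (congrArg Subtype.val h)
  have hpos : 0 < Module.finrank ℝ S := Module.finrank_pos_iff_exists_ne_zero.2 ⟨_, hne⟩
  obtain ⟨c, hc⟩ := exists_smul_eq_of_finrank_eq_one (le_antisymm hS hpos) hne ⟨y, hy⟩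
  exact ⟨c, congrArg Subtype.val hc⟩

open Classical in
/-- a generic slice: flats become functionals, pencils become lines -/
theorem wb_slice {M : Type} [AddCommGroup M] [Module ℝ M] [FiniteDimensional ℝ M]
    (U : Submodule ℝ M) (t : ℕ) (hU : Module.finrank ℝ M ≤ Module.finrank ℝ U + t)
    (Q : Finset (Submodule ℝ M)) (hQ : ∀ L ∈ Q, Module.finrank ℝ L = t ∧ Disjoint U L) :
    ∃ ξ : Submodule ℝ M → Module.Dual ℝ M, (∀ L ∈ Q, ∀ L' ∈ Q, ξ L = ξ L' → L = L') ∧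
      ∀ L₁ ∈ Q, ∀ L₂ ∈ Q, L₁ ≠ L₂ → t ≤ Module.finrank ℝ (L₁ ⊓ L₂ : Submodule ℝ M) + 1 →
        ∀ L ∈ Q, ((∃ s : ℝ, ξ L = ξ L₁ + s • (ξ L₂ - ξ L₁)) ↔ L₁ ⊓ L₂ ≤ L) := by
  have hp : ∀ L : Submodule ℝ M, ∃ p : M →ₗ[ℝ] M, L ∈ Q →
      (∀ u ∈ U, p u = u) ∧ ∀ v, p v = 0 ↔ v ∈ L := by
    intro L
    by_cases hL : L ∈ Q
    · have hc : IsCompl U L :=
        (Submodule.isCompl_iff_disjoint U L (by rw [(hQ L hL).1]; exact hU)).2 (hQ L hL).2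
      exact ⟨U.projection L hc, fun _ => ⟨fun u hu => Submodule.projection_apply_of_mem_left hc hu,
        fun v => Submodule.projection_apply_eq_zero_iff hc⟩⟩
    · exact ⟨0, fun h => absurd h hL⟩
  choose p hp using hp
  have hφ : ∀ z : Submodule ℝ M × Submodule ℝ M × Submodule ℝ M, ∃ v : M,
      ¬ z.1 ⊓ z.2.1 ≤ z.2.2 → v ∈ z.1 ⊓ z.2.1 ∧ v ∉ z.2.2 := by
    intro z
    by_cases h : z.1 ⊓ z.2.1 ≤ z.2.2
    · exact ⟨0, fun h' => absurd h h'⟩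
    · obtain ⟨v, hv1, hv2⟩ := SetLike.not_le_iff_exists.1 h
      exact ⟨v, fun _ => ⟨hv1, hv2⟩⟩
  choose φ hφ using hφ
  obtain ⟨lam, hlam⟩ := wb_dual ((Q ×ˢ Q ×ˢ Q).filter fun z => ¬ z.1 ⊓ z.2.1 ≤ z.2.2)
    (fun z => p z.2.2 (φ z)) (by
      intro z hz h
      obtain ⟨hm, hn⟩ := Finset.mem_filter.1 hz
      simp only [Finset.mem_product] at hm
      exact (hφ z hn).2 (((hp _ hm.2.2).2 _).1 h))
  have kill : ∀ L ∈ Q, ∀ v ∈ L, lam (p L v) = 0 := by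
    intro L hL v hv
    rw [((hp L hL).2 v).2 hv, map_zero]
  have gen : ∀ L₁ ∈ Q, ∀ L₂ ∈ Q, ∀ L ∈ Q, (∀ v ∈ L₁ ⊓ L₂, lam (p L v) = 0) → L₁ ⊓ L₂ ≤ L := by
    intro L₁ h1 L₂ h2 L hL h
    by_contra hn
    exact hlam (L₁, L₂, L) (Finset.mem_filter.2
      ⟨by simp only [Finset.mem_product]; exact ⟨h1, h2, hL⟩, hn⟩) (h _ (hφ (L₁, L₂, L) hn).1)
  have inj : ∀ L ∈ Q, ∀ L' ∈ Q, lam ∘ₗ p L = lam ∘ₗ p L' → L = L' := by
    intro L hL L' hL' h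
    have h1 : L ⊓ L ≤ L' := gen L hL L hL L' hL' fun v hv => by
      have h2 := LinearMap.congr_fun h v
      simp only [LinearMap.comp_apply] at h2
      rw [← h2]
      exact kill L hL v hv.1
    rw [inf_idem] at h1
    exact Submodule.eq_of_le_of_finrank_eq h1 (by rw [(hQ L hL).1, (hQ L' hL').1])
  refine ⟨fun L => lam ∘ₗ p L, inj, fun L₁ h1 L₂ h2 hne ht L hL => ⟨?_, fun hle => ?_⟩⟩
  · rintro ⟨s, hs⟩
    refine gen L₁ h1 L₂ h2 L hL fun v hv => ?_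
    have h3 := LinearMap.congr_fun hs v
    simp only [LinearMap.comp_apply, LinearMap.add_apply, LinearMap.smul_apply,
      LinearMap.sub_apply, kill L₁ h1 v hv.1, kill L₂ h2 v hv.2, sub_self, smul_zero,
      add_zero] at h3
    exact h3
  · have hmem : ∀ L' ∈ Q, L₁ ⊓ L₂ ≤ L' →
        lam ∘ₗ p L' - lam ∘ₗ p L₁ ∈ (U ⊔ (L₁ ⊓ L₂)).dualAnnihilator := by
      intro L' hL' hle'
      rw [Submodule.mem_dualAnnihilator]
      intro v hv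
      obtain ⟨u, hu, a, ha, rfl⟩ := Submodule.mem_sup.1 hv
      simp only [LinearMap.sub_apply, LinearMap.comp_apply, map_add, (hp L' hL').1 u hu,
        (hp L₁ h1).1 u hu, kill L' hL' a (hle' ha), kill L₁ h1 a ha.1, sub_self, add_zero]
    have hdim : Module.finrank ℝ (U ⊔ (L₁ ⊓ L₂)).dualAnnihilator ≤ 1 := by
      have d1 := Subspace.finrank_add_finrank_dualAnnihilator_eq (U ⊔ (L₁ ⊓ L₂))
      have d2 := Submodule.finrank_sup_add_finrank_inf_eq U (L₁ ⊓ L₂)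
      have d3 : U ⊓ (L₁ ⊓ L₂) = ⊥ := ((hQ L₁ h1).2.mono_right inf_le_left).eq_bot
      rw [d3, finrank_bot] at d2
      omega
    obtain ⟨c, hc'⟩ := wb_line (N := Module.Dual ℝ M) _ hdim (hmem L₂ h2 inf_le_right)
      (hmem L hL hle) fun h0 => hne (inj L₂ h2 L₁ h1 (sub_eq_zero.1 h0)).symm
    refine ⟨c, ?_⟩
    show lam ∘ₗ p L = lam ∘ₗ p L₁ + c • (lam ∘ₗ p L₂ - lam ∘ₗ p L₁)
    rw [hc', add_sub_cancel]

open Classical in
/-- the same for real flats given by their spaces of affine forms. -/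
theorem slice_beck : ∃ C : ℝ, 0 < C ∧ ∀ (σ ρ : Type) [Fintype σ] [Fintype ρ] (e : ρ → σ) (t : ℕ)
    (Q : Finset (Submodule ℝ (ℝ × (σ → ℝ)))) (w : Submodule ℝ (ℝ × (σ → ℝ)) → ℕ)
    (E : Finset (Submodule ℝ (ℝ × (σ → ℝ)) × Submodule ℝ (ℝ × (σ → ℝ)))) (f W H μ θ : ℝ),
    Function.Injective e → t + Fintype.card ρ = Fintype.card σ →
    (∀ L ∈ Q, Module.finrank ℝ L = t ∧
      ∀ φ ∈ L, (∀ k, k ∉ Set.range e → φ.2 k = 0) → φ = 0) →
    (Q.card : ℝ) ≤ f → (∀ L ∈ Q, (w L : ℝ) ≤ W) → 1 ≤ μ → 0 < θ → θ ≤ 1 →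
    (∀ x ∈ E, x.1 ∈ Q ∧ x.2 ∈ Q ∧ x.1 ≠ x.2 ∧ t ≤ Module.finrank ℝ (x.1 ⊓ x.2 : Submodule ℝ _) + 1 ∧
      μ ≤ ((Q.filter fun L => x.1 ⊓ x.2 ≤ L).card : ℝ) ∧
      ((∑ L ∈ Q.filter (fun L => x.1 ⊓ x.2 ≤ L), w L : ℕ) : ℝ) ≤ H) →
    ((∑ x ∈ E, w x.1 * w x.2 : ℕ) : ℝ) ≤
      C * (W ^ 2 * f ^ 2 / μ + θ * W ^ 2 * f ^ 2 + H ^ 2 / θ ^ 2) := by
  obtain ⟨C, hC, hwb⟩ := weighted_beck
  refine ⟨C, hC, fun σ ρ _ _ e t Q w E f W H μ θ he ht hQ hf hW hμ hθ hθ1 hE => ?_⟩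
  let r : (ℝ × (σ → ℝ)) →ₗ[ℝ] ({k // k ∉ Set.range e} → ℝ) :=
    LinearMap.funLeft ℝ ℝ Subtype.val ∘ₗ LinearMap.snd ℝ ℝ (σ → ℝ)
  have hU : Module.finrank ℝ (ℝ × (σ → ℝ)) ≤ Module.finrank ℝ (LinearMap.ker r) + t := by
    have d1 := LinearMap.finrank_range_add_finrank_ker r
    have d2 := Submodule.finrank_le (LinearMap.range r)
    rw [Module.finrank_fintype_fun_eq_card, Fintype.card_subtype_compl] at d2
    have d3 : Fintype.card {k // k ∈ Set.range e} = Fintype.card ρ :=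
      Fintype.card_congr (Equiv.ofInjective e he).symm
    rw [d3] at d2
    omega
  obtain ⟨ξ, hinj, hcol⟩ := wb_slice (LinearMap.ker r) t hU Q fun L hL =>
    ⟨(hQ L hL).1, Submodule.disjoint_def.2 fun φ h1 h2 =>
      (hQ L hL).2 φ h2 fun k hk => congrFun (LinearMap.mem_ker.1 h1) ⟨k, hk⟩⟩
  let b := Module.finBasis ℝ (Module.Dual ℝ (ℝ × (σ → ℝ)))
  let x : Submodule ℝ (ℝ × (σ → ℝ)) →
      (Fin (Module.finrank ℝ (Module.Dual ℝ (ℝ × (σ → ℝ)))) → ℝ) := fun L => b.equivFun (ξ L)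
  have hx : Set.InjOn x (Q : Set (Submodule ℝ (ℝ × (σ → ℝ)))) :=
    fun L hL L' hL' h => hinj L hL L' hL' (b.equivFun.injective h)
  have hc : ∀ z ∈ E, ∀ L ∈ Q, (Col (x z.1) (x z.2) (x L) ↔ z.1 ⊓ z.2 ≤ L) := by
    intro z hz L hL
    obtain ⟨h1, h2, h3, h4, -⟩ := hE z hz
    rw [← hcol z.1 h1 z.2 h2 h3 h4 L hL, wb_col_iff]
    refine exists_congr fun s => ?_
    show b.equivFun (ξ L) = b.equivFun (ξ z.1) + s • (b.equivFun (ξ z.2) - b.equivFun (ξ z.1)) ↔ _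
    rw [← map_sub, ← map_smul, ← map_add, b.equivFun.injective.eq_iff]
  have hw : ∀ L ∈ Q, w (Function.invFunOn x (Q : Set (Submodule ℝ (ℝ × (σ → ℝ)))) (x L)) = w L :=
    fun L hL => congrArg w (hx.leftInvOn_invFunOn hL)
  have hfil : ∀ z ∈ E, (Q.image x).filter (fun y => Col (x z.1) (x z.2) y)
      = (Q.filter fun L => z.1 ⊓ z.2 ≤ L).image x := by
    intro z hz
    rw [Finset.filter_image, Finset.filter_congr (hc z hz)]
  have hsub : ∀ z : Submodule ℝ (ℝ × (σ → ℝ)) × Submodule ℝ (ℝ × (σ → ℝ)),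
      Set.InjOn x ((Q.filter fun L => z.1 ⊓ z.2 ≤ L : Finset _) : Set _) :=
    fun z => hx.mono (Finset.coe_subset.2 (Finset.filter_subset _ _))
  have key := hwb _ (Q.image x)
    (fun y => w (Function.invFunOn x (Q : Set (Submodule ℝ (ℝ × (σ → ℝ)))) y))
    (E.image fun z => (x z.1, x z.2)) f W H μ θ (by rwa [Finset.card_image_of_injOn hx])
    (by
      intro y hy
      obtain ⟨L, hL, rfl⟩ := Finset.mem_image.1 hy
      rw [hw L hL]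
      exact hW L hL) hμ hθ hθ1
    (by
      intro y hy
      obtain ⟨z, hz, rfl⟩ := Finset.mem_image.1 hy
      obtain ⟨h1, h2, h3, -, h5, h6⟩ := hE z hz
      refine ⟨Finset.mem_image_of_mem x h1, Finset.mem_image_of_mem x h2,
        fun h => h3 (hx h1 h2 h), ?_, ?_⟩
      · rw [hfil z hz, Finset.card_image_of_injOn (hsub z)]
        exact h5
      · rw [hfil z hz, Finset.sum_image (hsub z),
          Finset.sum_congr rfl fun L hL => hw L (Finset.mem_filter.1 hL).1]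
        exact h6)
  rw [Finset.sum_image (by
    intro z hz z' hz' h
    exact Prod.ext (hx (hE z hz).1 (hE z' hz').1 (congrArg Prod.fst h))
      (hx (hE z hz).2.1 (hE z' hz').2.1 (congrArg Prod.snd h)))] at key
  refine le_trans (le_of_eq ?_) key
  refine congrArg Nat.cast (Finset.sum_congr rfl fun z hz => ?_)
  rw [hw z.1 (hE z hz).1, hw z.2 (hE z hz).2.1]

end

end Vale.Agent.P054
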