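import Vale.Agent.P054.Iso3
import Vale.Agent.P054.WB

namespace Vale.Agent.P054

open MvPolynomial

noncomputable section

open Classical in
theorem dyad_step {ι : Type} (S : Finset ι) (f β : ι → ℝ) (j B : ℝ) (s r : ℕ) (hj : 0 < j)
    (hr : 1 ≤ r) (hβ : ∀ i ∈ S, 0 ≤ β i)
    (h : ∀ w : ℝ, j ≤ w → (∑ i ∈ S.filter (fun i => w ≤ f i), β i) * w ^ (s + r) ≤ B) (M : ℕ) :
    (∑ i ∈ (S.filter (fun i => f i < 2 ^ (M + 1) * j)).filter (fun i => ¬ f i < 2 ^ M * j),
      β i * f i ^ s) * j ^ r ≤ 2 ^ s * B / 2 ^ M := by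
  have hM : (1 : ℝ) ≤ 2 ^ M := one_le_pow₀ (by norm_num)
  have hM0 : (0 : ℝ) < 2 ^ M := by positivity
  set w : ℝ := 2 ^ M * j with hw
  have hw0 : 0 < w := by positivity
  have hjw : j ≤ w := by nlinarith
  have hQ0 : 0 ≤ ∑ i ∈ S.filter (fun i => w ≤ f i), β i :=
    Finset.sum_nonneg fun i hi => hβ i (Finset.mem_filter.1 hi).1
  have h1 : (∑ i ∈ (S.filter (fun i => f i < 2 ^ (M + 1) * j)).filter (fun i => ¬ f i < w),
      β i * f i ^ s) ≤ (∑ i ∈ S.filter (fun i => w ≤ f i), β i) * (2 * w) ^ s := by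
    rw [Finset.sum_mul]
    calc _ ≤ ∑ i ∈ (S.filter (fun i => f i < 2 ^ (M + 1) * j)).filter (fun i => ¬ f i < w),
          β i * (2 * w) ^ s := by
          refine Finset.sum_le_sum fun i hi => ?_
          obtain ⟨a, b⟩ := Finset.mem_filter.1 hi
          obtain ⟨a1, a2⟩ := Finset.mem_filter.1 a
          refine mul_le_mul_of_nonneg_left ?_ (hβ i a1)
          refine pow_le_pow_left₀ (hw0.le.trans (not_lt.1 b)) ?_ s
          rw [hw, ← mul_assoc, ← pow_succ']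
          exact a2.le
      _ ≤ _ := by
          refine Finset.sum_le_sum_of_subset_of_nonneg (fun i hi => ?_) fun i hi _ => ?_
          · obtain ⟨a, b⟩ := Finset.mem_filter.1 hi
            exact Finset.mem_filter.2 ⟨(Finset.mem_filter.1 a).1, not_lt.1 b⟩
          · exact mul_nonneg (hβ i (Finset.mem_filter.1 hi).1) (by positivity)
  have h2 : j ^ r * 2 ^ M ≤ w ^ r := by
    rw [hw, mul_pow, mul_comm]
    refine mul_le_mul_of_nonneg_right ?_ (by positivity)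
    calc (2 : ℝ) ^ M = (2 ^ M) ^ 1 := (pow_one _).symm
      _ ≤ (2 ^ M) ^ r := pow_le_pow_right₀ hM hr
  have h3 := h w hjw
  rw [le_div_iff₀ hM0]
  calc _ ≤ (∑ i ∈ S.filter (fun i => w ≤ f i), β i) * (2 * w) ^ s * j ^ r * 2 ^ M := by
        gcongr
    _ = 2 ^ s * ((∑ i ∈ S.filter (fun i => w ≤ f i), β i) * w ^ s * (j ^ r * 2 ^ M)) := by
        rw [mul_pow]; ring
    _ ≤ 2 ^ s * ((∑ i ∈ S.filter (fun i => w ≤ f i), β i) * w ^ s * w ^ r) := by
        gcongr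
    _ ≤ 2 ^ s * B := by
        rw [mul_assoc, ← pow_add]
        gcongr

open Classical in
/-- summation of a power law over dyadic ranges. -/
theorem dyadic_sum {ι : Type} (S : Finset ι) (f β : ι → ℝ) (j B : ℝ) (s r : ℕ) (hj : 0 < j)
    (hr : 1 ≤ r) (hβ : ∀ i ∈ S, 0 ≤ β i) (hf : ∀ i ∈ S, j ≤ f i)
    (h : ∀ w : ℝ, j ≤ w → (∑ i ∈ S.filter (fun i => w ≤ f i), β i) * w ^ (s + r) ≤ B) :
    (∑ i ∈ S, β i * f i ^ s) * j ^ r ≤ 2 ^ (s + 1) * B := by
  have hB : 0 ≤ B := le_trans (mul_nonneg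
    (Finset.sum_nonneg fun i hi => hβ i (Finset.mem_filter.1 hi).1) (by positivity)) (h j le_rfl)
  have key : ∀ M : ℕ, (∑ i ∈ S.filter (fun i => f i < 2 ^ M * j), β i * f i ^ s) * j ^ r ≤
      2 ^ (s + 1) * B - 2 ^ (s + 1) * B / 2 ^ M := by
    intro M
    induction M with
    | zero =>
      rw [Finset.filter_false_of_mem fun i hi => by simpa using hf i hi]
      simp
    | succ M ih =>
      have e1 : (S.filter (fun i => f i < 2 ^ (M + 1) * j)).filter (fun i => f i < 2 ^ M * j) =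
          S.filter (fun i => f i < 2 ^ M * j) := by
        rw [Finset.filter_filter]
        refine Finset.filter_congr fun i _ => ⟨fun a => a.2, fun a => ⟨a.trans_le ?_, a⟩⟩
        have : (0 : ℝ) < 2 ^ M * j := by positivity
        rw [pow_succ]
        linarith
      rw [← Finset.sum_filter_add_sum_filter_not (S.filter (fun i => f i < 2 ^ (M + 1) * j))
        (fun i => f i < 2 ^ M * j), e1, add_mul]
      have h1 := dyad_step S f β j B s r hj hr hβ h M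
      have e2 : (2 : ℝ) ^ (s + 1) * B / 2 ^ (M + 1) = 2 ^ s * B / 2 ^ M := by
        rw [pow_succ, pow_succ]
        field_simp
      have e3 : (2 : ℝ) ^ (s + 1) * B / 2 ^ M = 2 * (2 ^ s * B / 2 ^ M) := by
        rw [pow_succ]
        ring
      rw [e2]
      rw [e3] at ih
      linarith
  obtain ⟨M, hM⟩ := pow_unbounded_of_one_lt ((∑ i ∈ S, f i) / j) (by norm_num : (1 : ℝ) < 2)
  rw [div_lt_iff₀ hj] at hM
  have h1 := key M
  rw [Finset.filter_true_of_mem fun i hi => lt_of_le_of_lt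
    (Finset.single_le_sum (fun k hk => hj.le.trans (hf k hk)) hi) hM] at h1
  have h2 : (0 : ℝ) ≤ 2 ^ (s + 1) * B / 2 ^ M := by positivity
  linarith

open Classical in
/-- minimum degree subgraph with thresholds depending on the vertex. -/
theorem exists_min_degree' {V : Type} (S : Finset V) (Γ : Finset (V × V)) (k : V → ℝ)
    (hk : ∀ v ∈ S, 0 ≤ k v) (hΓ : ∀ x ∈ Γ, x.1 ∈ S ∧ x.2 ∈ S ∧ (x.2, x.1) ∈ Γ)
    (h : 2 * ∑ v ∈ S, k v < Γ.card) :
    ∃ T : Finset V, T ⊆ S ∧ T.Nonempty ∧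
      ∀ v ∈ T, k v < ((T.filter fun w => (v, w) ∈ Γ).card : ℝ) := by
  induction S using Finset.strongInduction generalizing Γ with
  | H S ih =>
  by_cases hall : ∀ v ∈ S, k v < ((S.filter fun w => (v, w) ∈ Γ).card : ℝ)
  · refine ⟨S, le_rfl, ?_, hall⟩
    have h0 : (0 : ℝ) < Γ.card :=
      lt_of_le_of_lt (mul_nonneg (by norm_num) (Finset.sum_nonneg hk)) h
    obtain ⟨x, hx⟩ := Finset.card_pos.1 (Nat.cast_pos.1 h0)
    exact ⟨x.1, (hΓ x hx).1⟩
  · push Not at hall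
    obtain ⟨v, hv, hdeg⟩ := hall
    have h1 : (Γ.filter fun x => x.1 = v).card ≤ (S.filter fun w => (v, w) ∈ Γ).card := by
      refine Finset.card_le_card_of_injOn (fun x => x.2) (fun x hx => ?_) (fun x hx y hy e => ?_)
      · obtain ⟨a, b⟩ := Finset.mem_filter.1 (Finset.mem_coe.1 hx)
        refine Finset.mem_coe.2 (Finset.mem_filter.2 ⟨(hΓ x a).2.1, ?_⟩)
        rw [← b]
        exact a
      · exact Prod.ext ((Finset.mem_filter.1 (Finset.mem_coe.1 hx)).2.trans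
          (Finset.mem_filter.1 (Finset.mem_coe.1 hy)).2.symm) e
    have h2 : (Γ.filter fun x => x.2 = v).card ≤ (S.filter fun w => (v, w) ∈ Γ).card := by
      refine Finset.card_le_card_of_injOn (fun x => x.1) (fun x hx => ?_) (fun x hx y hy e => ?_)
      · obtain ⟨a, b⟩ := Finset.mem_filter.1 (Finset.mem_coe.1 hx)
        refine Finset.mem_coe.2 (Finset.mem_filter.2 ⟨(hΓ x a).1, ?_⟩)
        rw [← b]
        exact (hΓ x a).2.2
      · exact Prod.ext e ((Finset.mem_filter.1 (Finset.mem_coe.1 hx)).2.trans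
          (Finset.mem_filter.1 (Finset.mem_coe.1 hy)).2.symm)
    have h3 : Γ.card ≤ (Γ.filter fun x => x.1 ≠ v ∧ x.2 ≠ v).card +
        ((Γ.filter fun x => x.1 = v).card + (Γ.filter fun x => x.2 = v).card) := by
      refine le_trans (Finset.card_le_card (t := (Γ.filter fun x => x.1 ≠ v ∧ x.2 ≠ v) ∪
        ((Γ.filter fun x => x.1 = v) ∪ (Γ.filter fun x => x.2 = v))) fun x hx => ?_)
        ((Finset.card_union_le _ _).trans (Nat.add_le_add_left (Finset.card_union_le _ _) _))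
      simp only [Finset.mem_union, Finset.mem_filter, hx, true_and]
      tauto
    have h4 : ∑ u ∈ S.erase v, k u + k v = ∑ u ∈ S, k u := Finset.sum_erase_add _ _ hv
    obtain ⟨T, t1, t2, t3⟩ := ih (S.erase v) (Finset.erase_ssubset hv)
      (Γ.filter fun x => x.1 ≠ v ∧ x.2 ≠ v) (fun u hu => hk u (Finset.mem_of_mem_erase hu))
      (fun x hx => by
        obtain ⟨a, b, c⟩ := Finset.mem_filter.1 hx
        exact ⟨Finset.mem_erase.2 ⟨b, (hΓ x a).1⟩, Finset.mem_erase.2 ⟨c, (hΓ x a).2.1⟩,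
          Finset.mem_filter.2 ⟨(hΓ x a).2.2, c, b⟩⟩) (by
        have a1 : ((Γ.filter fun x => x.1 = v).card : ℝ) ≤ k v := (Nat.cast_le.2 h1).trans hdeg
        have a2 : ((Γ.filter fun x => x.2 = v).card : ℝ) ≤ k v := (Nat.cast_le.2 h2).trans hdeg
        have a3 : (Γ.card : ℝ) ≤ (Γ.filter fun x => x.1 ≠ v ∧ x.2 ≠ v).card +
          (((Γ.filter fun x => x.1 = v).card : ℝ) + (Γ.filter fun x => x.2 = v).card) := by
          exact_mod_cast h3
        rw [← h4] at h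
        linarith)
    refine ⟨T, t1.trans (Finset.erase_subset _ _), t2, fun w hw => (t3 w hw).trans_le ?_⟩
    refine Nat.cast_le.2 (Finset.card_le_card fun u hu => ?_)
    obtain ⟨a, b⟩ := Finset.mem_filter.1 hu
    exact Finset.mem_filter.2 ⟨a, (Finset.mem_filter.1 b).1⟩

open Classical in
theorem dyad_card_line {X V : Finset (Pt × Pt)} {g : Mo} (hV : V ⊆ gr X g) (a b : Pt) :
    ((V.image Prod.fst).filter fun z => Col a b z).card = (onL V a b).card := by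
  rw [Finset.filter_image]
  exact Finset.card_image_of_injOn fun x hx y hy e =>
    gr_inj (hV (Finset.mem_filter.1 (Finset.mem_coe.1 hx)).1)
      (hV (Finset.mem_filter.1 (Finset.mem_coe.1 hy)).1) e

theorem dyad_num {C f : ℝ} (hC : 0 < C) (μ : ℝ) (hμ : 24 * (C + 1) ≤ μ) :
    8 * (C * (1 ^ 2 * f ^ 2 / μ + 1 / (24 * (C + 1)) * 1 ^ 2 * f ^ 2 +
      (1 / (24 * (C + 1)) ^ 2 * f) ^ 2 / (1 / (24 * (C + 1))) ^ 2)) ≤ f ^ 2 := by
  set D : ℝ := 24 * (C + 1) with hD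
  have hD1 : 1 ≤ D := by rw [hD]; linarith
  have hD0 : 0 < D := by linarith
  have hf : 0 ≤ f ^ 2 := sq_nonneg f
  have a1 : 1 ^ 2 * f ^ 2 / μ ≤ f ^ 2 / D := by
    rw [one_pow, one_mul]
    exact div_le_div_of_nonneg_left hf hD0 hμ
  have a2 : 1 / D * 1 ^ 2 * f ^ 2 = f ^ 2 / D := by ring
  have a3 : (1 / D ^ 2 * f) ^ 2 / (1 / D) ^ 2 ≤ f ^ 2 / D := by
    have e : (1 / D ^ 2 * f) ^ 2 / (1 / D) ^ 2 = f ^ 2 / D ^ 2 := by field_simp
    rw [e]
    exact div_le_div_of_nonneg_left hf hD0 (by nlinarith)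
  have a4 : 24 * C * (f ^ 2 / D) ≤ f ^ 2 := by
    rw [← mul_div_assoc, div_le_iff₀ hD0, hD]
    nlinarith
  calc _ ≤ 8 * (C * (f ^ 2 / D + f ^ 2 / D + f ^ 2 / D)) := by
        rw [a2]
        gcongr
    _ = 24 * C * (f ^ 2 / D) := by ring
    _ ≤ _ := a4

open Classical in
/-- most pairs lie on poor lines. -/
theorem beck_ord : ∃ (C0 : ℕ) (c : ℝ), 1 ≤ C0 ∧ 0 < c ∧
    ∀ (X V : Finset (Pt × Pt)) (g : Mo), V ⊆ gr X g → LinB V (c * V.card) →
      8 * ((V ×ˢ V).filter fun z => z.1 ≠ z.2 ∧ C0 < (onL V z.1.1 z.2.1).card).card ≤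
        V.card ^ 2 := by
  obtain ⟨C, hC, hb⟩ := weighted_beck
  have hD1 : 1 ≤ 24 * (C + 1) := by linarith
  have hD0 : 0 < 24 * (C + 1) := by linarith
  refine ⟨⌈24 * (C + 1)⌉₊, 1 / (24 * (C + 1)) ^ 2, Nat.one_le_iff_ne_zero.2
    (Nat.ceil_pos.2 hD0).ne', by positivity, fun X V g hV hL => ?_⟩
  set F := (V ×ˢ V).filter fun z => z.1 ≠ z.2 ∧ ⌈24 * (C + 1)⌉₊ < (onL V z.1.1 z.2.1).card
    with hF
  have hinj : Set.InjOn (fun z : (Pt × Pt) × (Pt × Pt) => (z.1.1, z.2.1)) F := by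
    intro x hx y hy e
    obtain ⟨x1, x2⟩ := Finset.mem_product.1 (Finset.mem_filter.1 (Finset.mem_coe.1 hx)).1
    obtain ⟨y1, y2⟩ := Finset.mem_product.1 (Finset.mem_filter.1 (Finset.mem_coe.1 hy)).1
    have e' := Prod.mk.inj e
    exact Prod.ext (gr_inj (hV x1) (hV y1) e'.1) (gr_inj (hV x2) (hV y2) e'.2)
  have h1 := hb (Fin 3) (V.image Prod.fst) (fun _ => 1)
    (F.image fun z => (z.1.1, z.2.1)) V.card 1 (1 / (24 * (C + 1)) ^ 2 * V.card)
    (24 * (C + 1)) (1 / (24 * (C + 1))) (Nat.cast_le.2 Finset.card_image_le)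
    (fun _ _ => by simp) hD1 (by positivity) (by rw [div_le_one hD0]; exact hD1) (by
      intro x hx
      obtain ⟨z, hz, rfl⟩ := Finset.mem_image.1 hx
      obtain ⟨z0, z3, z4⟩ := Finset.mem_filter.1 hz
      obtain ⟨z1, z2⟩ := Finset.mem_product.1 z0
      have hne : z.1.1 ≠ z.2.1 := fun e => z3 (gr_inj (hV z1) (hV z2) e)
      refine ⟨Finset.mem_image.2 ⟨z.1, z1, rfl⟩, Finset.mem_image.2 ⟨z.2, z2, rfl⟩, hne, ?_, ?_⟩
      · rw [dyad_card_line hV]
        exact (Nat.le_ceil _).trans (Nat.cast_le.2 z4.le)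
      · rw [← Finset.card_eq_sum_ones, dyad_card_line hV]
        exact hL _ _ hne)
  simp only [mul_one] at h1
  rw [← Finset.card_eq_sum_ones, Finset.card_image_of_injOn hinj] at h1
  have h2 := dyad_num (f := V.card) hC (24 * (C + 1)) le_rfl
  have h3 : (8 : ℝ) * F.card ≤ (V.card : ℝ) ^ 2 := by linarith
  exact_mod_cast h3

end

end Vale.Agent.P054
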