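import Vale.Agent.P054.FinGeom

namespace Vale.Agent.P054

open MvPolynomial

noncomputable section

/-- points of space. -/
abbrev Pt : Type := Fin 3 → ℝ

/-- affine maps of space. -/
abbrev Mo : Type := Matrix (Fin 3) (Fin 3) ℝ × Pt

def app (g : Mo) (a : Pt) : Pt := g.1.mulVec a + g.2

/-- rigid motions (both orientations). -/
def Iso (g : Mo) : Prop := g.1.transpose * g.1 = 1

open Classical in
/-- the pairs of `X` on the graph of `g`. -/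
def gr (X : Finset (Pt × Pt)) (g : Mo) : Finset (Pt × Pt) := X.filter fun y => app g y.1 = y.2

/-- compatible sets of pairs. -/
def Cmp (S : Finset (Pt × Pt)) : Prop := ∀ y ∈ S, ∀ z ∈ S, sqd y.1 z.1 = sqd y.2 z.2

open Classical in
/-- pairs whose first point is on the line `a b`. -/
def onL (S : Finset (Pt × Pt)) (a b : Pt) : Finset (Pt × Pt) := S.filter fun y => Col a b y.1

open Classical in
/-- pairs whose first point is off the line `a b`. -/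
def offL (S : Finset (Pt × Pt)) (a b : Pt) : Finset (Pt × Pt) := S.filter fun y => ¬ Col a b y.1

/-- every line misses at least `t` pairs of the graph. -/
def Rich (X : Finset (Pt × Pt)) (g : Mo) (t : ℝ) : Prop :=
  ∀ a b : Pt, a ≠ b → t ≤ ((offL (gr X g) a b).card : ℝ)

/-- every line carries at most `l` pairs. -/
def LinB (S : Finset (Pt × Pt)) (l : ℝ) : Prop :=
  ∀ a b : Pt, a ≠ b → ((onL S a b).card : ℝ) ≤ l

/-- cubic decay of the number of rich motions above the threshold `w0`. -/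
def RB3 (X : Finset (Pt × Pt)) (w0 B : ℝ) : Prop :=
  ∀ (w : ℝ) (𝓖 : Finset Mo), w0 ≤ w → (∀ g ∈ 𝓖, Iso g ∧ Rich X g w) → (𝓖.card : ℝ) * w ^ 3 ≤ B

/-- general position. -/
def Gen3 (P : Finset Pt) : Prop :=
  ∀ a ∈ P, ∀ p ∈ P, ∀ a' ∈ P, ∀ p' ∈ P, (fun j => p' j - a' j) ≠ (fun j => p j - a j) →
    ∀ j, p' j - a' j ≠ p j - a j

/-- the statement proved by induction on `n`. -/
def SB (K A b : ℝ) (n : ℕ) : Prop :=
  ∀ (P : Finset Pt) (X : Finset (Pt × Pt)), Gen3 P → P.card ≤ n → X ⊆ P ×ˢ P →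
    RB3 X (A * (n : ℝ) ^ (2 / 3 + 10 * b) * (X.card : ℝ) ^ b) (K * X.card * (n : ℝ) ^ (2 + 30 * b))

/-- after deleting the pairs in `Hv` large compatible neighbour sets are collinear. -/
def HvP (X : Finset (Pt × Pt)) (Hv : Finset ((Pt × Pt) × (Pt × Pt))) (ρ : ℝ) : Prop :=
  ∀ x ∈ X, ∀ S : Finset (Pt × Pt), S ⊆ X → Cmp S →
    (∀ y ∈ S, sqd x.1 y.1 = sqd x.2 y.2 ∧ (x, y) ∉ Hv) →
    (S.card : ℝ) ≤ ρ ∨ ∃ a b : Pt, a ≠ b ∧ Col a b x.1 ∧ ∀ y ∈ S, Col a b y.1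

/-- a neighbour set `N` of `x` organised by the motions `𝓖`. -/
structure Nb (x : Pt × Pt) (N : Finset (Pt × Pt)) (𝓖 : Finset Mo) (τ l ρ : ℝ) (C0 : ℕ) : Prop where
  iso : ∀ g ∈ 𝓖, Iso g ∧ app g x.1 = x.2
  ne : ∀ y ∈ N, x.1 ≠ y.1 ∧ ∀ j, y.2 j - y.1 j ≠ x.2 j - x.1 j
  ex : ∀ y ∈ N, ∃ g ∈ 𝓖, app g y.1 = y.2
  uniq : ∀ y ∈ N, ∀ g ∈ 𝓖, ∀ g' ∈ 𝓖, app g y.1 = y.2 → app g' y.1 = y.2 → g = g'
  size : ∀ g ∈ 𝓖, ((gr N g).card : ℝ) ≤ τ
  ord : ∀ g ∈ 𝓖, ∀ y ∈ gr N g, (onL (gr N g) x.1 y.1).card ≤ C0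
  lin : ∀ g ∈ 𝓖, LinB (gr N g) l
  cmp : ∀ S : Finset (Pt × Pt), S ⊆ N → Cmp S → (S.card : ℝ) ≤ ρ

/-- a family of motions with chosen pieces of their graphs. -/
structure Fam (X : Finset (Pt × Pt)) (𝓖 : Finset Mo) (V : Mo → Finset (Pt × Pt)) (t θ : ℝ) :
    Prop where
  iso : ∀ g ∈ 𝓖, Iso g
  sub : ∀ g ∈ 𝓖, V g ⊆ gr X g
  low : ∀ g ∈ 𝓖, t / 2 ≤ ((V g).card : ℝ)
  up : ∀ g ∈ 𝓖, ((V g).card : ℝ) ≤ 2 * t
  lin : ∀ g ∈ 𝓖, LinB (gr X g) (θ * t)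
  det : ∀ g ∈ 𝓖, ∀ g' ∈ 𝓖, g.1.det = g'.1.det
  deg : ∀ (x : Pt × Pt) (𝓗 : Finset Mo), 𝓗 ⊆ 𝓖 → (∀ g ∈ 𝓗, x ∈ V g) → (𝓗.card : ℝ) ≤ θ * t

/-- an ordinary pair of `V g` which lies on no other motion through its ends. -/
def GoodP (𝓖 : Finset Mo) (V : Mo → Finset (Pt × Pt)) (C0 : ℕ) (g : Mo) (x y : Pt × Pt) : Prop :=
  x ∈ V g ∧ y ∈ V g ∧ x ≠ y ∧ (onL (V g) x.1 y.1).card ≤ C0 ∧
    (∀ g' ∈ 𝓖, x ∈ V g' → app g' y.1 = y.2 → g' = g) ∧
    ∀ g' ∈ 𝓖, y ∈ V g' → app g' x.1 = x.2 → g' = g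

theorem mem_gr {X : Finset (Pt × Pt)} {g : Mo} {y : Pt × Pt} :
    y ∈ gr X g ↔ y ∈ X ∧ app g y.1 = y.2 := by
  simp only [gr, Finset.mem_filter]

theorem mem_onL {S : Finset (Pt × Pt)} {a b : Pt} {y : Pt × Pt} :
    y ∈ onL S a b ↔ y ∈ S ∧ Col a b y.1 := by
  simp only [onL, Finset.mem_filter]

theorem mem_offL {S : Finset (Pt × Pt)} {a b : Pt} {y : Pt × Pt} :
    y ∈ offL S a b ↔ y ∈ S ∧ ¬ Col a b y.1 := by
  simp only [offL, Finset.mem_filter]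

theorem card_onL_add (S : Finset (Pt × Pt)) (a b : Pt) :
    (onL S a b).card + (offL S a b).card = S.card := by
  classical
  unfold onL offL
  convert Finset.card_filter_add_card_filter_not (s := S) fun y => Col a b y.1

theorem gr_mono {X Y : Finset (Pt × Pt)} (h : X ⊆ Y) (g : Mo) : gr X g ⊆ gr Y g := fun _ hy =>
  mem_gr.2 ⟨h (mem_gr.1 hy).1, (mem_gr.1 hy).2⟩

theorem onL_mono {S T : Finset (Pt × Pt)} (h : S ⊆ T) (a b : Pt) : onL S a b ⊆ onL T a b :=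
  fun _ hy => mem_onL.2 ⟨h (mem_onL.1 hy).1, (mem_onL.1 hy).2⟩

theorem offL_mono {S T : Finset (Pt × Pt)} (h : S ⊆ T) (a b : Pt) : offL S a b ⊆ offL T a b :=
  fun _ hy => mem_offL.2 ⟨h (mem_offL.1 hy).1, (mem_offL.1 hy).2⟩

theorem LinB.mono {S T : Finset (Pt × Pt)} {l l' : ℝ} (h : LinB T l) (hS : S ⊆ T) (hl : l ≤ l') :
    LinB S l' := fun a b hab =>
  (Nat.cast_le.2 (Finset.card_le_card (onL_mono hS a b))).trans ((h a b hab).trans hl)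

theorem Rich.mono {X Y : Finset (Pt × Pt)} {g : Mo} {t t' : ℝ} (h : Rich X g t) (hX : X ⊆ Y)
    (ht : t' ≤ t) : Rich Y g t' := fun a b hab =>
  ht.trans ((h a b hab).trans (Nat.cast_le.2 (Finset.card_le_card (offL_mono (gr_mono hX g) a b))))

theorem Rich.le_card {X : Finset (Pt × Pt)} {g : Mo} {t : ℝ} (h : Rich X g t) :
    t ≤ ((gr X g).card : ℝ) := by
  have h1 : (0 : Pt) ≠ 1 := fun e => zero_ne_one (congrFun e 0)
  exact (h 0 1 h1).trans (Nat.cast_le.2 (Finset.card_le_card fun _ hy => (mem_offL.1 hy).1))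

theorem rich_of_linB {X S : Finset (Pt × Pt)} {g : Mo} {l t : ℝ} (hS : S ⊆ gr X g) (h : LinB S l)
    (ht : t + l ≤ S.card) : Rich X g t := fun a b hab => by
  have h1 : ((onL S a b).card : ℝ) + (offL S a b).card = S.card := by
    exact_mod_cast card_onL_add S a b
  have h2 : ((offL S a b).card : ℝ) ≤ (offL (gr X g) a b).card :=
    Nat.cast_le.2 (Finset.card_le_card (offL_mono hS a b))
  linarith [h a b hab]

theorem gr_inj {X : Finset (Pt × Pt)} {g : Mo} {x y : Pt × Pt} (hx : x ∈ gr X g) (hy : y ∈ gr X g)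
    (h : x.1 = y.1) : x = y :=
  Prod.ext h (by rw [← (mem_gr.1 hx).2, ← (mem_gr.1 hy).2, h])

theorem card_gr_le {P : Finset Pt} {X : Finset (Pt × Pt)} (h : X ⊆ P ×ˢ P) (g : Mo) :
    (gr X g).card ≤ P.card :=
  Finset.card_le_card_of_injOn Prod.fst
    (fun _ hy => (Finset.mem_product.1 (h (mem_gr.1 hy).1)).1) fun _ hx _ hy e => gr_inj hx hy e

theorem Gen3.mono {P Q : Finset Pt} (h : Gen3 P) (hQ : Q ⊆ P) : Gen3 Q :=
  fun a ha p hp a' ha' p' hp' => h a (hQ ha) p (hQ hp) a' (hQ ha') p' (hQ hp')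

theorem RB3.mono {X : Finset (Pt × Pt)} {w0 w1 B B' : ℝ} (h : RB3 X w0 B) (hw : w0 ≤ w1)
    (hB : B ≤ B') : RB3 X w1 B' := fun w 𝓖 h1 h2 => (h w 𝓖 (hw.trans h1) h2).trans hB

theorem Nb.mono {x : Pt × Pt} {N N' : Finset (Pt × Pt)} {𝓖 : Finset Mo} {τ l ρ : ℝ} {C0 : ℕ}
    (h : Nb x N 𝓖 τ l ρ C0) (hN : N' ⊆ N) : Nb x N' 𝓖 τ l ρ C0 where
  iso := h.iso
  ne y hy := h.ne y (hN hy)
  ex y hy := h.ex y (hN hy)
  uniq y hy := h.uniq y (hN hy)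
  size g hg := (Nat.cast_le.2 (Finset.card_le_card (gr_mono hN g))).trans (h.size g hg)
  ord g hg y hy := (Finset.card_le_card (onL_mono (gr_mono hN g) _ _)).trans
    (h.ord g hg y (gr_mono hN g hy))
  lin g hg := (h.lin g hg).mono (gr_mono hN g) le_rfl
  cmp S hS := h.cmp S (hS.trans hN)

end

end Vale.Agent.P054
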