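import Vale.Agent.P054.FinCore
import Vale.Agent.P054.D3Defs

namespace Vale.Agent.P054

open MvPolynomial

noncomputable section

/-- `thmB` with the first factor sharpened. -/
theorem thmB3 (d : ℕ) (hd : 3 ≤ d) (ε0 : ℝ) (hε : 0 < ε0) : ∃ C : ℝ, 0 < C ∧
    ∀ (K : Type) [Field K] [CharZero K] [IsAlgClosed K] (ε : Type) [Fintype ε] [LinearOrder ε]
    (i0 : ε) (𝓝 : Finset (ε ⊕ ε → K)) (E X ρ : ℝ) (h : MvPolynomial (Pr ε) K),
    Fintype.card ε = d → (∀ η ∈ 𝓝, Nrm i0 η) → 1 ≤ E → 1 ≤ X → 0 ≤ ρ → h ≠ 0 →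
    (h.totalDegree : ℝ) ≤ E → (∀ η ∈ 𝓝, h ∈ IL η) → HSep 𝓝 id X →
    (∀ S : Finset (ε ⊕ ε → K), S ⊆ 𝓝 → (∀ η ∈ S, ∀ η' ∈ S, bil η η' = 0) → (S.card : ℝ) ≤ ρ) →
    (𝓝.card : ℝ) ^ (1 - ε0) ≤ C * (E * (E + X) ^ (d - 2) + E * ρ) := by
  obtain ⟨n, hn⟩ : ∃ n, n = d * (d - 1) / 2 := ⟨_, rfl⟩
  have hdn : d ≤ n := by
    rw [hn, Nat.le_div_iff_mul_le two_pos]
    exact Nat.mul_le_mul_left _ (by omega)
  have hd0 : (0 : ℝ) < d := by positivity
  obtain ⟨A, α, hA, hα, H⟩ := cel n (d - 1) (2 ^ n) ε0 (one_le_pow₀ one_le_two) hε (by omega)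
  obtain ⟨κ0, hκ0, -, H0⟩ := cel_small A α (1 / 2) hA hα (by norm_num)
  obtain ⟨κ, hκ, -, H1⟩ := cel_small A α (1 / (40 * d ^ 7)) hA hα (by positivity)
  obtain ⟨CR, hCR, HR⟩ := thmB_R d
  obtain ⟨G, hG1, hG⟩ : ∃ G : ℝ, 1 ≤ G ∧ 49 * 3 ^ n * A ^ 2 ≤ κ * G :=
    ⟨_, le_max_left _ _, (div_le_iff₀' hκ).1 (le_max_right _ _)⟩
  obtain ⟨G0, hG2, hG0⟩ : ∃ G0 : ℝ, 1 ≤ G0 ∧ 2 ^ n * 2 ^ n ≤ κ0 * G0 :=
    ⟨_, le_max_left _ _, (div_le_iff₀' hκ0).1 (le_max_right _ _)⟩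
  obtain ⟨Q, hQ⟩ : ∃ Q, Q = A * (G ^ d * G0) := ⟨_, rfl⟩
  have hQ1 : 1 ≤ Q := hQ ▸ one_le_mul_of_one_le_of_one_le hA
    (one_le_mul_of_one_le_of_one_le (one_le_pow₀ hG1) hG2)
  refine ⟨A * (A * Q ^ d + 10 * d ^ 4 * (CR * Q ^ d + n.factorial * Q)) + 1, by positivity,
    fun K _ _ _ ε _ _ i0 𝓝 E X ρ h hε' hN hE hX hρ h0 hdeg hh hsep hb0 => ?_⟩
  have hY : 1 ≤ (E * (E + X) ^ (d - 2)) :=
    one_le_mul_of_one_le_of_one_le hE (one_le_pow₀ (by linarith))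
  have hZ : 0 ≤ E * ρ := by positivity
  rcases 𝓝.eq_empty_or_nonempty with rfl | hne
  · rw [Finset.card_empty, Nat.cast_zero]
    exact (Real.zero_rpow_le_one _).trans (one_le_mul_of_one_le_of_one_le
      (le_add_of_nonneg_left (by positivity)) (by linarith))
  have hc : Fintype.card (Pr ε) = n := by
    have := card_Pr_eq (ε := ε)
    rw [hε'] at this
    omega
  have hc' := card_Pr i0
  obtain ⟨L, hL, hLne, hcard, ⟨D⟩⟩ := H K (Pr ε) _ (Pr (Ne0 i0)) IL 𝓝 hc (by omega) hne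
    (fun η hη η' hη' k => IL_inj (by omega) (hN η hη) (hN η' hη') k) fun η hη =>
      ⟨IL_isPrime (hN η hη), dn_IL η, (hb_IL (hN η hη)).mono le_rfl
        (pow_le_pow_right₀ one_le_two (by omega)), ind_IL (hN η hη)⟩
  refine hcard.trans ?_
  rw [add_mul _ 1, mul_assoc]
  refine le_add_of_le_of_nonneg (mul_le_mul_of_nonneg_left ?_ (by linarith)) (by linarith)
  have hδ0 : D.δ 0 ≤ G0 * E := by
    by_contra k
    have k1 := H0 K (Pr ε) _ _ IL L D 1 (by omega) L subset_rfl (2 ^ n * 2 ^ n * E) (by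
      rw [fp_succ, fp, Finset.prod_range_zero, one_mul]
      calc _ ≤ κ0 * G0 * E := by gcongr
        _ ≤ _ := by rw [mul_assoc]; gcongr; exact (not_le.1 k).le) (by
      have k2 := hb_card (⊥ : Ideal (MvPolynomial (Pr ε) K))
      rw [hc, show n = n - 1 + 1 by omega] at k2
      have k3 := hb_cut (I' := ⨅ η ∈ L, IL η) bot_le (by
        simp only [Ideal.mem_iInf]
        exact fun η hη => hh η (hL hη)) (fun f hf => (mul_eq_zero.1 hf).resolve_left h0) hdeg hE k2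
      rw [← show n = n - 1 + 1 by omega] at k3
      rw [hc]
      exact k3)
    have k2 : (0 : ℝ) < L.card := by exact_mod_cast hLne.card_pos
    linarith
  obtain ⟨l, hl, hl1, hl2⟩ := thmB_gap (δ := D.δ) (show 0 ≤ G by linarith) (d - 2)
  have hδ1 := D.one_le
  have hAδ : ∀ i, 1 ≤ A * D.δ i := fun i => one_le_mul_of_one_le_of_one_le hA (hδ1 i)
  have hδ : ∀ i ≤ l, A * D.δ i ≤ Q * E := fun i hi => by
    have := hδ1 0
    calc A * D.δ i ≤ A * (G ^ l * D.δ 0) := by gcongr; exact (D.mono hi).trans hl1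
      _ ≤ A * (G ^ d * (G0 * E)) := by gcongr; omega
      _ = _ := by rw [hQ]; ring
  have hprod : (∏ i : Fin (l + 1), A * D.δ i) * X ^ (d - 1 - (l + 1)) ≤
      Q ^ d * (E * (E + X) ^ (d - 2)) := by
    have hE0 : 0 ≤ E := by linarith
    calc _ ≤ (∏ _i : Fin (l + 1), Q * E) * (E + X) ^ (d - 1 - (l + 1)) :=
          mul_le_mul (Finset.prod_le_prod (fun i _ => zero_le_one.trans (hAδ i)) fun i _ =>
            hδ i (Nat.lt_succ_iff.1 i.2))
            (pow_le_pow_left₀ (by linarith) (by linarith) _) (by positivity) (by positivity)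
      _ = Q ^ (l + 1) * (E * (E ^ l * (E + X) ^ (d - 1 - (l + 1)))) := by
          rw [Finset.prod_const, Finset.card_fin, mul_pow]
          ring
      _ ≤ Q ^ (l + 1) * (E * ((E + X) ^ l * (E + X) ^ (d - 1 - (l + 1)))) := by
          gcongr
          linarith
      _ = Q ^ (l + 1) * (E * (E + X) ^ (d - 2)) := by
          rw [← pow_add, show l + (d - 1 - (l + 1)) = d - 2 by omega]
      _ ≤ _ := by gcongr; omega
  have hW : 0 ≤ CR * Q ^ d + n.factorial * Q := by positivity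
  by_cases hld : l = d - 2
  · have k1 : fp D.δ (d - 1) ≤ ∏ i : Fin (l + 1), A * D.δ i := by
      rw [congrArg (fp D.δ) (show d - 1 = l + 1 by omega), fp, Finset.prod_range]
      exact Finset.prod_le_prod (fun i _ => zero_le_one.trans (hδ1 i)) fun i _ =>
        le_mul_of_one_le_left (zero_le_one.trans (hδ1 i)) hA
    rw [show d - 1 - (l + 1) = 0 by omega, pow_zero, mul_one] at hprod
    calc _ ≤ A * fp D.δ (d - 1) := D.card_le
      _ ≤ A * (Q ^ d * (E * (E + X) ^ (d - 2))) := by gcongr; exact k1.trans hprod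
      _ = A * Q ^ d * (E * (E + X) ^ (d - 2)) := by ring
      _ ≤ _ := by
        gcongr
        · exact le_add_of_nonneg_right (by positivity)
        · linarith
  replace hl2 := hl2.resolve_left hld
  have hN' : ∀ η ∈ L, Nrm i0 η := fun η hη => hN η (hL hη)
  have hg : ∀ η ∈ L, ∀ i, gs D.g (l + 1) i ∈ IL η := fun η hη i => D.mem i (by omega) η hη
  have hJ := D.jac (l + 1) (by omega)
  have hDl : ∀ i : Fin (l + 1), A * D.δ i ≤ A * D.δ l := fun i =>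
    mul_le_mul_of_nonneg_left (D.mono (Nat.lt_succ_iff.1 i.2)) (by linarith)
  have hdg : ∀ i : Fin (l + 1), ((gs D.g (l + 1) i).totalDegree : ℝ) ≤ A * D.δ i := fun i =>
    D.deg i (by omega)
  have hι : Fintype.card (Fin (l + 1)) + 2 ≤ d := by rw [Fintype.card_fin]; omega
  have hb1 := D.hb (l + 1) (by omega)
  rw [show Fintype.card (Pr ε) - (l + 1) = Fintype.card (Pr ε) - (l + 1 + 1) + 1 by omega] at hb1
  have hs1 := fun S' (hS' : S' ⊆ L) => H1 K (Pr ε) _ _ IL L D (l + 1 + 1) (by omega) S' hS'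
    (7 * 3 ^ (Fintype.card (Pr ε) - (l + 1 + 1) + 1) * (A * fp D.δ (l + 1)) * (7 * (A * D.δ l))) (by
      have k1 := fp_pos hδ1 (l + 1)
      have k2 := hδ1 l
      rw [fp_succ _ (l + 1)]
      calc _ = 49 * 3 ^ (Fintype.card (Pr ε) - (l + 1 + 1) + 1) * A ^ 2 * D.δ l * fp D.δ (l + 1) := by
            ring
        _ ≤ 49 * 3 ^ n * A ^ 2 * D.δ l * fp D.δ (l + 1) := by gcongr; norm_num; omega
        _ ≤ κ * G * D.δ l * fp D.δ (l + 1) := by gcongr
        _ = κ * (fp D.δ (l + 1) * (G * D.δ l)) := by ring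
        _ ≤ _ := by gcongr)
  obtain ⟨i1, S, hS, hcS, hκS, hcase⟩ := thmB_type (i0 := i0) (by omega) (hAδ l)
    (fun i => (hdg i).trans (hDl i)) hN' hg fun η hη => sm_of_jac (IL_isPrime (hN' η hη)) (hJ η hη)
  have hb := hb1.mono (biInf_mono hS) le_rfl
  have hs := fun S' (hS' : S' ⊆ S) => hs1 S' (hS'.trans hS)
  have hfin : (S.card : ℝ) ≤ (CR * Q ^ d + n.factorial * Q) * ((E * (E + X) ^ (d - 2)) + E * ρ) +
      4 * (d : ℝ) ^ 3 * (1 / (40 * d ^ 7) * L.card) := by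
    rcases hcase with ⟨Φ, k1, k2, k3, k4⟩ | ⟨k1, k2⟩
    · refine (HR K ε i0 i1 _ _ (D.c (l + 1)) 0 (fun i => A * D.δ i) Φ S X _ _ _ _ hε'
        hι (fun i => hAδ i) hdg k1 hX (fun η h => hN' η (hS h))
        (fun η h => hg η (hS h)) (fun η h => hJ η (hS h)) hκS k3 k4 (fun η h => ?_) (by positivity)
        hDl k2 hb hs).trans (add_le_add ?_ le_rfl)
      · obtain ⟨m, F, e1, e2, e3, e4⟩ := hsep η (hL (hS h))
        exact ⟨m, F, e1, e2, e3, fun b hb => e4 b (hL (hS hb))⟩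
      · rw [Fintype.card_fin, mul_assoc]
        calc _ ≤ CR * (Q ^ d * (E * (E + X) ^ (d - 2))) := by gcongr
          _ = CR * Q ^ d * (E * (E + X) ^ (d - 2)) := by ring
          _ ≤ _ := by
            gcongr
            · exact le_add_of_nonneg_right (by positivity)
            · linarith
    · rcases S.eq_empty_or_nonempty with rfl | hSne
      · rw [Finset.card_empty, Nat.cast_zero]
        positivity
      obtain rfl := k1 hSne
      have k3 := thmB_P (ι := Fin 1) (g := gs D.g 1) (c := D.c 1) (by omega) (hAδ 0) (by positivity) hρ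
        (hdg 0) (fun η h => hN' η (hS h)) (fun η h => hg η (hS h) 0) (fun η h => hJ η (hS h)) hκS k2
        hb hs fun S' h => hb0 S' (h.trans (hS.trans hL))
      rw [hε'] at k3
      refine k3.trans (add_le_add ?_ le_rfl)
      rw [fp_succ, fp, Finset.prod_range_zero, one_mul]
      calc _ ≤ n.factorial * (Q * E) * ρ :=
            mul_le_mul_of_nonneg_right (mul_le_mul (Nat.cast_le.2 (Nat.factorial_le (by omega)))
              (hδ 0 le_rfl) (zero_le_one.trans (hAδ 0)) (by positivity)) hρ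
        _ = n.factorial * Q * (E * ρ) := by ring
        _ ≤ _ := by
          gcongr
          · exact le_add_of_nonneg_left (by positivity)
          · linarith
  rw [hε'] at hcS
  have e : 5 * (d : ℝ) ^ 4 * (4 * (d : ℝ) ^ 3 * (1 / (40 * d ^ 7) * L.card)) = L.card / 2 := by
    field_simp
    norm_num
  have k := mul_le_mul_of_nonneg_left hfin (show 0 ≤ 5 * (d : ℝ) ^ 4 by positivity)
  have k' : 0 ≤ A * Q ^ d * ((E * (E + X) ^ (d - 2)) + E * ρ) := by positivity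
  rw [mul_add, e] at k
  linarith


/-- a real linear form evaluated at `y - x`. -/
def lf (φ x y : Pt × Pt) : ℝ := ∑ j, (φ.1 j * (y.1 j - x.1 j) + φ.2 j * (y.2 j - x.2 j))

/-- products of linear forms as separators. -/
theorem class3_sep {d : ℕ} (𝓕 : Finset ((Fin d → ℝ) × (Fin d → ℝ))) :
    ∃ S : MvPolynomial (Ne0 (0 : Fin (d + 1)) ⊕ Ne0 (0 : Fin (d + 1))) ℂ,
      S.IsHomogeneous 𝓕.card ∧ ∀ (t : ℂ) (u v : Fin d → ℝ),
        aeval (fincoreV t u v) S =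
          ∏ φ ∈ 𝓕, (t * ((∑ j, (φ.1 j * u j + φ.2 j * v j) : ℝ) : ℂ)) := by
  let U : Fin d → MvPolynomial (Ne0 (0 : Fin (d + 1)) ⊕ Ne0 (0 : Fin (d + 1))) ℂ := fun j =>
    C (1 / 2) * (X (Sum.inr (fincoreE d j)) - X (Sum.inl (fincoreE d j)))
  let V : Fin d → MvPolynomial (Ne0 (0 : Fin (d + 1)) ⊕ Ne0 (0 : Fin (d + 1))) ℂ := fun j =>
    C (1 / 2) * (X (Sum.inr (fincoreE d j)) + X (Sum.inl (fincoreE d j)))
  have hU : ∀ j, (U j).IsHomogeneous 1 := fun j =>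
    ((isHomogeneous_X _ _).sub (isHomogeneous_X _ _)).C_mul _
  have hV : ∀ j, (V j).IsHomogeneous 1 := fun j =>
    ((isHomogeneous_X _ _).add (isHomogeneous_X _ _)).C_mul _
  have eU : ∀ (t : ℂ) (u v : Fin d → ℝ) j, aeval (fincoreV t u v) (U j) = t * u j := by
    intro t u v j
    simp only [U, map_mul, map_sub, aeval_C, aeval_X, fincoreV_inl, fincoreV_inr,
      Algebra.algebraMap_self, RingHom.id_apply]
    ring
  have eV : ∀ (t : ℂ) (u v : Fin d → ℝ) j, aeval (fincoreV t u v) (V j) = t * v j := by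
    intro t u v j
    simp only [V, map_mul, map_add, aeval_C, aeval_X, fincoreV_inl, fincoreV_inr,
      Algebra.algebraMap_self, RingHom.id_apply]
    ring
  refine ⟨∏ φ ∈ 𝓕, ∑ j, (C (φ.1 j : ℂ) * U j + C (φ.2 j : ℂ) * V j), ?_, fun t u v => ?_⟩
  · have h2 := IsHomogeneous.prod 𝓕
      (fun φ => ∑ j, (C (φ.1 j : ℂ) * U j + C (φ.2 j : ℂ) * V j)) (fun _ => 1) fun φ _ =>
      IsHomogeneous.sum _ _ _ fun j _ => ((hU j).C_mul _).add ((hV j).C_mul _)
    rwa [Finset.sum_const, smul_eq_mul, mul_one] at h2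
  · rw [map_prod]
    refine Finset.prod_congr rfl fun φ _ => ?_
    simp only [map_add, map_sum, map_mul, aeval_C, eU, eV, Algebra.algebraMap_self,
      RingHom.id_apply]
    push_cast
    rw [Finset.mul_sum]
    exact Finset.sum_congr rfl fun j _ => by ring

/-- neighbours killed by `q` and separated by products of linear forms. -/
theorem class3 (ε0 : ℝ) (hε : 0 < ε0) : ∃ C : ℝ, 0 < C ∧
    ∀ (x : Pt × Pt) (N : Finset (Pt × Pt)) (Y ρ : ℝ) (E : ℕ)
      (q : MvPolynomial (Pr (Fin (3 + 1))) ℂ), 1 ≤ E → 1 ≤ Y → 0 ≤ ρ → q.totalDegree ≤ E →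
      q ∉ IL (hat x) →
      (∀ y ∈ N, sqd x.1 y.1 = sqd x.2 y.2 ∧ (∀ j, y.2 j - y.1 j ≠ x.2 j - x.1 j) ∧
        q ∈ IL2 (hat x) (hat y)) →
      (∀ y ∈ N, ∃ 𝓕 : Finset (Pt × Pt), (𝓕.card : ℝ) ≤ Y ∧ (∀ φ ∈ 𝓕, lf φ x y ≠ 0) ∧
        ∀ z ∈ N, z ≠ y → ∃ φ ∈ 𝓕, lf φ x z = 0) →
      (∀ T : Finset (Pt × Pt), T ⊆ N → Cmp T → (T.card : ℝ) ≤ ρ) →
      (N.card : ℝ) ^ (1 - ε0) ≤ C * (E * (E + Y + ρ)) := by
  classical
  obtain ⟨C, hC, hB⟩ := thmB3 3 le_rfl ε0 hε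
  refine ⟨C, hC, fun x N Y ρ E q hE hY hρ hq hqx hN hS hT => ?_⟩
  let k0 : Fin 3 := 0
  let u : Pt × Pt → Pt := fun y j => y.1 j - x.1 j
  let v : Pt × Pt → Pt := fun y j => y.2 j - x.2 j
  let t : Pt × Pt → ℂ := fun y => ((v y k0 : ℂ) - u y k0)⁻¹
  let ν := fun y => fincoreV (t y) (u y) (v y)
  have ht0 : ∀ y ∈ N, (v y k0 : ℂ) - u y k0 ≠ 0 := fun y hy e => by
    have e' : v y k0 - u y k0 = 0 := by exact_mod_cast e
    refine (hN y hy).2.1 k0 ?_
    simp only [u, v] at e'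
    linarith
  have ht : ∀ y ∈ N, t y ≠ 0 := fun y hy => inv_ne_zero (ht0 y hy)
  have huv : ∀ y ∈ N, ∑ j, u y j ^ 2 = ∑ j, v y j ^ 2 := fun y hy => by
    have := (hN y hy).1
    rwa [sqd_comm x.1, sqd_comm x.2] at this
  have hsep : HSep N ν Y := by
    intro y hy
    obtain ⟨𝓕, h1, h2, h3⟩ := hS y hy
    obtain ⟨Q, hQ, e⟩ := class3_sep 𝓕
    refine ⟨𝓕.card, Q, h1, hQ, ?_, fun z hz hne => ?_⟩
    · rw [e]
      exact Finset.prod_ne_zero_iff.2 fun φ hφ =>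
        mul_ne_zero (ht y hy) (Complex.ofReal_ne_zero.2 (h2 φ hφ))
    · rw [e]
      obtain ⟨φ, hφ, h4⟩ := h3 z hz hne
      exact Finset.prod_eq_zero hφ (mul_eq_zero_of_right _ (Complex.ofReal_eq_zero.2 h4))
  obtain ⟨ψ, hψ1, -, hψ2, hψ3, hψ4⟩ := exists_par (nrm_hat x)
  have hcomp : ∀ M' : Pr (Ne0 (0 : Fin (3 + 1))) → ℂ,
      aeval M' (aeval ψ q) = aeval (fun p => aeval M' (ψ p)) q := fun M' => by
    rw [← AlgHom.comp_apply, comp_aeval]
  rw [← (fincore_hsep hsep).2]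
  have := hB ℂ (Ne0 (0 : Fin (3 + 1))) (fincoreE 3 k0) (N.image ν) E Y ρ (aeval ψ q)
    (by rw [← Fintype.card_congr (fincoreE 3), Fintype.card_fin]) ?_ (by exact_mod_cast hE)
    hY hρ ?_ ?_ ?_ (fincore_hsep hsep).1 ?_
  · refine this.trans (le_of_eq ?_)
    norm_num
    left
    ring
  · intro η hη
    obtain ⟨y, hy, rfl⟩ := Finset.mem_image.1 hη
    exact ⟨(fincoreV_inl _ _ _ _).trans (inv_mul_cancel₀ (ht0 y hy)), fincoreV_nul _ (huv y hy)⟩
  · intro h0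
    refine hqx (mem_vI.2 fun M hM => ?_)
    obtain ⟨M', rfl⟩ := hψ3 M hM
    rw [← hcomp, h0, map_zero]
  · have := totalDegree_algHom_le (aeval ψ) (e := 1) (fun p => by simpa using hψ1 p) q
    exact_mod_cast this.trans (by omega)
  · intro η hη
    obtain ⟨y, hy, rfl⟩ := Finset.mem_image.1 hη
    refine mem_vI.2 fun M' hM' => ?_
    rw [hcomp]
    refine mem_vI.1 (hN y hy).2.2 _ ⟨hψ2 M', (hψ4 (hat y) (nrm_hat y) ?_ M').2 ?_⟩
    · rw [bil_hat, (hN y hy).1, sub_self, Complex.ofReal_zero]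
    · rw [← Fl_smul (ht y hy), ← fincoreV_hat]
      exact hM'
  · intro S' hS' hb
    have h1 : S' ⊆ (N.filter fun y => ν y ∈ S').image ν := fun η hη => by
      obtain ⟨y, hy, rfl⟩ := Finset.mem_image.1 (hS' hη)
      exact Finset.mem_image_of_mem _ (Finset.mem_filter.2 ⟨hy, hη⟩)
    refine le_trans ?_ (hT (N.filter fun y => ν y ∈ S') (Finset.filter_subset _ _)
      fun y hy z hz => ?_)
    · exact_mod_cast (Finset.card_le_card h1).trans Finset.card_image_le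
    · obtain ⟨hy, hy'⟩ := Finset.mem_filter.1 hy
      obtain ⟨hz, hz'⟩ := Finset.mem_filter.1 hz
      have h2 := hb _ hy' _ hz'
      rw [fincoreV_bil] at h2
      have h3 : ∑ j, 2 * (v y j * v z j - u y j * u z j) = 0 := by
        exact_mod_cast (mul_eq_zero.1 h2).resolve_left (mul_ne_zero (ht y hy) (ht z hz))
      have h4 : sqd y.1 z.1 - sqd y.2 z.2 = ∑ j, 2 * (v y j * v z j - u y j * u z j)
          + (∑ j, u y j ^ 2 - ∑ j, v y j ^ 2) + (∑ j, u z j ^ 2 - ∑ j, v z j ^ 2) := by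
        simp only [sqd, ← Finset.sum_sub_distrib, ← Finset.sum_add_distrib, u, v]
        exact Finset.sum_congr rfl fun j _ => by ring
      rw [h3, huv y hy, huv z hz] at h4
      linarith


end

end Vale.Agent.P054
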