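import Vale.Agent.P054.Iso3
import Vale.Agent.P054.ThmB3

namespace Vale.Agent.P054

open MvPolynomial

noncomputable section

theorem qp_form1 {x y : Pt × Pt} {g : Mo} (hx : app g x.1 = x.2) (hy : app g y.1 ≠ y.2) :
    ∃ φ : Pt × Pt, lf φ x y ≠ 0 ∧ ∀ z : Pt × Pt, app g z.1 = z.2 → lf φ x z = 0 := by
  obtain ⟨k, hk⟩ := Function.ne_iff.1 hy
  have key : ∀ z : Pt × Pt, lf (fun j => -g.1 k j, Pi.single k 1) x z = z.2 k - app g z.1 k := by
    intro z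
    have h1 := congrFun (app_sub g x.1 z.1) k
    rw [hx] at h1
    simp only [Matrix.mulVec, dotProduct] at h1
    simp only [lf, Finset.sum_add_distrib, neg_mul, Finset.sum_neg_distrib, ← h1, Pi.single_apply,
      ite_mul, one_mul, zero_mul, Finset.sum_ite_eq', Finset.mem_univ, if_true]
    ring
  refine ⟨_, ?_, fun z hz => by rw [key, hz, sub_self]⟩
  rw [key]
  exact sub_ne_zero.2 (Ne.symm hk)

theorem qp_form2 {x y z : Pt × Pt} (hz : x.1 ≠ z.1) (hy : ¬ Col x.1 z.1 y.1) :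
    ∃ φ : Pt × Pt, lf φ x y ≠ 0 ∧ lf φ x z = 0 := by
  have hw : 0 < ∑ j, (z.1 j - x.1 j) ^ 2 := by
    obtain ⟨k, hk⟩ := Function.ne_iff.1 hz
    exact Finset.sum_pos' (fun j _ => sq_nonneg _)
      ⟨k, Finset.mem_univ _, sq_pos_of_ne_zero (sub_ne_zero.2 hk.symm)⟩
  set s := (∑ j, (y.1 j - x.1 j) * (z.1 j - x.1 j)) / ∑ j, (z.1 j - x.1 j) ^ 2 with hs
  have h0 : ∑ j, ((y.1 j - x.1 j) - s * (z.1 j - x.1 j)) * (z.1 j - x.1 j) = 0 := by
    have : s * ∑ j, (z.1 j - x.1 j) ^ 2 = ∑ j, (y.1 j - x.1 j) * (z.1 j - x.1 j) := by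
      rw [hs]; field_simp
    simp only [Fin.sum_univ_three] at this ⊢
    linear_combination -this
  refine ⟨(fun j => (y.1 j - x.1 j) - s * (z.1 j - x.1 j), 0), fun h => hy ⟨s, ?_⟩, ?_⟩
  · have h1 : ∑ j, ((y.1 j - x.1 j) - s * (z.1 j - x.1 j)) ^ 2 = 0 := by
      simp only [lf, Fin.sum_univ_three, Pi.zero_apply] at h h0 ⊢
      linear_combination h - s * h0
    funext k
    have h2 := (Finset.sum_eq_zero_iff_of_nonneg fun j _ => sq_nonneg _).1 h1 k (Finset.mem_univ _)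
    have h3 := pow_eq_zero_iff two_ne_zero |>.1 h2
    linarith
  · simpa [lf] using h0

/-- one neighbour on each line, separated by linear forms. -/
theorem exists_sep {x : Pt × Pt} {N : Finset (Pt × Pt)} {𝓖 : Finset Mo} {τ l ρ : ℝ} {C0 : ℕ}
    (h : Nb x N 𝓖 τ l ρ C0) : ∃ N' : Finset (Pt × Pt), N' ⊆ N ∧ N.card ≤ C0 * N'.card ∧
      ∀ y ∈ N', ∃ 𝓕 : Finset (Pt × Pt), (𝓕.card : ℝ) ≤ 𝓖.card + τ ∧ (∀ φ ∈ 𝓕, lf φ x y ≠ 0) ∧
        ∀ z ∈ N', z ≠ y → ∃ φ ∈ 𝓕, lf φ x z = 0 := by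
  classical
  choose! γ hγ hγ' using h.ex
  let cls : Pt × Pt → Finset (Pt × Pt) := fun y => onL (gr N (γ y)) x.1 y.1
  have self : ∀ y ∈ N, y ∈ cls y := fun y hy =>
    mem_onL.2 ⟨mem_gr.2 ⟨hy, hγ' y hy⟩, col_right _ _⟩
  have same : ∀ y ∈ N, ∀ z ∈ N, γ z = γ y → Col x.1 z.1 y.1 → cls z = cls y := by
    intro y hy z _ e hc
    ext w
    simp only [cls, mem_onL, e, col_iff (col_left _ _) hc (h.ne y hy).1]
  obtain ⟨N', hN', hinj, him⟩ := Finset.exists_subset_injOn_image_eq_of_surjOn (f := cls)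
    (N : Set (Pt × Pt)) (N.image cls) (by simp [Set.SurjOn])
  have hsub : N' ⊆ N := fun y hy => hN' hy
  refine ⟨N', hsub, ?_, fun y hy => ?_⟩
  · rw [← Finset.card_image_of_injOn hinj, him]
    refine Finset.card_le_mul_card_image _ _ fun S hS => ?_
    obtain ⟨y, hy, rfl⟩ := Finset.mem_image.1 hS
    refine le_trans (Finset.card_le_card fun z hz => ?_)
      (h.ord _ (hγ y hy) y (mem_gr.2 ⟨hy, hγ' y hy⟩))
    obtain ⟨h1, h2⟩ := Finset.mem_filter.1 hz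
    have := self z h1
    rwa [h2] at this
  · have hyN := hsub hy
    have H1 : ∀ g ∈ 𝓖.erase (γ y), ∃ φ : Pt × Pt, lf φ x y ≠ 0 ∧
        ∀ z : Pt × Pt, app g z.1 = z.2 → lf φ x z = 0 := fun g hg => by
      obtain ⟨h1, h2⟩ := Finset.mem_erase.1 hg
      exact qp_form1 (h.iso g h2).2 fun e => h1 (h.uniq y hyN g h2 _ (hγ y hyN) e (hγ' y hyN))
    have H2 : ∀ z ∈ (gr N (γ y)).filter (fun z => ¬ Col x.1 z.1 y.1), ∃ φ : Pt × Pt,
        lf φ x y ≠ 0 ∧ lf φ x z = 0 := fun z hz => by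
      obtain ⟨h1, h2⟩ := Finset.mem_filter.1 hz
      exact qp_form2 (h.ne z (mem_gr.1 h1).1).1 h2
    choose! f1 hf1 hf1' using H1
    choose! f2 hf2 hf2' using H2
    refine ⟨(𝓖.erase (γ y)).image f1 ∪ ((gr N (γ y)).filter (fun z => ¬ Col x.1 z.1 y.1)).image f2,
      ?_, fun φ hφ => ?_, fun z hz hzy => ?_⟩
    · refine le_trans (Nat.cast_le.2 (Finset.card_union_le _ _)) ?_
      rw [Nat.cast_add]
      refine add_le_add (Nat.cast_le.2 (Finset.card_image_le.trans Finset.card_erase_le)) ?_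
      exact le_trans (Nat.cast_le.2 (Finset.card_image_le.trans (Finset.card_filter_le _ _)))
        (h.size _ (hγ y hyN))
    · rcases Finset.mem_union.1 hφ with hφ | hφ
      · obtain ⟨g, hg, rfl⟩ := Finset.mem_image.1 hφ
        exact hf1 g hg
      · obtain ⟨z, hz, rfl⟩ := Finset.mem_image.1 hφ
        exact hf2 z hz
    · have hzN := hsub hz
      by_cases e : γ z = γ y
      · have hm : z ∈ (gr N (γ y)).filter (fun z => ¬ Col x.1 z.1 y.1) :=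
          Finset.mem_filter.2 ⟨mem_gr.2 ⟨hzN, e ▸ hγ' z hzN⟩,
            fun hc => hzy (hinj hz hy (same y hyN z hzN e hc))⟩
        exact ⟨f2 z, Finset.mem_union_right _ (Finset.mem_image_of_mem _ hm), hf2' z hm⟩
      · have hm : γ z ∈ 𝓖.erase (γ y) := Finset.mem_erase.2 ⟨e, hγ z hzN⟩
        exact ⟨f1 (γ z), Finset.mem_union_left _ (Finset.mem_image_of_mem _ hm),
          hf1' _ hm z (hγ' z hzN)⟩

/-- neighbours killed by `q`. -/
theorem q_part (ε0 : ℝ) (h0 : 0 < ε0) (h1 : ε0 < 1) : ∃ C : ℝ, 1 ≤ C ∧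
    ∀ (x : Pt × Pt) (N : Finset (Pt × Pt)) (𝓖 : Finset Mo) (τ l ρ : ℝ) (C0 E : ℕ)
      (q : MvPolynomial (Pr (Fin (3 + 1))) ℂ), Nb x N 𝓖 τ l ρ C0 → 0 ≤ τ → 1 ≤ E →
      q.totalDegree ≤ E → q ∉ IL (hat x) → (∀ y ∈ N, q ∈ IL2 (hat x) (hat y)) →
      (N.card : ℝ) ≤ C0 * (C * (E * (E + 𝓖.card + τ + ρ))) ^ (1 / (1 - ε0)) := by
  obtain ⟨C, hC, H⟩ := class3 ε0 h0
  refine ⟨max C 1, le_max_right _ _, fun x N 𝓖 τ l ρ C0 E q h hτ hE hq hqx hqy => ?_⟩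
  have hρ : 0 ≤ ρ := by
    simpa using h.cmp ∅ (Finset.empty_subset _) fun y hy => absurd hy (Finset.notMem_empty _)
  have hpos : 0 ≤ (E : ℝ) * (E + 𝓖.card + τ + ρ) := by positivity
  have hC1 : 0 ≤ max C 1 := hC.le.trans (le_max_left _ _)
  rcases N.eq_empty_or_nonempty with rfl | ⟨y0, hy0⟩
  · rw [Finset.card_empty, Nat.cast_zero]; positivity
  obtain ⟨N', hsub, hcard, hsep⟩ := exists_sep h
  have hG : (1 : ℝ) ≤ 𝓖.card := by
    obtain ⟨g, hg, -⟩ := h.ex y0 hy0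
    exact_mod_cast Finset.card_pos.2 ⟨g, hg⟩
  have H1 := H x N' (𝓖.card + τ) ρ E q hE (by linarith) hρ hq hqx (fun y hy => by
    obtain ⟨g, hg, e⟩ := h.ex y (hsub hy)
    refine ⟨?_, (h.ne y (hsub hy)).2, hqy y (hsub hy)⟩
    rw [← e, ← (h.iso g hg).2, iso_sqd (h.iso g hg).1]) hsep
    fun T hT => h.cmp T (hT.trans hsub)
  have H2 : (N'.card : ℝ) ^ (1 - ε0) ≤ max C 1 * (E * (E + 𝓖.card + τ + ρ)) := by
    refine H1.trans ?_
    rw [← add_assoc]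
    exact mul_le_mul_of_nonneg_right (le_max_left _ _) hpos
  have he : 0 < 1 - ε0 := by linarith
  have H3 : (N'.card : ℝ) ≤ (max C 1 * (E * (E + 𝓖.card + τ + ρ))) ^ (1 / (1 - ε0)) := by
    have := Real.rpow_le_rpow (by positivity) H2 (one_div_pos.2 he).le
    rwa [← Real.rpow_mul (Nat.cast_nonneg _), mul_one_div_cancel he.ne', Real.rpow_one] at this
  calc (N.card : ℝ) ≤ C0 * N'.card := by exact_mod_cast hcard
    _ ≤ _ := mul_le_mul_of_nonneg_left H3 (Nat.cast_nonneg _)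

end

end Vale.Agent.P054
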