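import Vale.Agent.P054.Jac

namespace Vale.Agent.P054

open MvPolynomial

noncomputable section

variable {K : Type} [Field K] {σ : Type} [Fintype σ] {ι : Type} [Fintype ι] [DecidableEq ι]
  {ρ : Type} [Fintype ρ]

omit [Fintype ρ] in
/-- chain rule for a derivation of the target. -/
theorem deriv_algHom {A : Type} [CommRing A] [Algebra K A] (θ : MvPolynomial σ K →ₐ[K] A)
    (D : Derivation K A A) (f : MvPolynomial σ K) :
    D (θ f) = ∑ a, θ (pderiv a f) * D (θ (X a)) := by
  classical
  induction f using MvPolynomial.induction_on with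
  | C a => simp
  | add p q hp hq => simp only [map_add, hp, hq, add_mul, Finset.sum_add_distrib]
  | mul_X p i hp =>
    have e : ∀ a, θ (pderiv a (p * X i)) * D (θ (X a)) =
        (if a = i then θ p * D (θ (X a)) else 0) + θ (X i) * (θ (pderiv a p) * D (θ (X a))) := by
      intro a
      rw [Derivation.leibniz, smul_eq_mul, smul_eq_mul, map_add, map_mul, map_mul]
      split_ifs with h
      · rw [h, pderiv_X_self, map_one]
        ring
      · rw [pderiv_X_of_ne (Ne.symm h), map_zero]
        ring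
    simp only [e, Finset.sum_add_distrib, Finset.sum_ite_eq', Finset.mem_univ, if_true,
      ← Finset.mul_sum, ← hp]
    rw [map_mul, Derivation.leibniz, smul_eq_mul, smul_eq_mul]

omit [Fintype ρ] in
theorem deriv_eq_sum (δ : Derivation K (MvPolynomial σ K) (MvPolynomial σ K))
    (f : MvPolynomial σ K) : δ f = ∑ a, pderiv a f * δ (X a) := by
  simpa using deriv_algHom (AlgHom.id K _) δ f

/-- a derivation tangent to the branch acts on Taylor expansions. -/
theorem Tay.deriv {g : ι → MvPolynomial σ K} {c : ι → σ} {e : ρ → σ} (h : Compl c e)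
    {π : σ → K} (hJ : aeval π (Jac g c) ≠ 0) {θ : MvPolynomial σ K →ₐ[K] MvPowerSeries ρ K}
    (hθ : Tay g e π θ) (δ : Derivation K (MvPolynomial σ K) (MvPolynomial σ K))
    (hδ : ∀ i, θ (δ (g i)) = 0) (f : MvPolynomial σ K) :
    θ (δ f) = ∑ k, θ (δ (X (e k))) * MvPowerSeries.pderiv K k (θ f) := by
  classical
  have : IsDomain (MvPowerSeries ρ K) := NoZeroDivisors.to_isDomain _
  have key : ∀ f : MvPolynomial σ K, ∑ k, θ (pderiv k f) * (θ (δ (X k)) -
      ∑ k', θ (δ (X (e k'))) * MvPowerSeries.pderiv K k' (θ (X k))) =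
      θ (δ f) - ∑ k, θ (δ (X (e k))) * MvPowerSeries.pderiv K k (θ f) := by
    intro f
    simp only [mul_sub, Finset.sum_sub_distrib]
    congr 1
    · rw [deriv_eq_sum δ f, map_sum]
      simp only [map_mul]
    · simp only [Finset.mul_sum]
      rw [Finset.sum_comm]
      refine Finset.sum_congr rfl fun k _ => ?_
      rw [deriv_algHom θ (MvPowerSeries.pderiv K k) f, Finset.mul_sum]
      exact Finset.sum_congr rfl fun a _ => by ring
  have hJ' : θ (Jac g c) ≠ 0 := fun h0 => hJ (by rw [← hθ.const, h0, map_zero])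
  have ha := taninj_of_jac h θ hJ' (fun k => θ (δ (X k)) -
      ∑ k', θ (δ (X (e k'))) * MvPowerSeries.pderiv K k' (θ (X k))) (fun k => by
        rw [hθ.free, Finset.sum_eq_single k]
        · simp
        · intro k' _ hk
          simp [MvPowerSeries.pderiv_X_of_ne (Ne.symm hk)]
        · simp) fun i => by
      rw [key, hδ, hθ.kill]
      simp
  rw [← sub_eq_zero, ← key]
  exact Finset.sum_eq_zero fun k _ => by rw [ha k, mul_zero]

theorem Tay.xv {g : ι → MvPolynomial σ K} {c : ι → σ} {e : ρ → σ} (h : Compl c e)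
    {π : σ → K} (hJ : aeval π (Jac g c) ≠ 0) {θ : MvPolynomial σ K →ₐ[K] MvPowerSeries ρ K}
    (hθ : Tay g e π θ) (k : ρ) (f : MvPolynomial σ K) :
    θ (Xv g c (e k) f) = θ (Jac g c) * MvPowerSeries.pderiv K k (θ f) := by
  classical
  rw [hθ.deriv h hJ (Xv g c (e k)) (fun i => by rw [Xv_g, map_zero]) f, Finset.sum_eq_single k]
  · rw [Xv_X g c _ _ fun hk => (h.2.2 _).1 hk ⟨k, rfl⟩, if_pos rfl]
  · intro k' _ hk
    rw [Xv_X g c _ _ fun hk => (h.2.2 _).1 hk ⟨k', rfl⟩, if_neg fun h1 => hk (h.2.1 h1).symm,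
      map_zero, zero_mul]
  · simp

omit [Fintype σ] in
theorem ind_ker_of_free (θ : MvPolynomial σ K →ₐ[K] MvPowerSeries ρ K)
    (t : ρ → MvPolynomial σ K) (a : ρ → K)
    (ht : ∀ k, θ (t k) = MvPowerSeries.C (a k) + MvPowerSeries.X k) :
    Ind (RingHom.ker θ) t := by
  intro P hP
  have e1 : θ.comp (aeval t) = (coeToMvPowerSeries.algHom K).comp
      (aeval fun k => (C (a k) + X k : MvPolynomial ρ K)) := by
    refine MvPolynomial.algHom_ext fun k => ?_
    simp [ht]
  have e2 : (aeval fun k => (X k - C (a k) : MvPolynomial ρ K)).comp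
      (aeval fun k => (C (a k) + X k : MvPolynomial ρ K)) = AlgHom.id K _ := by
    refine MvPolynomial.algHom_ext fun k => ?_
    simp
  have h1 : (aeval fun k => (C (a k) + X k : MvPolynomial ρ K)) P = 0 := by
    have h2 := DFunLike.congr_fun e1 P
    rw [AlgHom.comp_apply, AlgHom.comp_apply, RingHom.mem_ker.1 hP] at h2
    apply MvPolynomial.coe_injective ρ K
    simpa using h2.symm
  have h3 := DFunLike.congr_fun e2 P
  rw [AlgHom.comp_apply, h1, map_zero] at h3
  exact h3.symm

theorem chain_split {τ : Type} {n : τ →₀ ℕ} (h : n ≠ 0) :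
    ∃ k m, n = m + Finsupp.single k 1 := by
  obtain ⟨k, hk⟩ := Finsupp.ne_iff.1 h
  refine ⟨k, n - Finsupp.single k 1, (tsub_add_cancel_of_le ?_).symm⟩
  exact Finsupp.single_le_iff.2 (Nat.one_le_iff_ne_zero.2 hk)

theorem chain_coeff [CharZero K] {τ : Type} {f : MvPowerSeries τ K} {k : τ} {m : τ →₀ ℕ}
    (h : MvPowerSeries.coeff m (MvPowerSeries.pderiv K k f) = 0) :
    MvPowerSeries.coeff (m + Finsupp.single k 1) f = 0 := by
  rw [MvPowerSeries.coeff_pderiv] at h
  exact (mul_eq_zero.1 h).resolve_right (Nat.cast_add_one_ne_zero _)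

/-- vanishing of short words means vanishing of low order Taylor coefficients. -/
theorem Tay.coeff_eq_zero [CharZero K] {g : ι → MvPolynomial σ K} {c : ι → σ} {e : ρ → σ}
    (h : Compl c e) {π : σ → K} (hJ : aeval π (Jac g c) ≠ 0)
    {θ : MvPolynomial σ K →ₐ[K] MvPowerSeries ρ K} (hθ : Tay g e π θ) (T : ℕ)
    (f : MvPolynomial σ K) (hf : ∀ w : List σ, w.length < T → aeval π (wd g c w f) = 0)
    (n : ρ →₀ ℕ) (hn : n.degree < T) : MvPowerSeries.coeff n (θ f) = 0 := by
  induction T generalizing f n with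
  | zero => exact absurd hn (Nat.not_lt_zero _)
  | succ T ih =>
    by_cases h0 : n = 0
    · rw [h0, MvPowerSeries.coeff_zero_eq_constantCoeff_apply, hθ.const]
      exact hf [] (Nat.succ_pos _)
    obtain ⟨k, m, rfl⟩ := chain_split h0
    have h1 : (T : ℕ∞) ≤ (θ (Jac g c) * MvPowerSeries.pderiv K k (θ f)).order := by
      rw [← hθ.xv h hJ]
      refine MvPowerSeries.nat_le_order fun d hd => ih _ (fun w hw => ?_) d hd
      have := hf (w ++ [e k]) (by simpa using hw)
      simpa only [wd, List.foldr_append, List.foldr_cons, List.foldr_nil] using this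
    have h2 : IsUnit (θ (Jac g c)) :=
      MvPowerSeries.isUnit_iff_constantCoeff.2 (by rw [hθ.const]; exact hJ.isUnit)
    obtain ⟨u, hu⟩ := h2.exists_left_inv
    have h3 : (T : ℕ∞) ≤ (MvPowerSeries.pderiv K k (θ f)).order := by
      have h4 := MvPowerSeries.le_order_mul (f := u)
        (g := θ (Jac g c) * MvPowerSeries.pderiv K k (θ f))
      rw [← mul_assoc, hu, one_mul] at h4
      exact h1.trans (le_add_self.trans h4)
    refine chain_coeff (MvPowerSeries.coeff_of_lt_order (lt_of_lt_of_le ?_ h3))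
    simp only [map_add, Finsupp.degree_single] at hn
    exact_mod_cast Nat.lt_of_succ_lt_succ hn

omit [Fintype ρ] in
/-- an ideal of power series without constant terms that is stable under all coordinate
derivatives is zero. -/
theorem eq_zero_of_stable [CharZero K] (S : Set (MvPowerSeries ρ K))
    (h0 : ∀ f ∈ S, MvPowerSeries.constantCoeff f = 0)
    (h1 : ∀ f ∈ S, ∀ k, MvPowerSeries.pderiv K k f ∈ Ideal.span S) : ∀ f ∈ S, f = 0 := by
  have a0 : ∀ f ∈ Ideal.span S, MvPowerSeries.constantCoeff f = 0 := fun f hf =>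
    (Ideal.span_le (I := RingHom.ker MvPowerSeries.constantCoeff)).2 h0 hf
  have a1 : ∀ k, ∀ f ∈ Ideal.span S, MvPowerSeries.pderiv K k f ∈ Ideal.span S := by
    intro k f hf
    induction hf using Submodule.span_induction with
    | mem x hx => exact h1 x hx k
    | zero => simp
    | add x y _ _ hx hy => rw [map_add]; exact Ideal.add_mem _ hx hy
    | smul a x hx' hx =>
      rw [smul_eq_mul, Derivation.leibniz, smul_eq_mul, smul_eq_mul]
      exact Ideal.add_mem _ (Ideal.mul_mem_left _ _ hx) (Ideal.mul_mem_right _ _ hx')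
  have a2 : ∀ (T : ℕ) (n : ρ →₀ ℕ), n.degree < T → ∀ f ∈ Ideal.span S,
      MvPowerSeries.coeff n f = 0 := by
    intro T
    induction T with
    | zero => exact fun n hn => absurd hn (Nat.not_lt_zero _)
    | succ T ih =>
      intro n hn f hf
      by_cases h2 : n = 0
      · rw [h2, MvPowerSeries.coeff_zero_eq_constantCoeff_apply]
        exact a0 f hf
      obtain ⟨k, m, rfl⟩ := chain_split h2
      simp only [map_add, Finsupp.degree_single] at hn
      exact chain_coeff (ih m (Nat.lt_of_succ_lt_succ hn) _ (a1 k f hf))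
  intro f hf
  ext n
  rw [a2 _ n (Nat.lt_succ_self _) f (Ideal.subset_span hf), map_zero]

end

end Vale.Agent.P054
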