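import Vale.Agent.P054.Hf

namespace Vale.Agent.P054

open MvPolynomial

noncomputable section

variable {K : Type} [Field K] {σ : Type} [Fintype σ]

theorem dim_pow_le {I : Ideal (MvPolynomial σ K)} {ρ : Type} [Fintype ρ]
    {t : ρ → MvPolynomial σ K} (ht : Ind I t) {e : ℕ} (hd : ∀ k, (t k).totalDegree ≤ e) (m : ℕ) :
    (m : ℝ) ^ Fintype.card ρ ≤ (Fintype.card ρ).factorial * hf I (e * m) := by
  exact_mod_cast (pow_le_factorial_mul_choose m _).trans
    (Nat.mul_le_mul_left _ (choose_le_hf t ht hd m))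

theorem not_ind_of_HB {I : Ideal (MvPolynomial σ K)} {φ : ℝ} {j : ℕ} (h : HB I φ j) {ρ : Type}
    [Fintype ρ] (t : ρ → MvPolynomial σ K) (hc : j < Fintype.card ρ) : ¬ Ind I t := by
  intro ht
  obtain ⟨e, he, hd⟩ : ∃ e : ℕ, 1 ≤ e ∧ ∀ k, (t k).totalDegree ≤ e :=
    ⟨∑ k, (t k).totalDegree + 1, by omega, fun k => Nat.le_succ_of_le
      (Finset.single_le_sum (f := fun k => (t k).totalDegree) (fun _ _ => Nat.zero_le _)
        (Finset.mem_univ k))⟩
  obtain ⟨n, hn⟩ := exists_nat_gt (((Fintype.card ρ).factorial : ℝ) * φ * (e : ℝ) ^ j)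
  have h1 := dim_pow_le ht hd (n + 1)
  have h2 := mul_le_mul_of_nonneg_left (h (e * (n + 1)) (Nat.mul_pos he n.succ_pos))
    (Nat.cast_nonneg (α := ℝ) (Fintype.card ρ).factorial)
  have h3 : ((n + 1 : ℕ) : ℝ) ^ (j + 1) ≤ ((n + 1 : ℕ) : ℝ) ^ Fintype.card ρ :=
    pow_le_pow_right₀ (by exact_mod_cast n.succ_pos) hc
  have h4 : (0 : ℝ) < ((n + 1 : ℕ) : ℝ) ^ j := by positivity
  rw [Nat.cast_mul, mul_pow] at h2
  have h5 := mul_lt_mul_of_pos_right (hn.trans (Nat.cast_lt.2 n.lt_succ_self)) h4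
  rw [pow_succ] at h3
  linarith

theorem dim_rel {q : Ideal (MvPolynomial σ K)} {φ : ℝ} {j : ℕ} (hb : HB q φ j) {ρ : Type}
    [Fintype ρ] (t : ρ → MvPolynomial σ K) (hc : Fintype.card ρ = j) (f : MvPolynomial σ K) :
    ∃ P : MvPolynomial (Option ρ) K, P ≠ 0 ∧ aeval (fun o : Option ρ => o.elim f t) P ∈ q := by
  by_contra h
  refine not_ind_of_HB hb (fun o : Option ρ => o.elim f t) (by simp [hc]) fun P hP => ?_
  by_contra h0
  exact h ⟨P, h0, hP⟩

/-- a prime of dimension at most `j` inside a prime of dimension at least `j`. -/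
theorem dim_eq {q q' : Ideal (MvPolynomial σ K)} (hq : q.IsPrime) (hq' : q'.IsPrime) (h : q ≤ q')
    {φ : ℝ} {j : ℕ} (hb : HB q φ j) {ρ : Type} [Fintype ρ] (t : ρ → MvPolynomial σ K)
    (hc : Fintype.card ρ = j) (ht : Ind q' t) : q = q' := by
  have _ := hq'
  refine le_antisymm h fun f hf => ?_
  by_contra hfq
  obtain ⟨P, hP, hPq⟩ := dim_rel hb t hc f
  have e : (Polynomial.aevalTower (aeval t) f).comp (optionEquivLeft K ρ).toAlgHom =
      aeval fun o : Option ρ => o.elim f t := by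
    refine algHom_ext fun o => ?_
    cases o <;> simp
  rw [← e] at hPq
  change Polynomial.aevalTower (aeval t) f (optionEquivLeft K ρ P) ∈ q at hPq
  obtain ⟨Q, hQ, hd⟩ := Polynomial.exists_eq_pow_rootMultiplicity_mul_and_not_dvd
    (optionEquivLeft K ρ P) (by simpa using hP) 0
  rw [hQ, map_mul, map_pow, map_zero, sub_zero, Polynomial.aevalTower_X] at hPq
  have h1 := h ((hq.mem_or_mem hPq).resolve_left fun h2 => hfq (hq.mem_of_pow_mem _ h2))
  rw [← Polynomial.X_mul_divX_add Q, map_add, map_mul, Polynomial.aevalTower_X,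
    Polynomial.aevalTower_C, Ideal.add_mem_iff_right _ (Ideal.mul_mem_right _ _ hf)] at h1
  rw [map_zero, sub_zero, Polynomial.X_dvd_iff] at hd
  exact hd (ht _ h1)

/-- every element is algebraic over an independent family of the right size. -/
theorem exists_alg_rel {q : Ideal (MvPolynomial σ K)} {φ : ℝ} {j : ℕ} (hb : HB q φ j) {ρ : Type}
    [Fintype ρ] (t : ρ → MvPolynomial σ K) (hc : Fintype.card ρ = j) (f : MvPolynomial σ K) :
    ∃ P : MvPolynomial (Option ρ) K, P ≠ 0 ∧ aeval (fun o : Option ρ => o.elim f t) P ∈ q :=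
  dim_rel hb t hc f

theorem sum_hf_le {Λ : Type} (S : Finset Λ) (p : Λ → Ideal (MvPolynomial σ K))
    (hp : ∀ l ∈ S, (p l).IsPrime) (hinc : ∀ a ∈ S, ∀ b ∈ S, a ≠ b → ¬ p a ≤ p b) :
    ∃ s : ℕ, ∀ m : ℕ, ∑ l ∈ S, hf (p l) m ≤ hf (⨅ l ∈ S, p l) (m + s) := by
  classical
  have h1 : ∀ l : S, ∃ s, s ∉ p l ∧ ∀ l' : S, l' ≠ l → s ∈ p l' := fun l => by
    have h2 : ¬ (S.erase l).inf p ≤ p l := fun h => by
      obtain ⟨a, ha, h3⟩ := (hp l l.2).inf_le'.1 h
      exact hinc a (Finset.mem_of_mem_erase ha) l l.2 (Finset.ne_of_mem_erase ha) h3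
    obtain ⟨s, h3, h4⟩ := SetLike.not_le_iff_exists.1 h2
    exact ⟨s, h4, fun l' hl => (Finset.inf_le (f := p)
      (Finset.mem_erase.2 ⟨fun e => hl (Subtype.ext e), l'.2⟩)) h3⟩
  choose s hs hs' using h1
  refine ⟨∑ l, (s l).totalDegree, fun m => ?_⟩
  choose v hv hv' using fun l : S => exists_indM (p l) m
  have h2 := card_le_hf (I := ⨅ l ∈ S, p l) (m := m + ∑ l, (s l).totalDegree)
    (fun x : Σ l : S, Fin (hf (p l) m) => v x.1 x.2 * s x.1)
    (fun x => (totalDegree_mul _ _).trans (add_le_add (hv _ _)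
      (Finset.single_le_sum (f := fun l => (s l).totalDegree) (fun _ _ => Nat.zero_le _)
        (Finset.mem_univ x.1))))
    fun a ha ⟨l, i⟩ => by
      have h3 := Ideal.mem_iInf.1 (Ideal.mem_iInf.1 ha l) l.2
      rw [Fintype.sum_sigma, ← Finset.add_sum_erase _ _ (Finset.mem_univ l),
        Ideal.add_mem_iff_left _ (Ideal.sum_mem _ fun l' hl => Ideal.sum_mem _ fun i _ =>
          Submodule.smul_of_tower_mem _ _ (Ideal.mul_mem_left _ _
            (hs' l' l (Finset.ne_of_mem_erase hl).symm)))] at h3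
      simp only [← smul_mul_assoc, ← Finset.sum_mul] at h3
      exact hv' l (fun i => a ⟨l, i⟩) (((hp l l.2).mem_or_mem h3).resolve_right (hs l)) i
  rw [Fintype.card_sigma] at h2
  simp only [Fintype.card_fin] at h2
  rwa [Finset.sum_coe_sort S fun l => hf (p l) m] at h2

theorem incomp_of_HB {Λ : Type} (S : Finset Λ) (p : Λ → Ideal (MvPolynomial σ K))
    (hp : ∀ l ∈ S, (p l).IsPrime) (hinj : Set.InjOn p S) {φ : ℝ} {ρ : Type} [Fintype ρ]
    (hb : HB (⨅ l ∈ S, p l) φ (Fintype.card ρ))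
    (ht : ∀ l ∈ S, ∃ t : ρ → MvPolynomial σ K, Ind (p l) t) :
    ∀ a ∈ S, ∀ b ∈ S, a ≠ b → ¬ p a ≤ p b := by
  intro a ha b hb' hab h
  obtain ⟨t, ht⟩ := ht b hb'
  exact hab (hinj ha hb'
    (dim_eq (hp a ha) (hp b hb') h (hb.mono (iInf₂_le a ha) le_rfl) t rfl ht))

theorem count_le {Λ : Type} (S : Finset Λ) (p : Λ → Ideal (MvPolynomial σ K))
    (hp : ∀ l ∈ S, (p l).IsPrime) (hinj : Set.InjOn p S) {φ : ℝ} {ρ : Type} [Fintype ρ]
    (hb : HB (⨅ l ∈ S, p l) φ (Fintype.card ρ))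
    (ht : ∀ l ∈ S, ∃ t : ρ → MvPolynomial σ K, Ind (p l) t ∧ ∀ k, (t k).totalDegree ≤ 1) :
    (S.card : ℝ) ≤ (Fintype.card ρ).factorial * φ := by
  obtain ⟨s, hs⟩ := sum_hf_le S p hp (incomp_of_HB S p hp hinj hb fun l hl =>
    (ht l hl).imp fun _ h => h.1)
  have h1 : Filter.Tendsto (fun m : ℕ => ((Fintype.card ρ).factorial : ℝ) * φ *
      (1 + (s : ℝ) / m) ^ Fintype.card ρ) Filter.atTop
      (nhds (((Fintype.card ρ).factorial : ℝ) * φ * (1 + 0) ^ Fintype.card ρ)) :=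
    (((tendsto_const_div_atTop_nhds_zero_nat (s : ℝ)).const_add 1).pow _).const_mul _
  rw [add_zero, one_pow, mul_one] at h1
  refine ge_of_tendsto h1 (Filter.eventually_atTop.2 ⟨1, fun m hm => ?_⟩)
  have hm0 : (0 : ℝ) < m := by exact_mod_cast hm
  have h2 : (S.card : ℝ) * (m : ℝ) ^ Fintype.card ρ ≤
      (Fintype.card ρ).factorial * ((∑ l ∈ S, hf (p l) m : ℕ) : ℝ) := by
    rw [Nat.cast_sum, Finset.mul_sum, ← nsmul_eq_mul]
    refine Finset.card_nsmul_le_sum _ _ _ fun l hl => ?_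
    obtain ⟨t, h3, h4⟩ := ht l hl
    simpa using dim_pow_le h3 h4 m
  have h3 := mul_le_mul_of_nonneg_left ((Nat.cast_le.2 (hs m)).trans (hb (m + s) (by omega)))
    (Nat.cast_nonneg (α := ℝ) (Fintype.card ρ).factorial)
  rw [one_add_div hm0.ne', div_pow, ← mul_div_assoc, le_div_iff₀ (by positivity), mul_assoc]
  rw [Nat.cast_add] at h3
  exact h2.trans h3

theorem count_points {Λ : Type} (S : Finset Λ) (x : Λ → σ → K) (hinj : Set.InjOn x S) {φ : ℝ}
    (hb : HB (⨅ a ∈ S, kr K (x a)) φ 0) : (S.card : ℝ) ≤ φ := by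
  have h := count_le S (fun a => kr K (x a)) (fun a _ => kr_isPrime _) (fun a ha b hb' e =>
      hinj ha hb' (funext fun k => by
        have h1 : X k - C (x b k) ∈ kr K (x b) := by simp [mem_kr]
        have e' : kr K (x a) = kr K (x b) := e
        rw [← e', mem_kr] at h1
        simpa [sub_eq_zero] using h1)) (φ := φ) (ρ := Empty) (by simpa using hb)
    fun a _ => ⟨Empty.elim, fun P hP => by
      rw [eq_C_of_isEmpty P, mem_kr] at hP
      rw [eq_C_of_isEmpty P]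
      simpa using hP, fun k => k.elim⟩
  simpa using h

end

end Vale.Agent.P054
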