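import Vale.Agent.P054.Taylor
import Vale.Agent.P054.Chain
import Vale.Agent.P054.Dim

namespace Vale.Agent.P054

open MvPolynomial

noncomputable section

variable {K : Type} [Field K] {σ : Type} {ι : Type} [Fintype ι] [DecidableEq ι]

theorem mem_Br {G : Set (MvPolynomial σ K)} {p : Ideal (MvPolynomial σ K)} (hp : p.IsPrime)
    {f : MvPolynomial σ K} : f ∈ Br G p ↔ ∃ s, s ∉ p ∧ s * f ∈ Ideal.span G := by
  constructor
  · intro h
    induction h using Submodule.span_induction with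
    | mem x hx => exact hx
    | zero => exact ⟨1, (Ideal.ne_top_iff_one p).1 hp.ne_top, by simp⟩
    | add x y _ _ hx hy =>
      obtain ⟨s, hs, hx⟩ := hx
      obtain ⟨t, ht, hy⟩ := hy
      refine ⟨s * t, fun h => (hp.mem_or_mem h).elim hs ht, ?_⟩
      have e : s * t * (x + y) = t * (s * x) + s * (t * y) := by ring
      rw [e]
      exact Ideal.add_mem _ (Ideal.mul_mem_left _ _ hx) (Ideal.mul_mem_left _ _ hy)
    | smul a x _ hx =>
      obtain ⟨s, hs, hx⟩ := hx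
      refine ⟨s, hs, ?_⟩
      have e : s * (a • x) = a * (s * x) := by rw [smul_eq_mul]; ring
      rw [e]
      exact Ideal.mul_mem_left _ _ hx
  · intro h
    exact Ideal.subset_span h

theorem span_le_Br (G : Set (MvPolynomial σ K)) {p : Ideal (MvPolynomial σ K)} (hp : p.IsPrime) :
    Ideal.span G ≤ Br G p := by
  intro f hf
  exact (mem_Br hp).2 ⟨1, (Ideal.ne_top_iff_one p).1 hp.ne_top, by simpa using hf⟩

theorem mem_Br_of_mem {G : Set (MvPolynomial σ K)} {p : Ideal (MvPolynomial σ K)}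
    (hp : p.IsPrime) {f : MvPolynomial σ K} (hf : f ∈ G) : f ∈ Br G p := by
  exact span_le_Br G hp (Ideal.subset_span hf)

/-- minimality of the branch. -/
theorem Br_le {G : Set (MvPolynomial σ K)} {p q : Ideal (MvPolynomial σ K)} (hq : q.IsPrime)
    (hG : ∀ f ∈ G, f ∈ q) (hqp : q ≤ p) : Br G p ≤ q := by
  refine Ideal.span_le.2 ?_
  rintro f ⟨s, hs, hf⟩
  have h1 : s * f ∈ q := (Ideal.span_le.2 hG : Ideal.span G ≤ q) hf
  exact (hq.mem_or_mem h1).resolve_left fun h => hs (hqp h)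

theorem Br_mono {G G' : Set (MvPolynomial σ K)} (h : G ⊆ G') (p : Ideal (MvPolynomial σ K)) :
    Br G p ≤ Br G' p := by
  refine Ideal.span_mono ?_
  rintro f ⟨s, hs, hf⟩
  exact ⟨s, hs, Ideal.span_mono h hf⟩

theorem Br_anti (G : Set (MvPolynomial σ K)) {p q : Ideal (MvPolynomial σ K)} (h : q ≤ p) :
    Br G p ≤ Br G q := by
  refine Ideal.span_mono ?_
  rintro f ⟨s, hs, hf⟩
  exact ⟨s, fun h' => hs (h h'), hf⟩

theorem Br_eq_of_le {G : Set (MvPolynomial σ K)} {p q : Ideal (MvPolynomial σ K)}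
    (hq : q.IsPrime) (hB : (Br G p).IsPrime) (hp : p.IsPrime) (hG : ∀ f ∈ G, f ∈ q)
    (hqp : q ≤ p) : Br G q = Br G p := by
  exact le_antisymm (Br_le hB (fun f hf => mem_Br_of_mem hp hf) (Br_le hq hG hqp))
    (Br_anti G hqp)

theorem Br_singleton {f : MvPolynomial σ K} (hf : Prime f) {p : Ideal (MvPolynomial σ K)}
    (hfp : f ∈ p) (hp : p.IsPrime) : Br {f} p = Ideal.span {f} := by
  refine le_antisymm (Br_le ((Ideal.span_singleton_prime hf.ne_zero).2 hf)
    (fun g hg => Ideal.subset_span hg) ?_) (span_le_Br _ hp)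
  exact (Ideal.span_singleton_le_iff_mem _).2 hfp

theorem Br_empty {p : Ideal (MvPolynomial σ K)} (hp : p.IsPrime) : Br ∅ p = ⊥ := by
  exact le_bot_iff.1 (Br_le Ideal.isPrime_bot (fun f hf => hf.elim) bot_le)

theorem dn_of_isAlgClosed [IsAlgClosed K] [Finite σ] {p : Ideal (MvPolynomial σ K)}
    (hp : p.IsPrime) : Dn p := by
  intro f hf
  by_contra h
  apply hf
  rw [← IsPrime.vanishingIdeal_zeroLocus (K := K) p, mem_vanishingIdeal_iff]
  intro x hx
  by_contra hx'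
  exact h ⟨x, fun g hg => hx g hg, hx'⟩

variable [Fintype σ]

theorem Br_kr_isPrime {g : ι → MvPolynomial σ K} {c : ι → σ} {π : σ → K}
    (hg : ∀ i, aeval π (g i) = 0) (hJ : aeval π (Jac g c) ≠ 0) :
    (Br (Set.range g) (kr K π)).IsPrime := by
  classical
  have hc := compl_free (inj_of_jac (g := g) (c := c) fun h => hJ (by rw [h, map_zero]))
  obtain ⟨θ, hθ⟩ := exists_tay hc hg hJ
  rw [← hθ.ker_eq hc hJ]
  have : IsDomain (MvPowerSeries {k // k ∉ Set.range c} K) := NoZeroDivisors.to_isDomain _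
  exact RingHom.ker_isPrime _

theorem Br_eq_pt {g : ι → MvPolynomial σ K} {c : ι → σ} {p : Ideal (MvPolynomial σ K)}
    (hp : p.IsPrime) (hg : ∀ i, g i ∈ p) {π : σ → K} (hπ : p ≤ kr K π)
    (hJ : aeval π (Jac g c) ≠ 0) : Br (Set.range g) p = Br (Set.range g) (kr K π) := by
  refine Br_eq_of_le hp (Br_kr_isPrime (fun i => hπ (hg i)) hJ) (kr_isPrime π) ?_ hπ
  rintro f ⟨i, rfl⟩
  exact hg i

theorem Br_isPrime {g : ι → MvPolynomial σ K} {p : Ideal (MvPolynomial σ K)} (hp : p.IsPrime)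
    (hd : Dn p) (hg : ∀ i, g i ∈ p) (hs : Sm g p) : (Br (Set.range g) p).IsPrime := by
  obtain ⟨c, hc⟩ := exists_jac_of_sm hp hs
  obtain ⟨π, hπ, hJ⟩ := hd _ hc
  rw [Br_eq_pt hp hg hπ hJ]
  exact Br_kr_isPrime (fun i => hπ (hg i)) hJ

/-- a Taylor map for the branch at a prime, at a point avoiding a given hypersurface. -/
theorem exists_tay_prime {ρ : Type} [Fintype ρ] {g : ι → MvPolynomial σ K} {c : ι → σ}
    {e : ρ → σ} (h : Compl c e) {p : Ideal (MvPolynomial σ K)} (hp : p.IsPrime) (hd : Dn p)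
    (hg : ∀ i, g i ∈ p) (hJ : Jac g c ∉ p) {s : MvPolynomial σ K} (hs : s ∉ p) :
    ∃ π θ, p ≤ kr K π ∧ aeval π s ≠ 0 ∧ aeval π (Jac g c) ≠ 0 ∧ Tay g e π θ ∧
      RingHom.ker θ = Br (Set.range g) p := by
  obtain ⟨π, hπ, h1⟩ := hd (s * Jac g c) fun h' => (hp.mem_or_mem h').elim hs hJ
  rw [map_mul, mul_ne_zero_iff] at h1
  obtain ⟨θ, hθ⟩ := exists_tay h (fun i => hπ (hg i)) h1.2
  exact ⟨π, θ, hπ, h1.1, h1.2, hθ, by rw [hθ.ker_eq h h1.2, Br_eq_pt hp hg hπ h1.2]⟩

theorem Br_ind {ρ : Type} [Fintype ρ] {g : ι → MvPolynomial σ K} {c : ι → σ} {e : ρ → σ}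
    (h : Compl c e) {p : Ideal (MvPolynomial σ K)} (hp : p.IsPrime) (hd : Dn p)
    (hg : ∀ i, g i ∈ p) (hJ : Jac g c ∉ p) : Ind (Br (Set.range g) p) (fun k => X (e k)) := by
  obtain ⟨π, θ, -, -, -, hθ, hk⟩ :=
    exists_tay_prime h hp hd hg hJ ((Ideal.ne_top_iff_one p).1 hp.ne_top)
  rw [← hk]
  exact ind_ker_of_free θ _ (fun k => π (e k)) hθ.free

omit [Fintype σ] in
theorem Br_stable {G : Set (MvPolynomial σ K)} {p : Ideal (MvPolynomial σ K)} (hp : p.IsPrime)
    (hB : (Br G p).IsPrime) (hG : ∀ f ∈ G, f ∈ p)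
    (δ : Derivation K (MvPolynomial σ K) (MvPolynomial σ K)) (hδ : ∀ f ∈ G, δ f ∈ Br G p) :
    ∀ f ∈ Br G p, δ f ∈ Br G p := by
  have h1 : ∀ f ∈ Ideal.span G, δ f ∈ Br G p := by
    intro f hf
    induction hf using Submodule.span_induction with
    | mem x hx => exact hδ x hx
    | zero => simp
    | add x y _ _ hx hy => rw [map_add]; exact Ideal.add_mem _ hx hy
    | smul a x hx' hx =>
      rw [smul_eq_mul, Derivation.leibniz, smul_eq_mul, smul_eq_mul]
      exact Ideal.add_mem _ (Ideal.mul_mem_left _ _ hx)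
        (Ideal.mul_mem_right _ _ (span_le_Br G hp hx'))
  intro f hf
  obtain ⟨s, hs, hsf⟩ := (mem_Br hp).1 hf
  have h2 := h1 _ hsf
  rw [Derivation.leibniz, smul_eq_mul, smul_eq_mul] at h2
  have h3 : s * δ f ∈ Br G p := (Ideal.add_mem_iff_left _ (Ideal.mul_mem_right _ _ hf)).1 h2
  exact (hB.mem_or_mem h3).resolve_left fun h => hs (Br_le hp hG le_rfl h)

theorem mem_Br_iff_wd [CharZero K] {g : ι → MvPolynomial σ K} {c : ι → σ} {π : σ → K}
    (hg : ∀ i, aeval π (g i) = 0) (hJ : aeval π (Jac g c) ≠ 0) (f : MvPolynomial σ K) :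
    f ∈ Br (Set.range g) (kr K π) ↔ ∀ w : List σ, aeval π (wd g c w f) = 0 := by
  classical
  have hG : ∀ f ∈ Set.range g, f ∈ kr K π := by
    rintro f ⟨i, rfl⟩
    exact hg i
  constructor
  · intro hf w
    refine Br_le (kr_isPrime π) hG le_rfl (?_ : wd g c w f ∈ Br (Set.range g) (kr K π))
    induction w with
    | nil => exact hf
    | cons k w ih =>
      refine Br_stable (kr_isPrime π) (Br_kr_isPrime hg hJ) hG (Xv g c k) ?_ _ ih
      rintro f ⟨i, rfl⟩
      rw [Xv_g]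
      exact Ideal.zero_mem _
  · intro hf
    have hc := compl_free (inj_of_jac (g := g) (c := c) fun h => hJ (by rw [h, map_zero]))
    obtain ⟨θ, hθ⟩ := exists_tay hc hg hJ
    rw [← hθ.ker_eq hc hJ, RingHom.mem_ker]
    ext n
    rw [hθ.coeff_eq_zero hc hJ (n.degree + 1) f (fun w _ => hf w) n (Nat.lt_succ_self _), map_zero]

/-- maximality of the branch among stable ideals. -/
theorem le_Br_of_stable [CharZero K] {g : ι → MvPolynomial σ K} {c : ι → σ}
    {p : Ideal (MvPolynomial σ K)} (hp : p.IsPrime) (hd : Dn p) (hg : ∀ i, g i ∈ p)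
    (hJ : Jac g c ∉ p) {I : Ideal (MvPolynomial σ K)} (hI : I ≤ p)
    (hst : ∀ k, ∀ f ∈ I, Xv g c k f ∈ I) : I ≤ Br (Set.range g) p := by
  obtain ⟨π, hπ, hJ'⟩ := hd _ hJ
  intro f hf
  rw [Br_eq_pt hp hg hπ hJ', mem_Br_iff_wd (fun i => hπ (hg i)) hJ']
  intro w
  refine hπ (hI (?_ : wd g c w f ∈ I))
  induction w with
  | nil => exact hf
  | cons k w ih => exact hst k _ ih

theorem notMem_Br {g : ι → MvPolynomial σ K} {p : Ideal (MvPolynomial σ K)} (hp : p.IsPrime)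
    (hg : ∀ i, g i ∈ p) (hs : Sm g p) (A : Set ι) {i : ι} (hi : i ∉ A) :
    g i ∉ Br (g '' A) p := by
  obtain ⟨c, hc⟩ := exists_jac_of_sm hp hs
  have h0 : Ideal.span (g '' A) ≤ p := Ideal.span_le.2 (by
    rintro f ⟨j, -, rfl⟩
    exact hg j)
  have h1 : ∀ f ∈ Ideal.span (g '' A), Nv g c i f ∈ p := by
    intro f hf
    induction hf using Submodule.span_induction with
    | mem x hx =>
      obtain ⟨j, hj, rfl⟩ := hx
      rw [Nv_g, if_neg (fun h => hi (by rw [h]; exact hj))]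
      exact p.zero_mem
    | zero => simp
    | add x y _ _ hx hy => rw [map_add]; exact Ideal.add_mem _ hx hy
    | smul a x hx' hx =>
      rw [smul_eq_mul, Derivation.leibniz, smul_eq_mul, smul_eq_mul]
      exact Ideal.add_mem _ (Ideal.mul_mem_left _ _ hx) (Ideal.mul_mem_right _ _ (h0 hx'))
  intro h
  obtain ⟨s, hs', hsf⟩ := (mem_Br hp).1 h
  have h2 := h1 _ hsf
  rw [Derivation.leibniz, smul_eq_mul, smul_eq_mul, Nv_g, if_pos rfl] at h2
  have h3 : s * Jac g c ∈ p := (Ideal.add_mem_iff_left _ (Ideal.mul_mem_right _ _ (hg i))).1 h2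
  exact (hp.mem_or_mem h3).elim hs' hc

theorem Br_full {g : ι → MvPolynomial σ K} {c : ι → σ} {π : σ → K}
    (hg : ∀ i, aeval π (g i) = 0) (hJ : aeval π (Jac g c) ≠ 0)
    (hcard : Fintype.card ι = Fintype.card σ) : Br (Set.range g) (kr K π) = kr K π := by
  classical
  have hc := compl_free (inj_of_jac (g := g) (c := c) fun h => hJ (by rw [h, map_zero]))
  obtain ⟨θ, hθ⟩ := exists_tay hc hg hJ
  have h0 := hc.card_add
  have hE : IsEmpty {k // k ∉ Set.range c} := Fintype.card_eq_zero_iff.1 (by omega)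
  rw [← hθ.ker_eq hc hJ]
  ext f
  rw [RingHom.mem_ker, mem_kr, ← hθ.const f]
  constructor
  · intro h
    rw [h, map_zero]
  · intro h
    ext n
    rw [Subsingleton.elim n 0, MvPowerSeries.coeff_zero_eq_constantCoeff_apply, h, map_zero]

end

end Vale.Agent.P054
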