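import Vale.Agent.P054.LiftPerp
import Vale.Agent.P054.BrP

namespace Vale.Agent.P054

open MvPolynomial

noncomputable section

variable {K : Type} [Field K] [CharZero K] {ε : Type} [Fintype ε] [LinearOrder ε]

omit [CharZero K] in
theorem a2_ne {i0 i1 : ε} {f : MvPolynomial (Pr ε) K} {I : Ideal (MvPolynomial (Pr ε) K)}
    (h : Dd i1 i0 f ∉ I) : i1 ≠ i0 := by
  rintro rfl
  apply h
  rw [Dd_apply, sk_self]
  exact I.zero_mem

omit [CharZero K] [Fintype ε] in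
theorem a2_ren {A : Type} [CommRing A] [Algebra K A] (θ : MvPolynomial (Pr ε) K →ₐ[K] A) (W : A)
    (f : MvPolynomial (Pr ε) K) :
    aeval (fun o : Option (Pr ε) => o.elim W (fun p => θ (X p))) (rename some f) = θ f := by
  rw [aeval_rename]
  conv_rhs => rw [MvPolynomial.aeval_unique θ]
  rfl

omit [CharZero K] [Fintype ε] in
theorem a2_ren' (w : K) (M : Pr ε → K) (f : MvPolynomial (Pr ε) K) :
    aeval (fun o : Option (Pr ε) => o.elim w M) (rename some f) = aeval M f := by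
  rw [aeval_rename]
  rfl

/-- value of the pencil at a point of the lifted flat -/
theorem a2_xi {i0 : ε} (i1 : ε) {η : ε ⊕ ε → K} (h : Nrm i0 η) {f : MvPolynomial (Pr ε) K}
    (hf : f ∈ IL η) {M : Pr ε → K} (hM : M ∈ Fl η) (b : ε ⊕ ε) :
    aeval (fun o : Option (Pr ε) => o.elim (η (Sum.inl i1)) M) (xi i0 i1 f b) =
      η b * aeval M (Dd i1 i0 f) := by
  have h1 := mem_IH.1 (xi_sub_mem i1 h hf b) M hM
  rw [map_sub, map_mul, aeval_C, om, a2_ren', sub_eq_zero] at h1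
  exact h1

omit [CharZero K] [LinearOrder ε] in
theorem a2_bil_mul (u v : ε ⊕ ε → K) (t : K) : bil u (fun b => v b * t) = bil u v * t := by
  simp only [bil, Finset.sum_mul]
  exact Finset.sum_congr rfl fun i _ => by ring

omit [CharZero K] in
theorem a2_map_bil {A : Type} [CommRing A] [Algebra K A]
    (θ : MvPolynomial (Option (Pr ε)) K →ₐ[K] A) (v : ε ⊕ ε → K)
    (ξ : ε ⊕ ε → MvPolynomial (Option (Pr ε)) K) :
    θ (bil (fun b => C (v b)) ξ) =
      ∑ i, (v (Sum.inl i) • θ (ξ (Sum.inr i)) + v (Sum.inr i) • θ (ξ (Sum.inl i))) := by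
  simp only [bil, map_sum, map_add]
  refine Finset.sum_congr rfl fun i _ => ?_
  rw [mul_comm (ξ (Sum.inl i)), ← smul_eq_C_mul, ← smul_eq_C_mul, map_smul, map_smul]

omit [CharZero K] in
theorem a2_zero {ρ : Type} (θ : MvPolynomial (Option (Pr ε)) K →ₐ[K] MvPowerSeries ρ K)
    (v : ε ⊕ ε → K) (ξ : ε ⊕ ε → MvPolynomial (Option (Pr ε)) K)
    (h : ∀ n, bil (fun b => MvPowerSeries.coeff n (θ (ξ b))) v = 0) :
    θ (bil (fun b => C (v b)) ξ) = 0 := by
  ext n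
  have := h n
  rw [a2_map_bil, map_sum, map_zero, ← this, bil]
  refine Finset.sum_congr rfl fun i _ => ?_
  simp only [map_add, map_smul, smul_eq_mul]
  ring

/-- the lifted Taylor map at a point of a flat -/
theorem a2_lift {i0 i1 : ε} {ι ρ : Type} [Fintype ι] [DecidableEq ι] [Fintype ρ]
    {g : ι → MvPolynomial (Pr ε) K} {c : ι → Pr ε} {e : ρ → Pr ε} (hc : Compl c e)
    {η : ε ⊕ ε → K} (h : Nrm i0 η) (hg : ∀ i, g i ∈ IL η) {M : Pr ε → K} (hM : M ∈ Fl η)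
    (hJ : aeval M (Jac g c) ≠ 0) {θ : MvPolynomial (Pr ε) K →ₐ[K] MvPowerSeries ρ K}
    (hθ : Tay g e M θ) {Φ : MvPolynomial (Option (Pr ε)) K} (hΦ : Φ ∈ IH i1 η)
    (hd : aeval (fun o : Option (Pr ε) => o.elim (η (Sum.inl i1)) M) (pderiv none Φ) ≠ 0) :
    ∃ W : MvPowerSeries ρ K, MvPowerSeries.constantCoeff W = η (Sum.inl i1) ∧
      Tay (lift1 g Φ) (fun k => some (e k)) (fun o : Option (Pr ε) => o.elim (η (Sum.inl i1)) M)
        (aeval (fun o : Option (Pr ε) => o.elim W (fun p => θ (X p)))) ∧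
      RingHom.ker (aeval (fun o : Option (Pr ε) => o.elim W (fun p => θ (X p))) :
        MvPolynomial (Option (Pr ε)) K →ₐ[K] MvPowerSeries ρ K) =
        Br (Set.range (lift1 g Φ)) (IH i1 η) := by
  classical
  obtain ⟨W, hW, hW0⟩ := extend_root θ hθ.const Φ _ (mem_IH.1 hΦ M hM) hd
  have hT := hθ.lift Φ _ W hW hW0
  have hJ' : aeval (fun o : Option (Pr ε) => o.elim (η (Sum.inl i1)) M)
      (Jac (lift1 g Φ) (Option.map c)) ≠ 0 := by
    rw [jac_lift1, map_mul, a2_ren']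
    exact mul_ne_zero hd hJ
  refine ⟨W, hW, hT, ?_⟩
  rw [hT.ker_eq hc.lift hJ', Br_eq_pt (IH_isPrime i1 h) ?_ (IH_le_kr hM) hJ']
  rintro (_ | i)
  · exact hΦ
  · exact rename_mem_IH.2 (hg i)

omit [CharZero K] [Fintype ε] in
theorem a2_kill {ρ : Type} {θ : MvPolynomial (Option (Pr ε)) K →ₐ[K] MvPowerSeries ρ K}
    {a f Φ u : MvPolynomial (Option (Pr ε)) K} (ha : MvPowerSeries.constantCoeff (θ a) ≠ 0)
    (hf : θ f = 0) (hΦ : θ Φ = 0) (hu : a * u ∈ Ideal.span {f, Φ}) : θ u = 0 := by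
  obtain ⟨s, t, hst⟩ := Ideal.mem_span_pair.1 hu
  have h1 : θ a * θ u = 0 := by
    rw [← map_mul, ← hst, map_add, map_mul, map_mul, hf, hΦ, mul_zero, mul_zero, add_zero]
  refine (mul_eq_zero.1 h1).resolve_left fun h0 => ha ?_
  rw [h0, map_zero]

omit [CharZero K] in
theorem a2_pt {η η' : ε ⊕ ε → K} {q : MvPolynomial (Pr ε) K} (h : q ∉ IL2 η η') :
    ∃ M, M ∈ Fl η ∧ M ∈ Fl η' ∧ aeval M q ≠ 0 := by
  by_contra hn
  refine h (mem_vI.2 fun M hM => ?_)
  by_contra h0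
  exact hn ⟨M, hM.1, hM.2, h0⟩

/-- a doubly ruled hypersurface has all neighbours of a flat in two small subspaces. -/
theorem caseII {i0 i1 : ε} {𝓒 : Finset (ε ⊕ ε → K)} {E : ℕ} (hne : 𝓒.Nonempty)
    (hN : ∀ η ∈ 𝓒, Nrm i0 η) (hC : Core i0 𝓒 E) {f a : MvPolynomial (Pr ε) K}
    (hf : ∀ η ∈ 𝓒, f ∈ IL η) (hdeg : (Dd i1 i0 f * a).totalDegree ≤ E)
    (hs : ∀ η ∈ 𝓒, Dd i1 i0 f * a ∉ IL η)
    (Φ : (ε ⊕ ε → K) → MvPolynomial (Option (Pr ε)) K) (hΦ : ∀ η ∈ 𝓒, Φ η ∈ IH i1 η)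
    (hsimple : ∀ η ∈ 𝓒, ∀ η' ∈ 𝓒, η (Sum.inl i1) ≠ η' (Sum.inl i1) → ∀ M, M ∈ Fl η → M ∈ Fl η' →
      aeval M a ≠ 0 →
      aeval (fun o : Option (Pr ε) => o.elim (η (Sum.inl i1)) M) (pderiv none (Φ η)) ≠ 0)
    (hP : ∀ j k, Pl i0 i1 f j k ∈ Ideal.span {f})
    (hV : ∀ η ∈ 𝓒, ∀ j k,
      rename some a * Vv i0 i1 f j k (Φ η) ∈ Ideal.span {rename some f, Φ η})
    (hT : ∀ η ∈ 𝓒, ∀ j k r, rename some a * Th i0 i1 f j k r ∈ Ideal.span {rename some f, Φ η}) :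
    False := by
  classical
  obtain ⟨η, hη⟩ := hne
  have hκ : Dd i1 i0 f ∉ IL η := fun h => hs η hη (Ideal.mul_mem_right _ _ h)
  have h10 := a2_ne hκ
  obtain ⟨p, hp1, hp2⟩ := exists_pderiv_of_Dd (I := IL η) (f := f) i1 i0 h10
  let g : Unit → MvPolynomial (Pr ε) K := fun _ => f
  let c : Unit → Pr ε := fun _ => p
  have hc := compl_free (c := c) fun _ _ _ => rfl
  have hJ : ∀ M : Pr ε → K, aeval M (Dd i1 i0 f * a) ≠ 0 → aeval M (Jac g c) ≠ 0 ∧
      aeval M (Dd i1 i0 f) ≠ 0 ∧ aeval M a ≠ 0 := by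
    intro M hM
    rw [map_mul, mul_ne_zero_iff] at hM
    rw [jac_unique]
    exact ⟨fun h => hM.1 ((hp2 M).1 h), hM.1, hM.2⟩
  have hb : Module.finrank K (⊥ : Submodule K (ε ⊕ ε → K)) ≤ Fintype.card ε := by simp
  obtain ⟨η1, hη1, -, hn1, -, -, hq1⟩ := hC η hη _ hdeg (hs η hη) ⊥ ⊥ hb hb
  obtain ⟨M1, hM1, hM1', hM1q⟩ := a2_pt hq1
  obtain ⟨hJ1, hκ1, ha1⟩ := hJ M1 hM1q
  obtain ⟨θ1, hθ1⟩ := exists_tay (g := g) hc (fun _ => IL_le_kr hM1 (hf η hη)) hJ1
  obtain ⟨W1, -, -, hk1⟩ := a2_lift hc (hN η hη) (fun _ => hf η hη) hM1 hJ1 hθ1 (hΦ η hη)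
    (hsimple η hη η1 hη1 (hn1 i1 h10) M1 hM1 hM1' ha1)
  obtain ⟨U1, U2, hU1, hU2, hU⟩ := lift_lam (i0 := i0) (i1 := i1) hc hκ1 hθ1 W1 _ rfl
  obtain ⟨η', hη', -, hn, hu1, hu2, hq⟩ := hC η hη _ hdeg (hs η hη) U1 U2 hU1 hU2
  obtain ⟨M, hM, hM', hMq⟩ := a2_pt hq
  obtain ⟨hJ0, hκ0, ha0⟩ := hJ M hMq
  obtain ⟨θ, hθ⟩ := exists_tay (g := g) hc (fun _ => IL_le_kr hM (hf η hη)) hJ0
  have hd := hsimple η hη η' hη' (hn i1 h10) M hM hM' ha0
  have hd' := hsimple η' hη' η hη (hn i1 h10).symm M hM' hM ha0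
  obtain ⟨W, hW, hT0, hk⟩ := a2_lift hc (hN η hη) (fun _ => hf η hη) hM hJ0 hθ (hΦ η hη) hd
  obtain ⟨W', hW', hT1, -⟩ :=
    a2_lift hc (hN η' hη') (fun _ => hf η' hη') hM' hJ0 hθ (hΦ η' hη') hd'
  have hA0 := hT0.const (rename some a)
  have hA1 := hT1.const (rename some a)
  rw [a2_ren'] at hA0 hA1
  rw [← hA0] at ha0
  have ha0' := ha0
  rw [hA0, ← hA1] at ha0'
  have key := fun n => lift_perp (i0 := i0) (i1 := i1) hc hJ0 hκ0 hθ ![W, W'] ![Φ η, Φ η']
    ![aeval (fun o : Option (Pr ε) => o.elim W (fun p => θ (X p))),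
      aeval (fun o : Option (Pr ε) => o.elim W' (fun p => θ (X p)))]
    (Fin.forall_fin_two.2 ⟨rfl, rfl⟩)
    (by
      change MvPowerSeries.constantCoeff W ≠ MvPowerSeries.constantCoeff W'
      rw [hW, hW']
      exact hn i1 h10)
    (Fin.forall_fin_two.2 ⟨hT0.kill none, hT1.kill none⟩)
    (Fin.forall_fin_two.2 ⟨fun h => hd ((hT0.const _).symm.trans h),
      fun h => hd' ((hT1.const _).symm.trans h)⟩)
    (Fin.forall_fin_two.2
      ⟨fun j k => a2_kill ha0 (hT0.kill (some ())) (hT0.kill none) (hV η hη j k),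
      fun j k => a2_kill ha0' (hT1.kill (some ())) (hT1.kill none) (hV η' hη' j k)⟩)
    (fun j k => by
      obtain ⟨s, hs⟩ := Ideal.mem_span_singleton'.1 (hP j k)
      have h0 : θ f = 0 := hθ.kill ()
      change θ (Pl i0 i1 f j k) = 0
      rw [← hs, map_mul, h0, mul_zero])
    (Fin.forall_fin_two.2
      ⟨fun j k r => a2_kill ha0 (hT0.kill (some ())) (hT0.kill none) (hT η hη j k r),
      fun j k r => a2_kill ha0' (hT1.kill (some ())) (hT1.kill none) (hT η' hη' j k r)⟩) n 0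
  have hz : aeval (fun o : Option (Pr ε) => o.elim W (fun p => θ (X p)))
      (bil (fun b => C (η' b)) (xi i0 i1 f)) = 0 := by
    refine a2_zero _ _ _ fun n => ?_
    have h1 := key n
    have e : (fun b => MvPowerSeries.coeff 0 (aeval (fun o : Option (Pr ε) =>
        o.elim W' (fun p => θ (X p))) (xi i0 i1 f b))) =
        fun b => η' b * aeval M (Dd i1 i0 f) := by
      funext b
      rw [MvPowerSeries.coeff_zero_eq_constantCoeff_apply, hT1.const,
        a2_xi i1 (hN η' hη') (hf η' hη') hM']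
    change bil (fun b => MvPowerSeries.coeff n (aeval (fun o : Option (Pr ε) =>
        o.elim W (fun p => θ (X p))) (xi i0 i1 f b))) (fun b => MvPowerSeries.coeff 0
        (aeval (fun o : Option (Pr ε) => o.elim W' (fun p => θ (X p))) (xi i0 i1 f b))) = 0 at h1
    rw [e, a2_bil_mul] at h1
    exact (mul_eq_zero.1 h1).resolve_right hκ0
  have hz1 : bil (fun b => C (η' b)) (xi i0 i1 f) ∈ Br (Set.range (lift1 g (Φ η))) (IH i1 η) := by
    rw [← hk]
    exact hz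
  rw [← hk1] at hz1
  exact (hU η' (hN η' hη').2 hz1).elim hu1 hu2

/-- a hypersurface on which the whole pencil integrates: its flats are mutually incident. -/
theorem typeP_bil {i0 i1 : ε} {ι : Type} [Fintype ι] [DecidableEq ι] [Unique ι]
    {g : ι → MvPolynomial (Pr ε) K} {η η' : ε ⊕ ε → K} (h : Nrm i0 η) (h' : Nrm i0 η')
    (hg : g default ∈ IL η) (hg' : g default ∈ IL η') (hκ : Dd i1 i0 (g default) ∉ IL η)
    (hκ' : Dd i1 i0 (g default) ∉ IL η')
    (hB : Br (Set.range g) (IL η) = Br (Set.range g) (IL η'))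
    (hP : ∀ j k, Pl i0 i1 (g default) j k ∈ Br (Set.range g) (IL η))
    (hT : ∀ j k r n, tc n (Th i0 i1 (g default) j k r) ∈ Br (Set.range g) (IL η)) :
    bil η η' = 0 := by
  classical
  have h10 := a2_ne hκ
  obtain ⟨p, hp1, -⟩ := exists_pderiv_of_Dd (I := IL η) (f := g default) i1 i0 h10
  let c : ι → Pr ε := fun _ => p
  have hc := compl_free (c := c) fun _ _ _ => Subsingleton.elim _ _
  have hgi : ∀ i, g i ∈ IL η := fun i => by rw [Subsingleton.elim i default]; exact hg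
  have hJ : Jac g c ∉ IL η := by
    rw [jac_unique]
    exact fun h0 => hκ (hp1.1 h0)
  obtain ⟨π, θ, hπ, hκπ, hJπ, hθ, hk⟩ :=
    exists_tay_prime hc (IL_isPrime h) (dn_IL η) hgi hJ hκ
  have hπF := mem_Fl_of_le hπ
  rw [← hk] at hP hT
  let T : K → (MvPolynomial (Option (Pr ε)) K →ₐ[K] MvPowerSeries {k // k ∉ Set.range c} K) :=
    fun τ => aeval (fun o : Option (Pr ε) => o.elim (MvPowerSeries.C τ) (fun p => θ (X p)))
  have hTn : ∀ τ, T τ (X none - C τ) = 0 := fun τ => by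
    simp only [T, map_sub, aeval_X, aeval_C, Option.elim]
    exact sub_self _
  have hTd : ∀ τ τ', MvPowerSeries.constantCoeff (T τ (pderiv none (X none - C τ'))) ≠ 0 :=
    fun τ τ' => by simp
  have hTV : ∀ τ τ' j k, T τ (Vv i0 i1 (g default) j k (X none - C τ')) = 0 := fun τ τ' j k => by
    rw [map_sub, Vv_none, ← algebraMap_eq, Derivation.map_algebraMap, sub_zero, map_zero]
  have hTT : ∀ τ j k r, T τ (Th i0 i1 (g default) j k r) = 0 := fun τ j k r => by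
    rw [eq_sum_tc (Th i0 i1 (g default) j k r) le_rfl, map_sum]
    refine Finset.sum_eq_zero fun n _ => ?_
    have h0 : θ (tc n (Th i0 i1 (g default) j k r)) = 0 := hT j k r n
    rw [map_mul, a2_ren, h0, zero_mul]
  have hTc := (hθ.lift (X none - C (η (Sum.inl i1))) _ _ (MvPowerSeries.constantCoeff_C _)
    (hTn _)).const
  have hz : ∀ τ, τ ≠ η (Sum.inl i1) →
      T τ (bil (fun b => C (η b)) (xi i0 i1 (g default))) = 0 := by
    intro τ hτ
    refine a2_zero _ _ _ fun n => ?_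
    have h1 := lift_perp (i0 := i0) (i1 := i1) hc hJπ hκπ hθ
      ![MvPowerSeries.C τ, MvPowerSeries.C (η (Sum.inl i1))]
      ![X none - C τ, X none - C (η (Sum.inl i1))] ![T τ, T (η (Sum.inl i1))]
      (Fin.forall_fin_two.2 ⟨rfl, rfl⟩) (by simpa using hτ)
      (Fin.forall_fin_two.2 ⟨hTn _, hTn _⟩) (Fin.forall_fin_two.2 ⟨hTd _ _, hTd _ _⟩)
      (Fin.forall_fin_two.2 ⟨hTV _ _, hTV _ _⟩) hP (Fin.forall_fin_two.2 ⟨hTT _, hTT _⟩) n 0
    have e : (fun b => MvPowerSeries.coeff 0 (T (η (Sum.inl i1)) (xi i0 i1 (g default) b))) =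
        fun b => η b * aeval π (Dd i1 i0 (g default)) := by
      funext b
      rw [MvPowerSeries.coeff_zero_eq_constantCoeff_apply, hTc, a2_xi i1 h hg hπF]
    change bil (fun b => MvPowerSeries.coeff n (T τ (xi i0 i1 (g default) b)))
      (fun b => MvPowerSeries.coeff 0 (T (η (Sum.inl i1)) (xi i0 i1 (g default) b))) = 0 at h1
    rw [e, a2_bil_mul] at h1
    exact (mul_eq_zero.1 h1).resolve_right hκπ
  obtain ⟨M, hM, hMκ⟩ := dn_IL η' _ hκ'
  have hle : RingHom.ker θ ≤ kr K M := by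
    rw [hk, hB]
    refine (Br_le (IL_isPrime h') ?_ le_rfl).trans hM
    rintro f ⟨i, rfl⟩
    rw [Subsingleton.elim i default]
    exact hg'
  generalize hP0 : bil (fun b => C (η b)) (xi i0 i1 (g default)) = P at hz
  let Q : Polynomial K :=
    aeval (fun o : Option (Pr ε) => o.elim Polynomial.X (fun p => Polynomial.C (M p))) P
  have hQ : ∀ τ, Q.eval τ = aeval (fun o : Option (Pr ε) => o.elim τ M) P := fun τ => by
    rw [← Polynomial.coe_aeval_eq_eval, ← AlgHom.comp_apply, comp_aeval]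
    congr 2
    funext o
    cases o <;> simp
  have hr : ∀ τ, τ ≠ η (Sum.inl i1) → Q.eval τ = 0 := by
    intro τ hτ
    have h1 : θ (aeval (fun o : Option (Pr ε) =>
        o.elim (C τ : MvPolynomial (Pr ε) K) X) P) = T τ P := by
      rw [← AlgHom.comp_apply, comp_aeval]
      congr 2
      funext o
      cases o
      · exact algHom_C θ τ
      · rfl
    have h2 := mem_kr.1 (hle (h1.trans (hz τ hτ)))
    rw [← AlgHom.comp_apply, comp_aeval] at h2
    rw [hQ, ← h2]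
    congr 2
    funext o
    cases o <;> simp
  have hQ0 : Q = 0 := by
    refine Polynomial.eq_zero_of_infinite_isRoot Q ?_
    refine Set.Infinite.mono (s := {η (Sum.inl i1)}ᶜ) (fun τ hτ => hr τ hτ) ?_
    exact (Set.finite_singleton _).infinite_compl
  have h3 := hQ (η' (Sum.inl i1))
  rw [hQ0, Polynomial.eval_zero, ← hP0, a2_map_bil] at h3
  simp only [a2_xi i1 h' hg' (mem_Fl_of_le hM), smul_eq_mul] at h3
  have h4 : bil η η' * aeval M (Dd i1 i0 (g default)) = 0 := by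
    rw [h3, bil, Finset.sum_mul]
    exact Finset.sum_congr rfl fun i _ => by ring
  exact (mul_eq_zero.1 h4).resolve_right hMκ

end

end Vale.Agent.P054
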