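import Vale.Agent.P054.ThmA1
import Vale.Agent.P054.ThmA2

namespace Vale.Agent.P054

open MvPolynomial

noncomputable section

section aux

variable {K : Type} [Field K]

theorem thmA_exists_pderiv [CharZero K] {σ : Type} {f : MvPolynomial σ K}
    (h : f ≠ C (coeff 0 f)) : ∃ p, pderiv p f ≠ 0 := by
  classical
  by_contra hc
  simp only [not_exists, not_not] at hc
  apply h
  ext d
  rw [coeff_C]
  split_ifs with hd
  · rw [hd]
  · obtain ⟨i, hi⟩ : ∃ i, d i ≠ 0 := by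
      by_contra h0
      simp only [not_exists, not_not] at h0
      exact hd (Finsupp.ext fun i => (h0 i).symm)
    have h1 := congrArg (coeff (d - Finsupp.single i 1)) (hc i)
    rw [coeff_pderiv, coeff_zero, tsub_add_cancel_of_le
      (Finsupp.single_le_iff.2 (Nat.one_le_iff_ne_zero.2 hi))] at h1
    exact (mul_eq_zero.1 h1).resolve_right (Nat.cast_add_one_ne_zero _)

theorem thmA_prime_factor {σ : Type} {I : Ideal (MvPolynomial σ K)} (hI : I.IsPrime)
    {f : MvPolynomial σ K} (h0 : f ≠ 0) (hf : f ∈ I) :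
    ∃ f0 h, Prime f0 ∧ f0 ∈ I ∧ f = f0 * h := by
  obtain ⟨u, hu⟩ := (UniqueFactorizationMonoid.factors_prod h0).symm
  have h1 : (UniqueFactorizationMonoid.factors f).prod ∈ I := hu ▸ I.mul_mem_right _ hf
  obtain ⟨f0, hf0, hm⟩ := (hI.multiset_prod_mem_iff_exists_mem _).1 h1
  obtain ⟨h, hh⟩ := UniqueFactorizationMonoid.dvd_of_mem_factors hf0
  exact ⟨f0, h, UniqueFactorizationMonoid.prime_of_factor _ hf0, hm, hh⟩

theorem thmA_pderiv_none {σ : Type} (g : MvPolynomial σ K) :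
    pderiv none (rename some g : MvPolynomial (Option σ) K) = 0 := by
  induction g using MvPolynomial.induction_on with
  | C a => simp
  | add p q hp hq => simp [hp, hq]
  | mul_X p i hp => simp [hp]

theorem thmA_expand {σ : Type} (Φ : MvPolynomial (Option σ) K) (hΦ : degreeOf none Φ ≤ 2) :
    Φ = rename some (tc 2 Φ) * X none ^ 2 +
      (rename some (tc 1 Φ) * X none + rename some (tc 0 Φ)) := by
  have h := eq_sum_tc Φ hΦ
  simp only [Finset.sum_range_succ, Finset.range_zero, Finset.sum_empty] at h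
  linear_combination h

theorem thmA_simple {σ : Type} (Φ : MvPolynomial (Option σ) K) (hΦ : degreeOf none Φ ≤ 2)
    {τ τ' : K} (hτ : τ ≠ τ') (M : σ → K) (ha : aeval M (tc 2 Φ) ≠ 0)
    (h1 : aeval (fun o : Option σ => o.elim τ M) Φ = 0)
    (h2 : aeval (fun o : Option σ => o.elim τ' M) Φ = 0) :
    aeval (fun o : Option σ => o.elim τ M) (pderiv none Φ) ≠ 0 := by
  have e := thmA_expand Φ hΦ
  generalize tc 2 Φ = c2 at e ha
  generalize tc 1 Φ = c1 at e
  generalize tc 0 Φ = c0 at e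
  subst e
  have hr : ∀ (t : K) (g : MvPolynomial σ K),
      aeval (fun o : Option σ => o.elim t M) (rename some g) = aeval M g := by
    intro t g
    rw [aeval_rename]
    rfl
  simp only [map_add, map_mul, map_pow, hr, aeval_X, Option.elim_none] at h1 h2
  have hd : pderiv none (rename some c2 * X none ^ 2 + (rename some c1 * X none + rename some c0) :
      MvPolynomial (Option σ) K) = rename some c2 * (X none + X none) + rename some c1 := by
    simp [thmA_pderiv_none, sq]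
  rw [hd]
  simp only [map_add, map_mul, hr, aeval_X, Option.elim_none]
  intro h3
  have h4 : aeval M c2 * ((τ - τ') * (τ - τ')) = 0 := by
    linear_combination h2 - h1 + (τ - τ') * h3
  have h5 := sub_ne_zero.2 hτ
  exact mul_ne_zero ha (mul_ne_zero h5 h5) h4

theorem thmA_rename_span {σ : Type} {f g : MvPolynomial σ K} (h : g ∈ Ideal.span {f})
    (Φ : MvPolynomial (Option σ) K) :
    (rename some g : MvPolynomial (Option σ) K) ∈ Ideal.span {rename some f, Φ} := by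
  obtain ⟨c, rfl⟩ := Ideal.mem_span_singleton'.1 h
  rw [map_mul]
  exact Ideal.mul_mem_left _ _ (Ideal.subset_span (Set.mem_insert _ _))

variable [CharZero K] {ε : Type} [Fintype ε] [LinearOrder ε]

/-- the main step for a prime equation whose derivative does not vanish on the flats. -/
theorem thmA_core {i0 i1 : ε} (hi : i1 ≠ i0) {𝓒 : Finset (ε ⊕ ε → K)} {D E B : ℕ} (hD : 1 ≤ D)
    (hB : 17 * D ≤ B) (hE : B + 5 * D ≤ E) (hne : 𝓒.Nonempty) (hN : ∀ η ∈ 𝓒, Nrm i0 η)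
    (hC : Core i0 𝓒 E) {f : MvPolynomial (Pr ε) K} (hf : ∀ η ∈ 𝓒, f ∈ IL η)
    (hdeg : f.totalDegree ≤ D) (hκ : ∀ η ∈ 𝓒, Dd i1 i0 f ∉ IL η)
    (H : ∀ 𝓒' : Finset (ε ⊕ ε → K), 𝓒' ⊆ 𝓒 → 𝓒'.Nonempty → Core i0 𝓒' B →
      ∀ g : MvPolynomial (Pr ε) K, g.totalDegree ≤ 17 * D → (∀ η ∈ 𝓒', g ∈ IL η) →
        g ∈ Ideal.span {f}) : False := by
  classical
  have hCB : Core i0 𝓒 B := hC.mono (by omega)
  have hκd : (Dd i1 i0 f).totalDegree ≤ D := (totalDegree_Dd _ _ _).trans hdeg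
  have hP : ∀ j k, Pl i0 i1 f j k ∈ Ideal.span {f} := fun j k =>
    H 𝓒 subset_rfl hne hCB _ ((totalDegree_Pl _ _ _ _ _).trans (by omega))
      fun η hη => Pl_mem_IL i1 (hN η hη) (hf η hη) j k
  have hTd : ∀ j k r, (Th i0 i1 f j k r).totalDegree ≤ 3 * D + 2 := fun j k r =>
    (totalDegree_Th _ _ _ _ _ _).trans (by omega)
  by_cases hall : ∀ j k r, tc 2 (Th i0 i1 f j k r) ∈ Ideal.span {f}
  · have hall' : ∀ j k r, tc 1 (Th i0 i1 f j k r) ∈ Ideal.span {f} ∧
        tc 0 (Th i0 i1 f j k r) ∈ Ideal.span {f} := by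
      intro j k r
      have d1 := (totalDegree_tc 1 _).trans (hTd j k r)
      have d0 := (totalDegree_tc 0 _).trans (hTd j k r)
      have hl := hC.lin hi (r1 := tc 1 (Th i0 i1 f j k r)) (r0 := tc 0 (Th i0 i1 f j k r))
        (by omega) (by omega) (by
          intro η hη
          have h2 : tc 2 (Th i0 i1 f j k r) ∈ IL η :=
            (Ideal.span_singleton_le_iff_mem _).2 (hf η hη) (hall j k r)
          have h3 := Th_mem_IH i1 (hN η hη) (hf η hη) j k r
          rw [thmA_expand _ (degreeOf_Th i0 i1 f j k r)] at h3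
          exact (Ideal.add_mem_iff_right _
            (Ideal.mul_mem_right _ _ (rename_mem_IH.2 h2))).1 h3)
      exact ⟨H 𝓒 subset_rfl hne hCB _ (by omega) fun η hη => (hl η hη).1,
        H 𝓒 subset_rfl hne hCB _ (by omega) fun η hη => (hl η hη).2⟩
    refine caseII (i1 := i1) (a := 1) hne hN hC hf (by rw [mul_one]; omega)
      (by simpa using hκ) (fun η => X none - C (η (Sum.inl i1))) ?_ ?_ hP ?_ ?_
    · intro η _
      rw [mem_IH]
      intro M _
      simp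
    · intro η _ η' _ _ M _ _ _
      simp
    · intro η _ j k
      rw [map_sub, Vv_none, derivation_C, sub_zero, mul_zero]
      exact Ideal.zero_mem _
    · intro η _ j k r
      rw [map_one, one_mul, thmA_expand _ (degreeOf_Th i0 i1 f j k r)]
      exact Ideal.add_mem _ (Ideal.mul_mem_right _ _ (thmA_rename_span (hall j k r) _))
        (Ideal.add_mem _ (Ideal.mul_mem_right _ _ (thmA_rename_span (hall' j k r).1 _))
          (thmA_rename_span (hall' j k r).2 _))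
  · simp only [not_forall] at hall
    obtain ⟨j0, k0, r0, hn⟩ := hall
    have hΦd := hTd j0 k0 r0
    have hΦ2 := degreeOf_Th i0 i1 f j0 k0 r0
    have hΦI : ∀ η ∈ 𝓒, Th i0 i1 f j0 k0 r0 ∈ IH i1 η := fun η hη =>
      Th_mem_IH i1 (hN η hη) (hf η hη) j0 k0 r0
    generalize Th i0 i1 f j0 k0 r0 = Φ at hn hΦd hΦ2 hΦI
    have had := (totalDegree_tc 2 Φ).trans hΦd
    have hsub : (𝓒.filter fun η => tc 2 Φ ∉ IL η) ⊆ 𝓒 := Finset.filter_subset _ _
    have hne3 : (𝓒.filter fun η => tc 2 Φ ∉ IL η).Nonempty := by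
      by_contra h0
      refine hn (H 𝓒 subset_rfl hne hCB _ (by omega) fun η hη => ?_)
      by_contra h1
      exact h0 ⟨η, Finset.mem_filter.2 ⟨hη, h1⟩⟩
    have hC3 : Core i0 (𝓒.filter fun η => tc 2 Φ ∉ IL η) B :=
      (hC.sub hN hsub (s := tc 2 Φ) (e1 := 5 * D) (by omega) (by omega)
        (fun η hη => (Finset.mem_filter.1 hη).2)
        (fun η _ η' hη' hs => Finset.mem_filter.2 ⟨hη', fun h => hs (IL_le_IL2' η η' h)⟩)).mono
        (by omega)
    have hnot : ∀ η ∈ 𝓒.filter fun η => tc 2 Φ ∉ IL η, tc 2 Φ ∉ IL η := fun η hη =>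
      (Finset.mem_filter.1 hη).2
    generalize (𝓒.filter fun η => tc 2 Φ ∉ IL η) = 𝓒3 at hsub hne3 hC3 hnot
    have hdiv : ∀ Ψ : MvPolynomial (Option (Pr ε)) K, degreeOf none Ψ ≤ 3 →
        Ψ.totalDegree ≤ 4 * D + 3 → (∀ η ∈ 𝓒, Ψ ∈ IH i1 η) →
        rename some (tc 2 Φ ^ 2) * Ψ ∈ Ideal.span {rename some f, Φ} := by
      intro Ψ h3 hd hI
      obtain ⟨Q, r1, r0, he, d1, d0⟩ := pseudo_div Φ Ψ hΦ2 h3
      have hl := hC3.lin hi (r1 := r1) (r0 := r0) (by omega) (by omega) (by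
        intro η hη
        have h4 : rename some (tc 2 Φ ^ 2) * Ψ ∈ IH i1 η :=
          Ideal.mul_mem_left _ _ (hI η (hsub hη))
        rw [he] at h4
        exact (Ideal.add_mem_iff_right _ (Ideal.mul_mem_left _ _ (hΦI η (hsub hη)))).1 h4)
      have m1 := H 𝓒3 hsub hne3 hC3 r1 (by omega) fun η hη => (hl η hη).1
      have m0 := H 𝓒3 hsub hne3 hC3 r0 (by omega) fun η hη => (hl η hη).2
      rw [he]
      exact Ideal.add_mem _
        (Ideal.mul_mem_left _ _ (Ideal.subset_span (Set.mem_insert_of_mem _ rfl)))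
        (Ideal.add_mem _ (Ideal.mul_mem_right _ _ (thmA_rename_span m1 _))
          (thmA_rename_span m0 _))
    refine caseII (i1 := i1) (a := tc 2 Φ ^ 2) hne3 (fun η hη => hN η (hsub hη)) hC3
      (fun η hη => hf η (hsub hη)) ?_ ?_ (fun _ => Φ) (fun η hη => hΦI η (hsub hη)) ?_ hP ?_ ?_
    · have h1 := totalDegree_mul (Dd i1 i0 f) (tc 2 Φ ^ 2)
      have h2 := totalDegree_pow (tc 2 Φ) 2
      omega
    · intro η hη h
      have hp := IL_isPrime (hN η (hsub hη))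
      rcases hp.mem_or_mem h with h | h
      · exact hκ η (hsub hη) h
      · exact hnot η hη (hp.mem_of_pow_mem 2 h)
    · intro η hη η' hη' hτ M hM hM' ha
      refine thmA_simple Φ hΦ2 hτ M (fun h => ha ?_) (mem_IH.1 (hΦI η (hsub hη)) M hM)
        (mem_IH.1 (hΦI η' (hsub hη')) M hM')
      rw [map_pow, h]
      exact zero_pow two_ne_zero
    · intro η _ j k
      have h1 := degreeOf_Vv i0 i1 f j k Φ
      have h2 := totalDegree_Vv i0 i1 f j k Φ
      exact hdiv _ (by omega) (by omega) fun η hη =>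
        Vv_mem_IH i1 (hN η hη) (hf η hη) j k (hΦI η hη)
    · intro η _ j k r
      have h1 := degreeOf_Th i0 i1 f j k r
      have h2 := hTd j k r
      exact hdiv _ (by omega) (by omega) fun η hη => Th_mem_IH i1 (hN η hη) (hf η hη) j k r

end aux

/-- Theorem A: a family of flats with many neighbours lies on no hypersurface of low degree. -/
theorem thmA (e : ℕ) (he : 3 ≤ e) : ∃ C : ℕ, ∀ (K : Type) [Field K] [CharZero K] (ε : Type)
    [Fintype ε] [LinearOrder ε] (i0 : ε) (𝓒 : Finset (ε ⊕ ε → K)) (D E : ℕ)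
    (f : MvPolynomial (Pr ε) K), Fintype.card ε = e → 𝓒.Nonempty → (∀ η ∈ 𝓒, Nrm i0 η) →
    f ≠ 0 → (∀ η ∈ 𝓒, f ∈ IL η) → f.totalDegree ≤ D → C * D ≤ E → ¬ Core i0 𝓒 E := by
  obtain ⟨T, hT⟩ := caseI e 17 he (by norm_num)
  refine ⟨23 + T, ?_⟩
  intro K _ _ ε _ _ i0 𝓒 D E f hε
  induction D using Nat.strong_induction_on generalizing 𝓒 E f with
  | _ D ih =>
  classical
  intro hne hN h0 hf hdeg hE hC
  have hnc : f ≠ MvPolynomial.C (coeff 0 f) := by
    intro h
    obtain ⟨η, hη⟩ := hne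
    have hc : coeff 0 f ≠ 0 := fun hc => h0 (by rw [h, hc, map_zero])
    refine (IL_isPrime (hN η hη)).ne_top (Ideal.eq_top_of_isUnit_mem _ (hf η hη) ?_)
    rw [h]
    exact (Ne.isUnit hc).map MvPolynomial.C
  obtain ⟨p, hp⟩ := thmA_exists_pderiv hnc
  have hpd : (pderiv p f).totalDegree < f.totalDegree := by
    have e1 : Dd p.1.1 p.1.2 f = pderiv p f := by rw [Dd_apply, sk_of_lt (fun p => pderiv p f) p]
    have := totalDegree_Dd_lt p.1.1 p.1.2 f (e1 ▸ hp)
    rwa [e1] at this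
  have hD : 1 ≤ D := by omega
  by_cases hall : ∀ η ∈ 𝓒, pderiv p f ∈ IL η
  · refine ih (D - 1) (by omega) 𝓒 E _ hne hN hp hall (by omega) ?_ hC
    exact (Nat.mul_le_mul_left _ (Nat.sub_le D 1)).trans hE
  simp only [not_forall] at hall
  obtain ⟨η0, hη0, hn⟩ := hall
  obtain ⟨i1, hi, hκ0⟩ := exists_kappa (hN η0 hη0) (hf η0 hη0) hn
  obtain ⟨f0, h, hpr, hm, hfh⟩ := thmA_prime_factor (IL_isPrime (hN η0 hη0)) h0 (hf η0 hη0)
  have hd0 : f0.totalDegree ≤ D :=
    (totalDegree_le_of_dvd_of_isDomain ⟨h, hfh⟩ h0).trans hdeg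
  have hκ : Dd i1 i0 f = f0 * Dd i1 i0 h + h * Dd i1 i0 f0 := by
    rw [hfh, Derivation.leibniz, smul_eq_mul, smul_eq_mul]
  have hE' : 23 * D + T * D ≤ E := by rwa [add_mul] at hE
  have hsub : (𝓒.filter fun η => Dd i1 i0 f ∉ IL η ∧ f0 ∈ IL η) ⊆ 𝓒 := Finset.filter_subset _ _
  have hne2 : (𝓒.filter fun η => Dd i1 i0 f ∉ IL η ∧ f0 ∈ IL η).Nonempty :=
    ⟨η0, Finset.mem_filter.2 ⟨hη0, hκ0, hm⟩⟩
  have hC2 : Core i0 (𝓒.filter fun η => Dd i1 i0 f ∉ IL η ∧ f0 ∈ IL η) (E - D) := by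
    refine hC.sub hN hsub (s := Dd i1 i0 f) ((totalDegree_Dd _ _ _).trans hdeg) (by omega)
      (fun η hη => (Finset.mem_filter.1 hη).2.1) fun η hη η' hη' hs => ?_
    refine Finset.mem_filter.2 ⟨hη', fun h => hs (IL_le_IL2' η η' h), ?_⟩
    refine ((IL_isPrime (hN η' hη')).mem_or_mem (hfh ▸ hf η' hη')).resolve_right fun hh => hs ?_
    rw [hκ]
    exact Ideal.add_mem _
      (Ideal.mul_mem_right _ _ (IL_le_IL2 η η' (Finset.mem_filter.1 hη).2.2))
      (Ideal.mul_mem_right _ _ (IL_le_IL2' η η' hh))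
  have hmem : ∀ η ∈ 𝓒.filter fun η => Dd i1 i0 f ∉ IL η ∧ f0 ∈ IL η,
      f0 ∈ IL η ∧ Dd i1 i0 f0 ∉ IL η := by
    intro η hη
    obtain ⟨_, h1, h2⟩ := Finset.mem_filter.1 hη
    refine ⟨h2, fun h3 => h1 ?_⟩
    rw [hκ]
    exact Ideal.add_mem _ (Ideal.mul_mem_right _ _ h2) (Ideal.mul_mem_left _ _ h3)
  generalize (𝓒.filter fun η => Dd i1 i0 f ∉ IL η ∧ f0 ∈ IL η) = 𝓒2 at hsub hne2 hC2 hmem
  obtain ⟨p0, -, hp0⟩ := exists_pderiv_of_Dd (I := ⊥) (f := f0) i1 i0 hi
  refine thmA_core hi hD (B := 17 * D + T * D) (by omega) (by omega) hne2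
    (fun η hη => hN η (hsub hη)) hC2 (fun η hη => (hmem η hη).1) hd0
    (fun η hη => (hmem η hη).2) ?_
  intro 𝓒' hs' hne' hC' g hg hgI
  by_contra hgn
  obtain ⟨f', h1, h2, h3⟩ := hT K ε i0 𝓒' D (17 * D + T * D) f0 g p0 hε hne'
    (fun η hη => hN η (hsub (hs' hη))) hpr hd0 (fun η hη => (hmem η (hs' hη)).1)
    (fun η hη hc => (hmem η (hs' hη)).2
      (mem_vI.2 fun M hM => (hp0 M).1 (mem_vI.1 hc M hM)))
    hgI hgn hg hC' (by rw [add_mul])
  refine ih f'.totalDegree (by omega) 𝓒' _ f' hne' (fun η hη => hN η (hsub (hs' hη))) h1 h2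
    le_rfl ?_ hC'
  have h4 : T * f'.totalDegree ≤ T * D := Nat.mul_le_mul_left _ (by omega)
  rw [add_mul]
  omega

end

end Vale.Agent.P054
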