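import Vale.Agent.P054.UPart
import Vale.Agent.P054.QPart
import Vale.Agent.P054.Dyad
import Vale.Agent.P054.ThmA

namespace Vale.Agent.P054

open MvPolynomial

noncomputable section

theorem algB_sqd {x : Pt × Pt} {N : Finset (Pt × Pt)} {𝓖 : Finset Mo} {τ l ρ : ℝ} {C0 : ℕ}
    (h : Nb x N 𝓖 τ l ρ C0) {y : Pt × Pt} (hy : y ∈ N) : sqd x.1 y.1 = sqd x.2 y.2 := by
  obtain ⟨g, hg, e⟩ := h.ex y hy
  rw [← e, ← (h.iso g hg).2, iso_sqd (h.iso g hg).1]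

open Classical in
theorem algB_core {𝓒 : Finset (Pt × Pt)} {E : ℕ} {l ρ B τ : ℝ} {C0 : ℕ} (hl : 1 ≤ l)
    (𝓖 : Pt × Pt → Finset Mo) (N : Pt × Pt → Finset (Pt × Pt)) (hN : ∀ x ∈ 𝓒, N x ⊆ 𝓒)
    (hNb : ∀ x ∈ 𝓒, Nb x (N x) (𝓖 x) τ l ρ C0)
    (hq : ∀ x ∈ 𝓒, ∀ (M : Finset (Pt × Pt)) (q : MvPolynomial (Pr (Fin (3 + 1))) ℂ), M ⊆ N x →
      q.totalDegree ≤ E → q ∉ IL (hat x) → (∀ y ∈ M, q ∈ IL2 (hat x) (hat y)) → (M.card : ℝ) ≤ B)
    (hk : ∀ x ∈ 𝓒, B + 4 * ρ + 2 * l * (𝓖 x).card < (N x).card) :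
    Core 0 (𝓒.image hat) E := by
  intro η hη q hqE hqx U1 U2 hU1 hU2
  obtain ⟨x, hx, rfl⟩ := Finset.mem_image.1 hη
  have h := hNb x hx
  by_contra hcon
  have hall : ∀ y ∈ N x, hat y ∈ U1 ∨ hat y ∈ U2 ∨ q ∈ IL2 (hat x) (hat y) := by
    intro y hy
    by_contra! h'
    refine hcon ⟨hat y, Finset.mem_image_of_mem _ (hN x hx hy), ?_, fun j hj => ?_, h'⟩
    · rw [bil_hat, algB_sqd h hy, sub_self, Complex.ofReal_zero]
    · obtain ⟨j, rfl⟩ := Fin.exists_succ_eq.2 hj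
      intro e
      have e' : ((x.2 j - x.1 j : ℝ) : ℂ) = ((y.2 j - y.1 j : ℝ) : ℂ) := e
      exact (h.ne y hy).2 j (Complex.ofReal_injective e').symm
  have h1 := u_part h hl U1 (by simpa using hU1)
  have h2 := u_part h hl U2 (by simpa using hU2)
  have h3 := hq x hx ((N x).filter fun y => q ∈ IL2 (hat x) (hat y)) q (Finset.filter_subset _ _)
    hqE hqx fun y hy => (Finset.mem_filter.1 hy).2
  have hsub : N x ⊆ ((N x).filter fun y => hat y ∈ U1) ∪ (((N x).filter fun y => hat y ∈ U2) ∪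
      (N x).filter fun y => q ∈ IL2 (hat x) (hat y)) := by
    intro y hy
    simp only [Finset.mem_union, Finset.mem_filter]
    rcases hall y hy with a | a | a
    · exact Or.inl ⟨hy, a⟩
    · exact Or.inr (Or.inl ⟨hy, a⟩)
    · exact Or.inr (Or.inr ⟨hy, a⟩)
  have hcard : ((N x).card : ℝ) ≤ ((N x).filter fun y => hat y ∈ U1).card +
      (((N x).filter fun y => hat y ∈ U2).card +
        (((N x).filter fun y => q ∈ IL2 (hat x) (hat y)).card : ℝ)) := by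
    exact_mod_cast (Finset.card_le_card hsub).trans ((Finset.card_union_le _ _).trans
      (Nat.add_le_add_left (Finset.card_union_le _ _) _))
  have h4 := hk x hx
  linarith

open Classical in
/-- the algebraic bound for a graph of organised neighbour sets. -/
theorem alg_bound (ε0 : ℝ) (h0 : 0 < ε0) (h1 : ε0 < 1) : ∃ C : ℝ, 1 ≤ C ∧
    ∀ (X : Finset (Pt × Pt)) (T : Finset ((Pt × Pt) × (Pt × Pt))) (𝓖 : Pt × Pt → Finset Mo)
      (e s τ l ρ : ℝ) (C0 : ℕ), 1 ≤ e → (X.card : ℝ) ≤ e ^ 3 → 0 ≤ s → 0 ≤ τ → 1 ≤ l → 0 ≤ ρ →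
      (∀ z ∈ T, z.1 ∈ X ∧ z.2 ∈ X ∧ (z.2, z.1) ∈ T) →
      (∀ x ∈ X, Nb x (X.filter fun y => (x, y) ∈ T) (𝓖 x) τ l ρ C0 ∧ ((𝓖 x).card : ℝ) ≤ s) →
      (T.card : ℝ) ≤ 2 * X.card * (C0 * (C * (e * (e + s + τ + ρ))) ^ (1 / (1 - ε0)) + 4 * ρ) +
        4 * l * ∑ x ∈ X, ((𝓖 x).card : ℝ) := by
  obtain ⟨C3, hC3, H3⟩ := interp_flats (3 + 1) (by omega)
  obtain ⟨CA, HA⟩ := thmA (3 + 1) (by omega)
  obtain ⟨CQ, hCQ, HQ⟩ := q_part ε0 h0 h1
  obtain ⟨a, ha⟩ : ∃ a : ℝ, a = CA * C3 + 1 := ⟨_, rfl⟩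
  have ha1 : 1 ≤ a := by
    have : (0 : ℝ) ≤ CA * C3 := by positivity
    linarith
  have hε : 0 < 1 - ε0 := by linarith
  refine ⟨CQ * a ^ 2, one_le_mul_of_one_le_of_one_le hCQ (one_le_pow₀ ha1),
    fun X T 𝓖 e s τ l ρ C0 he hX hs hτ hl hρ hT hNb => ?_⟩
  set B : ℝ := C0 * (CQ * a ^ 2 * (e * (e + s + τ + ρ))) ^ (1 / (1 - ε0)) with hB
  have he0 : 0 ≤ e := by linarith
  have hCQ0 : 0 ≤ CQ := by linarith
  have hB0 : 0 ≤ B := by positivity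
  by_contra hcon
  rw [not_le] at hcon
  obtain ⟨𝓒, c1, c2, c3⟩ := exists_min_degree' X T (fun x => B + 4 * ρ + 2 * l * (𝓖 x).card)
    (fun v _ => by positivity) hT (by
      refine lt_of_eq_of_lt ?_ hcon
      rw [Finset.sum_add_distrib, Finset.sum_const, nsmul_eq_mul, ← Finset.mul_sum]
      ring)
  have hnrm : ∀ η ∈ 𝓒.image hat, Nrm 0 η := fun η hη => by
    obtain ⟨z, -, rfl⟩ := Finset.mem_image.1 hη
    exact nrm_hat z
  obtain ⟨f, f0, f1, f2⟩ := H3 ℂ (Fin (3 + 1)) 0 (𝓒.image hat) (Fintype.card_fin _)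
    (c2.image _) hnrm
  have f3 : (f.totalDegree : ℝ) ≤ C3 * e := by
    refine f2.trans (mul_le_mul_of_nonneg_left ?_ hC3.le)
    have d1 : (((𝓒.image hat).card : ℕ) : ℝ) ≤ e ^ 3 :=
      (Nat.cast_le.2 (Finset.card_image_le.trans (Finset.card_le_card c1))).trans hX
    rw [Nat.cast_add_one, add_sub_cancel_right]
    refine (Real.rpow_le_rpow (Nat.cast_nonneg _) d1 (by positivity)).trans (le_of_eq ?_)
    rw [one_div, Real.pow_rpow_inv_natCast he0 (by norm_num)]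
  have hE : ((CA * f.totalDegree + 1 : ℕ) : ℝ) ≤ a * e := by
    have := mul_le_mul_of_nonneg_left f3 (Nat.cast_nonneg (α := ℝ) CA)
    push_cast
    rw [ha]
    linarith
  have hsub : ∀ x, (𝓒.filter fun y => (x, y) ∈ T) ⊆ X.filter fun y => (x, y) ∈ T := fun x =>
    Finset.filter_subset_filter _ c1
  refine HA ℂ (Fin (3 + 1)) 0 (𝓒.image hat) f.totalDegree (CA * f.totalDegree + 1) f
    (Fintype.card_fin _) (c2.image _) hnrm f0 f1 le_rfl (Nat.le_succ _)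
    (algB_core (B := B) hl 𝓖 (fun x => 𝓒.filter fun y => (x, y) ∈ T)
      (fun x _ => Finset.filter_subset _ _) (fun x hx => (hNb x (c1 hx)).1.mono (hsub x))
      (fun x hx M q hM hq hqx hMq => ?_) fun x hx => (c3 x hx).trans_le
        (Nat.cast_le.2 (Finset.card_le_card fun y hy => by
          simp only [Finset.mem_filter] at hy ⊢
          exact hy)))
  refine (HQ x M (𝓖 x) τ l ρ C0 _ q ((hNb x (c1 hx)).1.mono (hM.trans (hsub x))) hτ
    (Nat.le_add_left _ _) hq hqx hMq).trans ?_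
  refine mul_le_mul_of_nonneg_left (Real.rpow_le_rpow (by positivity) ?_ (one_div_pos.2 hε).le)
    (Nat.cast_nonneg _)
  rw [mul_assoc]
  refine mul_le_mul_of_nonneg_left ?_ hCQ0
  have g1 := (hNb x (c1 hx)).2
  have g2 : ((CA * f.totalDegree + 1 : ℕ) : ℝ) + (𝓖 x).card + τ + ρ ≤ a * (e + s + τ + ρ) := by
    have : s + τ + ρ ≤ a * (s + τ + ρ) := le_mul_of_one_le_left (by positivity) ha1
    linarith
  calc _ ≤ (a * e) * (a * (e + s + τ + ρ)) :=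
        mul_le_mul hE g2 (by positivity) (by positivity)
    _ = _ := by ring

end

end Vale.Agent.P054
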