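import Vale.Agent.P054.BrP

namespace Vale.Agent.P054

open MvPolynomial

noncomputable section

variable {K : Type} [Field K] {σ : Type} [Fintype σ] {Λ : Type}

theorem t1_aux_cut (S : Finset Λ) (B p : Λ → Ideal (MvPolynomial σ K))
    (hB : ∀ l ∈ S, (B l).IsPrime) (hle : ∀ l ∈ S, B l ≤ p l) {G : MvPolynomial σ K}
    (hG : ∀ l ∈ S, G ∈ p l) (hn : ∀ l ∈ S, G ∉ B l) {φ δ : ℝ} {j : ℕ}
    (hd : (G.totalDegree : ℝ) ≤ δ) (hδ : 1 ≤ δ) (hb : HB (⨅ l ∈ S, B l) φ (j + 1)) :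
    HB (⨅ l ∈ S, p l) (2 ^ (j + 1) * φ * δ) j := by
  refine hb_cut (G := G) (iInf₂_mono hle) ?_ ?_ hd hδ hb
  · simp only [Ideal.mem_iInf]
    exact hG
  · intro f hf
    simp only [Ideal.mem_iInf] at hf ⊢
    intro l hl
    exact ((hB l hl).mem_or_mem (hf l hl)).resolve_left (hn l hl)

theorem t1_step (S : Finset Λ) (p : Λ → Ideal (MvPolynomial σ K)) {G G' : Set (MvPolynomial σ K)}
    (hG : G ⊆ G') {h : MvPolynomial σ K} (hh : h ∈ G') (hp : ∀ l ∈ S, (p l).IsPrime)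
    (hB : ∀ l ∈ S, (Br G (p l)).IsPrime) (hn : ∀ l ∈ S, h ∉ Br G (p l)) {φ δ : ℝ} {j : ℕ}
    (hd : (h.totalDegree : ℝ) ≤ δ) (hδ : 1 ≤ δ) (hb : HB (⨅ l ∈ S, Br G (p l)) φ (j + 1)) :
    HB (⨅ l ∈ S, Br G' (p l)) (2 ^ (j + 1) * φ * δ) j := by
  exact t1_aux_cut S (fun l => Br G (p l)) (fun l => Br G' (p l)) hB
    (fun l _ => Br_mono hG (p l)) (fun l hl => mem_Br_of_mem (hp l hl) hh) hn hd hδ hb

/-- cutting a union of prime branches by one polynomial and passing to any larger ideals. -/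
theorem hb_cut_family (S : Finset Λ) (B p : Λ → Ideal (MvPolynomial σ K))
    (hB : ∀ l ∈ S, (B l).IsPrime) (hle : ∀ l ∈ S, B l ≤ p l) {G : MvPolynomial σ K}
    (hG : ∀ l ∈ S, G ∈ p l) (hn : ∀ l ∈ S, G ∉ B l) {φ δ : ℝ} {j : ℕ}
    (hd : (G.totalDegree : ℝ) ≤ δ) (hδ : 1 ≤ δ) (hb : HB (⨅ l ∈ S, B l) φ (j + 1)) :
    HB (⨅ l ∈ S, p l) (2 ^ (j + 1) * φ * δ) j := by
  exact t1_aux_cut S B p hB hle hG hn hd hδ hb

/-- relative Bezout bound along a chain. -/
theorem t1_rel (S : Finset Λ) (p : Λ → Ideal (MvPolynomial σ K)) (g : ℕ → MvPolynomial σ K)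
    (δ : ℕ → ℝ) {t r : ℕ} (htr : t ≤ r) (hr : r ≤ Fintype.card σ) (hp : ∀ l ∈ S, (p l).IsPrime)
    (hd : ∀ l ∈ S, Dn (p l)) (hg : ∀ l ∈ S, ∀ i, i < r → g i ∈ p l)
    (hs : ∀ l ∈ S, Sm (gs g r) (p l)) (hdeg : ∀ i, i < r → ((g i).totalDegree : ℝ) ≤ δ i)
    (hδ : ∀ i, 1 ≤ δ i) {φ : ℝ}
    (hb : HB (⨅ l ∈ S, Br (Set.range (gs g t)) (p l)) φ (Fintype.card σ - t)) :
    HB (⨅ l ∈ S, Br (Set.range (gs g r)) (p l))
      (φ * ∏ i ∈ Finset.Ico t r, (2 ^ Fintype.card σ * δ i)) (Fintype.card σ - r) := by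
  induction r, htr using Nat.le_induction with
  | base => simpa using hb
  | succ r htr ih =>
    have ih' := ih (by omega) (fun l hl i hi => hg l hl i (by omega))
      (fun l hl => (hs l hl).gs_le (Nat.le_succ r)) (fun i hi => hdeg i (by omega))
    have hj : Fintype.card σ - r = Fintype.card σ - (r + 1) + 1 := by omega
    rw [hj] at ih'
    have hsub : Set.range (gs g r) ⊆ Set.range (gs g (r + 1)) := by
      rintro _ ⟨i, rfl⟩
      exact ⟨i.castSucc, rfl⟩
    have himg : gs g (r + 1) '' {i : Fin (r + 1) | i.val < r} = Set.range (gs g r) := by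
      ext f
      constructor
      · rintro ⟨i, hi, rfl⟩
        exact ⟨⟨i.val, hi⟩, rfl⟩
      · rintro ⟨i, rfl⟩
        exact ⟨i.castSucc, i.2, rfl⟩
    have hn : ∀ l ∈ S, g r ∉ Br (Set.range (gs g r)) (p l) := by
      intro l hl
      have := notMem_Br (g := gs g (r + 1)) (hp l hl) (fun i => hg l hl i i.2) (hs l hl)
        {i : Fin (r + 1) | i.val < r} (i := Fin.last r) (by simp)
      rwa [himg] at this
    have hB : ∀ l ∈ S, (Br (Set.range (gs g r)) (p l)).IsPrime := fun l hl =>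
      Br_isPrime (hp l hl) (hd l hl) (fun i => hg l hl i (by omega))
        ((hs l hl).gs_le (Nat.le_succ r))
    have h1 := t1_step S p hsub (h := g r) ⟨Fin.last r, rfl⟩ hp hB hn (hdeg r (by omega)) (hδ r) ih'
    refine h1.mono le_rfl ?_
    rw [Finset.prod_Ico_succ_top htr]
    have h0 := ih'.nonneg
    have h2 : (2 : ℝ) ^ (Fintype.card σ - (r + 1) + 1) ≤ 2 ^ Fintype.card σ :=
      pow_le_pow_right₀ (by norm_num) (by omega)
    have h3 : 0 ≤ δ r := le_trans zero_le_one (hδ r)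
    calc _ ≤ 2 ^ Fintype.card σ * (φ * ∏ i ∈ Finset.Ico t r, (2 ^ Fintype.card σ * δ i)) * δ r :=
          mul_le_mul_of_nonneg_right (mul_le_mul_of_nonneg_right h2 h0) h3
      _ = _ := by ring

/-- Bezout bound for the branches of a smooth system. -/
theorem t1_gen {ι : Type} [Fintype ι] (S : Finset Λ) (p : Λ → Ideal (MvPolynomial σ K))
    (g : ι → MvPolynomial σ K) (δ : ι → ℝ) (hp : ∀ l ∈ S, (p l).IsPrime)
    (hd : ∀ l ∈ S, Dn (p l)) (hg : ∀ l ∈ S, ∀ i, g i ∈ p l) (hs : ∀ l ∈ S, Sm g (p l))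
    (hdeg : ∀ i, ((g i).totalDegree : ℝ) ≤ δ i) (hδ : ∀ i, 1 ≤ δ i) :
    HB (⨅ l ∈ S, Br (Set.range g) (p l))
      (2 ^ Fintype.card σ * ∏ i, (2 ^ Fintype.card σ * δ i))
      (Fintype.card σ - Fintype.card ι) := by
  classical
  rcases S.eq_empty_or_nonempty with rfl | ⟨l₀, hl₀⟩
  · have h0 := hb_iInf (∅ : Finset Λ) (fun l => Br (Set.range g) (p l)) (fun _ => 0)
      (j := Fintype.card σ - Fintype.card ι) (by simp)
    refine h0.mono le_rfl ?_
    rw [Finset.sum_empty]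
    exact mul_nonneg (by positivity) (Finset.prod_nonneg fun i _ =>
      mul_nonneg (by positivity) (le_trans zero_le_one (hδ i)))
  obtain ⟨c, hc⟩ := exists_jac_of_sm (hp l₀ hl₀) (hs l₀ hl₀)
  have hinj : Function.Injective c := inj_of_jac (g := g) fun h => hc (h ▸ zero_mem _)
  have hcard : Fintype.card ι ≤ Fintype.card σ := Fintype.card_le_of_injective c hinj
  set e := Fintype.equivFin ι with he
  let g' : ℕ → MvPolynomial σ K := fun n =>
    if h : n < Fintype.card ι then g (e.symm ⟨n, h⟩) else 0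
  let δ' : ℕ → ℝ := fun n => if h : n < Fintype.card ι then δ (e.symm ⟨n, h⟩) else 1
  have hgs : gs g' (Fintype.card ι) = g ∘ e.symm := by
    funext i
    simp [gs, g', i.2]
  have hrange : Set.range (gs g' (Fintype.card ι)) = Set.range g := by
    rw [hgs, e.symm.surjective.range_comp]
  have h1 := t1_rel S p g' δ' (Nat.zero_le _) hcard hp hd
    (fun l hl i hi => by simp only [g', dif_pos hi]; exact hg l hl _)
    (fun l hl => by rw [hgs]; exact (hs l hl).comp _ e.symm.injective)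
    (fun i hi => by simp only [g', δ', dif_pos hi]; exact hdeg _)
    (fun i => by
      by_cases hi : i < Fintype.card ι
      · simp only [δ', dif_pos hi]; exact hδ _
      · simp only [δ', dif_neg hi]; exact le_rfl)
    (hb_card _)
  rw [hrange, ← Finset.range_eq_Ico, Finset.prod_range] at h1
  have h2 : ∏ i : Fin (Fintype.card ι), (2 ^ Fintype.card σ * δ' i) =
      ∏ i, (2 ^ Fintype.card σ * δ i) := by
    rw [← e.symm.prod_comp]
    exact Finset.prod_congr rfl fun i _ => by simp [δ', i.2]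
  rwa [h2] at h1

theorem exists_hb_Br {ι ρ : Type} [Fintype ι] [DecidableEq ι] [Fintype ρ]
    {g : ι → MvPolynomial σ K} {c : ι → σ} {e : ρ → σ} (h : Compl c e)
    {p : Ideal (MvPolynomial σ K)} (hp : p.IsPrime) (hd : Dn p) (hg : ∀ i, g i ∈ p)
    (hJ : Jac g c ∉ p) : ∃ φ : ℝ, HB (Br (Set.range g) p) φ (Fintype.card ρ) := by
  have h1 := t1_gen ({()} : Finset Unit) (fun _ => p) g (fun i => (g i).totalDegree + 1)
    (fun _ _ => hp) (fun _ _ => hd) (fun _ _ => hg) (fun _ _ => sm_of_jac hp hJ)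
    (fun i => by linarith) (fun i => by linarith [Nat.cast_nonneg (α := ℝ) (g i).totalDegree])
  have h2 : Fintype.card σ - Fintype.card ι = Fintype.card ρ := by
    have := h.card_add
    omega
  rw [h2] at h1
  exact ⟨_, h1.mono (biInf_le (fun _ => Br (Set.range g) p) (Finset.mem_singleton_self ())) le_rfl⟩

/-- a prime above the branch with independent elements of the right number is the branch. -/
theorem eq_Br_of_ind {ι ρ ρ' : Type} [Fintype ι] [DecidableEq ι] [Fintype ρ] [Fintype ρ']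
    {g : ι → MvPolynomial σ K} {c : ι → σ} {e : ρ → σ} (h : Compl c e)
    {p q : Ideal (MvPolynomial σ K)} (hp : p.IsPrime) (hd : Dn p) (hq : q.IsPrime)
    (hg : ∀ i, g i ∈ q) (hqp : q ≤ p) (hJ : Jac g c ∉ p) (t : ρ' → MvPolynomial σ K)
    (hc : Fintype.card ρ' = Fintype.card ρ) (ht : Ind q t) : q = Br (Set.range g) p := by
  have hgp : ∀ i, g i ∈ p := fun i => hqp (hg i)
  obtain ⟨φ, hφ⟩ := exists_hb_Br h hp hd hgp hJ
  have hle : Br (Set.range g) p ≤ q := Br_le hq (by rintro _ ⟨i, rfl⟩; exact hg i) hqp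
  exact (dim_eq (Br_isPrime hp hd hgp (sm_of_jac hp hJ)) hq hle hφ t hc ht).symm

end

end Vale.Agent.P054
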