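import Vale.Agent.P054.Pencil
import Vale.Agent.P054.T1
import Vale.Agent.P054.Homog

namespace Vale.Agent.P054

open MvPolynomial

noncomputable section

variable {K : Type} [Field K] [CharZero K] {ε : Type} [Fintype ε] [LinearOrder ε]

theorem bcoef_zero {S τ : Type} [CommRing S] [IsDomain S] [CharZero S] {A : Type} [CommRing A]
    [Algebra S A] (hinj : Function.Injective (algebraMap S A)) (x : τ → A)
    (h : ∀ (p : τ) (P : MvPolynomial τ S), aeval x P = 0 → aeval x (pderiv p P) = 0) (n : ℕ) :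
    ∀ P : MvPolynomial τ S, (∀ m ∈ P.support, m.degree < n) → aeval x P = 0 → P = 0 := by
  induction n with
  | zero =>
    intro P hP _
    exact support_eq_empty.1 (Finset.eq_empty_of_forall_notMem fun m hm => by simpa using hP m hm)
  | succ n ih =>
    intro P hP h0
    have h1 : ∀ p, pderiv p P = 0 := fun p => ih _ (fun m hm => by
      rw [mem_support_iff, coeff_pderiv] at hm
      have := hP _ (mem_support_iff.2 (left_ne_zero_of_mul hm))
      rw [map_add, Finsupp.degree_single] at this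
      omega) (h p P h0)
    have h2 : P = C (coeff 0 P) := by
      classical
      ext m
      rw [coeff_C]
      split_ifs with hm
      · rw [hm]
      · obtain ⟨k, m', rfl⟩ := chain_split (Ne.symm hm)
        have := congrArg (coeff m') (h1 k)
        rw [coeff_pderiv, coeff_zero] at this
        exact (mul_eq_zero.1 this).resolve_right (Nat.cast_add_one_ne_zero _)
    rw [h2, aeval_C] at h0
    rw [h2, hinj (h0.trans (map_zero _).symm), map_zero]

/-- coordinates dual to derivations are independent over the constants -/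
theorem bcoef_ind {A τ β : Type} [CommRing A] [IsDomain A] [Algebra K A] [Fintype τ]
    [DecidableEq τ] [Fintype β] (D : τ → Derivation K A A) (x : τ → A)
    (hx : ∀ p p', D p (x p') = if p = p' then 1 else 0) (u : β → τ → ℕ)
    (hu : Function.Injective u) (c : β → A) (hc : ∀ b p, D p (c b) = 0)
    (h0 : ∑ b, c b * ∏ p, x p ^ u b p = 0) : ∀ b, c b = 0 := by
  classical
  let S : Subalgebra K A :=
    { carrier := {a | ∀ p, D p a = 0}
      mul_mem' := fun {a b} ha hb p => by
        rw [Derivation.leibniz, ha p, hb p, smul_zero, smul_zero, add_zero]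
      add_mem' := fun {a b} ha hb p => by rw [map_add, ha p, hb p, add_zero]
      algebraMap_mem' := fun r p => (D p).map_algebraMap r }
  have : CharZero S := charZero_of_injective_algebraMap (algebraMap K S).injective
  have key : ∀ (p : τ) (P : MvPolynomial τ S), D p (aeval x P) = aeval x (pderiv p P) := by
    intro p P
    induction P using MvPolynomial.induction_on with
    | C a =>
      rw [pderiv_C, map_zero, aeval_C]
      exact a.2 p
    | add P Q hP hQ => rw [map_add, map_add, hP, hQ, map_add, map_add]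
    | mul_X P a hP =>
      rw [map_mul, Derivation.leibniz, hP, aeval_X, hx, pderiv_mul, map_add, map_mul, map_mul,
        aeval_X, pderiv_X, Pi.single_apply, smul_eq_mul, smul_eq_mul, add_comm, mul_comm]
      by_cases h : p = a
      · simp [h]
      · simp [h, Ne.symm h]
  let P : MvPolynomial τ S :=
    ∑ b, monomial (Finsupp.equivFunOnFinite.symm (u b)) (⟨c b, hc b⟩ : S)
  have hP : P = 0 := by
    refine bcoef_zero (S := S) Subtype.val_injective x
      (fun p Q hQ => by rw [← key, hQ, map_zero]) (P.totalDegree + 1) P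
      (fun m hm => Nat.lt_succ_of_le (le_totalDegree hm)) ?_
    rw [← h0, map_sum]
    refine Finset.sum_congr rfl fun b _ => ?_
    rw [aeval_monomial, Finsupp.prod_fintype _ _ (fun _ => pow_zero _)]
    rfl
  intro b
  have := congrArg (coeff (Finsupp.equivFunOnFinite.symm (u b))) hP
  rw [coeff_sum, Finset.sum_eq_single b (fun b' _ hb => by
    rw [coeff_monomial, if_neg fun h => hb (hu (Finsupp.equivFunOnFinite.symm.injective h))])
    (fun h => absurd (Finset.mem_univ b) h), coeff_monomial, if_pos rfl, coeff_zero] at this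
  exact congrArg Subtype.val this

omit [CharZero K] in
theorem bcoef_sum {α A : Type} [CommRing A] [Algebra K A] (s : Finset α)
    (D : α → Derivation K A A) (f : A) : (∑ i ∈ s, D i) f = ∑ i ∈ s, D i f := by
  induction s using Finset.cons_induction with
  | empty => rfl
  | cons a s h ih => rw [Finset.sum_cons, Finset.sum_cons, Derivation.add_apply, ih]

omit [CharZero K] in
theorem bcoef_scale {σ A : Type} [CommRing A] [Algebra K A] (x : σ → A) (d : A)
    {F : MvPolynomial σ K} {m : ℕ} (hF : F.IsHomogeneous m) :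
    aeval (fun k => d * x k) F = d ^ m * aeval x F := by
  conv_lhs => rw [F.as_sum]
  conv_rhs => rw [F.as_sum]
  rw [map_sum, map_sum, Finset.mul_sum]
  refine Finset.sum_congr rfl fun u hu => ?_
  have : u.degree = m := by
    by_contra h
    exact mem_support_iff.1 hu (hF.coeff_eq_zero h)
  rw [homog_aeval_scale, this]

omit [CharZero K] [Fintype ε] in
theorem bcoef_deg_Mh (a b : ε) : (Mh a b : MvPolynomial (Option (Pr ε)) K).totalDegree ≤ 1 := by
  unfold Mh sk
  split_ifs
  · exact (totalDegree_X _).le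
  · rw [totalDegree_neg]
    exact (totalDegree_X _).le
  · simp

/-- the parameters of the flats ruling a branch form a cone of small dimension. -/
theorem coef_growth {i0 i1 : ε} {ι ρ : Type} [Fintype ι] [DecidableEq ι] [Fintype ρ]
    {g : ι → MvPolynomial (Pr ε) K} {c : ι → Pr ε} {e : ρ → Pr ε} (h : Compl c e) (i : ι)
    {Φ : MvPolynomial (Option (Pr ε)) K} {q : Ideal (MvPolynomial (Option (Pr ε)) K)}
    (hq : q.IsPrime) (hd : Dn q) (hg : ∀ o, lift1 g Φ o ∈ q) (hJ : rename some (Jac g c) ∉ q)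
    (hΦ : pderiv none Φ ∉ q) (hκ : om (g i) i1 i0 ∉ q)
    (hV : ∀ j k o, Vv i0 i1 (g i) j k (lift1 g Φ o) ∈ Br (Set.range (lift1 g Φ)) q)
    (hT : ∀ j k r, Th i0 i1 (g i) j k r ∈ Br (Set.range (lift1 g Φ)) q) {k : ℕ}
    (hk : k + Fintype.card (Pr (Ne0 i0)) = Fintype.card ρ) :
    ∃ C : ℝ, ∀ M : ℕ, 1 ≤ M →
      (hh ((Br (Set.range (lift1 g Φ)) q).comap
        (aeval (xi i0 i1 (g i)) : MvPolynomial (ε ⊕ ε) K →ₐ[K] _)) M : ℝ) ≤ C * (M : ℝ) ^ k := by
  classical
  have : IsDomain (MvPowerSeries ρ K) := NoZeroDivisors.to_isDomain _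
  have hJ' : Jac (lift1 g Φ) (Option.map c) ∉ q := by
    rw [jac_lift1]
    exact fun hm => (hq.mem_or_mem hm).elim hΦ hJ
  obtain ⟨π, θ, -, hπ, hπJ, hθ, hker⟩ := exists_tay_prime h.lift hq hd hg hJ' hκ
  obtain ⟨φ, hφ⟩ := exists_hb_Br h.lift hq hd hg hJ'
  set B := Br (Set.range (lift1 g Φ)) q with hB
  have mem : ∀ f, f ∈ B ↔ θ f = 0 := fun f => by rw [← hker, RingHom.mem_ker]
  set κ := om (g i) i1 i0 with hκd
  obtain ⟨w, hw⟩ : ∃ w, w * θ κ = 1 :=
    ⟨_, MvPowerSeries.inv_mul_cancel _ (by rw [hθ.const]; exact hπ)⟩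
  have hL : ∀ j k, ∃ L : Derivation K (MvPowerSeries ρ K) (MvPowerSeries ρ K),
      ∀ f, L (θ f) = w * θ (Vv i0 i1 (g i) j k f) := by
    intro j k
    refine ⟨w • ∑ r, θ (Vv i0 i1 (g i) j k (X (some (e r)))) • MvPowerSeries.pderiv K r,
      fun f => ?_⟩
    rw [hθ.deriv h.lift hπJ _ (fun o => (mem _).1 (hV j k o)) f, Derivation.smul_apply,
      smul_eq_mul]
    rw [bcoef_sum]
    rfl
  choose L hL using hL
  let ξ : ε ⊕ ε → MvPowerSeries ρ K := fun s => w * θ (xi i0 i1 (g i) s)
  have hY : ∀ j k r, L j k (ξ (Sum.inl r)) = 0 := by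
    intro j k r
    have h1 := (mem _).1 (hT j k r)
    rw [Th, map_sub, map_mul, map_mul, ← hκd] at h1
    change L j k (w * θ (Yv i0 i1 (g i) r)) = 0
    rw [Derivation.leibniz, (L j k).leibniz_of_mul_eq_one hw, hL, hL]
    simp only [smul_eq_mul]
    linear_combination w ^ 3 * h1 - w ^ 2 * θ (Vv i0 i1 (g i) j k (Yv i0 i1 (g i) r)) * hw
  have hξ : ∀ j k s, L j k (ξ s) = 0 := by
    intro j k s
    rcases s with r | a
    · exact hY j k r
    · have e1 : ξ (Sum.inr a) = ∑ b, θ (Mh a b) * ξ (Sum.inl b) := by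
        change w * θ (∑ b, Mh a b * Yv i0 i1 (g i) b) =
          ∑ b, θ (Mh a b) * (w * θ (Yv i0 i1 (g i) b))
        rw [map_sum, Finset.mul_sum]
        exact Finset.sum_congr rfl fun b _ => by rw [map_mul]; ring
      have e2 := congrArg (fun z => w * w * θ z) (Vv_Mh_mul i0 i1 (g i) j k a)
      simp only [map_zero, mul_zero, map_sum, Finset.mul_sum] at e2
      rw [e1, map_sum, ← e2]
      refine Finset.sum_congr rfl fun b _ => ?_
      rw [Derivation.leibniz, hY, smul_zero, zero_add, hL, smul_eq_mul, map_mul]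
      change w * θ (Yv i0 i1 (g i) b) * _ = _
      ring
  have hF : ∀ j k (F : MvPolynomial (ε ⊕ ε) K), L j k (aeval ξ F) = 0 := fun j k F => by
    rw [deriv_algHom (aeval ξ) (L j k) F]
    exact Finset.sum_eq_zero fun s _ => by rw [aeval_X, hξ, mul_zero]
  have hx : ∀ p p' : Pr (Ne0 i0), L p.1.1.1 p.1.2.1 (θ (Mh p'.1.1.1 p'.1.2.1)) =
      if p = p' then 1 else 0 := by
    intro p p'
    rw [hL, Vv_Mh_of_ne _ _ _ _ _ p'.1.1.2 p'.1.2.2 p.1.1.2 p.1.2.2, map_mul, ← mul_assoc, hw,
      one_mul, if_neg (c := p.1.1.1 = p'.1.2.1 ∧ p.1.2.1 = p'.1.1.1) (fun hh => by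
        have a1 : p.1.1.1 < p.1.2.1 := p.2
        have a2 : p'.1.1.1 < p'.1.2.1 := p'.2
        rw [hh.1, hh.2] at a1
        exact lt_asymm a1 a2), sub_zero]
    by_cases hp : p = p'
    · simp [hp]
    · rw [if_neg hp, if_neg fun hh => hp
        (Subtype.ext (Prod.ext (Subtype.ext hh.1) (Subtype.ext hh.2))), map_zero]
  have hsc : ∀ {F : MvPolynomial (ε ⊕ ε) K} {m : ℕ}, F.IsHomogeneous m →
      θ (aeval (xi i0 i1 (g i)) F) = θ κ ^ m * aeval ξ F := by
    intro F m hF
    rw [← bcoef_scale ξ (θ κ) hF, ← AlgHom.comp_apply, comp_aeval]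
    refine congrArg (fun z => aeval z F) (funext fun s => ?_)
    change _ = θ κ * (w * θ (xi i0 i1 (g i) s))
    rw [← mul_assoc, mul_comm (θ κ), hw, one_mul]
  have hκ0 : θ κ ≠ 0 := right_ne_zero_of_mul (hw ▸ one_ne_zero)
  set n := Fintype.card (Pr (Ne0 i0)) with hn
  set d := (g i).totalDegree + 2 + n with hdd
  refine ⟨φ * (d : ℝ) ^ (k + n), fun M hM => ?_⟩
  obtain ⟨F, hF1, hF2⟩ := exists_indM_hh (B.comap
    (aeval (xi i0 i1 (g i)) : MvPolynomial (ε ⊕ ε) K →ₐ[K] _)) M
  have hcard := card_le_hf (I := B) (m := d * M)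
    (fun z : (Pr (Ne0 i0) → Fin (M + 1)) × Fin _ => aeval (xi i0 i1 (g i)) (F z.2) *
      ∏ p : Pr (Ne0 i0), Mh p.1.1.1 p.1.2.1 ^ (z.1 p : ℕ)) (fun z => by
      refine (totalDegree_mul _ _).trans ?_
      have a1 := totalDegree_algHom_le (aeval (xi i0 i1 (g i))) (e := (g i).totalDegree + 2)
        (fun s => by rw [aeval_X]; exact totalDegree_xi _ _ _ _) (F z.2)
      have a2 := Nat.mul_le_mul_left ((g i).totalDegree + 2) (hF1 z.2).totalDegree_le
      have a3 : (∏ p : Pr (Ne0 i0), (Mh p.1.1.1 p.1.2.1 : MvPolynomial (Option (Pr ε)) K) ^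
          (z.1 p : ℕ)).totalDegree ≤ n * M := by
        refine (totalDegree_finsetProd _ _).trans ?_
        refine (Finset.sum_le_card_nsmul _ _ M fun p _ => ?_).trans (by simp [hn])
        refine (totalDegree_pow _ _).trans ?_
        have := Nat.mul_le_mul (Nat.lt_succ_iff.1 (z.1 p).2)
          (bcoef_deg_Mh (K := K) p.1.1.1 p.1.2.1)
        rwa [mul_one] at this
      rw [hdd, add_mul]
      omega) (fun a ha z => by
      have a1 := bcoef_ind (K := K) (fun p : Pr (Ne0 i0) => L p.1.1.1 p.1.2.1)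
        (fun p => θ (Mh p.1.1.1 p.1.2.1)) hx
        (fun (b : Pr (Ne0 i0) → Fin (M + 1)) p => (b p : ℕ))
        (fun b b' hb => funext fun p => Fin.ext (congrFun hb p))
        (fun b => aeval ξ (∑ j, a (b, j) • F j)) (fun b p => hF _ _ _) (by
          apply mul_left_cancel₀ (pow_ne_zero M hκ0)
          rw [mul_zero, ← (mem _).1 ha, Fintype.sum_prod_type, map_sum, Finset.mul_sum]
          refine Finset.sum_congr rfl fun b _ => ?_
          rw [map_sum, map_sum, Finset.sum_mul, Finset.mul_sum]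
          refine Finset.sum_congr rfl fun j _ => ?_
          rw [map_smul, map_smul, map_mul, hsc (hF1 j), map_prod]
          simp only [map_pow, smul_mul_assoc, mul_smul_comm, mul_assoc])
      refine hF2 (fun j => a (z.1, j)) ?_ z.2
      rw [Ideal.mem_comap, mem]
      have a2 : (∑ j, a (z.1, j) • F j).IsHomogeneous M :=
        (homogeneousSubmodule _ K M).sum_mem fun j _ =>
          (homogeneousSubmodule _ K M).smul_mem _ (hF1 j)
      rw [hsc a2, a1 z.1, mul_zero])
  rw [Fintype.card_prod, Fintype.card_fun, Fintype.card_fin, Fintype.card_fin, ← hn] at hcard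
  have hd1 : 1 ≤ d * M := Nat.mul_pos (by omega) hM
  have b1 := (Nat.cast_le (α := ℝ).2 hcard).trans (hφ _ hd1)
  rw [← hk] at b1
  push_cast at b1
  have hM0 : (0 : ℝ) < M := Nat.cast_pos.2 hM
  have b2 : (M : ℝ) ^ n ≤ (M + 1) ^ n := pow_le_pow_left₀ hM0.le (by linarith) n
  refine le_of_mul_le_mul_left ((mul_le_mul_of_nonneg_right b2 (Nat.cast_nonneg _)).trans
    (b1.trans (le_of_eq ?_))) (pow_pos hM0 n)
  rw [mul_pow, pow_add (M : ℝ)]
  ring

end

end Vale.Agent.P054
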