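import Vale.Agent.P054.Flat
import Vale.Agent.P054.Homog

namespace Vale.Agent.P054

open MvPolynomial

noncomputable section

variable {K : Type} [Field K] [Infinite K] {ε : Type} [Fintype ε] [LinearOrder ε]

omit [Infinite K] in
theorem bcone_card {β Λ ι : Type} [Fintype β] [Fintype Λ] [Fintype ι]
    (I : Ideal (MvPolynomial β K)) (M : ℕ) (c : Λ → ι → MvPolynomial β K)
    (hc : ∀ l i, (c l i).IsHomogeneous M)
    (h : ∀ a : ι → K, (∀ l, ∑ i, a i • c l i ∈ I) → ∀ i, a i = 0) :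
    Fintype.card ι ≤ Fintype.card Λ * hh I M := by
  have := Module.Finite.iff_fg.2 (homogeneousSubmodule_fg β K M)
  have h1 : LinearIndependent K fun (i : ι) (l : Λ) =>
      (⟨_, Submodule.mem_map_of_mem (hc l i)⟩ :
        (homogeneousSubmodule β K M).map (Ideal.Quotient.mkₐ K I).toLinearMap) :=
    Fintype.linearIndependent_iff.2 fun a ha => h a fun l => hf_q.1 (by
      simpa using congrArg Subtype.val (congrFun ha l))
  refine h1.fintype_card_le_finrank.trans_eq ?_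
  rw [Module.finrank_pi_fintype K, Finset.sum_const, Finset.card_univ, smul_eq_mul, hh]

omit [Infinite K] in
theorem bcone_row (i : ε) (M' : Pr (Ne0 i) → K) (a : Ne0 i) :
    ∃ L : MvPolynomial (ε ⊕ ε) K, L.IsHomogeneous 1 ∧ ∀ (v : ε ⊕ ε → K) (N : Pr ε → K),
      N ∈ Fl v → (∀ a b : Ne0 i, sk N a.1 b.1 = sk M' a b) →
      aeval v L = v (Sum.inl i) * sk N a.1 i := by
  refine ⟨X (Sum.inr a.1) - ∑ b : Ne0 i, C (sk M' a b) * X (Sum.inl b.1),
    (isHomogeneous_X K _).sub (IsHomogeneous.sum _ _ _ fun b _ => isHomogeneous_C_mul_X _ _),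
    fun v N hN h => ?_⟩
  have h1 := hN a.1
  rw [Fintype.sum_eq_add_sum_subtype_ne _ i] at h1
  simp only [map_sub, map_sum, map_mul, aeval_X, aeval_C, Algebra.algebraMap_self, RingHom.id_apply,
    ← h]
  rw [← h1]
  ring

omit [Infinite K] in
theorem bcone_lin (i : ε) (M' : Pr (Ne0 i) → K) (p : Pr ε) :
    ∃ L : MvPolynomial (ε ⊕ ε) K, L.IsHomogeneous 1 ∧ ∀ (v : ε ⊕ ε → K) (N : Pr ε → K),
      N ∈ Fl v → (∀ a b : Ne0 i, sk N a.1 b.1 = sk M' a b) →
      aeval v L = v (Sum.inl i) * N p := by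
  by_cases h1 : p.1.2 = i
  · obtain ⟨L, hL, h⟩ := bcone_row i M' ⟨p.1.1, h1 ▸ p.2.ne⟩
    refine ⟨L, hL, fun v N hN hM => ?_⟩
    rw [h v N hN hM, ← sk_of_lt N p]
    simp only [h1]
  by_cases h2 : p.1.1 = i
  · obtain ⟨L, hL, h⟩ := bcone_row i M' ⟨p.1.2, h1⟩
    refine ⟨-L, hL.neg, fun v N hN hM => ?_⟩
    rw [map_neg, h v N hN hM, ← sk_of_lt N p, h2, sk_swap N p.1.2 i]
    ring
  · refine ⟨C (sk M' ⟨p.1.1, h2⟩ ⟨p.1.2, h1⟩) * X (Sum.inl i), isHomogeneous_C_mul_X _ _,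
      fun v N _ hM => ?_⟩
    rw [map_mul, aeval_X, aeval_C, ← hM, ← sk_of_lt N p, mul_comm]
    rfl

omit [Infinite K] in
/-- forms of degree `M` computing the values of a polynomial on the flats. -/
theorem bcone_form (i : ε) (M' : Pr (Ne0 i) → K) (w : MvPolynomial (Pr ε) K) {M : ℕ}
    (hw : w.totalDegree ≤ M) :
    ∃ c : MvPolynomial (ε ⊕ ε) K, c.IsHomogeneous M ∧ ∀ (v : ε ⊕ ε → K) (N : Pr ε → K),
      N ∈ Fl v → (∀ a b : Ne0 i, sk N a.1 b.1 = sk M' a b) →
      aeval v c = v (Sum.inl i) ^ M * aeval N w := by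
  choose L hL h using bcone_lin i M'
  obtain ⟨H, hH, h2⟩ := exists_homog w hw
  refine ⟨aeval (fun o : Option (Pr ε) => o.elim (X (Sum.inl i)) L) H, ?_, fun v N hN hM => ?_⟩
  · have := hH.aeval (n := 1) (fun o : Option (Pr ε) =>
      (o.elim (X (Sum.inl i)) L : MvPolynomial (ε ⊕ ε) K)) (by
        rintro (_ | p)
        · exact isHomogeneous_X K _
        · exact hL p)
    rwa [one_mul] at this
  · rw [← h2 K N, ← AlgHom.comp_apply, comp_aeval]
    have e : (fun o : Option (Pr ε) => aeval v (o.elim (X (Sum.inl i)) L :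
        MvPolynomial (ε ⊕ ε) K)) =
        fun o : Option (Pr ε) => o.elim (v (Sum.inl i)) fun k => v (Sum.inl i) * N k := by
      funext o
      rcases o with _ | p
      · exact aeval_X _ _
      · exact h p v N hN hM
    rw [e]

omit [Infinite K] in
/-- vanishing on a grid gives vanishing on the flat. -/
theorem bcone_grid (i : ε) {M : ℕ} (g : Fin (M + 1) → K) (hg : Function.Injective g)
    {h : MvPolynomial (Pr ε) K} (hd : h.totalDegree ≤ M) {v : ε ⊕ ε → K}
    (hv : v (Sum.inl i) ≠ 0)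
    (h0 : ∀ f : Pr (Ne0 i) → Fin (M + 1), ∀ N ∈ Fl v,
      (∀ a b : Ne0 i, sk N a.1 b.1 = sk (fun p => g (f p)) a b) → aeval N h = 0) :
    ∀ N ∈ Fl v, aeval N h = 0 := by
  classical
  intro N hN
  have hs : (v (Sum.inl i))⁻¹ ≠ 0 := inv_ne_zero hv
  have hn : Nrm i fun b => (v (Sum.inl i))⁻¹ * v b := by
    refine ⟨inv_mul_cancel₀ hv, ?_⟩
    have h1 := sum_sk_self N fun j => v (Sum.inl j)
    simp only [hN _] at h1
    have e : ∀ j, (v (Sum.inl i))⁻¹ * v (Sum.inl j) * ((v (Sum.inl i))⁻¹ * v (Sum.inr j)) =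
        (v (Sum.inl i))⁻¹ * (v (Sum.inl i))⁻¹ * (v (Sum.inl j) * v (Sum.inr j)) := fun j => by ring
    simp only [Nul, e]
    rw [← Finset.mul_sum, h1, mul_zero]
  obtain ⟨ψ, h1, h2, h3, h4, -⟩ := exists_par hn
  rw [Fl_smul hs] at h3 h4
  have e : ∀ M' : Pr (Ne0 i) → K, aeval M' (aeval ψ h) = aeval (fun p => aeval M' (ψ p)) h :=
    fun M' => by rw [← AlgHom.comp_apply, comp_aeval]
  have hP : aeval ψ h = 0 := by
    refine eq_zero_of_eval_zero_at_prod_finset _ (fun _ => Finset.univ.image g) (fun p => ?_)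
      fun x hx => ?_
    · rw [Finset.card_image_of_injective _ hg, Finset.card_univ, Fintype.card_fin]
      have := totalDegree_algHom_le (aeval ψ) (e := 1) (by simpa using h1) h
      have := degreeOf_le_totalDegree (aeval ψ h) p
      omega
    · simp only [Finset.mem_image, Finset.mem_univ, true_and] at hx
      choose f hf using hx
      rw [← coe_aeval_eq_eval]
      refine (e x).trans (h0 f _ (h3 x) fun a b => ?_)
      rw [← map_sk (aeval x : MvPolynomial (Pr (Ne0 i)) K →ₐ[K] K), h2, map_sk]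
      simp only [aeval_X, hf]
  obtain ⟨M', rfl⟩ := h4 N hN
  rw [← e, hP, map_zero]

theorem bcone_num {C : ℝ} {k n n' d : ℕ} (hn : n' + k + 1 ≤ n) :
    ∃ M : ℕ, 1 ≤ M ∧ ∀ t : ℕ, (t : ℝ) ≤ C * (M : ℝ) ^ k →
      d * (M + 1) ^ n' * t < (M + n).choose n := by
  obtain ⟨M, hM⟩ := exists_nat_gt (max 1 (n.factorial * (d * 2 ^ n' * C)))
  have h1 : (1 : ℝ) < M := (le_max_left _ _).trans_lt hM
  have h1' : 1 ≤ M := by exact_mod_cast h1.le
  refine ⟨M, h1', fun t ht => ?_⟩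
  by_contra! h
  have h2 : M ^ (n' + k + 1) ≤ n.factorial * (d * (2 * M) ^ n' * t) :=
    (Nat.pow_le_pow_right h1' hn).trans ((pow_le_factorial_mul_choose M n).trans
      (Nat.mul_le_mul_left _ (h.trans (Nat.mul_le_mul_right _ (Nat.mul_le_mul_left _
        (Nat.pow_le_pow_left (by omega) _))))))
  have h3 : (M : ℝ) ^ (n' + k + 1) ≤ n.factorial * (d * (2 * M) ^ n' * t) := by exact_mod_cast h2
  have h4 : (M : ℝ) ^ (n' + k) * M ≤ (M : ℝ) ^ (n' + k) * (n.factorial * (d * 2 ^ n' * C)) :=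
    calc (M : ℝ) ^ (n' + k) * M = (M : ℝ) ^ (n' + k + 1) := (pow_succ _ _).symm
      _ ≤ n.factorial * (d * (2 * M) ^ n' * t) := h3
      _ ≤ n.factorial * (d * (2 * M) ^ n' * (C * (M : ℝ) ^ k)) := by gcongr
      _ = _ := by ring
  have h5 := le_of_mul_le_mul_left h4 (by positivity)
  exact absurd ((le_max_right _ _).trans_lt hM) (not_lt.2 h5)

/-- the flats of a small cone lie on a hypersurface. -/
theorem exists_poly_on_cone (I : Ideal (MvPolynomial (ε ⊕ ε) K)) {C : ℝ} {k : ℕ}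
    (hk : k + 2 ≤ Fintype.card ε) (hI : ∀ M : ℕ, 1 ≤ M → (hh I M : ℝ) ≤ C * (M : ℝ) ^ k) :
    ∃ h : MvPolynomial (Pr ε) K, h ≠ 0 ∧ ∀ v : ε ⊕ ε → K,
      (∀ (F : MvPolynomial (ε ⊕ ε) K) (m : ℕ), F.IsHomogeneous m → F ∈ I → aeval v F = 0) →
      (∃ i, v (Sum.inl i) ≠ 0) → ∀ N ∈ Fl v, aeval N h = 0 := by
  classical
  obtain ⟨i0⟩ : Nonempty ε := Fintype.card_pos_iff.1 (by omega)
  have hc : ∀ i : ε, Fintype.card (Pr (Ne0 i)) = Fintype.card (Pr (Ne0 i0)) := fun i => by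
    have := card_Pr i
    have := card_Pr i0
    omega
  obtain ⟨M, hM, hnum⟩ := bcone_num (C := C) (k := k) (n := Fintype.card (Pr ε))
    (n' := Fintype.card (Pr (Ne0 i0))) (d := Fintype.card ε) (by
      have := card_Pr i0
      omega)
  obtain ⟨g, hg⟩ : ∃ g : Fin (M + 1) → K, Function.Injective g :=
    ⟨fun j => Infinite.natEmbedding K j, (Infinite.natEmbedding K).injective.comp Fin.val_injective⟩
  obtain ⟨w, hw, hind⟩ := exists_indM (⊥ : Ideal (MvPolynomial (Pr ε) K)) M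
  choose c hc1 hc2 using fun (l : Σ i : ε, Pr (Ne0 i) → Fin (M + 1)) j =>
    bcone_form l.1 (fun p => g (l.2 p)) (w j) (hw j)
  have key : ¬ ∀ a : Fin (hf (⊥ : Ideal (MvPolynomial (Pr ε) K)) M) → K,
      (∀ l, ∑ j, a j • c l j ∈ I) → ∀ j, a j = 0 := fun h => by
    have h1 := bcone_card I M c hc1 h
    simp only [Fintype.card_fin, Fintype.card_sigma, Fintype.card_fun, hc, Finset.sum_const,
      Finset.card_univ, smul_eq_mul, hf_bot] at h1
    exact absurd (hnum _ (hI M hM)) (not_lt.2 h1)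
  push Not at key
  obtain ⟨a, ha, j0, hj0⟩ := key
  refine ⟨∑ j, a j • w j, fun h => hj0 (hind a (h ▸ Ideal.zero_mem _) j0), ?_⟩
  rintro v hv ⟨i, hi⟩
  refine bcone_grid i g hg (totalDegree_finsetSum_le fun j _ =>
    (totalDegree_smul_le _ _).trans (hw j)) hi fun f N hN hf => ?_
  have h1 := hv _ M (IsHomogeneous.sum _ _ _ fun j _ =>
    (homogeneousSubmodule _ K M).smul_mem (a j) (hc1 ⟨i, f⟩ j)) (ha ⟨i, f⟩)
  simp only [map_sum, map_smul, hc2 ⟨i, f⟩ _ v N hN hf, smul_eq_mul] at h1 ⊢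
  refine (mul_eq_zero.1 ?_).resolve_left (pow_ne_zero M hi)
  rw [Finset.mul_sum, ← h1]
  exact Finset.sum_congr rfl fun j _ => by ring

/-- a generic slice is base point free on a small cone. -/
theorem exists_bpf (i0 : ε) (I : Ideal (MvPolynomial (ε ⊕ ε) K)) {C : ℝ} {k : ℕ}
    (hk : k + 2 ≤ Fintype.card ε) (hI : ∀ M : ℕ, 1 ≤ M → (hh I M : ℝ) ≤ C * (M : ℝ) ^ k) :
    ∃ h : MvPolynomial (Pr ε) K, h ≠ 0 ∧ ∀ N : Pr ε → K, aeval N h ≠ 0 → ∀ v : ε ⊕ ε → K,
      (∀ (F : MvPolynomial (ε ⊕ ε) K) (m : ℕ), F.IsHomogeneous m → F ∈ I → aeval v F = 0) →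
      (∀ j, aeval v (tf i0 N j) = 0) → v = 0 := by
  classical
  obtain ⟨s, hs⟩ : ∃ s : ε ⊕ ε ≃ ε ⊕ ε, s = Equiv.swap (Sum.inl i0) (Sum.inr i0) := ⟨_, rfl⟩
  have s1 : s (Sum.inl i0) = Sum.inr i0 := by rw [hs, Equiv.swap_apply_left]
  have s2 : s (Sum.inr i0) = Sum.inl i0 := by rw [hs, Equiv.swap_apply_right]
  have s3 : ∀ j, j ≠ i0 → s (Sum.inl j) = Sum.inl j := fun j hj => by
    rw [hs, Equiv.swap_apply_of_ne_of_ne (by simpa using hj) (by simp)]
  have s4 : ∀ j, j ≠ i0 → s (Sum.inr j) = Sum.inr j := fun j hj => by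
    rw [hs, Equiv.swap_apply_of_ne_of_ne (by simp) (by simpa using hj)]
  obtain ⟨h, h0, h1⟩ := exists_poly_on_cone (I.comap (rename (R := K) s)) (C := C) hk
    fun M hM => by
      refine le_trans (Nat.cast_le.2 ?_) (hI M hM)
      obtain ⟨w, hw, hind⟩ := exists_indM_hh (I.comap (rename (R := K) s)) M
      simpa using card_le_hh (I := I) (fun j => rename s (w j))
        (fun j => (hw j).rename_isHomogeneous) fun a ha => hind a (by
          simpa only [Ideal.mem_comap, map_sum, map_smul] using ha)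
  refine ⟨h, h0, fun N hN v hv ht => ?_⟩
  have hF : N ∈ Fl (v ∘ s) := fun i => by
    have h2 := ht i
    by_cases hi : i = i0
    · subst hi
      simp only [tf, if_true, map_sum, map_mul, aeval_C, aeval_X, Algebra.algebraMap_self,
        RingHom.id_apply] at h2
      rw [Fintype.sum_eq_add_sum_subtype_ne _ i] at h2 ⊢
      simp only [Function.comp_apply, s2, sk_self, zero_mul, zero_add]
      have e : ∀ j : {j // j ≠ i}, sk N i j.1 * v (s (Sum.inl j.1)) =
          -(slE i N j.1 * v (Sum.inl j.1)) := fun j => by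
        rw [s3 _ j.2, slE, if_neg j.2, sk_swap N j.1 i]
        ring
      simp only [e, Finset.sum_neg_distrib]
      rw [slE, if_pos rfl, one_mul] at h2
      linear_combination -h2
    · simp only [tf, if_neg hi, map_sub, map_add, map_sum, map_mul, aeval_C, aeval_X,
        Algebra.algebraMap_self, RingHom.id_apply] at h2
      rw [Fintype.sum_eq_add_sum_subtype_ne _ i0] at h2 ⊢
      simp only [Function.comp_apply, s1, s4 i hi]
      have e : ∀ j : {j // j ≠ i0}, sk N i j.1 * v (s (Sum.inl j.1)) =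
          slN i0 N i j.1 * v (Sum.inl j.1) := fun j => by
        rw [s3 _ j.2, slN, if_neg (not_or.2 ⟨hi, j.2⟩)]
      simp only [e]
      rw [slE, if_neg hi, slN, if_pos (Or.inr rfl), zero_mul, zero_add] at h2
      linear_combination h2
  have hy : ∀ i, (v ∘ s) (Sum.inl i) = 0 := by
    by_contra! h2
    exact hN (h1 (v ∘ s) (fun F m hF hm => by
      rw [← aeval_rename]
      exact hv _ m hF.rename_isHomogeneous hm) h2 N hF)
  have hz : v ∘ s = 0 := by
    funext b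
    rcases b with i | i
    · exact hy i
    · rw [← hF i]
      simp only [hy, mul_zero, Finset.sum_const_zero, Pi.zero_apply]
  funext b
  have := congrFun hz (s.symm b)
  rwa [Function.comp_apply, Equiv.apply_symm_apply] at this

end

end Vale.Agent.P054
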