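import Vale.Agent.P054.Pencil
import Vale.Agent.P054.Homog

namespace Vale.Agent.P054

open MvPolynomial

noncomputable section

variable {K : Type} [Field K] {ε : Type} [Fintype ε] [LinearOrder ε]

omit [Fintype ε] in
theorem bsl_sk_of_skew {A : Type} [AddCommGroup A] (F : ε → ε → A) (h0 : ∀ a, F a a = 0)
    (h1 : ∀ a b, F b a = - F a b) (a b : ε) : sk (fun p : Pr ε => F p.1.1 p.1.2) a b = F a b := by
  unfold sk
  split_ifs with h h'
  · rfl
  · exact (h1 b a).symm
  · have : a = b := le_antisymm (not_lt.1 h') (not_lt.1 h)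
    subst this
    exact (h0 a).symm

theorem bsl_sum_sk {A : Type} [CommRing A] (ω : Pr ε → A) (F : ε → ε → A) :
    ∑ j, ∑ k, sk ω j k * F j k = ∑ p : Pr ε, ω p * (F p.1.1 p.1.2 - F p.1.2 p.1.1) := by
  classical
  have h1 : ∀ j k, sk ω j k * F j k =
      (if h : j < k then ω ⟨(j, k), h⟩ * F j k else 0) -
        (if h : k < j then ω ⟨(k, j), h⟩ * F j k else 0) := by
    intro j k
    unfold sk
    split_ifs with h h' h'
    · exact absurd h (not_lt.2 h'.le)
    · simp
    · simp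
    · simp
  have h2 : ∀ G : ε → ε → A, ∑ j, ∑ k, (if h : j < k then ω ⟨(j, k), h⟩ * G j k else 0) =
      ∑ p : Pr ε, ω p * G p.1.1 p.1.2 := by
    intro G
    rw [← Finset.sum_product', Finset.univ_product_univ]
    rw [← Fintype.sum_subtype_add_sum_subtype (fun q : ε × ε => q.1 < q.2)]
    rw [Finset.sum_eq_zero (s := (Finset.univ : Finset {q : ε × ε // ¬ q.1 < q.2}))
      (fun q _ => dif_neg q.2), add_zero]
    exact Finset.sum_congr rfl fun q _ => dif_pos q.2
  simp only [h1, Finset.sum_sub_distrib, mul_sub]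
  rw [h2 F, Finset.sum_comm, h2 fun j k => F k j]

omit [Fintype ε] in
theorem bsl_slN_self (i0 : ε) (N : Pr ε → K) (a : ε) : slN i0 N a a = 0 := by
  unfold slN
  split_ifs
  · rfl
  · exact sk_self _ _

omit [Fintype ε] in
theorem bsl_slN_swap (i0 : ε) (N : Pr ε → K) (a b : ε) : slN i0 N b a = - slN i0 N a b := by
  unfold slN
  by_cases h : a = i0 ∨ b = i0
  · rw [if_pos h, if_pos h.symm, neg_zero]
  · rw [if_neg h, if_neg fun h' => h h'.symm]
    exact sk_swap _ _ _

omit [Fintype ε] in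
theorem bsl_slE_i0 (i0 : ε) (N : Pr ε → K) : slE i0 N i0 = 1 := if_pos rfl

omit [Fintype ε] in
theorem bsl_slN_i0 (i0 : ε) (N : Pr ε → K) (b : ε) : slN i0 N i0 b = 0 := if_pos (Or.inl rfl)

omit [Fintype ε] in
theorem bsl_slW_i0 (i0 : ε) : (slW i0 i0 : MvPolynomial (Ne0 i0) K) = 0 := dif_pos rfl

omit [Fintype ε] in
theorem bsl_slW_ne {i0 : ε} (j : Ne0 i0) : (slW i0 j.1 : MvPolynomial (Ne0 i0) K) = X j :=
  dif_neg j.2

omit [Fintype ε] in
theorem bsl_totalDegree_slW (i0 a : ε) :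
    (slW i0 a : MvPolynomial (Ne0 i0) K).totalDegree ≤ 1 := by
  unfold slW
  split_ifs
  · simp
  · exact (totalDegree_X _).le

omit [Fintype ε] in
theorem totalDegree_slc (i0 : ε) (N : Pr ε → K) (p : Pr ε) : (slc i0 N p).totalDegree ≤ 1 := by
  unfold slc
  refine (totalDegree_sub _ _).trans (max_le ((totalDegree_add _ _).trans (max_le ?_ ?_)) ?_)
  · simp
  · refine (totalDegree_mul _ _).trans ?_
    rw [totalDegree_C, zero_add]
    exact bsl_totalDegree_slW _ _
  · refine (totalDegree_mul _ _).trans ?_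
    rw [totalDegree_C, add_zero]
    exact bsl_totalDegree_slW _ _

theorem tf_isHomogeneous (i0 : ε) (N : Pr ε → K) (j : ε) : (tf i0 N j).IsHomogeneous 1 := by
  have h : ∀ (c : K) (s : ε ⊕ ε), (C c * X s : MvPolynomial (ε ⊕ ε) K).IsHomogeneous 1 :=
    fun c s => (isHomogeneous_X K s).C_mul c
  unfold tf
  split_ifs
  · exact IsHomogeneous.sum _ _ _ fun a _ => h _ _
  · exact ((IsHomogeneous.sum _ _ _ fun a _ => h _ _).add (h _ _)).sub (isHomogeneous_X K _)

omit [Fintype ε] in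
theorem sk_slc (i0 : ε) (N : Pr ε → K) (a b : ε) : sk (slc i0 N) a b =
    C (slN i0 N a b) + C (slE i0 N a) * slW i0 b - slW i0 a * C (slE i0 N b) := by
  refine bsl_sk_of_skew (fun a b => (C (slN i0 N a b) + C (slE i0 N a) * slW i0 b -
    slW i0 a * C (slE i0 N b) : MvPolynomial (Ne0 i0) K)) (fun a => ?_) (fun a b => ?_) a b
  · rw [bsl_slN_self, C_0]
    ring
  · rw [bsl_slN_swap i0 N a b, C_neg]
    ring

omit [Fintype ε] in
theorem bsl_sk_aeval {A : Type} [CommRing A] [Algebra K A] (i0 : ε) (N : Pr ε → K)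
    (w : Ne0 i0 → A) (a b : ε) : sk (fun p => aeval w (slc i0 N p)) a b =
      algebraMap K A (slN i0 N a b) + algebraMap K A (slE i0 N a) * aeval w (slW (K := K) i0 b) -
        aeval w (slW (K := K) i0 a) * algebraMap K A (slE i0 N b) := by
  rw [← map_sk (aeval w : MvPolynomial (Ne0 i0) K →ₐ[K] A), sk_slc]
  simp only [map_sub, map_add, map_mul, aeval_C]

theorem bsl_row {A : Type} [CommRing A] [Algebra K A] (i0 : ε) (N : Pr ε → K)
    (w : Ne0 i0 → A) (Y : ε → A) (i : ε) : ∑ k, sk (fun p => aeval w (slc i0 N p)) i k * Y k =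
      ∑ k, algebraMap K A (slN i0 N i k) * Y k +
        algebraMap K A (slE i0 N i) * ∑ k, aeval w (slW (K := K) i0 k) * Y k -
        aeval w (slW (K := K) i0 i) * ∑ k, algebraMap K A (slE i0 N k) * Y k := by
  simp only [bsl_sk_aeval, Finset.mul_sum, ← Finset.sum_add_distrib, ← Finset.sum_sub_distrib]
  refine Finset.sum_congr rfl fun k _ => ?_
  ring

theorem bsl_tf_i0 {A : Type} [CommRing A] [Algebra K A] (i0 : ε) (N : Pr ε → K)
    (η : ε ⊕ ε → A) :
    aeval η (tf i0 N i0) = ∑ a, algebraMap K A (slE i0 N a) * η (Sum.inl a) := by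
  unfold tf
  rw [if_pos rfl]
  simp only [map_sum, map_mul, aeval_C, aeval_X]

theorem bsl_tf_ne {A : Type} [CommRing A] [Algebra K A] {i0 : ε} (N : Pr ε → K)
    (η : ε ⊕ ε → A) {j : ε} (hj : j ≠ i0) :
    aeval η (tf i0 N j) = ∑ b, algebraMap K A (slN i0 N j b) * η (Sum.inl b) +
      algebraMap K A (slE i0 N j) * η (Sum.inr i0) - η (Sum.inr j) := by
  unfold tf
  rw [if_neg hj]
  simp only [map_sub, map_add, map_sum, map_mul, aeval_C, aeval_X]

/-- on the slice the forms recover the slice coordinates. -/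
theorem tf_slc {A : Type} [CommRing A] [Algebra K A] (i0 : ε) (N : Pr ε → K) (w : Ne0 i0 → A)
    (Y : ε → A) (j : Ne0 i0) :
    aeval (Sum.elim Y fun i => ∑ k, sk (fun p => aeval w (slc i0 N p)) i k * Y k) (tf i0 N j.1) =
      w j * aeval (Sum.elim Y fun i => ∑ k, sk (fun p => aeval w (slc i0 N p)) i k * Y k)
        (tf i0 N i0) := by
  rw [bsl_tf_ne N _ j.2, bsl_tf_i0]
  simp only [Sum.elim_inl, Sum.elim_inr, bsl_row, bsl_slN_i0, bsl_slE_i0, bsl_slW_i0, bsl_slW_ne,
    map_zero, map_one, zero_mul, Finset.sum_const_zero, aeval_X]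
  ring

theorem bsl_w_mul {i0 : ε} (N : Pr ε → K) {η : ε ⊕ ε → K} (h0 : aeval η (tf i0 N i0) ≠ 0)
    (j : ε) : aeval (slP i0 N η) (slW (K := K) i0 j) * aeval η (tf i0 N i0) =
      if j = i0 then 0 else aeval η (tf i0 N j) := by
  split_ifs with hj
  · subst hj
    rw [bsl_slW_i0, map_zero, zero_mul]
  · rw [bsl_slW_ne (K := K) ⟨j, hj⟩, aeval_X]
    exact div_mul_cancel₀ _ h0

theorem slc_mem {i0 : ε} (N : Pr ε → K) {η : ε ⊕ ε → K} (h : Nul η)
    (h0 : aeval η (tf i0 N i0) ≠ 0) : (fun p => aeval (slP i0 N η) (slc i0 N p)) ∈ Fl η := by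
  have hq : ∑ i, η (Sum.inl i) * ∑ j, slN i0 N i j * η (Sum.inl j) = 0 := by
    have := sum_sk_self (fun p : Pr ε => slN i0 N p.1.1 p.1.2) (fun i => η (Sum.inl i))
    simpa only [bsl_sk_of_skew (slN i0 N) (bsl_slN_self i0 N) (bsl_slN_swap i0 N)] using this
  have ht := bsl_tf_i0 i0 N η
  simp only [Algebra.algebraMap_self, RingHom.id_apply] at ht
  have hw : ∑ k, aeval (slP i0 N η) (slW (K := K) i0 k) * η (Sum.inl k) = η (Sum.inr i0) := by
    refine mul_right_cancel₀ h0 ?_
    have h1 : ∀ k, aeval (slP i0 N η) (slW (K := K) i0 k) * η (Sum.inl k) *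
        aeval η (tf i0 N i0) = η (Sum.inl k) * ∑ j, slN i0 N k j * η (Sum.inl j) +
          slE i0 N k * η (Sum.inl k) * η (Sum.inr i0) - η (Sum.inl k) * η (Sum.inr k) := by
      intro k
      rw [mul_right_comm, bsl_w_mul N h0]
      split_ifs with hk
      · subst hk
        simp only [bsl_slN_i0, bsl_slE_i0, zero_mul, Finset.sum_const_zero]
        ring
      · rw [bsl_tf_ne N η hk]
        simp only [Algebra.algebraMap_self, RingHom.id_apply]
        ring
    rw [Finset.sum_mul]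
    simp only [h1, Finset.sum_sub_distrib, Finset.sum_add_distrib, ← Finset.sum_mul]
    rw [hq, ← ht, show ∑ k, η (Sum.inl k) * η (Sum.inr k) = 0 from h]
    ring
  intro i
  rw [bsl_row i0 N (slP i0 N η) (fun k => η (Sum.inl k)) i]
  simp only [Algebra.algebraMap_self, RingHom.id_apply]
  rw [hw, ← ht, bsl_w_mul N h0]
  split_ifs with hi
  · subst hi
    simp only [bsl_slN_i0, bsl_slE_i0, zero_mul, Finset.sum_const_zero]
    ring
  · rw [bsl_tf_ne N η hi]
    simp only [Algebra.algebraMap_self, RingHom.id_apply]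
    ring

omit [Fintype ε] in
theorem bsl_pderiv_slW {i0 : ε} (b : Ne0 i0) (a : ε) :
    pderiv b (slW i0 a : MvPolynomial (Ne0 i0) K) = if a = b.1 then 1 else 0 := by
  classical
  by_cases ha : a = i0
  · subst ha
    rw [bsl_slW_i0, map_zero, if_neg fun h => b.2 h.symm]
  · rw [bsl_slW_ne (K := K) ⟨a, ha⟩, pderiv_X]
    by_cases hb : a = b.1
    · have : (⟨a, ha⟩ : Ne0 i0) = b := Subtype.ext hb
      rw [if_pos hb, this, Pi.single_eq_same]
    · rw [if_neg hb, Pi.single_eq_of_ne fun h => hb (congrArg Subtype.val h)]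

theorem bsl_chain {i0 : ε} (N : Pr ε → K) (w : Ne0 i0 → K) (b : Ne0 i0)
    (G : MvPolynomial (Pr ε) K) :
    aeval w (pderiv b (aeval (slc i0 N) G)) =
      ∑ j, sk (fun p => aeval (fun q => aeval w (slc i0 N q)) (pderiv p G)) j b.1 * slE i0 N j := by
  classical
  have h1 := deriv_algHom (aeval (slc i0 N)) (pderiv b) G
  have h2 := bsl_sum_sk (fun p => aeval (fun q => aeval w (slc i0 N q)) (pderiv p G))
    (fun j k => slE i0 N j * if k = b.1 then 1 else 0)
  simp only [mul_ite, mul_one, mul_zero, Finset.sum_ite_eq', Finset.mem_univ, if_true] at h2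
  rw [h2, h1, map_sum]
  refine Finset.sum_congr rfl fun p _ => ?_
  rw [map_mul, aeval_X, ← AlgHom.comp_apply, comp_aeval]
  congr 1
  unfold slc
  simp only [map_sub, map_add, Derivation.leibniz, pderiv_C, bsl_pderiv_slW, smul_eq_mul, mul_zero,
    zero_add, add_zero, map_mul, aeval_C, Algebra.algebraMap_self, RingHom.id_apply]
  split_ifs <;> simp

/-- generic versions of the slice data. -/
def bslE (i0 a : ε) : MvPolynomial (Pr ε) K := if a = i0 then 1 else sk X a i0

def bslN (i0 a b : ε) : MvPolynomial (Pr ε) K := if a = i0 ∨ b = i0 then 0 else sk X a b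

def bslT0 (i0 : ε) (η : ε ⊕ ε → K) : MvPolynomial (Pr ε) K :=
  ∑ a, bslE i0 a * C (η (Sum.inl a))

def bslT (i0 : ε) (η : ε ⊕ ε → K) (j : ε) : MvPolynomial (Pr ε) K :=
  if j = i0 then 0 else
    ∑ b, bslN i0 j b * C (η (Sum.inl b)) + bslE i0 j * C (η (Sum.inr i0)) - C (η (Sum.inr j))

def bslP (i0 : ε) (η : ε ⊕ ε → K) (p : Pr ε) : MvPolynomial (Pr ε) K :=
  bslT0 i0 η * bslN i0 p.1.1 p.1.2 + bslE i0 p.1.1 * bslT i0 η p.1.2 -
    bslT i0 η p.1.1 * bslE i0 p.1.2

omit [Fintype ε] in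
theorem bsl_aeval_skX (N : Pr ε → K) (a b : ε) :
    aeval N (sk X a b : MvPolynomial (Pr ε) K) = sk N a b := by
  rw [map_sk (aeval N : MvPolynomial (Pr ε) K →ₐ[K] K)]
  simp only [aeval_X]

omit [Fintype ε] in
theorem bsl_aeval_E (i0 : ε) (N : Pr ε → K) (a : ε) :
    aeval N (bslE i0 a : MvPolynomial (Pr ε) K) = slE i0 N a := by
  unfold bslE slE
  split_ifs
  · exact map_one _
  · exact bsl_aeval_skX _ _ _

omit [Fintype ε] in
theorem bsl_aeval_N (i0 : ε) (N : Pr ε → K) (a b : ε) :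
    aeval N (bslN i0 a b : MvPolynomial (Pr ε) K) = slN i0 N a b := by
  unfold bslN slN
  split_ifs
  · exact map_zero _
  · exact bsl_aeval_skX _ _ _

theorem bsl_aeval_T0 (i0 : ε) (N : Pr ε → K) (η : ε ⊕ ε → K) :
    aeval N (bslT0 i0 η) = aeval η (tf i0 N i0) := by
  rw [bsl_tf_i0]
  unfold bslT0
  simp only [map_sum, map_mul, bsl_aeval_E, aeval_C, Algebra.algebraMap_self, RingHom.id_apply]

theorem bsl_aeval_T (i0 : ε) (N : Pr ε → K) (η : ε ⊕ ε → K) (j : ε) :
    aeval N (bslT i0 η j) = if j = i0 then 0 else aeval η (tf i0 N j) := by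
  unfold bslT
  split_ifs with hj
  · exact map_zero _
  · rw [bsl_tf_ne N η hj]
    simp only [map_sub, map_add, map_sum, map_mul, bsl_aeval_E, bsl_aeval_N, aeval_C,
      Algebra.algebraMap_self, RingHom.id_apply]

theorem bsl_aeval_P {i0 : ε} (N : Pr ε → K) {η : ε ⊕ ε → K} (h0 : aeval η (tf i0 N i0) ≠ 0)
    (p : Pr ε) : aeval N (bslP i0 η p) =
      aeval η (tf i0 N i0) * aeval (slP i0 N η) (slc i0 N p) := by
  unfold bslP slc
  simp only [map_sub, map_add, map_mul, bsl_aeval_E, bsl_aeval_N, bsl_aeval_T0, bsl_aeval_T,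
    aeval_C, Algebra.algebraMap_self, RingHom.id_apply, ← bsl_w_mul N h0]
  ring

/-- every point of a flat is the slice point of a suitable slice. -/
theorem bsl_exists_N {i0 : ε} {η : ε ⊕ ε → K} (h : Nrm i0 η) {M : Pr ε → K} (hM : M ∈ Fl η) :
    ∃ N : Pr ε → K, aeval η (tf i0 N i0) = 1 ∧
      (fun p => aeval (slP i0 N η) (slc i0 N p)) = M := by
  classical
  let F : ε → ε → K := fun a b => if a = i0 ∨ b = i0 then 0 else sk M a b
  have hF : ∀ a b, sk (fun p : Pr ε => F p.1.1 p.1.2) a b = F a b :=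
    bsl_sk_of_skew F (bsl_slN_self i0 M) (bsl_slN_swap i0 M)
  let N : Pr ε → K := fun p => F p.1.1 p.1.2
  have hE : ∀ a, slE i0 N a = if a = i0 then 1 else 0 := by
    intro a
    unfold slE
    split_ifs
    · rfl
    · rw [hF]
      exact if_pos (Or.inr rfl)
  have hN : ∀ a b, slN i0 N a b = F a b := by
    intro a b
    unfold slN
    split_ifs with hab
    · exact (if_pos hab).symm
    · exact hF a b
  have ht : aeval η (tf i0 N i0) = 1 := by
    rw [bsl_tf_i0]
    simp only [hE, Algebra.algebraMap_self, RingHom.id_apply, ite_mul, one_mul, zero_mul,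
      Finset.sum_ite_eq', Finset.mem_univ, if_true]
    exact h.1
  have hw : ∀ j, aeval (slP i0 N η) (slW (K := K) i0 j) = sk M i0 j := by
    intro j
    have h1 := bsl_w_mul N (η := η) (by rw [ht]; exact one_ne_zero) j
    rw [ht, mul_one] at h1
    rw [h1]
    split_ifs with hj
    · subst hj
      exact (sk_self _ _).symm
    · rw [bsl_tf_ne N η hj, ← hM j, hE, if_neg hj]
      simp only [hN, Algebra.algebraMap_self, RingHom.id_apply, zero_mul, add_zero]
      rw [← Finset.sum_sub_distrib, Finset.sum_eq_single i0]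
      · rw [show F j i0 = 0 from if_pos (Or.inr rfl), h.1, sk_swap M j i0]
        ring
      · intro b _ hb
        rw [show F j b = sk M j b from if_neg (not_or.2 ⟨hj, hb⟩), sub_self]
      · intro hb
        exact absurd (Finset.mem_univ _) hb
  refine ⟨N, ht, funext fun p => ?_⟩
  rw [← sk_of_lt M p, ← sk_of_lt (fun p => aeval (slP i0 N η) (slc i0 N p)) p, bsl_sk_aeval]
  simp only [hw, hE, hN, Algebra.algebraMap_self, RingHom.id_apply]
  have hne : p.1.1 ≠ p.1.2 := p.2.ne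
  by_cases h1 : p.1.1 = i0
  · have h2 : p.1.2 ≠ i0 := fun h2 => hne (h1.trans h2.symm)
    rw [show F p.1.1 p.1.2 = 0 from if_pos (Or.inl h1), if_pos h1, if_neg h2, h1]
    ring
  · by_cases h2 : p.1.2 = i0
    · rw [show F p.1.1 p.1.2 = 0 from if_pos (Or.inr h2), if_neg h1, if_pos h2, h2,
        sk_swap M i0 p.1.1]
      ring
    · rw [show F p.1.1 p.1.2 = sk M p.1.1 p.1.2 from if_neg (not_or.2 ⟨h1, h2⟩), if_neg h1,
        if_neg h2]
      ring

variable [Infinite K]

/-- the slice is transverse to the flats. -/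
theorem sm_slc {i0 : ε} (N : Pr ε → K) {η : ε ⊕ ε → K} (h : Nrm i0 η)
    (h0 : aeval η (tf i0 N i0) ≠ 0) {ι : Type} [Fintype ι] {g : ι → MvPolynomial (Pr ε) K}
    (hg : ∀ i, g i ∈ IL η) (hs : Sm g (kr K fun p => aeval (slP i0 N η) (slc i0 N p))) :
    Sm (fun i => aeval (slc i0 N) (g i)) (kr K (slP i0 N η)) := by
  intro a ha
  set w := slP i0 N η with hw
  set M : Pr ε → K := fun p => aeval w (slc i0 N p) with hM
  have hMF : M ∈ Fl η := slc_mem N h.2 h0
  let G : MvPolynomial (Pr ε) K := ∑ i, C (aeval w (a i)) * g i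
  have hG : G ∈ IL η := Ideal.sum_mem _ fun i _ => Ideal.mul_mem_left _ _ (hg i)
  have hdG : ∀ p, pderiv p G = ∑ i, C (aeval w (a i)) * pderiv p (g i) := by
    intro p
    simp only [G, map_sum, Derivation.leibniz, pderiv_C, smul_eq_mul, mul_zero, add_zero]
  let ω : Pr ε → K := fun p => aeval M (pderiv p G)
  have hΩ : ∀ j k, aeval M (Dd j k G) = sk ω j k := by
    intro j k
    rw [Dd_apply, map_sk (aeval M : MvPolynomial (Pr ε) K →ₐ[K] K)]
  have hform : ∀ j k, sk ω j k = η (Sum.inl k) * sk ω j i0 - η (Sum.inl j) * sk ω k i0 := by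
    intro j k
    have h1 := mem_kr.1 (IL_le_kr hMF (Dd_form h hG j k))
    simp only [map_sub, map_mul, aeval_C, Algebra.algebraMap_self, RingHom.id_apply, hΩ] at h1
    exact sub_eq_zero.1 h1
  have hb : ∀ b, b ≠ i0 → ∑ j, sk ω j b * slE i0 N j = 0 := by
    intro b hb
    have h1 := bsl_chain N w ⟨b, hb⟩ G
    have h2 := mem_kr.1 (ha ⟨b, hb⟩)
    refine h1.symm.trans (Eq.trans ?_ h2)
    simp only [G, map_sum, map_mul, aeval_C, algebraMap_eq, Derivation.leibniz, pderiv_C,
      smul_eq_mul, mul_zero, add_zero, Algebra.algebraMap_self, RingHom.id_apply]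
  have he : ∑ j, sk ω j i0 * slE i0 N j = 0 := by
    have h1 := sum_sk_self ω (slE i0 N)
    rw [Finset.sum_eq_single i0] at h1
    · rw [bsl_slE_i0, one_mul] at h1
      simp only [sk_swap ω i0, neg_mul, Finset.sum_neg_distrib]
      exact neg_eq_zero.2 h1
    · intro b _ hbi
      have h2 := hb b hbi
      simp only [sk_swap ω b, neg_mul, Finset.sum_neg_distrib, neg_eq_zero] at h2
      rw [h2, mul_zero]
    · intro hi
      exact absurd (Finset.mem_univ _) hi
  have ht := bsl_tf_i0 i0 N η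
  simp only [Algebra.algebraMap_self, RingHom.id_apply] at ht
  have hξ : ∀ b, sk ω b i0 = 0 := by
    intro b
    by_cases hbi : b = i0
    · rw [hbi, sk_self]
    · have h1 := hb b hbi
      have h2 : ∑ j, sk ω j b * slE i0 N j = η (Sum.inl b) * ∑ j, sk ω j i0 * slE i0 N j -
          (∑ j, slE i0 N j * η (Sum.inl j)) * sk ω b i0 := by
        rw [Finset.mul_sum, Finset.sum_mul, ← Finset.sum_sub_distrib]
        refine Finset.sum_congr rfl fun j _ => ?_
        rw [hform j b]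
        ring
      rw [h1, he, ← ht, mul_zero, zero_sub, eq_comm, neg_eq_zero] at h2
      exact (mul_eq_zero.1 h2).resolve_left h0
  have hω : ∀ p, ω p = 0 := by
    intro p
    rw [← sk_of_lt ω p, hform, hξ, hξ, mul_zero, mul_zero, sub_zero]
  intro i
  have h1 := hs (fun i => C (aeval w (a i))) (fun p => by rw [← hdG]; exact hω p) i
  rw [mem_kr, aeval_C] at h1
  exact h1

/-- choice of a generic slice. -/
theorem exists_slice (i0 : ε) (h : MvPolynomial (Pr ε) K) (hh : h ≠ 0)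
    (S : Finset (ε ⊕ ε → K)) (hS : ∀ η ∈ S, Nrm i0 η)
    (Q : (ε ⊕ ε → K) → MvPolynomial (Pr ε) K) (hQ : ∀ η ∈ S, Q η ∉ IL η) :
    ∃ N : Pr ε → K, aeval N h ≠ 0 ∧ ∀ η ∈ S, aeval η (tf i0 N i0) ≠ 0 ∧
      aeval (fun p => aeval (slP i0 N η) (slc i0 N p)) (Q η) ≠ 0 := by
  classical
  have h1 : ∀ η : ε ⊕ ε → K, ∃ R : MvPolynomial (Pr ε) K, ∀ N : Pr ε → K,
      aeval η (tf i0 N i0) ≠ 0 → aeval N R = aeval η (tf i0 N i0) ^ (Q η).totalDegree *
        aeval (fun p => aeval (slP i0 N η) (slc i0 N p)) (Q η) := by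
    intro η
    obtain ⟨H, -, hH⟩ := exists_homog (Q η) le_rfl
    refine ⟨aeval (fun o : Option (Pr ε) => o.elim (bslT0 i0 η) (bslP i0 η)) H, fun N h0 => ?_⟩
    rw [← hH, ← AlgHom.comp_apply, comp_aeval]
    congr 2
    funext o
    cases o with
    | none => exact bsl_aeval_T0 i0 N η
    | some p => exact bsl_aeval_P N h0 p
  choose R hR using h1
  have h2 : ∀ η ∈ S, h * (bslT0 i0 η * R η) ≠ 0 := by
    intro η hη
    have h3 : ∃ M ∈ Fl η, aeval M (Q η) ≠ 0 := by
      by_contra h4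
      push Not at h4
      exact hQ η hη (mem_vI.2 h4)
    obtain ⟨M, hM, hMQ⟩ := h3
    obtain ⟨N, ht, hN⟩ := bsl_exists_N (hS η hη) hM
    refine mul_ne_zero hh fun h4 => ?_
    have h5 := congrArg (aeval N) h4
    rw [map_mul, map_zero, bsl_aeval_T0, hR η N (by rw [ht]; exact one_ne_zero), ht, hN, one_pow,
      one_mul, one_mul] at h5
    exact hMQ h5
  obtain ⟨N, hN⟩ := exists_aeval_ne_zero (Finset.insertNone S)
    (fun o : Option (ε ⊕ ε → K) => o.elim h fun η => h * (bslT0 i0 η * R η)) (by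
      intro o ho
      cases o with
      | none => exact hh
      | some η => exact h2 η (Finset.some_mem_insertNone.1 ho))
  refine ⟨N, hN none Finset.none_mem_insertNone, fun η hη => ?_⟩
  have h3 : aeval N (h * (bslT0 i0 η * R η)) ≠ 0 := hN (some η) (Finset.some_mem_insertNone.2 hη)
  rw [map_mul, map_mul, bsl_aeval_T0] at h3
  have h4 := right_ne_zero_of_mul h3
  have h0 := left_ne_zero_of_mul h4
  have h5 := right_ne_zero_of_mul h4
  rw [hR η N h0] at h5
  exact ⟨h0, right_ne_zero_of_mul h5⟩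

end

end Vale.Agent.P054
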