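import Vale.Agent.P054.Defs

namespace Vale.Agent.P054

open MvPolynomial

noncomputable section

/-- coordinates of skew matrices. -/
abbrev Pr (ε : Type) [LT ε] : Type := {p : ε × ε // p.1 < p.2}

/-- indices other than `i0`. -/
abbrev Ne0 {ε : Type} (i0 : ε) : Type := {j : ε // j ≠ i0}

variable {K : Type} [Field K] {ε : Type} [Fintype ε] [LinearOrder ε]

/-- the skew matrix with upper triangular part `M`. -/
def sk {A : Type} [Neg A] [Zero A] (M : Pr ε → A) (i j : ε) : A :=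
  if h : i < j then M ⟨(i, j), h⟩ else if h : j < i then - M ⟨(j, i), h⟩ else 0

/-- derivative in the direction of the elementary skew matrix. -/
def Dd (i j : ε) : Derivation K (MvPolynomial (Pr ε) K) (MvPolynomial (Pr ε) K) :=
  sk (fun p => pderiv p) i j

/-- the split bilinear form. -/
def bil {A : Type} [CommRing A] (η η' : ε ⊕ ε → A) : A :=
  ∑ i, (η (Sum.inl i) * η' (Sum.inr i) + η' (Sum.inl i) * η (Sum.inr i))

/-- null vectors. -/
def Nul {A : Type} [CommRing A] (η : ε ⊕ ε → A) : Prop :=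
  ∑ i, η (Sum.inl i) * η (Sum.inr i) = 0

/-- normalised null vectors. -/
def Nrm (i0 : ε) (η : ε ⊕ ε → K) : Prop := η (Sum.inl i0) = 1 ∧ Nul η

/-- the flat of skew matrices sending `y` to `z`. -/
def Fl (η : ε ⊕ ε → K) : Set (Pr ε → K) :=
  {M | ∀ i, ∑ j, sk M i j * η (Sum.inl j) = η (Sum.inr i)}

def IL (η : ε ⊕ ε → K) : Ideal (MvPolynomial (Pr ε) K) := vI (Fl η)

def IL2 (η η' : ε ⊕ ε → K) : Ideal (MvPolynomial (Pr ε) K) := vI (Fl η ∩ Fl η')

/-- the flat lifted to the space with the extra coordinate `τ = y i1`. -/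
def IH (i1 : ε) (η : ε ⊕ ε → K) : Ideal (MvPolynomial (Option (Pr ε)) K) :=
  vI {x | (fun p => x (some p)) ∈ Fl η ∧ x none = η (Sum.inl i1)}

/-- coefficient of a power of the variable `none`. -/
def tc {σ : Type} (n : ℕ) (Φ : MvPolynomial (Option σ) K) : MvPolynomial σ K :=
  (optionEquivLeft K σ Φ).coeff n

def Mh (i j : ε) : MvPolynomial (Option (Pr ε)) K := sk (fun p => X (some p)) i j

def Dh (i j : ε) :
    Derivation K (MvPolynomial (Option (Pr ε)) K) (MvPolynomial (Option (Pr ε)) K) :=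
  sk (fun p => pderiv (some p)) i j

def om (f : MvPolynomial (Pr ε) K) (j k : ε) : MvPolynomial (Option (Pr ε)) K :=
  rename some (Dd j k f)

/-- the pencil of candidate vectors. -/
def Yv (i0 i1 : ε) (f : MvPolynomial (Pr ε) K) (k : ε) : MvPolynomial (Option (Pr ε)) K :=
  om f i1 k + X none * om f k i0

def Zv (i0 i1 : ε) (f : MvPolynomial (Pr ε) K) (i : ε) : MvPolynomial (Option (Pr ε)) K :=
  ∑ k, Mh i k * Yv i0 i1 f k

def xi (i0 i1 : ε) (f : MvPolynomial (Pr ε) K) : ε ⊕ ε → MvPolynomial (Option (Pr ε)) K :=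
  Sum.elim (Yv i0 i1 f) (Zv i0 i1 f)

/-- vector fields tangent to the candidate flats. -/
def Vv (i0 i1 : ε) (f : MvPolynomial (Pr ε) K) (j k : ε) :
    Derivation K (MvPolynomial (Option (Pr ε)) K) (MvPolynomial (Option (Pr ε)) K) :=
  om f i1 i0 • Dh j k - Yv i0 i1 f k • Dh j i0 + Yv i0 i1 f j • Dh k i0

def Th (i0 i1 : ε) (f : MvPolynomial (Pr ε) K) (j k r : ε) : MvPolynomial (Option (Pr ε)) K :=
  om f i1 i0 * Vv i0 i1 f j k (Yv i0 i1 f r) - Yv i0 i1 f r * Vv i0 i1 f j k (om f i1 i0)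

def Pl (i0 i1 : ε) (f : MvPolynomial (Pr ε) K) (j k : ε) : MvPolynomial (Pr ε) K :=
  Dd i1 i0 f * Dd j k f - Dd i1 k f * Dd j i0 f + Dd i1 j f * Dd k i0 f

/-- every flat has enough neighbours to detect polynomials of degree at most `E`. -/
def Core (i0 : ε) (𝓒 : Finset (ε ⊕ ε → K)) (E : ℕ) : Prop :=
  ∀ η ∈ 𝓒, ∀ q : MvPolynomial (Pr ε) K, q.totalDegree ≤ E → q ∉ IL η →
    ∀ U1 U2 : Submodule K (ε ⊕ ε → K), Module.finrank K U1 ≤ Fintype.card ε →
      Module.finrank K U2 ≤ Fintype.card ε →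
      ∃ η' ∈ 𝓒, bil η η' = 0 ∧ (∀ j, j ≠ i0 → η (Sum.inl j) ≠ η' (Sum.inl j)) ∧ η' ∉ U1 ∧
        η' ∉ U2 ∧ q ∉ IL2 η η'

/-- homogeneous separators of degree at most `X`. -/
def HSep {Λ β : Type} (S : Finset Λ) (x : Λ → β → K) (X : ℝ) : Prop :=
  ∀ a ∈ S, ∃ (m : ℕ) (F : MvPolynomial β K), (m : ℝ) ≤ X ∧ F.IsHomogeneous m ∧
    aeval (x a) F ≠ 0 ∧ ∀ b ∈ S, b ≠ a → aeval (x b) F = 0

/-- `T` is covered by at most `s` sets with homogeneous separators. -/
def Cov {Λ β : Type} (T : Finset Λ) (x : Λ → β → K) (s X : ℝ) : Prop :=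
  ∃ 𝓢 : Finset (Finset Λ), (𝓢.card : ℝ) ≤ s ∧ (∀ S ∈ 𝓢, HSep S x X) ∧ ∀ a ∈ T, ∃ S ∈ 𝓢, a ∈ S

/-- data of the slice attached to `N`. -/
def slE (i0 : ε) (N : Pr ε → K) (a : ε) : K := if a = i0 then 1 else sk N a i0

def slN (i0 : ε) (N : Pr ε → K) (a b : ε) : K := if a = i0 ∨ b = i0 then 0 else sk N a b

def slW (i0 : ε) (a : ε) : MvPolynomial (Ne0 i0) K := if h : a = i0 then 0 else X ⟨a, h⟩

/-- the affine slice meeting every flat in one point. -/
def slc (i0 : ε) (N : Pr ε → K) (p : Pr ε) : MvPolynomial (Ne0 i0) K :=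
  C (slN i0 N p.1.1 p.1.2) + C (slE i0 N p.1.1) * slW i0 p.1.2 - slW i0 p.1.1 * C (slE i0 N p.1.2)

/-- the linear forms projecting a null vector to its slice point. -/
def tf (i0 : ε) (N : Pr ε → K) (j : ε) : MvPolynomial (ε ⊕ ε) K :=
  if j = i0 then ∑ a, C (slE i0 N a) * X (Sum.inl a)
  else ∑ b, C (slN i0 N j b) * X (Sum.inl b) + C (slE i0 N j) * X (Sum.inr i0) - X (Sum.inr j)

/-- the slice point of a flat. -/
def slP (i0 : ε) (N : Pr ε → K) (η : ε ⊕ ε → K) : Ne0 i0 → K :=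
  fun j => aeval η (tf i0 N j) / aeval η (tf i0 N i0)

end

end Vale.Agent.P054
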