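import Vale.Agent.P054.Rank
import Vale.Agent.P054.Homog
import Vale.Agent.P054.Geo
import Vale.Agent.P054.Chain

namespace Vale.Agent.P054

open MvPolynomial

noncomputable section

variable {K : Type} [Field K]

theorem btr_scale {σ A : Type} [CommRing A] [Algebra K A] (x : σ → A) (d : A)
    {F : MvPolynomial σ K} {m : ℕ} (hF : F.IsHomogeneous m) :
    aeval (fun k => d * x k) F = d ^ m * aeval x F := by
  conv_lhs => rw [F.as_sum]
  conv_rhs => rw [F.as_sum]
  rw [map_sum, map_sum, Finset.mul_sum]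
  refine Finset.sum_congr rfl fun u hu => ?_
  rw [homog_aeval_scale]
  have : u.degree = m := by
    by_contra hne
    exact mem_support_iff.1 hu (hF.coeff_eq_zero hne)
  rw [this]

theorem btr_pi {σ Λ A : Type} [CommRing A] [Algebra K A] (x : Λ → σ → A) (F : MvPolynomial σ K)
    (l : Λ) : aeval (fun b l => x l b : σ → Λ → A) F l = aeval (x l) F := by
  have := congrArg (fun φ : MvPolynomial σ K →ₐ[K] A => φ F)
    (comp_aeval (fun b l => x l b : σ → Λ → A) (Pi.evalAlgHom K (fun _ : Λ => A) l))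
  simpa using this

theorem btr_rename {σ A : Type} [CommRing A] [Algebra K A]
    (θ : MvPolynomial (Option σ) K →ₐ[K] A) (F : MvPolynomial σ K) :
    θ (rename some F) = aeval (fun j => θ (X (some j))) F := by
  have : θ.comp (rename some) = aeval (fun j => θ (X (some j))) := by
    ext j
    simp
  exact congrArg (fun φ : MvPolynomial σ K →ₐ[K] A => φ F) this

/-- at most two sheets: the roots of a nonzero quadratic. -/
theorem btr_root {τ Λ : Type} (B : Λ → Ideal (MvPolynomial (Option τ) K))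
    (Φ : MvPolynomial (Option τ) K) (hΦ : ∀ l, Φ ∈ B l) (hΦ' : ∀ l, pderiv none Φ ∉ B l)
    (Ω : Type) [Field Ω] [Algebra K Ω] (x : τ → Ω) (hdeg : (rankPsi x Φ).natDegree ≤ 2)
    (T : Finset Ω) (hT : ∀ w ∈ T, ∃ l', kr K (fun o : Option τ => o.elim w x) = B l') :
    (T.card : ℝ) ≤ 2 := by
  classical
  have hev : ∀ (w : Ω) (f : MvPolynomial (Option τ) K),
      Polynomial.eval w (rankPsi x f) = aeval (fun o : Option τ => o.elim w x) f := fun w f =>
    rankPsi_eval x (RingHom.id Ω) (fun o : Option τ => o.elim w x) (fun _ => rfl) f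
  rcases T.eq_empty_or_nonempty with rfl | ⟨w0, hw0⟩
  · simp
  have hne : rankPsi x Φ ≠ 0 := by
    intro h0
    obtain ⟨l, hl⟩ := hT w0 hw0
    apply hΦ' l
    rw [← hl, mem_kr, ← hev, ← rankPsi_deriv, h0]
    simp
  have hsub : T ⊆ (rankPsi x Φ).roots.toFinset := by
    intro w hw
    obtain ⟨l, hl⟩ := hT w hw
    rw [Multiset.mem_toFinset, Polynomial.mem_roots hne, Polynomial.IsRoot, hev, ← mem_kr, hl]
    exact hΦ l
  have := (Finset.card_le_card hsub).trans ((Multiset.toFinset_card_le _).trans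
    ((Polynomial.card_roots' _).trans hdeg))
  exact_mod_cast this

/-- the asymptotic bound for the projected branches. -/
theorem btr_asym [CharZero K] {β τ Λ : Type} [Fintype β] [Fintype τ] [Fintype Λ] {k : ℕ}
    (θ : Λ → MvPolynomial (Option τ) K →ₐ[K] MvPowerSeries (Fin k) K)
    (hind : ∀ l, ∃ t : Fin k → MvPolynomial τ K,
      Ind ((RingHom.ker (θ l)).comap (rename some : MvPolynomial τ K →ₐ[K] _)) t) {φ : ℝ}
    (hb : HB (⨅ l ∈ (Finset.univ : Finset Λ),
      (RingHom.ker (θ l)).comap (rename some : MvPolynomial τ K →ₐ[K] _)) φ k)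
    (Φ : MvPolynomial (Option τ) K) (hΦ : ∀ l, θ l Φ = 0) (hΦ' : ∀ l, θ l (pderiv none Φ) ≠ 0)
    (hdeg : ∀ (Ω : Type) [Field Ω] [Algebra K Ω] (y : τ → Ω), (rankPsi y Φ).natDegree ≤ 2)
    (ξ : β → MvPolynomial (Option τ) K) (d0 : MvPolynomial (Option τ) K)
    (v : Λ → MvPowerSeries (Fin k) K) (hv : ∀ l, θ l d0 * v l = 1) (s : ℕ)
    (hint : ∀ b, ∃ (a0 : MvPolynomial β K) (a : τ → MvPolynomial β K), a0.totalDegree ≤ s ∧
      (∀ j, (a j).totalDegree ≤ s) ∧ ∀ l, (v l * θ l (ξ b)) ^ (s + 1) =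
        aeval (fun b => v l * θ l (ξ b)) a0 +
          ∑ j, aeval (fun b => v l * θ l (ξ b)) (a j) * θ l (X (some j))) :
    ∃ s' : ℕ, ∀ m : ℕ, (hf (⨅ l ∈ (Finset.univ : Finset Λ), kr K fun b => v l * θ l (ξ b)) m : ℝ) ≤
      2 * φ * ((m : ℝ) + s') ^ k := by
  classical
  have : IsDomain (MvPowerSeries (Fin k) K) := NoZeroDivisors.to_isDomain _
  let μ : (β → Fin (s + 1)) → MvPolynomial (Option τ) K := fun u =>
    d0 ^ (Fintype.card β * s - ∑ b, (u b : ℕ)) * ∏ b, ξ b ^ (u b : ℕ)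
  have hμ : ∀ l u, θ l (μ u) =
      θ l d0 ^ (Fintype.card β * s) * ∏ b, (v l * θ l (ξ b)) ^ (u b : ℕ) := by
    intro l u
    have hle : ∑ b, (u b : ℕ) ≤ Fintype.card β * s :=
      (Finset.sum_le_card_nsmul _ _ s fun b _ => Nat.lt_succ_iff.1 (u b).2).trans (by simp)
    simp only [μ, map_mul, map_pow, map_prod, mul_pow, Finset.prod_mul_distrib,
      Finset.prod_pow_eq_pow_sum]
    conv_rhs => rw [← Nat.sub_add_cancel hle, pow_add]
    rw [mul_assoc, ← mul_assoc (θ l d0 ^ _) (v l ^ _), ← mul_pow, hv, one_pow, one_mul]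
  obtain ⟨s', hs'⟩ := rank_bound Finset.univ (fun l => RingHom.ker (θ l))
    (fun l _ => RingHom.ker_isPrime _) (ρ := Fin k) (fun l _ => hind l) (φ := φ)
    (by rw [Fintype.card_fin]; exact hb) (fun l _ => ⟨Φ, hΦ l, hΦ' l⟩) (ν := 2) (by norm_num)
    (fun l _ Ω _ _ x _ T hT => btr_root (fun l => RingHom.ker (θ l)) Φ hΦ hΦ' Ω x (hdeg Ω x) T
      fun w hw => (hT w hw).imp fun _ h => h.2) μ
  refine ⟨s', fun m => ?_⟩
  obtain ⟨F, hF, hI⟩ := exists_indM
    (⨅ l ∈ (Finset.univ : Finset Λ), kr K fun b => v l * θ l (ξ b)) m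
  have hred := reduce_integral (K := K) (fun b l => v l * θ l (ξ b) : β → Λ → _)
    (fun j l => θ l (X (some j)) : τ → Λ → _) s (fun b => by
      obtain ⟨a0, a, h0, h1, h2⟩ := hint b
      refine ⟨a0, a, h0, h1, funext fun l => ?_⟩
      simp only [Pi.pow_apply, Pi.add_apply, Finset.sum_apply, Pi.mul_apply]
      rw [h2 l, btr_pi (fun l b => v l * θ l (ξ b))]
      congr 1
      exact Finset.sum_congr rfl fun j _ => by rw [btr_pi (fun l b => v l * θ l (ξ b))])
  choose r hr1 hr2 using hred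
  have key : ∀ l G, θ l (∑ u, rename some (r G u) * μ u) =
      θ l d0 ^ (Fintype.card β * s) * aeval (fun b => v l * θ l (ξ b)) G := by
    intro l G
    have := congrFun (hr2 G) l
    rw [btr_pi (fun l b => v l * θ l (ξ b))] at this
    rw [this, Finset.sum_apply, Finset.mul_sum, map_sum]
    refine Finset.sum_congr rfl fun u _ => ?_
    rw [map_mul, hμ, btr_rename, Pi.mul_apply, btr_pi (fun l j => θ l (X (some j))),
      Finset.prod_apply]
    simp only [Pi.pow_apply]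
    ring
  have := hs' m _ (fun a => ∑ u, rename some (r (F a) u) * μ u)
    (fun a => ⟨r (F a), fun u => (hr1 _ u).trans (hF a), by simp⟩) (fun c hc => hI c ?_)
  · simpa using this
  · simp only [Ideal.mem_iInf, mem_kr, RingHom.mem_ker] at hc ⊢
    intro l hl
    have h1 := hc l hl
    rw [map_sum] at h1 ⊢
    simp only [map_smul, key, ← mul_smul_comm, ← Finset.mul_sum] at h1
    simp only [map_smul]
    have h2 := congrArg (fun z => v l ^ (Fintype.card β * s) * z) h1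
    simpa only [← mul_assoc, ← mul_pow, mul_comm (v l) (θ l d0), hv, one_pow, one_mul,
      mul_zero] using h2

/-- counting separated points on the projected branches. -/
theorem btr_count [CharZero K] {β τ Λ : Type} [Fintype β] [Fintype τ] [Fintype Λ] {k : ℕ}
    (θ : Λ → MvPolynomial (Option τ) K →ₐ[K] MvPowerSeries (Fin k) K)
    (e : Λ → Fin k → τ) (a : Λ → Fin k → K)
    (hfree : ∀ l r, θ l (X (some (e l r))) = MvPowerSeries.C (a l r) + MvPowerSeries.X r) {φ : ℝ}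
    (hb : HB (⨅ l ∈ (Finset.univ : Finset Λ),
      (RingHom.ker (θ l)).comap (rename some : MvPolynomial τ K →ₐ[K] _)) φ k)
    (Φ : MvPolynomial (Option τ) K) (hΦ : ∀ l, θ l Φ = 0) (hΦ' : ∀ l, θ l (pderiv none Φ) ≠ 0)
    (hdeg : ∀ (Ω : Type) [Field Ω] [Algebra K Ω] (y : τ → Ω), (rankPsi y Φ).natDegree ≤ 2)
    (ξ : β → MvPolynomial (Option τ) K) (t0 : MvPolynomial β K) (t : τ → MvPolynomial β K)
    (h0 : t0.IsHomogeneous 1) (h1 : ∀ j, (t j).IsHomogeneous 1)
    (ht : ∀ j, aeval ξ (t j) = X (some j) * aeval ξ t0)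
    (z : Λ → β → K) (κ : Λ → K) (hκ : ∀ l, κ l ≠ 0) (hz0 : ∀ l, aeval (z l) t0 ≠ 0)
    (hz : ∀ l b, MvPowerSeries.constantCoeff (θ l (ξ b)) = κ l * z l b) (s : ℕ)
    (hint : ∀ b, ∃ (a0 : MvPolynomial β K) (a : τ → MvPolynomial β K), a0.IsHomogeneous s ∧
      (∀ j, (a j).IsHomogeneous s) ∧
      ∀ l, θ l (aeval ξ (X b ^ (s + 1) - (a0 * t0 + ∑ j, a j * t j))) = 0)
    {Y : ℝ} (hY : 1 ≤ Y) (hsep : HSep Finset.univ z Y) :
    (Fintype.card Λ : ℝ) ≤ 2 * φ * (k + 1) ^ k * Y ^ k := by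
  classical
  have hc : ∀ l, MvPowerSeries.constantCoeff (θ l (aeval ξ t0)) = κ l * aeval (z l) t0 := by
    intro l
    rw [comp_aeval_apply, taylor_const_aeval (hz l), btr_scale _ _ h0, pow_one]
  have hc0 : ∀ l, MvPowerSeries.constantCoeff (θ l (aeval ξ t0)) ≠ 0 := fun l => by
    rw [hc]; exact mul_ne_zero (hκ l) (hz0 l)
  let v : Λ → MvPowerSeries (Fin k) K := fun l => (θ l (aeval ξ t0))⁻¹
  have hv : ∀ l, θ l (aeval ξ t0) * v l = 1 := fun l => MvPowerSeries.mul_inv_cancel _ (hc0 l)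
  have hχ : ∀ l (F : MvPolynomial β K) (m : ℕ), F.IsHomogeneous m →
      aeval (fun b => v l * θ l (ξ b)) F = v l ^ m * θ l (aeval ξ F) := fun l F m hF => by
    rw [btr_scale _ _ hF, comp_aeval_apply]
  have hχ0 : ∀ l, aeval (fun b => v l * θ l (ξ b)) t0 = 1 := fun l => by
    rw [hχ l _ _ h0, pow_one, mul_comm, hv]
  have hχ1 : ∀ l j, aeval (fun b => v l * θ l (ξ b)) (t j) = θ l (X (some j)) := fun l j => by
    rw [hχ l _ _ (h1 j), pow_one, ht, map_mul, mul_left_comm, mul_comm (v l), hv, mul_one]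
  obtain ⟨s', hs'⟩ := btr_asym θ (fun l => ⟨fun r => X (e l r),
    ind_ker_of_free ((θ l).comp (rename some)) _ (a l) fun r => by simpa using hfree l r⟩)
    hb Φ hΦ hΦ' hdeg ξ (aeval ξ t0) v hv s (fun b => by
      obtain ⟨a0, a, g0, g1, g2⟩ := hint b
      refine ⟨a0, a, g0.totalDegree_le, fun j => (g1 j).totalDegree_le, fun l => ?_⟩
      have hF : (X b ^ (s + 1) - (a0 * t0 + ∑ j, a j * t j) : MvPolynomial β K).IsHomogeneous
          (s + 1) := (isHomogeneous_X_pow b (s + 1)).sub ((g0.mul h0).add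
            (IsHomogeneous.sum _ _ _ fun j _ => (g1 j).mul (h1 j)))
      have := hχ l _ _ hF
      rw [g2, mul_zero] at this
      simp only [map_sub, map_add, map_mul, map_sum, map_pow, aeval_X, hχ0, hχ1, mul_one] at this
      exact sub_eq_zero.1 this)
  have hgro : Gro (⨅ l ∈ (Finset.univ : Finset Λ), kr K fun b => v l * θ l (ξ b)) k :=
    gro_of_homs Finset.univ (fun _ => Fin k) (fun _ _ => Fintype.card_fin k)
      (fun l => aeval fun b => v l * θ l (ξ b)) fun l _ r =>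
        ⟨t (e l r), a l r, (h1 _).totalDegree_le, by rw [hχ1, hfree]⟩
  have hB := hb_of_gro hgro hs'
  have hm : 1 ≤ ⌊Y⌋₊ := Nat.le_floor (by simpa using hY)
  let c : Λ → K := fun l => (κ l * aeval (z l) t0)⁻¹ * κ l
  have hc1 : ∀ l, c l ≠ 0 := fun l => mul_ne_zero (inv_ne_zero (mul_ne_zero (hκ l) (hz0 l))) (hκ l)
  have h2 := card_le_hf_of_sep Finset.univ (fun l b => c l * z l b) ⌊Y⌋₊ fun l hl => by
    obtain ⟨m, F, g0, g1, g2, g3⟩ := hsep l hl
    refine ⟨F, g1.totalDegree_le.trans (Nat.le_floor g0), ?_, fun l' hl' hne => ?_⟩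
    · rw [btr_scale _ _ g1]
      exact mul_ne_zero (pow_ne_zero _ (hc1 l)) g2
    · rw [btr_scale _ _ g1, g3 l' hl' hne, mul_zero]
  have h3 : (⨅ l ∈ (Finset.univ : Finset Λ), kr K fun b => v l * θ l (ξ b)) ≤
      ⨅ l ∈ (Finset.univ : Finset Λ), kr K fun b => c l * z l b := by
    refine iInf₂_mono fun l _ F hF => ?_
    rw [mem_kr] at hF ⊢
    rw [← taylor_const_aeval (x := fun b => v l * θ l (ξ b)), hF, map_zero]
    intro b
    rw [map_mul, hz, MvPowerSeries.constantCoeff_inv, hc, ← mul_assoc]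
  have h4 := hB _ hm
  have h5 : (Fintype.card Λ : ℝ) ≤
      hf (⨅ l ∈ (Finset.univ : Finset Λ), kr K fun b => v l * θ l (ξ b)) ⌊Y⌋₊ := by
    exact_mod_cast h2.trans (hf_anti h3 _)
  refine h5.trans (h4.trans (mul_le_mul_of_nonneg_left ?_ hB.nonneg))
  exact pow_le_pow_left₀ (Nat.cast_nonneg _) (Nat.floor_le (by linarith)) k

end

end Vale.Agent.P054
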