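import Vale.Agent.P054.BrP

namespace Vale.Agent.P054

open MvPolynomial

noncomputable section

variable {K : Type} [Field K] {σ : Type} [Fintype σ] {Λ : Type}

omit [Fintype σ] in
theorem gro_indM {W ι : Type} [LinearOrder W] [Fintype ι] {I : Ideal (MvPolynomial σ K)}
    (lam : W → MvPolynomial σ K →ₗ[K] K) (hI : ∀ f ∈ I, ∀ w, lam w f = 0)
    (v : ι → MvPolynomial σ K) (w : ι → W) (hw : Function.Injective w)
    (h1 : ∀ i, lam (w i) (v i) ≠ 0) (h2 : ∀ i, ∀ w' < w i, lam w' (v i) = 0) : IndM I v := by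
  classical
  intro a ha
  by_contra hne
  obtain ⟨i₁, hi₁⟩ := not_forall.1 hne
  obtain ⟨i₀, hi₀, hmin⟩ := Finset.exists_min_image (Finset.univ.filter fun i => a i ≠ 0) w
    ⟨i₁, by simpa using hi₁⟩
  have h3 := hI _ ha (w i₀)
  rw [map_sum, Finset.sum_eq_single i₀, map_smul, smul_eq_mul] at h3
  · exact mul_ne_zero (Finset.mem_filter.1 hi₀).2 (h1 i₀) h3
  · intro i _ hi
    by_cases h4 : a i = 0
    · rw [h4, zero_smul, map_zero]
    · rw [map_smul, h2 i _ (lt_of_le_of_ne (hmin i (by simpa using h4)) fun h => hi (hw h).symm),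
        smul_zero]
  · exact fun h => absurd (Finset.mem_univ _) h

theorem gro_leads {W : Type} [LinearOrder W] {I : Ideal (MvPolynomial σ K)}
    (lam : W → MvPolynomial σ K →ₗ[K] K) (hI : ∀ f ∈ I, ∀ w, lam w f = 0)
    (lead : MvPolynomial σ K → W → Prop) (h0 : ∀ f, f ∉ I → ∃ w, lead f w)
    (h1 : ∀ f w, lead f w → lam w f ≠ 0) (h2 : ∀ f w, lead f w → ∀ w' < w, lam w' f = 0) (m : ℕ) :
    ∃ (A : Finset W) (u : A → MvPolynomial σ K), hf I m ≤ A.card ∧
      ∀ w, (u w).totalDegree ≤ m ∧ lead (u w) w := by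
  classical
  have key : ∀ A : Finset W, (A : Set W) ⊆ {w | ∃ u, u.totalDegree ≤ m ∧ lead u w} →
      A.card ≤ hf I m := fun A hA => by
    choose u hu using fun w : A => hA w.2
    simpa using card_le_hf u (fun w => (hu w).1) (gro_indM lam hI u Subtype.val
      Subtype.val_injective (fun w => h1 _ _ (hu w).2) fun w => h2 _ _ (hu w).2)
  have hfin : {w | ∃ u, u.totalDegree ≤ m ∧ lead u w}.Finite := by
    by_contra h
    obtain ⟨A, hA, hc⟩ := Set.Infinite.exists_subset_card_eq h (hf I m + 1)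
    have := key A hA
    omega
  choose u hu using fun w : hfin.toFinset => hfin.mem_toFinset.1 w.2
  refine ⟨_, u, ?_, hu⟩
  obtain ⟨v, hv, hind⟩ := exists_indM I m
  have hli : LinearIndependent K fun i => fun w : hfin.toFinset => lam w (v i) := by
    refine Fintype.linearIndependent_iff.2 fun a ha => hind a ?_
    by_contra h
    obtain ⟨w, hw⟩ := h0 _ h
    have hd : (∑ i, a i • v i).totalDegree ≤ m :=
      totalDegree_finsetSum_le fun i _ => (totalDegree_smul_le _ _).trans (hv i)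
    refine h1 _ _ hw ?_
    simpa [map_sum] using congrFun ha ⟨w, hfin.mem_toFinset.2 ⟨_, hd, hw⟩⟩
  simpa using hli.fintype_card_le_finrank

theorem gro_lex_monomial {j : ℕ} (d : Fin j →₀ ℕ) :
    MvPowerSeries.lexOrder (MvPowerSeries.monomial d (1 : K)) = toLex d := by
  classical
  refine le_antisymm (MvPowerSeries.lexOrder_le_of_coeff_ne_zero (by simp))
    (MvPowerSeries.le_lexOrder_iff.2 fun e he => ?_)
  rw [MvPowerSeries.coeff_monomial, if_neg]
  rintro rfl
  exact lt_irrefl _ he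

theorem gro_lex_pow {j : ℕ} {φ : MvPowerSeries (Fin j) K} {d : Fin j →₀ ℕ}
    (h : MvPowerSeries.lexOrder φ = toLex d) (k : ℕ) :
    MvPowerSeries.lexOrder (φ ^ k) = toLex (k • d) := by
  induction k with
  | zero => simpa using gro_lex_monomial (K := K) (0 : Fin j →₀ ℕ)
  | succ k ih => rw [pow_succ, MvPowerSeries.lexOrder_mul, ih, h, succ_nsmul]; rfl

theorem gro_fin {n j : ℕ} (θ : Fin n → MvPolynomial σ K →ₐ[K] MvPowerSeries (Fin j) K)
    (y : Fin n → Fin j → MvPolynomial σ K) (hy : ∀ l i, (y l i).totalDegree ≤ 1)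
    (hθ : ∀ l i, θ l (y l i) = MvPowerSeries.X i) : Gro (⨅ l, RingHom.ker (θ l)) j := by
  classical
  intro k m hk
  let lam : Fin n ×ₗ Lex (Fin j →₀ ℕ) → MvPolynomial σ K →ₗ[K] K := fun w =>
    (MvPowerSeries.coeff (ofLex (ofLex w).2)).comp (θ (ofLex w).1).toLinearMap
  let lead : MvPolynomial σ K → Fin n ×ₗ Lex (Fin j →₀ ℕ) → Prop := fun f w =>
    (∀ l < (ofLex w).1, θ l f = 0) ∧ MvPowerSeries.lexOrder (θ (ofLex w).1 f) = (ofLex w).2
  have hI : ∀ f ∈ ⨅ l, RingHom.ker (θ l), ∀ w, lam w f = 0 := fun f hf w => by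
    have : θ (ofLex w).1 f = 0 := Ideal.mem_iInf.1 hf _
    simp [lam, this]
  have h1 : ∀ f w, lead f w → lam w f ≠ 0 := fun f w h =>
    MvPowerSeries.coeff_ne_zero_of_lexOrder h.2.symm
  have h2 : ∀ f w, lead f w → ∀ w' < w, lam w' f = 0 := fun f w h w' hw => by
    rcases Prod.Lex.lt_iff.1 hw with h3 | ⟨h3, h4⟩
    · simp [lam, h.1 _ h3]
    · refine MvPowerSeries.coeff_eq_zero_of_lt_lexOrder ?_
      rw [h3]
      exact (WithTop.coe_lt_coe.2 h4).trans_eq h.2.symm
  obtain ⟨A, u, hA, hu⟩ := gro_leads lam hI lead (fun f hf => by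
    obtain ⟨l₁, hl₁⟩ := not_forall.1 (mt Ideal.mem_iInf.2 hf)
    obtain ⟨l, hl, hmin⟩ := Finset.exists_min_image (Finset.univ.filter fun l => θ l f ≠ 0) id
      ⟨l₁, Finset.mem_filter.2 ⟨Finset.mem_univ _, hl₁⟩⟩
    obtain ⟨d, hd⟩ := MvPowerSeries.exists_finsupp_eq_lexOrder_of_ne_zero (Finset.mem_filter.1 hl).2
    refine ⟨toLex (l, toLex d), fun l' hl' => ?_, hd⟩
    by_contra h
    exact absurd (hmin l' (Finset.mem_filter.2 ⟨Finset.mem_univ _, h⟩)) (not_le.2 hl')) h1 h2 m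
  let v : A × (Fin j → Fin k) → MvPolynomial σ K := fun p =>
    u p.1 ^ k * ∏ i, y (ofLex p.1.1).1 i ^ (p.2 i : ℕ)
  let w : A × (Fin j → Fin k) → Fin n ×ₗ Lex (Fin j →₀ ℕ) := fun p =>
    toLex ((ofLex p.1.1).1, toLex (k • ofLex (ofLex p.1.1).2 + ∑ i, Finsupp.single i (p.2 i : ℕ)))
  have hl : ∀ p, lead (v p) (w p) := fun p => by
    refine ⟨fun l hl => ?_, ?_⟩
    · rw [map_mul, map_pow, (hu p.1).2.1 l hl, zero_pow (by omega), zero_mul]
    · change MvPowerSeries.lexOrder (θ (ofLex p.1.1).1 (_ * _)) = _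
      rw [map_mul, map_pow, map_prod, MvPowerSeries.lexOrder_mul,
        gro_lex_pow (d := ofLex (ofLex p.1.1).2) (hu p.1).2.2]
      simp only [map_pow, hθ, MvPowerSeries.X_pow_eq, MvPowerSeries.prod_monomial,
        Finset.prod_const_one, gro_lex_monomial]
      rfl
  have hw : Function.Injective w := by
    rintro ⟨⟨a, ha⟩, t⟩ ⟨⟨a', ha'⟩, t'⟩ h
    have e1 : (ofLex a).1 = (ofLex a').1 := congrArg (fun z => (ofLex z).1) h
    have e2 : ∀ i, k * ofLex (ofLex a).2 i + t i = k * ofLex (ofLex a').2 i + t' i := fun i => by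
      simpa [w, Finsupp.finsetSum_apply, Finsupp.single_apply] using
        congrArg (fun z : Fin n ×ₗ Lex (Fin j →₀ ℕ) => ofLex (ofLex z).2 i) h
    have e3 : ∀ i, ofLex (ofLex a).2 i = ofLex (ofLex a').2 i := fun i => by
      have := congrArg (· / k) (e2 i)
      simpa [Nat.mul_add_div (show k > 0 from hk), Nat.div_eq_of_lt (t i).2,
        Nat.div_eq_of_lt (t' i).2] using this
    refine Prod.ext (Subtype.ext (ofLex.injective (Prod.ext e1 (ofLex.injective
      (Finsupp.ext e3))))) (funext fun i => Fin.ext ?_)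
    have := e2 i
    rw [e3 i] at this
    exact Nat.add_left_cancel this
  have h3 := card_le_hf v (m := k * (m + j)) (fun p => ?_)
    (gro_indM lam hI v w hw (fun p => h1 _ _ (hl p)) fun p => h2 _ _ (hl p))
  · simp only [Fintype.card_prod, Fintype.card_coe, Fintype.card_fun, Fintype.card_fin] at h3
    exact (mul_comm _ _).trans_le ((Nat.mul_le_mul_right _ hA).trans h3)
  · refine (totalDegree_mul _ _).trans ?_
    rw [mul_add]
    refine add_le_add ((totalDegree_pow _ _).trans (Nat.mul_le_mul_left _ (hu p.1).1))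
      ((totalDegree_finsetProd _ _).trans ?_)
    refine (Finset.sum_le_card_nsmul _ _ k fun i _ => (totalDegree_pow _ _).trans ?_).trans
      (by simp [mul_comm])
    exact (Nat.mul_le_mul_left _ (hy _ i)).trans (by simp)

/-- growth for intersections of kernels of maps to power series rings. -/
theorem gro_of_homs (S : Finset Λ) (ρ : Λ → Type) [∀ l, Fintype (ρ l)] {j : ℕ}
    (hj : ∀ l ∈ S, Fintype.card (ρ l) = j)
    (θ : ∀ l, MvPolynomial σ K →ₐ[K] MvPowerSeries (ρ l) K)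
    (ht : ∀ l ∈ S, ∀ k : ρ l, ∃ (t : MvPolynomial σ K) (a : K), t.totalDegree ≤ 1 ∧
      θ l t = MvPowerSeries.C a + MvPowerSeries.X k) :
    Gro (⨅ l ∈ S, RingHom.ker (θ l)) j := by
  have e : ∀ l : S, ρ l ≃ Fin j := fun l => Fintype.equivFinOfCardEq (hj l l.2)
  choose t a hd hθ using fun l : S => ht l l.2
  have h := gro_fin (fun i => (MvPowerSeries.rename (e (S.equivFin.symm i))).comp
    (θ (S.equivFin.symm i))) (fun i k => t _ ((e (S.equivFin.symm i)).symm k) -
      C (a _ ((e (S.equivFin.symm i)).symm k)))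
    (fun i k => (totalDegree_sub _ _).trans (by simp [hd])) fun i k => by
      rw [AlgHom.comp_apply, map_sub, hθ, algHom_C]
      simp [MvPowerSeries.algebraMap_apply]
  convert h using 1
  ext f
  simp only [Ideal.mem_iInf, RingHom.mem_ker, AlgHom.comp_apply]
  constructor
  · intro h i
    rw [h _ (S.equivFin.symm i).2, map_zero]
  · intro h l hl
    obtain ⟨i, hi⟩ := S.equivFin.symm.surjective ⟨l, hl⟩
    obtain rfl : (S.equivFin.symm i : Λ) = l := congrArg Subtype.val hi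
    exact MvPowerSeries.rename_injective (e _).toEmbedding ((h i).trans (map_zero _).symm)

theorem gro_Br {ι ρ : Type} [Fintype ι] [DecidableEq ι] [Fintype ρ] (S : Finset Λ)
    (p : Λ → Ideal (MvPolynomial σ K)) {g : ι → MvPolynomial σ K} {c : ι → σ} {e : ρ → σ}
    (h : Compl c e) (hp : ∀ l ∈ S, (p l).IsPrime) (hd : ∀ l ∈ S, Dn (p l))
    (hg : ∀ l ∈ S, ∀ i, g i ∈ p l) (hJ : ∀ l ∈ S, Jac g c ∉ p l) :
    Gro (⨅ l ∈ S, Br (Set.range g) (p l)) (Fintype.card ρ) := by
  choose π θ _ _ _ h4 h5 using fun l : S => exists_tay_prime h (hp l l.2) (hd l l.2) (hg l l.2)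
    (hJ l l.2) (s := 1) ((Ideal.ne_top_iff_one _).1 (hp l l.2).ne_top)
  have := gro_of_homs Finset.univ (fun _ : S => ρ) (fun _ _ => rfl) θ
    fun l _ k => ⟨X (e k), π l (e k), (totalDegree_X _).le, (h4 l).free k⟩
  simpa only [h5, Finset.mem_univ, iInf_pos, iInf_subtype] using this

/-- an asymptotic bound becomes a uniform bound. -/
theorem hb_of_gro {I : Ideal (MvPolynomial σ K)} {j : ℕ} (h : Gro I j) {φ : ℝ} {s : ℕ}
    (hφ : ∀ m : ℕ, (hf I m : ℝ) ≤ φ * ((m : ℝ) + s) ^ j) : HB I (φ * (j + 1) ^ j) j := by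
  intro m hm
  have h0 : 0 ≤ φ := nonneg_of_mul_nonneg_left ((Nat.cast_nonneg _).trans (hφ 1)) (by positivity)
  have h1 : Filter.Tendsto (fun k : ℕ => φ * ((m : ℝ) + j + s / k) ^ j) Filter.atTop
      (nhds (φ * ((m : ℝ) + j + 0) ^ j)) :=
    ((tendsto_const_nhds.add (tendsto_const_div_atTop_nhds_zero_nat _)).pow j).const_mul φ
  have h2 : (hf I m : ℝ) ≤ φ * ((m : ℝ) + j + 0) ^ j := by
    refine ge_of_tendsto h1 ?_
    filter_upwards [Filter.eventually_ge_atTop 1] with k hk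
    have hk' : (0 : ℝ) < k := by exact_mod_cast hk
    have h3 : (k : ℝ) ^ j * hf I m ≤ hf I (k * (m + j)) := by exact_mod_cast h k m hk
    have h4 := h3.trans (hφ _)
    have e : ((k * (m + j) : ℕ) : ℝ) + s = k * ((m : ℝ) + j + s / k) := by
      push_cast
      field_simp
    rw [e, mul_pow, mul_left_comm] at h4
    exact le_of_mul_le_mul_left h4 (by positivity)
  refine h2.trans ?_
  have hm' : (1 : ℝ) ≤ m := by exact_mod_cast hm
  have h5 : (m : ℝ) + j + 0 ≤ (j + 1) * m := by nlinarith [Nat.cast_nonneg (α := ℝ) j]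
  rw [mul_assoc, ← mul_pow]
  gcongr

/-- a bound at one scale propagates downwards. -/
theorem hf_down {I : Ideal (MvPolynomial σ K)} {j : ℕ} (h : Gro I j) {m M : ℕ} (hm : 1 ≤ m)
    (hM : m ≤ M) :
    (hf I m : ℝ) * (M : ℝ) ^ j ≤ (hf I M : ℝ) * (2 * (j + 1)) ^ j * (m : ℝ) ^ j := by
  have key : hf I m * M ^ j ≤ hf I M * (2 * (j + 1)) ^ j * m ^ j := by
    have h1 : m + j ≤ (j + 1) * m := by nlinarith
    have h2 := Nat.lt_mul_div_succ M (show 0 < m + j by omega)
    have h3 := Nat.div_mul_le_self M (m + j)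
    rw [mul_assoc, ← mul_pow]
    generalize M / (m + j) = k at h2 h3
    rcases Nat.eq_zero_or_pos k with rfl | hk
    · exact Nat.mul_le_mul (hf_mono I hM) (Nat.pow_le_pow_left (by nlinarith) j)
    · have h4 : M ≤ k * (2 * (j + 1) * m) :=
        calc M ≤ (m + j) * (k + 1) := h2.le
          _ ≤ ((j + 1) * m) * (2 * k) := Nat.mul_le_mul h1 (by omega)
          _ = _ := by ring
      calc hf I m * M ^ j ≤ hf I m * (k * (2 * (j + 1) * m)) ^ j :=
            Nat.mul_le_mul_left _ (Nat.pow_le_pow_left h4 j)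
        _ = k ^ j * hf I m * (2 * (j + 1) * m) ^ j := by rw [mul_pow]; ring
        _ ≤ _ := Nat.mul_le_mul_right _ ((h k m hk).trans (hf_mono I h3))
  exact_mod_cast key

end

end Vale.Agent.P054
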