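import Vale.Agent.P054.Defs

namespace Vale.Agent.P054

open MvPolynomial

noncomputable section

variable {K : Type} [Field K]

theorem rank_generic {σ : Type} (b : Ideal (MvPolynomial σ K)) (hb : b.IsPrime) :
    ∃ (F : Type) (_ : Field F) (_ : Algebra K F) (y : σ → F), kr K y = b ∧
      (∀ z : F, ∃ p q : MvPolynomial σ K, q ∉ b ∧ z * aeval y q = aeval y p) ∧
      ∀ (E : Type) [Field E] [Algebra K E] (z : σ → E), kr K z = b →
        ∃ j : F →+* E, ∀ p : MvPolynomial σ K, j (aeval y p) = aeval z p := by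
  let F := FractionRing (MvPolynomial σ K ⧸ b)
  let y : σ → F := fun k => algebraMap (MvPolynomial σ K ⧸ b) F (Ideal.Quotient.mk b (X k))
  have hy : ∀ p, aeval y p = algebraMap (MvPolynomial σ K ⧸ b) F (Ideal.Quotient.mk b p) := by
    intro p
    have : (aeval y : MvPolynomial σ K →ₐ[K] F) =
        (IsScalarTower.toAlgHom K (MvPolynomial σ K ⧸ b) F).comp (Ideal.Quotient.mkₐ K b) := by
      apply MvPolynomial.algHom_ext
      intro k
      simp [y]
    rw [this]
    rfl
  have hinj := IsFractionRing.injective (MvPolynomial σ K ⧸ b) F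
  refine ⟨F, inferInstance, inferInstance, y, ?_, ?_, ?_⟩
  · ext p
    rw [mem_kr, hy, map_eq_zero_iff _ hinj, Ideal.Quotient.eq_zero_iff_mem]
  · intro z
    obtain ⟨p, q, hq, rfl⟩ := IsFractionRing.div_surjective (A := MvPolynomial σ K ⧸ b) z
    obtain ⟨p, rfl⟩ := Ideal.Quotient.mk_surjective p
    obtain ⟨q, rfl⟩ := Ideal.Quotient.mk_surjective q
    have hq0 : Ideal.Quotient.mk b q ≠ 0 := nonZeroDivisors.ne_zero hq
    refine ⟨p, q, fun h => hq0 (Ideal.Quotient.eq_zero_iff_mem.2 h), ?_⟩
    rw [hy, hy, div_mul_cancel₀]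
    exact (map_ne_zero_iff _ hinj).2 hq0
  · intro E _ _ z hz
    let g : MvPolynomial σ K ⧸ b →+* E :=
      Ideal.Quotient.lift b (aeval z : MvPolynomial σ K →ₐ[K] E).toRingHom
        (fun p hp => by rw [← hz] at hp; exact hp)
    have hg : Function.Injective g := by
      rw [injective_iff_map_eq_zero]
      intro p hp
      obtain ⟨p, rfl⟩ := Ideal.Quotient.mk_surjective p
      rw [Ideal.Quotient.eq_zero_iff_mem, ← hz]
      exact hp
    refine ⟨IsFractionRing.lift hg, fun p => ?_⟩
    rw [hy, IsFractionRing.lift_algebraMap]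
    rfl

variable {τ : Type}

/-- specialisation of the base variables. -/
def rankPsi {F : Type} [Field F] [Algebra K F] (y : τ → F) :
    MvPolynomial (Option τ) K →ₐ[K] Polynomial F :=
  aeval fun o : Option τ => o.elim Polynomial.X fun k => Polynomial.C (y k)

theorem rankPsi_eval {F E : Type} [Field F] [Algebra K F] [Field E] [Algebra K E] (y : τ → F)
    (j : F →+* E) (z : Option τ → E)
    (h : ∀ p : MvPolynomial τ K, j (aeval y p) = aeval (fun k => z (some k)) p)
    (f : MvPolynomial (Option τ) K) :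
    Polynomial.eval₂ j (z none) (rankPsi y f) = aeval z f := by
  induction f using MvPolynomial.induction_on with
  | C a =>
    have := h (C a)
    simp only [aeval_C] at this
    simp [rankPsi, Polynomial.algebraMap_apply, this]
  | add p q hp hq => rw [map_add, Polynomial.eval₂_add, hp, hq, map_add]
  | mul_X p o hp =>
    rw [map_mul, Polynomial.eval₂_mul, hp, map_mul]
    congr 1
    cases o with
    | none => simp [rankPsi]
    | some k =>
      have := h (X k)
      simp only [aeval_X] at this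
      simp [rankPsi, this]

theorem rankPsi_deriv {F : Type} [Field F] [Algebra K F] (y : τ → F)
    (f : MvPolynomial (Option τ) K) :
    Polynomial.derivative (rankPsi y f) = rankPsi y (pderiv none f) := by
  classical
  induction f using MvPolynomial.induction_on with
  | C a => simp [rankPsi, Polynomial.algebraMap_apply]
  | add p q hp hq => simp only [map_add, hp, hq]
  | mul_X p o hp =>
    rw [map_mul, Polynomial.derivative_mul, hp, Derivation.leibniz]
    cases o with
    | none => simp [rankPsi]; ring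
    | some k => simp [rankPsi, pderiv_X]; ring

theorem rank_kr_comap {E : Type} [Field E] [Algebra K E] (z : Option τ → E) :
    kr K (fun k => z (some k)) =
      (kr K z).comap (rename some : MvPolynomial τ K →ₐ[K] MvPolynomial (Option τ) K) := by
  ext p
  rw [Ideal.mem_comap, mem_kr, mem_kr, aeval_rename]
  rfl

theorem rank_mem_kr {F Ω : Type} [Field F] [Algebra K F] [Field Ω] [Algebra K Ω] [Algebra F Ω]
    [IsScalarTower K F Ω] (y : τ → F) (w : Ω) (f : MvPolynomial (Option τ) K) :
    aeval (fun o : Option τ => o.elim w fun k => algebraMap F Ω (y k)) f =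
      Polynomial.aeval w (rankPsi y f) := by
  rw [← rankPsi_eval y (algebraMap F Ω) (fun o : Option τ => o.elim w fun k => algebraMap F Ω (y k))
    (fun p => (aeval_algebraMap_apply Ω y p).symm) f, Polynomial.aeval_def]
  rfl

theorem rank_kr_minpoly {F Ω : Type} [Field F] [Algebra K F] [Field Ω] [Algebra K Ω] [Algebra F Ω]
    [IsScalarTower K F Ω] (y : τ → F) (w : Ω) (f : MvPolynomial (Option τ) K) :
    f ∈ kr K (fun o : Option τ => o.elim w fun k => algebraMap F Ω (y k)) ↔
      minpoly F w ∣ rankPsi y f := by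
  rw [mem_kr, rank_mem_kr, minpoly.dvd_iff]

theorem rank_exists_root {F Ω : Type} [Field F] [Algebra K F] [Field Ω] [Algebra K Ω] [Algebra F Ω]
    [IsScalarTower K F Ω] [IsAlgClosed Ω] (y : τ → F) (B : Ideal (MvPolynomial (Option τ) K))
    (hB : B.IsPrime)
    (huniv : ∀ (E : Type) [Field E] [Algebra K E] (z : τ → E),
      kr K z = B.comap (rename some : MvPolynomial τ K →ₐ[K] MvPolynomial (Option τ) K) →
        ∃ j : F →+* E, ∀ p : MvPolynomial τ K, j (aeval y p) = aeval z p)
    (halg : ∃ Φ ∈ B, pderiv none Φ ∉ B) :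
    ∃ w : Ω, IsIntegral F w ∧
      kr K (fun o : Option τ => o.elim w fun k => algebraMap F Ω (y k)) = B := by
  obtain ⟨E, _, _, z, hz, -, -⟩ := rank_generic B hB
  obtain ⟨j, hj⟩ := huniv E (fun k => z (some k)) (by rw [rank_kr_comap, hz])
  letI : Algebra F E := j.toAlgebra
  have hev : ∀ f : MvPolynomial (Option τ) K,
      Polynomial.aeval (z none) (rankPsi y f) = aeval z f := fun f => rankPsi_eval y j z hj f
  obtain ⟨Φ, hΦ, hΦ'⟩ := halg
  have h0 : rankPsi y Φ ≠ 0 := by
    intro h
    apply hΦ'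
    rw [← hz, mem_kr, ← hev, ← rankPsi_deriv, h]
    simp
  have hint : IsIntegral F (z none) := by
    apply IsAlgebraic.isIntegral
    refine ⟨_, h0, ?_⟩
    rw [hev, ← mem_kr, hz]
    exact hΦ
  obtain ⟨w, hw⟩ := IsAlgClosed.exists_aeval_eq_zero Ω (minpoly F (z none))
    (minpoly.degree_pos hint).ne'
  have hm : minpoly F (z none) = minpoly F w :=
    minpoly.eq_of_irreducible_of_monic (minpoly.irreducible hint) hw (minpoly.monic hint)
  refine ⟨w, ⟨_, minpoly.monic hint, hw⟩, ?_⟩
  ext f
  rw [rank_kr_minpoly, ← hm, minpoly.dvd_iff, hev, ← mem_kr, hz]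

theorem rank_exists_poly {F Ω : Type} [Field F] [CharZero F] [Field Ω] [Algebra F Ω]
    [IsAlgClosed Ω] {Λ : Type} (S : Finset Λ) (w : Λ → Ω) (hw : ∀ l ∈ S, IsIntegral F (w l)) :
    ∃ (P : Polynomial F) (T : Finset Ω), P.Monic ∧ (∀ l ∈ S, Polynomial.aeval (w l) P = 0) ∧
      T.card = P.natDegree ∧ ∀ t ∈ T, ∃ l ∈ S, minpoly F t = minpoly F (w l) := by
  classical
  let M : Finset (Polynomial F) := S.image fun l => minpoly F (w l)
  have hM : ∀ q ∈ M, Irreducible q ∧ q.Monic := by
    intro q hq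
    obtain ⟨l, hl, rfl⟩ := Finset.mem_image.1 hq
    exact ⟨minpoly.irreducible (hw l hl), minpoly.monic (hw l hl)⟩
  let P : Polynomial F := ∏ q ∈ M, q
  have hP : P.Monic := Polynomial.monic_prod_of_monic _ _ fun q hq => (hM q hq).2
  have hsep : P.Separable := by
    refine Polynomial.separable_prod' (fun q hq q' hq' hne => ?_)
      fun q hq => (hM q hq).1.separable
    rw [(hM q hq).1.coprime_iff_not_dvd]
    intro hd
    exact hne (Polynomial.eq_of_monic_of_associated (hM q hq).2 (hM q' hq').2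
      ((hM q hq).1.associated_of_dvd (hM q' hq').1 hd))
  refine ⟨P, (P.rootSet Ω).toFinset, hP, ?_, ?_, ?_⟩
  · intro l hl
    exact Polynomial.aeval_eq_zero_of_dvd_aeval_eq_zero
      (Finset.dvd_prod_of_mem (fun q => q) (Finset.mem_image_of_mem _ hl)) (minpoly.aeval F _)
  · rw [Set.toFinset_card]
    exact Polynomial.card_rootSet_eq_natDegree hsep (IsAlgClosed.splits _)
  · intro t ht
    rw [Set.mem_toFinset, Polynomial.mem_rootSet] at ht
    have h2 := ht.2
    rw [map_prod, Finset.prod_eq_zero_iff] at h2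
    obtain ⟨q, hq, hq0⟩ := h2
    have h3 := minpoly.eq_of_irreducible_of_monic (hM q hq).1 hq0 (hM q hq).2
    obtain ⟨l, hl, rfl⟩ := Finset.mem_image.1 hq
    exact ⟨l, hl, h3.symm⟩

theorem rank_denom {F : Type} [Field F] [Algebra K F] (y : τ → F) (b : Ideal (MvPolynomial τ K))
    (hb : b.IsPrime)
    (hfr : ∀ z : F, ∃ p q : MvPolynomial τ K, q ∉ b ∧ z * aeval y q = aeval y p)
    {J : Type} [Fintype J] (z : J → F) :
    ∃ (d : MvPolynomial τ K) (c : J → MvPolynomial τ K), d ∉ b ∧
      ∀ i, aeval y d * z i = aeval y (c i) := by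
  classical
  choose p q hq hpq using fun i => hfr (z i)
  refine ⟨∏ i, q i, fun i => p i * ∏ i' ∈ Finset.univ.erase i, q i', ?_, fun i => ?_⟩
  · intro h
    obtain ⟨i, _, hi⟩ := (Ideal.IsPrime.prod_mem_iff (hp := hb)).1 h
    exact hq i hi
  · rw [← Finset.mul_prod_erase Finset.univ q (Finset.mem_univ i), map_mul, map_mul, ← hpq]
    ring

theorem rank_local [CharZero K] {Λ : Type} (S : Finset Λ)
    (B : Λ → Ideal (MvPolynomial (Option τ) K)) (hB : ∀ l ∈ S, (B l).IsPrime)
    (halg : ∀ l ∈ S, ∃ Φ ∈ B l, pderiv none Φ ∉ B l) {ν : ℝ}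
    (b : Ideal (MvPolynomial τ K)) (hb : b.IsPrime)
    (hroot : ∀ (Ω : Type) [Field Ω] [Algebra K Ω] (x : τ → Ω), kr K x = b → ∀ T : Finset Ω,
      (∀ w ∈ T, ∃ l' ∈ S, kr K (fun o : Option τ => o.elim w x) = B l') → (T.card : ℝ) ≤ ν)
    {I : Type} [Fintype I] (μ : I → MvPolynomial (Option τ) K) :
    ∃ (N : ℕ) (d : MvPolynomial τ K) (c : I × Fin N → MvPolynomial τ K), (N : ℝ) ≤ ν ∧ d ∉ b ∧
      ∀ l ∈ S, (B l).comap (rename some : MvPolynomial τ K →ₐ[K] MvPolynomial (Option τ) K) = b →
        ∀ i, rename some d * μ i - ∑ s : Fin N, rename some (c (i, s)) * X none ^ (s : ℕ) ∈ B l := by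
  classical
  obtain ⟨F, _, _, y, hy, hfr, huniv⟩ := rank_generic b hb
  haveI : CharZero F := charZero_of_injective_algebraMap (algebraMap K F).injective
  let Ω := AlgebraicClosure F
  let S' := S.filter fun l =>
    (B l).comap (rename some : MvPolynomial τ K →ₐ[K] MvPolynomial (Option τ) K) = b
  have hex : ∀ l, ∃ w : Ω, l ∈ S' → IsIntegral F w ∧
      kr K (fun o : Option τ => o.elim w fun k => algebraMap F Ω (y k)) = B l := by
    intro l
    by_cases hl : l ∈ S'
    · obtain ⟨h1, h2⟩ := Finset.mem_filter.1 hl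
      obtain ⟨w, hw⟩ := rank_exists_root (Ω := Ω) y (B l) (hB l h1) (by rw [h2]; exact huniv)
        (halg l h1)
      exact ⟨w, fun _ => hw⟩
    · exact ⟨0, fun h => absurd h hl⟩
  choose w hw using hex
  obtain ⟨P, T, hP, hPw, hT, hTm⟩ := rank_exists_poly (F := F) S' w fun l hl => (hw l hl).1
  have hx : kr K (fun k => algebraMap F Ω (y k)) = b := by
    ext p
    have e0 : aeval (fun k => algebraMap F Ω (y k)) p = algebraMap F Ω (aeval y p) :=
      aeval_algebraMap_apply Ω y p
    rw [mem_kr, e0, map_eq_zero_iff _ (algebraMap F Ω).injective, ← mem_kr, hy]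
  have hN : (P.natDegree : ℝ) ≤ ν := by
    rw [← hT]
    refine hroot Ω _ hx T fun t ht => ?_
    obtain ⟨l, hl, hm⟩ := hTm t ht
    refine ⟨l, (Finset.mem_filter.1 hl).1, ?_⟩
    rw [← (hw l hl).2]
    ext f
    rw [rank_kr_minpoly, rank_kr_minpoly, hm]
  obtain ⟨d, c, hd, hc⟩ := rank_denom y b hb hfr
    (fun a : I × Fin P.natDegree => (rankPsi y (μ a.1) %ₘ P).coeff a.2)
  refine ⟨P.natDegree, d, c, hN, hd, fun l hl hlb i => ?_⟩
  have hl' : l ∈ S' := Finset.mem_filter.2 ⟨hl, hlb⟩
  rw [← (hw l hl').2, mem_kr, map_sub, map_mul, map_sum, sub_eq_zero]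
  have e1 : ∀ p : MvPolynomial τ K,
      aeval (fun o : Option τ => o.elim (w l) fun k => algebraMap F Ω (y k)) (rename some p) =
        algebraMap F Ω (aeval y p) := by
    intro p
    rw [aeval_rename, ← aeval_algebraMap_apply]
    rfl
  have e2 : Polynomial.aeval (w l) (rankPsi y (μ i)) =
      ∑ s : Fin P.natDegree, algebraMap F Ω ((rankPsi y (μ i) %ₘ P).coeff s) * w l ^ (s : ℕ) := by
    rw [← Polynomial.aeval_modByMonic_eq_self_of_root (p := rankPsi y (μ i)) (hPw l hl')]
    have hdeg : (rankPsi y (μ i) %ₘ P).degree < P.natDegree := by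
      rw [← Polynomial.degree_eq_natDegree hP.ne_zero]
      exact Polynomial.degree_modByMonic_lt _ hP
    conv_lhs => rw [← Polynomial.sum_fin (fun n a => Polynomial.monomial n a) (by simp) hdeg |>.trans
      (Polynomial.sum_monomial_eq _)]
    simp only [map_sum, Polynomial.aeval_monomial]
  rw [e1, rank_mem_kr, e2, Finset.mul_sum]
  refine Finset.sum_congr rfl fun s _ => ?_
  rw [map_mul, e1, ← hc (i, s), map_mul, map_pow, aeval_X, mul_assoc]
  rfl

end

end Vale.Agent.P054
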