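import Vale.Agent.P054.Dim
import Vale.Agent.P054.Gro
import Vale.Agent.P054.RankAux

namespace Vale.Agent.P054

open MvPolynomial

noncomputable section

variable {K : Type} [Field K] [CharZero K] {τ : Type} [Fintype τ] {Λ : Type}

omit [CharZero K] in
theorem rank_coords (b : Ideal (MvPolynomial τ K)) (J : Ideal (MvPolynomial (Option τ) K))
    (hJ : b ≤ J.comap (rename some : MvPolynomial τ K →ₐ[K] MvPolynomial (Option τ) K))
    {n N : ℕ} (u : Fin n → MvPolynomial τ K) (g : Fin N → MvPolynomial τ K)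
    (a : Fin N × Fin n → K) (ha : ∀ s, g s - ∑ j, a (s, j) • u j ∈ b) :
    ∑ s : Fin N, rename some (g s) * X none ^ (s : ℕ) -
      ∑ t : Fin N × Fin n, a t • (rename some (u t.2) * X none ^ (t.1 : ℕ)) ∈ J := by
  rw [Fintype.sum_prod_type, ← Finset.sum_sub_distrib]
  refine J.sum_mem fun s _ => ?_
  have h1 : rename some (g s - ∑ j, a (s, j) • u j) ∈ J := hJ (ha s)
  have h2 := J.mul_mem_right (X none ^ (s : ℕ)) h1
  convert h2 using 1
  simp only [map_sub, map_sum, map_smul, sub_mul, Finset.sum_mul, smul_mul_assoc]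

omit [CharZero K] [Fintype τ] in
theorem rank_card_le {σ κ J : Type} [Fintype κ] [Fintype J] (I : Ideal (MvPolynomial σ K))
    (v : κ → MvPolynomial σ K) (hv : IndM I v) (M : κ → J → K)
    (h : ∀ α : κ → K, (∀ t, ∑ a, α a * M a t = 0) → ∑ a, α a • v a ∈ I) :
    Fintype.card κ ≤ Fintype.card J := by
  have hli : LinearIndependent K M := by
    rw [Fintype.linearIndependent_iff]
    intro α hα
    refine hv α (h α fun t => ?_)
    simpa [Finset.sum_apply] using congrFun hα t
  simpa using hli.fintype_card_le_finrank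

/-- rank bound for finite covers with few sheets. -/
theorem rank_bound (S : Finset Λ) (B : Λ → Ideal (MvPolynomial (Option τ) K))
    (hB : ∀ l ∈ S, (B l).IsPrime) {ρ : Type} [Fintype ρ]
    (hind : ∀ l ∈ S, ∃ t : ρ → MvPolynomial τ K,
      Ind ((B l).comap (rename some : MvPolynomial τ K →ₐ[K] _)) t) {φ : ℝ}
    (hb : HB (⨅ l ∈ S, (B l).comap (rename some : MvPolynomial τ K →ₐ[K] _)) φ (Fintype.card ρ))
    (halg : ∀ l ∈ S, ∃ Φ ∈ B l, pderiv none Φ ∉ B l) {ν : ℝ} (hν : 0 ≤ ν)
    (hroot : ∀ l ∈ S, ∀ (Ω : Type) [Field Ω] [Algebra K Ω] (x : τ → Ω),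
      kr K x = (B l).comap (rename some : MvPolynomial τ K →ₐ[K] _) → ∀ T : Finset Ω,
      (∀ w ∈ T, ∃ l' ∈ S, kr K (fun o : Option τ => o.elim w x) = B l') → (T.card : ℝ) ≤ ν)
    {I : Type} [Fintype I] (μ : I → MvPolynomial (Option τ) K) :
    ∃ s : ℕ, ∀ (m : ℕ) (κ : Type) [Fintype κ] (v : κ → MvPolynomial (Option τ) K),
      (∀ a, ∃ r : I → MvPolynomial τ K, (∀ i, (r i).totalDegree ≤ m) ∧
        v a - ∑ i, rename some (r i) * μ i ∈ ⨅ l ∈ S, B l) →
      IndM (⨅ l ∈ S, B l) v → (Fintype.card κ : ℝ) ≤ ν * φ * ((m : ℝ) + s) ^ Fintype.card ρ := by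
  classical
  let bb : Λ → Ideal (MvPolynomial τ K) := fun l =>
    (B l).comap (rename some : MvPolynomial τ K →ₐ[K] MvPolynomial (Option τ) K)
  let Bs : Finset (Ideal (MvPolynomial τ K)) := S.image bb
  have hBs : ∀ b ∈ Bs, ∃ l ∈ S, bb l = b := fun b hb => Finset.mem_image.1 hb
  have hpr : ∀ b ∈ Bs, (id b : Ideal (MvPolynomial τ K)).IsPrime := by
    intro b hb
    obtain ⟨l, hl, rfl⟩ := hBs b hb
    haveI := hB l hl
    exact Ideal.comap_isPrime _ _
  have hb' : HB (⨅ b ∈ Bs, id b) φ (Fintype.card ρ) := by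
    refine hb.mono (le_iInf₂ fun b hb => ?_) le_rfl
    obtain ⟨l, hl, rfl⟩ := hBs b hb
    exact iInf₂_le l hl
  have hinc := incomp_of_HB Bs id hpr (Set.injOn_id _) hb' (fun b hb => by
    obtain ⟨l, hl, rfl⟩ := hBs b hb
    exact hind l hl)
  obtain ⟨s₁, hs₁⟩ := sum_hf_le Bs id hpr hinc
  have hloc : ∀ b : Bs, ∃ (N : ℕ) (d : MvPolynomial τ K) (c : I × Fin N → MvPolynomial τ K),
      (N : ℝ) ≤ ν ∧ d ∉ b.1 ∧ ∀ l ∈ S, bb l = b.1 → ∀ i, rename some d * μ i -
        ∑ s : Fin N, rename some (c (i, s)) * X none ^ (s : ℕ) ∈ B l := by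
    rintro ⟨b, hb⟩
    refine rank_local S B hB halg b (hpr b hb) ?_ μ
    obtain ⟨l, hl, rfl⟩ := hBs b hb
    exact hroot l hl
  choose N d c hN hd hc using hloc
  let s₀ : ℕ := Finset.univ.sup fun b : Bs => Finset.univ.sup fun t => (c b t).totalDegree
  have hs₀ : ∀ b t, (c b t).totalDegree ≤ s₀ := fun b t =>
    le_trans (Finset.le_sup (f := fun t => (c b t).totalDegree) (Finset.mem_univ t))
      (Finset.le_sup (f := fun b : Bs => Finset.univ.sup fun t => (c b t).totalDegree)
        (Finset.mem_univ b))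
  refine ⟨s₀ + s₁ + 1, fun m κ _ v hv hind' => ?_⟩
  choose r hr hrv using hv
  choose u hu hspan using fun b : Bs => exists_span_hf b.1 (m + s₀ + 1)
  have hdeg : ∀ (b : Bs) (a : κ) (s : Fin (N b)),
      (∑ i, r a i * c b (i, s)).totalDegree ≤ m + s₀ + 1 := by
    intro b a s
    refine totalDegree_finsetSum_le fun i _ => (totalDegree_mul _ _).trans ?_
    have := hr a i
    have := hs₀ b (i, s)
    omega
  choose co hco using fun (b : Bs) (a : κ) (s : Fin (N b)) => hspan b _ (hdeg b a s)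
  have key := rank_card_le (J := Σ b : Bs, Fin (N b) × Fin (hf b.1 (m + s₀ + 1)))
    (⨅ l ∈ S, B l) v hind' (fun a t => co t.1 a t.2.1 t.2.2) (fun α hα => ?_)
  · rw [Fintype.card_sigma] at key
    simp only [Fintype.card_prod, Fintype.card_fin] at key
    have k1 : (Fintype.card κ : ℝ) ≤ ∑ b : Bs, (N b : ℝ) * (hf b.1 (m + s₀ + 1) : ℝ) := by
      exact_mod_cast key
    have k2 : ∑ b : Bs, (N b : ℝ) * (hf b.1 (m + s₀ + 1) : ℝ) ≤
        ν * ∑ b : Bs, (hf b.1 (m + s₀ + 1) : ℝ) := by
      rw [Finset.mul_sum]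
      exact Finset.sum_le_sum fun b _ => mul_le_mul_of_nonneg_right (hN b) (by positivity)
    have k3 : ∑ b : Bs, (hf b.1 (m + s₀ + 1) : ℝ) ≤ hf (⨅ b ∈ Bs, id b) (m + s₀ + 1 + s₁) := by
      have := hs₁ (m + s₀ + 1)
      rw [← Finset.sum_coe_sort Bs] at this
      exact_mod_cast this
    have k4 := hb' (m + s₀ + 1 + s₁) (by omega)
    have k5 : ((m + s₀ + 1 + s₁ : ℕ) : ℝ) = (m : ℝ) + ((s₀ + s₁ + 1 : ℕ) : ℝ) := by
      push_cast; ring
    rw [k5] at k4
    calc (Fintype.card κ : ℝ) ≤ ν * ∑ b : Bs, (hf b.1 (m + s₀ + 1) : ℝ) := k1.trans k2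
      _ ≤ ν * (φ * ((m : ℝ) + ((s₀ + s₁ + 1 : ℕ) : ℝ)) ^ Fintype.card ρ) :=
          mul_le_mul_of_nonneg_left (k3.trans k4) hν
      _ = _ := by ring
  · simp only [Ideal.mem_iInf]
    intro l hl
    let b : Bs := ⟨bb l, Finset.mem_image_of_mem _ hl⟩
    let W : Fin (N b) × Fin (hf b.1 (m + s₀ + 1)) → MvPolynomial (Option τ) K :=
      fun t => rename some (u b t.2) * X none ^ (t.1 : ℕ)
    have h1 : ∀ a, rename some (d b) * v a - ∑ t, co b a t.1 t.2 • W t ∈ B l := by
      intro a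
      have a1 : v a - ∑ i, rename some (r a i) * μ i ∈ B l := by
        have := hrv a
        simp only [Ideal.mem_iInf] at this
        exact this l hl
      have a2 := (B l).sum_mem (t := Finset.univ) fun i _ =>
        (B l).mul_mem_left (rename some (r a i)) (hc b l hl rfl i)
      have a3 := rank_coords b.1 (B l) le_rfl (u b) (fun s => ∑ i, r a i * c b (i, s))
        (fun t => co b a t.1 t.2) (hco b a)
      have a4 := (B l).add_mem ((B l).add_mem ((B l).mul_mem_left (rename some (d b)) a1) a2) a3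
      convert a4 using 1
      have e1 : ∑ s : Fin (N b), rename some (∑ i, r a i * c b (i, s)) * X none ^ (s : ℕ) =
          ∑ i, rename some (r a i) * ∑ s : Fin (N b),
            rename some (c b (i, s)) * (X none : MvPolynomial (Option τ) K) ^ (s : ℕ) := by
        simp only [map_sum, map_mul, Finset.sum_mul, Finset.mul_sum, mul_assoc]
        exact Finset.sum_comm
      have e2 : rename some (d b) * ∑ i, rename some (r a i) * μ i =
          ∑ i, rename some (r a i) * (rename some (d b) * μ i) := by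
        rw [Finset.mul_sum]
        exact Finset.sum_congr rfl fun i _ => by ring
      simp only [mul_sub, Finset.sum_sub_distrib, e1, e2]
      ring
    have h2 := (B l).sum_mem (t := Finset.univ) fun a _ => (B l).mul_mem_left (C (α a)) (h1 a)
    have h3 : ∑ a, C (α a) * (rename some (d b) * v a - ∑ t, co b a t.1 t.2 • W t) =
        rename some (d b) * ∑ a, α a • v a := by
      have e1 : ∑ a, C (α a) * ∑ t, co b a t.1 t.2 • W t = 0 := by
        simp only [Finset.mul_sum, ← smul_eq_C_mul, smul_smul]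
        rw [Finset.sum_comm]
        refine Finset.sum_eq_zero fun t _ => ?_
        rw [← Finset.sum_smul, hα ⟨b, t⟩, zero_smul]
      simp only [mul_sub, Finset.sum_sub_distrib, e1, sub_zero]
      rw [Finset.mul_sum]
      refine Finset.sum_congr rfl fun a _ => ?_
      rw [smul_eq_C_mul]; ring
    rw [h3] at h2
    exact ((hB l hl).mem_or_mem h2).resolve_left (hd b)

omit [CharZero K] [Fintype τ] in
theorem rank_monomial (u : Option τ →₀ ℕ) (a : K) :
    (monomial u a : MvPolynomial (Option τ) K) =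
      rename some (monomial u.some a) * X none ^ u none := by
  rw [rename_monomial, X_pow_eq_monomial, monomial_mul, mul_one]
  congr 2
  ext o
  cases o with
  | none => simp [Finsupp.mapDomain_of_notMem_range]
  | some k => simp [Finsupp.mapDomain_apply (Option.some_injective τ)]

omit [CharZero K] [Fintype τ] in
theorem rank_rep_mul (J : Ideal (MvPolynomial (Option τ) K)) {e W : ℕ}
    {f : MvPolynomial (Option τ) K} (g : MvPolynomial τ K)
    (h : ∃ r : Fin e → MvPolynomial τ K, (∀ i, (r i).totalDegree ≤ W) ∧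
      f - ∑ i, rename some (r i) * X none ^ (i : ℕ) ∈ J) {W' : ℕ} (hW : g.totalDegree + W ≤ W') :
    ∃ r : Fin e → MvPolynomial τ K, (∀ i, (r i).totalDegree ≤ W') ∧
      rename some g * f - ∑ i, rename some (r i) * X none ^ (i : ℕ) ∈ J := by
  obtain ⟨r, hr, h⟩ := h
  refine ⟨fun i => g * r i, fun i => (totalDegree_mul _ _).trans (by have := hr i; omega), ?_⟩
  convert J.mul_mem_left (rename some g) h using 1
  simp only [map_mul, mul_sub, Finset.mul_sum, mul_assoc]

omit [CharZero K] [Fintype τ] in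
theorem rank_rep_sum (J : Ideal (MvPolynomial (Option τ) K)) {e W : ℕ} {α : Type} (s : Finset α)
    (f : α → MvPolynomial (Option τ) K)
    (h : ∀ a ∈ s, ∃ r : Fin e → MvPolynomial τ K, (∀ i, (r i).totalDegree ≤ W) ∧
      f a - ∑ i, rename some (r i) * X none ^ (i : ℕ) ∈ J) :
    ∃ r : Fin e → MvPolynomial τ K, (∀ i, (r i).totalDegree ≤ W) ∧
      ∑ a ∈ s, f a - ∑ i, rename some (r i) * X none ^ (i : ℕ) ∈ J := by
  choose! r hr h using h
  refine ⟨fun i => ∑ a ∈ s, r a i, fun i => totalDegree_finsetSum_le fun a ha => hr a ha i, ?_⟩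
  convert J.sum_mem (t := s) fun a ha => h a ha using 1
  simp only [map_sum, Finset.sum_mul, Finset.sum_sub_distrib]
  rw [Finset.sum_comm]

omit [CharZero K] [Fintype τ] in
theorem rank_rep_pow (J : Ideal (MvPolynomial (Option τ) K)) (e : ℕ) (b : ℕ → MvPolynomial τ K)
    (hdeg : ∀ i, i < e → (b i).totalDegree ≤ 2 * (e - i))
    (hF : X none ^ e + ∑ i ∈ Finset.range e, rename some (b i) * X none ^ i ∈ J) (n : ℕ) :
    ∃ r : Fin e → MvPolynomial τ K, (∀ i, (r i).totalDegree ≤ 2 * n) ∧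
      X none ^ n - ∑ i, rename some (r i) * X none ^ (i : ℕ) ∈ J := by
  classical
  induction n using Nat.strong_induction_on with
  | _ n ih =>
    by_cases hn : n < e
    · refine ⟨Pi.single ⟨n, hn⟩ 1, fun i => ?_, ?_⟩
      · rw [Pi.single_apply]
        split_ifs <;> simp
      · rw [Finset.sum_eq_single ⟨n, hn⟩]
        · simp
        · intro i _ hi
          simp [hi]
        · simp
    · obtain ⟨k, rfl⟩ := Nat.exists_eq_add_of_le (not_lt.1 hn)
      obtain ⟨r, hr, h⟩ := rank_rep_sum J (e := e) (W := 2 * (e + k)) (Finset.range e)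
        (fun i => rename some (-b i) * X none ^ (i + k)) (fun i hi => by
          have hi' := Finset.mem_range.1 hi
          refine rank_rep_mul J (-b i) (ih (i + k) (by omega)) ?_
          rw [totalDegree_neg]
          have := hdeg i hi'
          omega)
      refine ⟨r, hr, ?_⟩
      convert J.add_mem (J.mul_mem_right (X none ^ k) hF) h using 1
      simp only [map_neg, add_mul, Finset.sum_mul, pow_add, neg_mul, Finset.sum_neg_distrib,
        mul_assoc]
      ring

omit [CharZero K] in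
theorem rank_rep (J : Ideal (MvPolynomial (Option τ) K)) (e : ℕ) (b : ℕ → MvPolynomial τ K)
    (hdeg : ∀ i, i < e → (b i).totalDegree ≤ 2 * (e - i))
    (hF : X none ^ e + ∑ i ∈ Finset.range e, rename some (b i) * X none ^ i ∈ J) {m : ℕ}
    (f : MvPolynomial (Option τ) K) (hf : f.totalDegree ≤ m) :
    ∃ r : Fin e → MvPolynomial τ K, (∀ i, (r i).totalDegree ≤ 2 * m) ∧
      f - ∑ i, rename some (r i) * X none ^ (i : ℕ) ∈ J := by
  have := rank_rep_sum J (e := e) (W := 2 * m) f.support (fun u => monomial u (coeff u f))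
    (fun u hu => by
      rw [rank_monomial]
      refine rank_rep_mul J _ (rank_rep_pow J e b hdeg hF (u none)) ?_
      have h1 := (le_totalDegree hu).trans hf
      have h2 := totalDegree_monomial_le u.some (coeff u f)
      rw [Finsupp.sum_fintype _ _ (fun _ => rfl)] at h1 h2
      rw [Fintype.sum_option] at h1
      simp only [Finsupp.some_apply, Function.id_def] at h2
      omega)
  rwa [← f.as_sum] at this

/-- covers by roots of a monic equation of weight two. -/
theorem root_cover (S : Finset Λ) (B : Λ → Ideal (MvPolynomial (Option τ) K))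
    (hB : ∀ l ∈ S, (B l).IsPrime) {ρ : Type} [Fintype ρ]
    (hind : ∀ l ∈ S, ∃ t : ρ → MvPolynomial τ K,
      Ind ((B l).comap (rename some : MvPolynomial τ K →ₐ[K] _)) t) {φ : ℝ}
    (hb : HB (⨅ l ∈ S, (B l).comap (rename some : MvPolynomial τ K →ₐ[K] _)) φ (Fintype.card ρ))
    (halg : ∀ l ∈ S, ∃ Φ ∈ B l, pderiv none Φ ∉ B l) {ν : ℝ} (hν : 0 ≤ ν)
    (hroot : ∀ l ∈ S, ∀ (Ω : Type) [Field Ω] [Algebra K Ω] (x : τ → Ω),
      kr K x = (B l).comap (rename some : MvPolynomial τ K →ₐ[K] _) → ∀ T : Finset Ω,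
      (∀ w ∈ T, ∃ l' ∈ S, kr K (fun o : Option τ => o.elim w x) = B l') → (T.card : ℝ) ≤ ν)
    (e : ℕ) (b : ℕ → MvPolynomial τ K) (hdeg : ∀ i, i < e → (b i).totalDegree ≤ 2 * (e - i))
    (hF : ∀ l ∈ S, X none ^ e + ∑ i ∈ Finset.range e, rename some (b i) * X none ^ i ∈ B l)
    (hgro : Gro (⨅ l ∈ S, B l) (Fintype.card ρ)) :
    HB (⨅ l ∈ S, B l) (ν * φ * (2 * (Fintype.card ρ + 1)) ^ Fintype.card ρ) (Fintype.card ρ) := by
  obtain ⟨s, hs⟩ := rank_bound S B hB hind hb halg hν hroot (fun i : Fin e => X none ^ (i : ℕ))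
  have hφ := hb.nonneg
  have hF' : X none ^ e + ∑ i ∈ Finset.range e, rename some (b i) * X none ^ i ∈
      ⨅ l ∈ S, B l := by
    simp only [Ideal.mem_iInf]
    exact hF
  have key := hb_of_gro hgro (φ := ν * φ * 2 ^ Fintype.card ρ) (s := s) (fun m => by
    obtain ⟨v, hv, hi⟩ := exists_indM (⨅ l ∈ S, B l) m
    have := hs (2 * m) _ v (fun a => rank_rep _ e b hdeg hF' (v a) (hv a)) hi
    rw [Fintype.card_fin] at this
    refine this.trans ?_
    rw [mul_assoc (ν * φ), ← mul_pow]
    gcongr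
    push_cast
    have : (0 : ℝ) ≤ s := by positivity
    linarith)
  refine key.mono le_rfl (le_of_eq ?_)
  rw [mul_pow]
  ring

end

end Vale.Agent.P054
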