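import Vale.Agent.P054.BCoef
import Vale.Agent.P054.BCone
import Vale.Agent.P054.BSl
import Vale.Agent.P054.Rank
import Vale.Agent.P054.BTypeRAux

namespace Vale.Agent.P054

open MvPolynomial

noncomputable section

section Aux

variable {K : Type} [Field K] {ε : Type} [Fintype ε] [LinearOrder ε]

/-- restriction to the slice. -/
def btrPsi (i0 : ε) (N : Pr ε → K) :
    MvPolynomial (Option (Pr ε)) K →ₐ[K] MvPolynomial (Option (Ne0 i0)) K :=
  aeval fun o : Option (Pr ε) => o.elim (X none) fun p => rename some (slc i0 N p)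

omit [Fintype ε] in
theorem btrPsi_rename (i0 : ε) (N : Pr ε → K) (f : MvPolynomial (Pr ε) K) :
    btrPsi i0 N (rename some f) = rename some (aeval (slc i0 N) f) := by
  rw [btr_rename, comp_aeval_apply]
  simp only [btrPsi, aeval_X, Option.elim_some]

omit [Fintype ε] in
theorem btrPsi_eval {A : Type} [CommRing A] [Algebra K A] (i0 : ε) (N : Pr ε → K) (w : A)
    (x : Ne0 i0 → A) (P : MvPolynomial (Option (Pr ε)) K) :
    aeval (fun o : Option (Ne0 i0) => o.elim w x) (btrPsi i0 N P) =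
      aeval (fun o : Option (Pr ε) => o.elim w fun p => aeval x (slc i0 N p)) P := by
  rw [btrPsi, comp_aeval_apply]
  congr 2
  funext o
  cases o with
  | none => simp
  | some p => simp only [Option.elim_some, aeval_rename]; rfl

theorem btrPsi_pderiv (i0 : ε) (N : Pr ε → K) (P : MvPolynomial (Option (Pr ε)) K) :
    pderiv none (btrPsi i0 N P) = btrPsi i0 N (pderiv none P) := by
  rw [deriv_algHom (btrPsi i0 N) (pderiv none) P, Fintype.sum_option]
  simp [btrPsi, homog_pderiv_rename]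

omit [Fintype ε] in
theorem btrPsi_natDegree (i0 : ε) (N : Pr ε → K) {Φ : MvPolynomial (Option (Pr ε)) K}
    (hΦ : degreeOf none Φ ≤ 2) (Ω : Type) [Field Ω] [Algebra K Ω] (y : Ne0 i0 → Ω) :
    (rankPsi y (btrPsi i0 N Φ)).natDegree ≤ 2 := by
  rw [homog_expand Φ hΦ, map_sum, map_sum]
  refine Polynomial.natDegree_sum_le_of_forall_le _ _ fun n _ => ?_
  rw [map_mul, map_mul, btrPsi_rename, btr_rename, map_pow, map_pow]
  have e1 : rankPsi y (btrPsi i0 N (X none)) = Polynomial.X := by simp [rankPsi, btrPsi]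
  have e2 : ∀ f : MvPolynomial (Ne0 i0) K,
      aeval (fun j => rankPsi (K := K) y (X (some j))) f = Polynomial.C (aeval y f) := by
    intro f
    have := comp_aeval_apply y (Polynomial.CAlgHom (R := K) (A := Ω)) f
    simpa [rankPsi] using this.symm
  rw [e1, e2]
  refine Polynomial.natDegree_mul_le.trans ?_
  rw [Polynomial.natDegree_C, Polynomial.natDegree_X_pow]
  exact Nat.lt_succ_iff.1 n.2

theorem btrPsi_tf (i0 i1 : ε) (N : Pr ε → K) (f : MvPolynomial (Pr ε) K) (j : Ne0 i0) :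
    aeval (fun b => btrPsi i0 N (xi i0 i1 f b)) (tf i0 N j.1) =
      X (some j) * aeval (fun b => btrPsi i0 N (xi i0 i1 f b)) (tf i0 N i0) := by
  have := tf_slc (A := MvPolynomial (Option (Ne0 i0)) K) i0 N (fun j => X (some j))
    (fun k => btrPsi i0 N (Yv i0 i1 f k)) j
  have e : (fun b => btrPsi i0 N (xi i0 i1 f b)) =
      Sum.elim (fun k => btrPsi i0 N (Yv i0 i1 f k)) fun i => ∑ k, sk (fun p =>
        aeval (fun j => (X (some j) : MvPolynomial (Option (Ne0 i0)) K)) (slc i0 N p)) i k *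
          btrPsi i0 N (Yv i0 i1 f k) := by
    funext b
    cases b with
    | inl b => rfl
    | inr b =>
      simp only [xi, Sum.elim_inr, Zv, map_sum, map_mul, Mh, map_sk]
      refine Finset.sum_congr rfl fun k _ => ?_
      congr 2
      funext p
      simp only [btrPsi, aeval_X, Option.elim_some]
      exact (btr_rename (AlgHom.id K _) _)
  rw [e]
  exact this

/-- the Taylor map of the sliced branch through a flat. -/
theorem btr_local [Infinite K] {i0 i1 : ε} {ι : Type} [Fintype ι] [DecidableEq ι]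
    {g : ι → MvPolynomial (Pr ε) K} {c : ι → Pr ε} {Φ : MvPolynomial (Option (Pr ε)) K}
    {N : Pr ε → K} {η : ε ⊕ ε → K} {k : ℕ} (hk : Fintype.card ι + k + 1 = Fintype.card ε)
    (hη : Nrm i0 η) (hg : ∀ i', g i' ∈ IL η) (hΦ : Φ ∈ IH i1 η) (h0 : aeval η (tf i0 N i0) ≠ 0)
    (hJ : aeval (fun p => aeval (slP i0 N η) (slc i0 N p)) (Jac g c) ≠ 0)
    (hΦ' : aeval (fun o : Option (Pr ε) => o.elim (η (Sum.inl i1))
      fun p => aeval (slP i0 N η) (slc i0 N p)) (pderiv none Φ) ≠ 0) :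
    Sm (fun i => aeval (slc i0 N) (g i)) (kr K (slP i0 N η)) ∧
    ∃ (e : Fin k → Ne0 i0) (θ : MvPolynomial (Option (Ne0 i0)) K →ₐ[K] MvPowerSeries (Fin k) K),
      Tay (lift1 (fun i => aeval (slc i0 N) (g i)) (btrPsi i0 N Φ)) (fun r => some (e r))
        (fun o : Option (Ne0 i0) => o.elim (η (Sum.inl i1)) (slP i0 N η)) θ ∧
      ∀ P ∈ Br (Set.range (lift1 g Φ)) (IH i1 η), θ (btrPsi i0 N P) = 0 := by
  classical
  have : IsDomain (MvPowerSeries (Fin k) K) := NoZeroDivisors.to_isDomain _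
  have hM := slc_mem N hη.2 h0
  have hs := sm_slc N hη h0 hg (sm_of_jac (c := c) (kr_isPrime _) hJ)
  refine ⟨hs, ?_⟩
  obtain ⟨c', hc'⟩ := exists_jac_of_sm (kr_isPrime _) hs
  have hC := compl_free (inj_of_jac (fun h => hc' (by rw [h]; exact Ideal.zero_mem _)))
  have hcard : Fintype.card {j // j ∉ Set.range c'} = k := by
    have h1 := hC.card_add
    have h2 := card_Ne0 i0
    omega
  let q := (Fintype.equivFinOfCardEq hcard).symm
  have hC' : Compl c' fun r => (q r).1 := ⟨hC.1, hC.2.1.comp q.injective, fun j => by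
    rw [hC.2.2 j]
    refine not_congr ⟨?_, ?_⟩
    · rintro ⟨r, rfl⟩
      exact ⟨q.symm r, by simp⟩
    · rintro ⟨r, rfl⟩
      exact ⟨q r, rfl⟩⟩
  have hl : ∀ o, lift1 g Φ o ∈ IH i1 η := fun o => by
    cases o with
    | none => exact hΦ
    | some i' => exact rename_mem_IH.2 (hg i')
  have hψ : ∀ o, btrPsi i0 N (lift1 g Φ o) =
      lift1 (fun i => aeval (slc i0 N) (g i)) (btrPsi i0 N Φ) o := fun o => by
    cases o with
    | none => rfl
    | some i' => exact btrPsi_rename i0 N _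
  obtain ⟨θ, hθ⟩ := exists_tay (g := lift1 (fun i => aeval (slc i0 N) (g i)) (btrPsi i0 N Φ))
    hC'.lift (π := fun o : Option (Ne0 i0) => o.elim (η (Sum.inl i1)) (slP i0 N η))
    (fun o => by rw [← hψ, btrPsi_eval]; exact IH_le_kr hM (hl o))
    (by
      rw [jac_lift1, map_mul, btrPsi_pderiv, btrPsi_eval, aeval_rename]
      exact mul_ne_zero hΦ' hc')
  refine ⟨_, θ, hθ, fun P hP => ?_⟩
  rw [Br_eq_pt (c := Option.map c) (IH_isPrime i1 hη) hl (IH_le_kr hM) (by
    rw [jac_lift1, map_mul, aeval_rename]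
    exact mul_ne_zero hΦ' hJ)] at hP
  refine Br_le (q := RingHom.ker (θ.comp (btrPsi i0 N))) (RingHom.ker_isPrime _) ?_ ?_ hP
  · rintro _ ⟨o, rfl⟩
    rw [RingHom.mem_ker, AlgHom.comp_apply, hψ, hθ.kill]
  · intro f hf
    rw [RingHom.mem_ker, AlgHom.comp_apply] at hf
    rw [mem_kr, ← btrPsi_eval, ← hθ.const, hf, map_zero]

end Aux

/-- counting flats that rule the branches. -/
theorem typeR (d : ℕ) : ∃ C : ℝ, 0 < C ∧ ∀ (K : Type) [Field K] [CharZero K] [IsAlgClosed K]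
    (ε : Type) [Fintype ε] [LinearOrder ε] (i0 i1 : ε) (ι : Type) [Fintype ι] [DecidableEq ι]
    (g : ι → MvPolynomial (Pr ε) K) (c : ι → Pr ε) (i : ι) (δ : ι → ℝ)
    (Φ : MvPolynomial (Option (Pr ε)) K) (S : Finset (ε ⊕ ε → K)) (X : ℝ),
    Fintype.card ε = d → Fintype.card ι + 2 ≤ d → (∀ i', 1 ≤ δ i') →
    (∀ i', ((g i').totalDegree : ℝ) ≤ δ i') → degreeOf none Φ ≤ 2 → 1 ≤ X →
    (∀ η ∈ S, Nrm i0 η) → (∀ η ∈ S, ∀ i', g i' ∈ IL η) → (∀ η ∈ S, Jac g c ∉ IL η) →
    (∀ η ∈ S, Dd i1 i0 (g i) ∉ IL η) → (∀ η ∈ S, Φ ∈ IH i1 η) →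
    (∀ η ∈ S, pderiv none Φ ∉ IH i1 η) →
    (∀ η ∈ S, ∀ j k o,
      Vv i0 i1 (g i) j k (lift1 g Φ o) ∈ Br (Set.range (lift1 g Φ)) (IH i1 η)) →
    (∀ η ∈ S, ∀ j k r, Th i0 i1 (g i) j k r ∈ Br (Set.range (lift1 g Φ)) (IH i1 η)) →
    HSep S id X →
    (S.card : ℝ) ≤ C * (∏ i', δ i') * X ^ (d - 1 - Fintype.card ι) := by
  refine ⟨2 * (2 ^ d * (2 ^ d) ^ d) * (d + 1) ^ d, by positivity, ?_⟩
  intro K _ _ _ ε _ _ i0 i1 ι _ _ g c i δ Φ S Y hd hl hδ hdeg hΦd hY hN hg hJ hκ hΦ hΦ' hV hT hsep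
  classical
  have hP : 0 ≤ ∏ i', δ i' := Finset.prod_nonneg fun i' _ => zero_le_one.trans (hδ i')
  rcases S.eq_empty_or_nonempty with rfl | ⟨η0, hη0⟩
  · simp only [Finset.card_empty, Nat.cast_zero]
    have : 0 ≤ Y := by linarith
    positivity
  set k := d - 1 - Fintype.card ι with hk
  have hk' : Fintype.card ι + k + 1 = Fintype.card ε := by omega
  have hι : 1 ≤ Fintype.card ι := Fintype.card_pos_iff.2 ⟨i⟩
  have hlift : ∀ η ∈ S, ∀ o, lift1 g Φ o ∈ IH i1 η := fun η hη o => by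
    cases o with
    | none => exact hΦ η hη
    | some i' => exact rename_mem_IH.2 (hg η hη i')
  have hC := compl_free (inj_of_jac (fun h => hJ η0 hη0 (by rw [h]; exact Ideal.zero_mem _)))
  have hgrow : ∀ η : S, ∃ C : ℝ, ∀ M : ℕ, 1 ≤ M →
      (hh ((Br (Set.range (lift1 g Φ)) (IH i1 η.1)).comap
        (aeval (xi i0 i1 (g i)) : MvPolynomial (ε ⊕ ε) K →ₐ[K] _)) M : ℝ) ≤ C * (M : ℝ) ^ k :=
    fun η => coef_growth hC i (IH_isPrime i1 (hN η η.2)) (dn_IH i1 η.1) (hlift η η.2)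
      (fun h => hJ η η.2 (rename_mem_IH.1 h)) (hΦ' η η.2)
      (fun h => hκ η η.2 (rename_mem_IH.1 h)) (hV η η.2) (hT η η.2) (by
        have h1 := hC.card_add
        have h2 := card_Pr i0
        omega)
  choose C0 hC0 using hgrow
  set I0 : Ideal (MvPolynomial (ε ⊕ ε) K) := ⨅ η ∈ (Finset.univ : Finset S),
    (Br (Set.range (lift1 g Φ)) (IH i1 η.1)).comap
      (aeval (xi i0 i1 (g i)) : MvPolynomial (ε ⊕ ε) K →ₐ[K] _) with hI0
  obtain ⟨h, hh0, hbpf⟩ := exists_bpf i0 I0 (C := ∑ η, C0 η) (k := k) (by omega) fun M hM => by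
    rw [Finset.sum_mul]
    refine le_trans ?_ (Finset.sum_le_sum fun η _ => hC0 η M hM)
    exact_mod_cast hh_iInf_le _ _ M
  obtain ⟨N, hN0, hN1⟩ := exists_slice i0 h hh0 S hN (fun η => aeval (fun o : Option (Pr ε) =>
    o.elim (C (η (Sum.inl i1)) : MvPolynomial (Pr ε) K) MvPolynomial.X)
      (rename some (Jac g c) * om (g i) i1 i0 * pderiv none Φ)) fun η hη hq => by
    have hp := IH_isPrime i1 (hN η hη)
    rcases hp.mem_or_mem (mem_IH_iff_subst.2 hq) with h1 | h1
    · rcases hp.mem_or_mem h1 with h2 | h2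
      · exact hJ η hη (rename_mem_IH.1 h2)
      · exact hκ η hη (rename_mem_IH.1 h2)
    · exact hΦ' η hη h1
  let pt : S → Option (Pr ε) → K := fun η o =>
    o.elim (η.1 (Sum.inl i1)) fun p => aeval (slP i0 N η.1) (slc i0 N p)
  have hQ : ∀ η : S, aeval (fun p => aeval (slP i0 N η.1) (slc i0 N p)) (Jac g c) ≠ 0 ∧
      aeval (pt η) (om (g i) i1 i0) ≠ 0 ∧ aeval (pt η) (pderiv none Φ) ≠ 0 := fun η => by
    have h1 := (hN1 η η.2).2
    rw [comp_aeval_apply] at h1
    have e : (fun o : Option (Pr ε) => aeval (fun p => aeval (slP i0 N η.1) (slc i0 N p))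
        (o.elim (C (η.1 (Sum.inl i1)) : MvPolynomial (Pr ε) K) MvPolynomial.X)) = pt η := by
      funext o
      cases o <;> simp [pt]
    rw [e, map_mul, map_mul, aeval_rename] at h1
    exact ⟨left_ne_zero_of_mul (left_ne_zero_of_mul h1),
      right_ne_zero_of_mul (left_ne_zero_of_mul h1), right_ne_zero_of_mul h1⟩
  have hloc := fun η : S => btr_local hk' (hN η η.2) (hg η η.2) (hΦ η η.2) (hN1 η η.2).1
    (hQ η).1 (hQ η).2.2
  choose hsm e θ hθ hB using hloc
  have hconst : ∀ (η : S) P, MvPowerSeries.constantCoeff (θ η (btrPsi i0 N P)) = aeval (pt η) P :=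
    fun η P => by rw [(hθ η).const, btrPsi_eval]
  obtain ⟨s, hs⟩ := null_integral I0 (tf i0 N) (tf_isHomogeneous i0 N) (hbpf N hN0)
  have : IsDomain (MvPowerSeries (Fin k) K) := NoZeroDivisors.to_isDomain _
  have hker : ∀ (η : S) i', θ η (rename some (aeval (slc i0 N) (g i'))) = 0 := fun η i' =>
    (hθ η).kill (some i')
  have hle : ∀ η : S, (RingHom.ker (θ η)).comap (rename some : MvPolynomial (Ne0 i0) K →ₐ[K] _) ≤
      kr K (slP i0 N η.1) := fun η f hf => by
    have h1 := (hθ η).const (rename some f)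
    rw [Ideal.mem_comap, RingHom.mem_ker] at hf
    rw [hf, map_zero, aeval_rename] at h1
    exact h1.symm
  have hb := (t1_gen (Finset.univ : Finset S) (fun η => kr K (slP i0 N η.1))
    (fun i' => aeval (slc i0 N) (g i')) δ (fun _ _ => kr_isPrime _) (fun _ _ => dn_kr _)
    (fun η _ i' => hle η (hker η i')) (fun η _ => hsm η) (fun i' => le_trans (by
      have := totalDegree_algHom_le (aeval (slc i0 N)) (e := 1)
        (fun p => by rw [aeval_X]; exact totalDegree_slc i0 N p) (g i')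
      rw [one_mul] at this
      exact_mod_cast this) (hdeg i')) hδ).mono
    (I' := ⨅ η ∈ (Finset.univ : Finset S),
      (RingHom.ker (θ η)).comap (rename some : MvPolynomial (Ne0 i0) K →ₐ[K] _))
    (φ' := 2 ^ d * (2 ^ d) ^ d * ∏ i', δ i')
    (iInf₂_mono fun η _ => Br_le (Ideal.IsPrime.comap _ (hK := RingHom.ker_isPrime _))
      (by rintro _ ⟨i', rfl⟩; exact hker η i') (hle η)) (by
      have h2 := card_Ne0 i0
      rw [Finset.prod_mul_distrib, Finset.prod_const, Finset.card_univ, ← mul_assoc]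
      refine mul_le_mul_of_nonneg_right (mul_le_mul (pow_le_pow_right₀ one_le_two (by omega)) ?_
        (by positivity) (by positivity)) hP
      exact (pow_le_pow_left₀ (by positivity) (pow_le_pow_right₀ one_le_two (by omega)) _).trans
        (pow_le_pow_right₀ (one_le_pow₀ one_le_two) (by omega)))
  rw [show Fintype.card (Ne0 i0) - Fintype.card ι = k by have := card_Ne0 i0; omega] at hb
  have hmain := btr_count θ e (fun η r => slP i0 N η.1 (e η r)) (fun η r => (hθ η).free r) hb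
    (btrPsi i0 N Φ) (fun η => (hθ η).kill none) (fun η h0 => (hQ η).2.2 (by
      rw [← hconst, ← btrPsi_pderiv, h0, map_zero])) (btrPsi_natDegree i0 N hΦd)
    (fun b => btrPsi i0 N (xi i0 i1 (g i) b)) (tf i0 N i0) (fun j => tf i0 N j.1)
    (tf_isHomogeneous i0 N i0) (fun j => tf_isHomogeneous i0 N j.1) (btrPsi_tf i0 i1 N (g i))
    (fun η => η.1) (fun η => aeval (pt η) (om (g i) i1 i0)) (fun η => (hQ η).2.1)
    (fun η => (hN1 η η.2).1) (fun η b => by
      have h1 := IH_le_kr (slc_mem N (hN η η.2).2 (hN1 η η.2).1)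
        (xi_sub_mem i1 (hN η η.2) (hg η η.2 i) b)
      rw [mem_kr, map_sub, map_mul, aeval_C, sub_eq_zero] at h1
      rw [hconst, mul_comm]
      exact h1) s (fun b => by
      obtain ⟨a, ha, ha'⟩ := hs b
      refine ⟨a i0, fun j => a j.1, ha i0, fun j => ha j.1, fun η => ?_⟩
      rw [← comp_aeval_apply, ← Fintype.sum_eq_add_sum_subtype_ne (fun j => a j * tf i0 N j) i0]
      refine hB η _ ?_
      rw [hI0] at ha'
      simp only [Ideal.mem_iInf] at ha'
      exact ha' η (Finset.mem_univ _)) hY (fun η _ => by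
      obtain ⟨m, F, g0, g1, g2, g3⟩ := hsep η η.2
      exact ⟨m, F, g0, g1, g2, fun η' _ hne => g3 η' η'.2 fun h' => hne (Subtype.ext h')⟩)
  rw [Fintype.card_coe] at hmain
  refine hmain.trans (mul_le_mul_of_nonneg_right ?_ (pow_nonneg (by linarith) _))
  have h3 : ((k : ℝ) + 1) ^ k ≤ ((d : ℝ) + 1) ^ d := by
    have hkd : (k : ℝ) ≤ d := by exact_mod_cast (show k ≤ d by omega)
    exact (pow_le_pow_left₀ (by positivity) (by linarith) _).trans
      (pow_le_pow_right₀ (by have : (0 : ℝ) ≤ d := Nat.cast_nonneg d; linarith) (by omega))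
  calc 2 * (2 ^ d * (2 ^ d) ^ d * ∏ i', δ i') * ((k : ℝ) + 1) ^ k
      ≤ 2 * (2 ^ d * (2 ^ d) ^ d * ∏ i', δ i') * ((d : ℝ) + 1) ^ d :=
        mul_le_mul_of_nonneg_left h3 (by positivity)
    _ = _ := by ring

end

end Vale.Agent.P054
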