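import Vale.Agent.P054.GoodP
import Vale.Agent.P054.AlgB

namespace Vale.Agent.P054

open MvPolynomial

noncomputable section

open Classical in
theorem basecore_trans {P : Finset Pt} {X : Finset (Pt × Pt)} (hX : X ⊆ P ×ˢ P) :
    ((X ×ˢ X).filter fun z : (Pt × Pt) × (Pt × Pt) =>
      (fun j => z.2.2 j - z.2.1 j) = fun j => z.1.2 j - z.1.1 j).card ≤ X.card * P.card := by
  rw [← Finset.card_product]
  refine Finset.card_le_card_of_injOn (fun z => (z.1, z.2.1)) (fun z hz => ?_) ?_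
  · have h := Finset.mem_product.1 (Finset.mem_filter.1 hz).1
    exact Finset.mem_coe.2 (Finset.mem_product.2 ⟨h.1, (Finset.mem_product.1 (hX h.2)).1⟩)
  · intro z hz w hw e
    have h1 := (Finset.mem_filter.1 hz).2
    have h2 := (Finset.mem_filter.1 hw).2
    have e1 : z.1 = w.1 := (Prod.ext_iff.1 e).1
    have e2 : z.2.1 = w.2.1 := (Prod.ext_iff.1 e).2
    refine Prod.ext e1 (Prod.ext e2 (funext fun j => ?_))
    have a1 := congrFun h1 j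
    have a2 := congrFun h2 j
    simp only [e1, e2] at a1
    linarith

open Classical in
theorem basecore_dc (X : Finset (Pt × Pt)) (𝓖 : Finset Mo) (V : Mo → Finset (Pt × Pt)) :
    ∑ x ∈ X, (𝓖.filter fun g => x ∈ V g).card ≤ ∑ g ∈ 𝓖, (V g).card := by
  have h := Finset.sum_card_bipartiteAbove_eq_sum_card_bipartiteBelow (s := X) (t := 𝓖)
    (fun x g => x ∈ V g)
  simp only [Finset.bipartiteAbove, Finset.bipartiteBelow] at h
  rw [h]
  exact Finset.sum_le_sum fun g _ => Finset.card_le_card fun x hx => (Finset.mem_filter.1 hx).2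

open Classical in
theorem basecore_count {P : Finset Pt} {X : Finset (Pt × Pt)} (Hv : Finset ((Pt × Pt) × (Pt × Pt)))
    {𝓖 : Finset Mo} {V : Mo → Finset (Pt × Pt)} {t θ : ℝ} (C0 : ℕ) (hX : X ⊆ P ×ˢ P)
    (hF : Fam X 𝓖 V t θ) :
    ∑ g ∈ 𝓖, ((V g ×ˢ V g).filter fun z => GoodP 𝓖 V C0 g z.1 z.2).card ≤
      ((X ×ˢ X).filter fun z : (Pt × Pt) × (Pt × Pt) => (∃ g ∈ 𝓖, GoodP 𝓖 V C0 g z.1 z.2) ∧
        ((fun j => z.2.2 j - z.2.1 j) ≠ fun j => z.1.2 j - z.1.1 j) ∧ z ∉ Hv ∧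
        (z.2, z.1) ∉ Hv).card + X.card * P.card + 2 * Hv.card := by
  rw [← Finset.card_biUnion]
  · have h1 := basecore_trans hX
    have h2 : (Hv.image Prod.swap).card ≤ Hv.card := Finset.card_image_le
    refine le_trans (Finset.card_le_card (t := (((X ×ˢ X).filter
      fun z : (Pt × Pt) × (Pt × Pt) => (∃ g ∈ 𝓖, GoodP 𝓖 V C0 g z.1 z.2) ∧
        ((fun j => z.2.2 j - z.2.1 j) ≠ fun j => z.1.2 j - z.1.1 j) ∧ z ∉ Hv ∧
        (z.2, z.1) ∉ Hv) ∪ ((X ×ˢ X).filter fun z : (Pt × Pt) × (Pt × Pt) =>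
      (fun j => z.2.2 j - z.2.1 j) = fun j => z.1.2 j - z.1.1 j)) ∪ (Hv ∪ Hv.image Prod.swap))
      fun z hz => ?_) ?_
    · obtain ⟨g, hg, hz⟩ := Finset.mem_biUnion.1 hz
      have hG := (Finset.mem_filter.1 hz).2
      have hzX : z ∈ X ×ˢ X := Finset.mem_product.2
        ⟨(mem_gr.1 (hF.sub g hg hG.1)).1, (mem_gr.1 (hF.sub g hg hG.2.1)).1⟩
      by_cases a1 : z ∈ Hv
      · exact Finset.mem_union_right _ (Finset.mem_union_left _ a1)
      by_cases a2 : (z.2, z.1) ∈ Hv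
      · exact Finset.mem_union_right _ (Finset.mem_union_right _
          (Finset.mem_image.2 ⟨_, a2, rfl⟩))
      by_cases a3 : (fun j => z.2.2 j - z.2.1 j) = fun j => z.1.2 j - z.1.1 j
      · exact Finset.mem_union_left _ (Finset.mem_union_right _ (Finset.mem_filter.2 ⟨hzX, a3⟩))
      · exact Finset.mem_union_left _ (Finset.mem_union_left _
          (Finset.mem_filter.2 ⟨hzX, ⟨g, hg, hG⟩, a3, a1, a2⟩))
    · refine (Finset.card_union_le _ _).trans ((add_le_add (Finset.card_union_le _ _)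
        (Finset.card_union_le _ _)).trans ?_)
      omega
  · intro g hg g' hg' hne
    refine Finset.disjoint_left.2 fun z hz hz' => hne ?_
    exact GoodP.uniq hF hg hg' (Finset.mem_filter.1 hz).2 (Finset.mem_filter.1 hz').2

theorem basecore_pow {CA e t ρ θ c γ : ℝ} (hCA : 1 ≤ CA) (he : 1 ≤ e) (ht : 0 ≤ t) (hρ : 1 ≤ ρ)
    (hθ0 : 0 ≤ θ) (hθ : θ ≤ 1) (hc : 0 ≤ c) (hγ : 0 ≤ γ) :
    (CA * (e * (e + θ * t + 2 * t + (ρ + c)))) ^ γ ≤
      (CA * (3 + c)) ^ γ * (e * (e + t + ρ)) ^ γ := by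
  rw [← Real.mul_rpow (by positivity) (by positivity)]
  refine Real.rpow_le_rpow (by positivity) ?_ hγ
  have h1 : e + θ * t + 2 * t + (ρ + c) ≤ (3 + c) * (e + t + ρ) := by
    have a1 : θ * t ≤ 1 * t := mul_le_mul_of_nonneg_right hθ ht
    have a2 : c * 1 ≤ c * (e + t + ρ) := mul_le_mul_of_nonneg_left (by linarith) hc
    linarith
  calc CA * (e * (e + θ * t + 2 * t + (ρ + c))) ≤ CA * (e * ((3 + c) * (e + t + ρ))) := by
        gcongr
    _ = _ := by ring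

theorem basecore_num {G t θ L T n H S Y D Z ρ c : ℝ} (hG : 0 ≤ G) (hθ0 : 0 ≤ θ)
    (hθ : θ ≤ 1 / 128) (ht : 0 ≤ t) (hL : 0 ≤ L) (hH : 0 ≤ H) (hn : 0 ≤ n) (hρ : 1 ≤ ρ) (hc : 0 ≤ c)
    (hD : 0 ≤ D) (hZ : 0 ≤ Z) (hY : Y ≤ D * Z) (hS : S ≤ G * (2 * t))
    (h1 : G * t ^ 2 ≤ 8 * (T + L * n + 2 * H))
    (h2 : T ≤ 2 * L * (c * Y + 4 * (ρ + c)) + 4 * (θ * t) * S) :
    G * t ^ 2 ≤ (32 * c * D + 128 * (1 + c) + 32) * (L * (Z + ρ + n) + H) := by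
  have a1 : 4 * (θ * t) * S ≤ 4 * (θ * t) * (G * (2 * t)) :=
    mul_le_mul_of_nonneg_left hS (by positivity)
  have a2 : θ * (G * t ^ 2) ≤ 1 / 128 * (G * t ^ 2) :=
    mul_le_mul_of_nonneg_right hθ (by positivity)
  have a3 : L * c * Y ≤ L * c * (D * Z) := mul_le_mul_of_nonneg_left hY (by positivity)
  have a4 : L * c * 1 ≤ L * c * ρ := mul_le_mul_of_nonneg_left hρ (by positivity)
  have hρ0 : 0 ≤ ρ := by linarith
  have b1 : 0 ≤ c * D * (L * (ρ + n) + H) := by positivity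
  have b2 : 0 ≤ c * (L * (Z + n) + H) := by positivity
  have b3 : 0 ≤ L * Z := by positivity
  have b4 : 0 ≤ L * n := by positivity
  have b5 : 0 ≤ L * ρ := by positivity
  linarith

/-- the algebraic step for a family without rich lines and without popular pairs. -/
theorem base_core (ε0 : ℝ) (h0 : 0 < ε0) (h1 : ε0 < 1) : ∃ θ C : ℝ, 0 < θ ∧ θ ≤ 1 / 4 ∧ 1 ≤ C ∧
    ∀ (n t ρ : ℝ) (P : Finset Pt) (X : Finset (Pt × Pt)) (Hv : Finset ((Pt × Pt) × (Pt × Pt)))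
      (𝓖 : Finset Mo) (V : Mo → Finset (Pt × Pt)), 1 ≤ n → Gen3 P → (P.card : ℝ) ≤ n →
      X ⊆ P ×ˢ P → HvP X Hv ρ → 1 ≤ ρ → 1 ≤ θ * t → Fam X 𝓖 V t θ →
      (𝓖.card : ℝ) * t ^ 2 ≤ C * (X.card * ((n ^ ((2 : ℝ) / 3) * (n ^ ((2 : ℝ) / 3) + t + ρ)) ^
        (1 / (1 - ε0)) + ρ + n) + Hv.card) := by
  classical
  obtain ⟨C0, θ0, _, hθ0, hgc⟩ := good_count
  obtain ⟨CA, hCA, hab⟩ := alg_bound ε0 h0 h1
  have hγ : 0 ≤ 1 / (1 - ε0) := by
    have : 0 < 1 - ε0 := by linarith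
    positivity
  have hθ1 : min θ0 (1 / 128) ≤ 1 / 128 := min_le_right _ _
  have hθp : 0 < min θ0 (1 / 128) := lt_min hθ0 (by norm_num)
  have hc : (0 : ℝ) ≤ C0 := Nat.cast_nonneg _
  have hD : 0 ≤ (CA * (3 + C0)) ^ (1 / (1 - ε0)) := by positivity
  refine ⟨min θ0 (1 / 128), 32 * C0 * (CA * (3 + C0)) ^ (1 / (1 - ε0)) + 128 * (1 + C0) + 32, hθp,
    by linarith, ?_, ?_⟩
  · have : 0 ≤ 32 * C0 * (CA * (3 + C0)) ^ (1 / (1 - ε0)) := by positivity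
    linarith
  intro n t ρ P X Hv 𝓖 V hn hP hPn hX hH hρ hθt hF
  have ht : 0 ≤ t := by
    by_contra hneg
    have := mul_neg_of_pos_of_neg hθp (not_le.1 hneg)
    linarith
  have he : 1 ≤ n ^ ((2 : ℝ) / 3) := Real.one_le_rpow hn (by norm_num)
  have he3 : (X.card : ℝ) ≤ (n ^ ((2 : ℝ) / 3)) ^ 3 := by
    have e : (n ^ ((2 : ℝ) / 3)) ^ 3 = n * n := by
      rw [← Real.rpow_natCast, ← Real.rpow_mul (by linarith)]
      norm_num
      ring
    have a1 : X.card ≤ P.card * P.card := by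
      rw [← Finset.card_product]
      exact Finset.card_le_card hX
    have a2 : (X.card : ℝ) ≤ P.card * P.card := by exact_mod_cast a1
    rw [e]
    exact a2.trans (mul_le_mul hPn hPn (Nat.cast_nonneg _) (by linarith))
  have hcnt := basecore_count Hv C0 hX hF
  generalize hT : ((X ×ˢ X).filter fun z : (Pt × Pt) × (Pt × Pt) =>
    (∃ g ∈ 𝓖, GoodP 𝓖 V C0 g z.1 z.2) ∧
      ((fun j => z.2.2 j - z.2.1 j) ≠ fun j => z.1.2 j - z.1.1 j) ∧ z ∉ Hv ∧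
      (z.2, z.1) ∉ Hv) = T at hcnt
  have hmem : ∀ z, z ∈ T ↔ (z.1 ∈ X ∧ z.2 ∈ X) ∧ (∃ g ∈ 𝓖, GoodP 𝓖 V C0 g z.1 z.2) ∧
      ((fun j => z.2.2 j - z.2.1 j) ≠ fun j => z.1.2 j - z.1.1 j) ∧ z ∉ Hv ∧
      (z.2, z.1) ∉ Hv := fun z => by
    rw [← hT, Finset.mem_filter, Finset.mem_product]
  have h2 := hab X T (fun x => 𝓖.filter fun g => x ∈ V g) (n ^ ((2 : ℝ) / 3))
    (min θ0 (1 / 128) * t) (2 * t) (min θ0 (1 / 128) * t) (ρ + C0) C0 he he3 (by positivity)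
    (by positivity) hθt (by linarith) (fun z hz => by
      obtain ⟨a1, ⟨g, hg, a2⟩, a3, a4, a5⟩ := (hmem z).1 hz
      exact ⟨a1.1, a1.2, (hmem _).2 ⟨⟨a1.2, a1.1⟩, ⟨g, hg, a2.symm⟩, a3.symm, a5, a4⟩⟩)
    (fun x hx => ⟨nb_of_good hP hX hH (by linarith) hF hx fun y hy => by
        obtain ⟨_, a2, a3, a4, _⟩ := (hmem _).1 (Finset.mem_filter.1 hy).2
        exact ⟨a2, a3, a4⟩,
      hF.deg x _ (Finset.filter_subset _ _) fun g hg => (Finset.mem_filter.1 hg).2⟩)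
  have hS : ∑ x ∈ X, ((𝓖.filter fun g => x ∈ V g).card : ℝ) ≤ 𝓖.card * (2 * t) := by
    have a1 : ∑ x ∈ X, ((𝓖.filter fun g => x ∈ V g).card : ℝ) ≤ ∑ g ∈ 𝓖, ((V g).card : ℝ) := by
      exact_mod_cast basecore_dc X 𝓖 V
    refine a1.trans ((Finset.sum_le_card_nsmul _ _ _ hF.up).trans (le_of_eq ?_))
    rw [nsmul_eq_mul]
  have h3 : (𝓖.card : ℝ) * t ^ 2 ≤ 8 * (T.card + X.card * n + 2 * Hv.card) := by
    have a1 := Finset.card_nsmul_le_sum _ _ _ (hgc X 𝓖 V t _ hθp (min_le_left _ _) hF hθt)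
    rw [nsmul_eq_mul, ← Finset.mul_sum] at a1
    have a2 : ∑ g ∈ 𝓖, (((V g ×ˢ V g).filter fun z => GoodP 𝓖 V C0 g z.1 z.2).card : ℝ) ≤
        T.card + X.card * P.card + 2 * Hv.card := by exact_mod_cast hcnt
    have a3 : (X.card : ℝ) * P.card ≤ X.card * n :=
      mul_le_mul_of_nonneg_left hPn (Nat.cast_nonneg _)
    linarith
  exact basecore_num (Nat.cast_nonneg _) hθp.le hθ1 ht (Nat.cast_nonneg _) (Nat.cast_nonneg _)
    (by linarith) hρ hc hD (by positivity)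
    (basecore_pow hCA he ht hρ hθp.le (by linarith) hc hγ) hS h3 h2

end

end Vale.Agent.P054
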