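import Vale.Agent.P054.RichL

namespace Vale.Agent.P054

open MvPolynomial

noncomputable section

/-- double counting of heavy points. -/
theorem baseSplit_heavy {α β : Type} [DecidableEq α] (X : Finset α) (𝓖 : Finset β) (V : β → Finset α) (u m : ℝ)
    (hV : ∀ g ∈ 𝓖, ((V g).card : ℝ) ≤ m) :
    ((X.filter fun x => u < ((𝓖.filter fun g => x ∈ V g).card : ℝ)).card : ℝ) * u ≤
      𝓖.card * m := by
  set X2 := X.filter fun x => u < ((𝓖.filter fun g => x ∈ V g).card : ℝ) with hX2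
  have h1 : (X2.card : ℝ) * u ≤ ∑ x ∈ X2, ((𝓖.filter fun g => x ∈ V g).card : ℝ) := by
    rw [← nsmul_eq_mul, ← Finset.sum_const]
    exact Finset.sum_le_sum fun x hx => (Finset.mem_filter.1 hx).2.le
  have h2 : ∑ x ∈ X2, (𝓖.filter fun g => x ∈ V g).card =
      ∑ g ∈ 𝓖, (X2.filter fun x => x ∈ V g).card := by
    simp only [Finset.card_filter]
    exact Finset.sum_comm
  have h3 : ∑ g ∈ 𝓖, ((X2.filter fun x => x ∈ V g).card : ℝ) ≤ 𝓖.card * m := by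
    rw [← nsmul_eq_mul, ← Finset.sum_const]
    refine Finset.sum_le_sum fun g hg => le_trans ?_ (hV g hg)
    exact Nat.cast_le.2 (Finset.card_le_card fun x hx => (Finset.mem_filter.1 hx).2)
  have h4 : ∑ x ∈ X2, ((𝓖.filter fun g => x ∈ V g).card : ℝ) =
      ∑ g ∈ 𝓖, ((X2.filter fun x => x ∈ V g).card : ℝ) := by exact_mod_cast h2
  linarith

/-- the larger of the two orientation classes. -/
theorem baseSplit_det (𝓖 : Finset Mo) (h : ∀ g ∈ 𝓖, Iso g) :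
    ∃ 𝓗 : Finset Mo, 𝓗 ⊆ 𝓖 ∧ (∀ g ∈ 𝓗, ∀ g' ∈ 𝓗, g.1.det = g'.1.det) ∧
      (𝓖.card : ℝ) ≤ 2 * 𝓗.card := by
  classical
  have e : ((𝓖.filter fun g => g.1.det = 1).card : ℝ) +
      (𝓖.filter fun g => ¬ g.1.det = 1).card = 𝓖.card := by
    exact_mod_cast Finset.card_filter_add_card_filter_not (s := 𝓖) fun g => g.1.det = 1
  rcases le_total ((𝓖.filter fun g => g.1.det = 1).card : ℝ)
    (𝓖.filter fun g => ¬ g.1.det = 1).card with h1 | h1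
  · refine ⟨_, Finset.filter_subset (fun g => ¬ g.1.det = 1) _, fun g hg g' hg' => ?_, by linarith⟩
    obtain ⟨a1, a2⟩ := Finset.mem_filter.1 hg
    obtain ⟨b1, b2⟩ := Finset.mem_filter.1 hg'
    rw [(iso_det (h g a1)).resolve_left a2, (iso_det (h g' b1)).resolve_left b2]
  · refine ⟨_, Finset.filter_subset (fun g => g.1.det = 1) _, fun g hg g' hg' => ?_, by linarith⟩
    rw [(Finset.mem_filter.1 hg).2, (Finset.mem_filter.1 hg').2]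

/-- splitting a family of rich motions. -/
theorem base_split : ∃ C : ℝ, 1 ≤ C ∧ ∀ (n t θ : ℝ) (P : Finset Pt) (X : Finset (Pt × Pt))
    (𝓖 : Finset Mo), (P.card : ℝ) ≤ n → X ⊆ P ×ˢ P → 0 < θ → θ ≤ 1 / 4 → 2 ≤ θ * t →
    n ≤ (θ * t) ^ 2 → (∀ g ∈ 𝓖, Iso g ∧ Rich X g t) →
    ∃ (X2 : Finset (Pt × Pt)) (𝓖c 𝓖d : Finset Mo) (V : Mo → Finset (Pt × Pt)), X2 ⊆ X ∧
      (X2.card : ℝ) * θ ≤ 2 * 𝓖.card ∧ (∀ g ∈ 𝓖c, Iso g ∧ Rich X2 g (t / 4)) ∧ Fam X 𝓖d V t θ ∧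
      (𝓖.card : ℝ) ≤ C * n ^ 2 * X.card / (θ ^ 2 * t ^ 3) + 𝓖c.card + 2 * 𝓖d.card := by
  classical
  obtain ⟨C, hC, hR⟩ := rich_lines'
  refine ⟨C, hC, fun n t θ P X 𝓖 hP hX hθ hθ4 h2 hn h𝓖 => ?_⟩
  have ht0 : 0 < t := by
    by_contra h
    have : θ * t ≤ 0 := mul_nonpos_of_nonneg_of_nonpos hθ.le (not_lt.1 h)
    linarith
  have hθt : θ * t ≤ t / 4 := by nlinarith
  have ht8 : 8 ≤ t := by linarith
  set 𝓖a := 𝓖.filter fun g => ¬ LinB (gr X g) (θ * t) with h𝓖a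
  set 𝓖b := 𝓖.filter fun g => LinB (gr X g) (θ * t) with h𝓖b
  have hab : (𝓖b.card : ℝ) + 𝓖a.card = 𝓖.card := by
    exact_mod_cast Finset.card_filter_add_card_filter_not (s := 𝓖)
      fun g => LinB (gr X g) (θ * t)
  have ha : (𝓖a.card : ℝ) ≤ C * n ^ 2 * X.card / (θ ^ 2 * t ^ 3) := by
    have := hR n (θ * t) t P X 𝓖a hP hX h2 hn fun g hg => by
      obtain ⟨h1, h3⟩ := Finset.mem_filter.1 hg
      exact ⟨(h𝓖 g h1).1, (h𝓖 g h1).2, h3⟩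
    rw [le_div_iff₀ (by positivity)]
    calc (𝓖a.card : ℝ) * (θ ^ 2 * t ^ 3) = 𝓖a.card * t * (θ * t) ^ 2 := by ring
      _ ≤ _ := this
  have hV0 : ∀ g : Mo, ∃ S : Finset (Pt × Pt), g ∈ 𝓖 → S ⊆ gr X g ∧ S.card = ⌈t⌉₊ := by
    intro g
    by_cases hg : g ∈ 𝓖
    · obtain ⟨S, h1, h3⟩ := Finset.exists_subset_card_eq (Nat.ceil_le.2 (h𝓖 g hg).2.le_card)
      exact ⟨S, fun _ => ⟨h1, h3⟩⟩
    · exact ⟨∅, fun h => absurd h hg⟩
  choose V0 hV0 using hV0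
  have hlo : ∀ g ∈ 𝓖, t ≤ ((V0 g).card : ℝ) := fun g hg => by
    rw [(hV0 g hg).2]; exact Nat.le_ceil t
  have hup : ∀ g ∈ 𝓖, ((V0 g).card : ℝ) ≤ 2 * t := fun g hg => by
    rw [(hV0 g hg).2]
    have := Nat.ceil_lt_add_one ht0.le
    linarith
  set X2 := X.filter fun x => θ * t < ((𝓖.filter fun g => x ∈ V0 g).card : ℝ) with hX2
  have hX2c : (X2.card : ℝ) * θ ≤ 2 * 𝓖.card := by
    have h1 : (X2.card : ℝ) * (θ * t) ≤ 𝓖.card * (2 * t) :=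
      baseSplit_heavy X 𝓖 V0 (θ * t) (2 * t) hup
    refine le_of_mul_le_mul_right ?_ ht0
    linarith
  set 𝓖c := 𝓖b.filter fun g => t / 2 ≤ ((V0 g ∩ X2).card : ℝ) with h𝓖c
  set 𝓖r := 𝓖b.filter fun g => ¬ t / 2 ≤ ((V0 g ∩ X2).card : ℝ) with h𝓖r
  have hcr : (𝓖c.card : ℝ) + 𝓖r.card = 𝓖b.card := by
    exact_mod_cast Finset.card_filter_add_card_filter_not (s := 𝓖b)
      fun g => t / 2 ≤ ((V0 g ∩ X2).card : ℝ)
  have hr : ∀ g ∈ 𝓖r, g ∈ 𝓖 ∧ LinB (gr X g) (θ * t) ∧ ((V0 g ∩ X2).card : ℝ) < t / 2 := by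
    intro g hg
    obtain ⟨h1, h3⟩ := Finset.mem_filter.1 hg
    obtain ⟨h4, h5⟩ := Finset.mem_filter.1 h1
    exact ⟨h4, h5, not_le.1 h3⟩
  obtain ⟨𝓖d, hd1, hd2, hd3⟩ := baseSplit_det 𝓖r fun g hg => (h𝓖 g (hr g hg).1).1
  refine ⟨X2, 𝓖c, 𝓖d, fun g => V0 g \ X2, Finset.filter_subset _ _, hX2c, fun g hg => ?_,
    ⟨fun g hg => (h𝓖 g (hr g (hd1 hg)).1).1,
      fun g hg => Finset.sdiff_subset.trans (hV0 g (hr g (hd1 hg)).1).1, fun g hg => ?_,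
      fun g hg => ?_, fun g hg => (hr g (hd1 hg)).2.1, hd2, fun x 𝓗 h𝓗 hx => ?_⟩, by linarith⟩
  · obtain ⟨h1, h3⟩ := Finset.mem_filter.1 hg
    obtain ⟨h4, h5⟩ := Finset.mem_filter.1 h1
    refine ⟨(h𝓖 g h4).1, rich_of_linB (S := V0 g ∩ X2) (l := θ * t) (fun y hy => ?_)
      (h5.mono (Finset.inter_subset_left.trans (hV0 g h4).1) le_rfl) (by linarith)⟩
    obtain ⟨h6, h7⟩ := Finset.mem_inter.1 hy
    exact mem_gr.2 ⟨h7, (mem_gr.1 ((hV0 g h4).1 h6)).2⟩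
  · obtain ⟨h1, -, h3⟩ := hr g (hd1 hg)
    have e : ((V0 g \ X2).card : ℝ) + (V0 g ∩ X2).card = (V0 g).card := by
      exact_mod_cast Finset.card_sdiff_add_card_inter (V0 g) X2
    linarith [hlo g h1]
  · exact (Nat.cast_le.2 (Finset.card_le_card Finset.sdiff_subset)).trans
      (hup g (hr g (hd1 hg)).1)
  · rcases 𝓗.eq_empty_or_nonempty with rfl | ⟨g0, hg0⟩
    · simp only [Finset.card_empty, Nat.cast_zero]
      linarith
    · obtain ⟨h1, h3⟩ := Finset.mem_sdiff.1 (hx g0 hg0)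
      have hxX : x ∈ X := (mem_gr.1 ((hV0 g0 (hr g0 (hd1 (h𝓗 hg0))).1).1 h1)).1
      have h4 : ((𝓖.filter fun g => x ∈ V0 g).card : ℝ) ≤ θ * t := by
        by_contra h
        exact h3 (Finset.mem_filter.2 ⟨hxX, not_le.1 h⟩)
      refine le_trans (Nat.cast_le.2 (Finset.card_le_card fun g hg => ?_)) h4
      exact Finset.mem_filter.2 ⟨(hr g (hd1 (h𝓗 hg))).1, (Finset.mem_sdiff.1 (hx g hg)).1⟩

end

end Vale.Agent.P054
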