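import Vale.Agent.P054.T1

namespace Vale.Agent.P054

open MvPolynomial

noncomputable section

variable {K : Type} [Field K] [CharZero K] {σ : Type} [Fintype σ] {ι : Type} [Fintype ι]
  [DecidableEq ι] {K' : Type} [Field K'] [Algebra K K']

section Aux

omit [CharZero K] [Fintype σ] [Fintype ι] [DecidableEq ι]

/-- coefficientwise application of a linear functional. -/
def brbT (φ : K' →ₗ[K] K) (f : MvPolynomial σ K') : MvPolynomial σ K :=
  ∑ m ∈ f.support, monomial m (φ (coeff m f))

theorem brb_coeff (φ : K' →ₗ[K] K) (f : MvPolynomial σ K') (m : σ →₀ ℕ) :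
    coeff m (brbT φ f) = φ (coeff m f) := by
  classical
  unfold brbT
  rw [coeff_sum]
  simp only [coeff_monomial]
  rw [Finset.sum_ite_eq']
  split_ifs with h
  · rfl
  · rw [notMem_support_iff.mp h, map_zero]

theorem brb_add (φ : K' →ₗ[K] K) (f h : MvPolynomial σ K') :
    brbT φ (f + h) = brbT φ f + brbT φ h := by
  ext m
  simp only [brb_coeff, coeff_add, map_add]

theorem brb_C_mul (φ : K' →ₗ[K] K) (a : K') (h : MvPolynomial σ K) :
    brbT φ (C a * map (algebraMap K K') h) = φ a • h := by
  ext m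
  rw [brb_coeff, coeff_C_mul, coeff_map, coeff_smul, mul_comm, ← Algebra.smul_def, map_smul,
    smul_eq_mul, smul_eq_mul, mul_comm]

theorem brb_mono (m : σ →₀ ℕ) (a : K') :
    (monomial m a : MvPolynomial σ K') = C a * map (algebraMap K K') (monomial m (1 : K)) := by
  rw [map_monomial, map_one, C_mul_monomial, mul_one]

theorem brb_aeval_map {Ω : Type} [CommRing Ω] [Algebra K Ω] [Algebra K' Ω]
    [IsScalarTower K K' Ω] (q : σ → Ω) (f : MvPolynomial σ K) :
    aeval q (map (algebraMap K K') f) = aeval q f :=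
  aeval_map_algebraMap K' q f

theorem brb_aeval_pt (π : σ → K) (f : MvPolynomial σ K) :
    aeval (fun k => algebraMap K K' (π k)) (map (algebraMap K K') f) =
      algebraMap K K' (aeval π f) := by
  rw [brb_aeval_map]
  exact aeval_algebraMap_apply K' π f

theorem brb_aeval (φ : K' →ₗ[K] K) (π : σ → K) (f : MvPolynomial σ K') :
    aeval π (brbT φ f) = φ (aeval (fun k => algebraMap K K' (π k)) f) := by
  induction f using MvPolynomial.induction_on' with
  | monomial m a =>
    rw [brb_mono (K := K), brb_C_mul, map_mul, brb_aeval_pt, aeval_C, map_smul, Algebra.algebraMap_self,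
      RingHom.id_apply, mul_comm, ← Algebra.smul_def, map_smul, smul_eq_mul, smul_eq_mul, mul_comm]
  | add f h hf hh => rw [brb_add, map_add, map_add, map_add, hf, hh]

theorem brb_expand (f : MvPolynomial σ K') :
    ∃ (n : Type) (s : Finset n) (b : n → K') (φ : n → (K' →ₗ[K] K)),
      f = ∑ i ∈ s, C (b i) * map (algebraMap K K') (brbT (φ i) f) := by
  classical
  let B := Module.Basis.ofVectorSpace K K'
  refine ⟨_, f.support.biUnion fun m => (B.repr (coeff m f)).support, B, B.coord, ?_⟩
  ext m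
  rw [coeff_sum]
  simp only [coeff_C_mul, coeff_map, brb_coeff, Module.Basis.coord_apply]
  by_cases hm : m ∈ f.support
  · have h1 := B.linearCombination_repr (coeff m f)
    rw [Finsupp.linearCombination_apply,
      Finsupp.sum_of_support_subset _
        (Finset.subset_biUnion_of_mem (fun m => (B.repr (coeff m f)).support) hm) _
        (fun i _ => zero_smul K (B i))] at h1
    rw [← h1]
    refine Finset.sum_congr rfl fun i _ => ?_
    rw [h1, Algebra.smul_def, mul_comm]
  · rw [notMem_support_iff.mp hm]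
    simp

theorem brb_ind_iff {Ω : Type} [CommRing Ω] [Algebra K Ω] {ρ : Type} (q : σ → Ω) (e : ρ → σ) :
    Ind (kr K q) (fun k => X (e k)) ↔ AlgebraicIndependent K (fun k => q (e k)) := by
  have key : ∀ P : MvPolynomial ρ K,
      aeval q (aeval (fun k => (X (e k) : MvPolynomial σ K)) P) = aeval (fun k => q (e k)) P := by
    intro P
    rw [← AlgHom.comp_apply, comp_aeval]
    simp only [aeval_X]
  rw [algebraicIndependent_iff]
  unfold Ind
  simp only [mem_kr, key]

theorem brb_kr_comp {Ω Ω' : Type} [CommRing Ω] [Algebra K Ω] [CommRing Ω'] [Algebra K Ω']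
    (ψ : Ω →ₐ[K] Ω') (hψ : Function.Injective ψ) (q : σ → Ω) :
    kr K (fun k => ψ (q k)) = kr K q := by
  ext f
  rw [mem_kr, mem_kr, ← comp_aeval_apply, map_eq_zero_iff ψ hψ]

end Aux

omit [CharZero K] [Fintype σ] in
theorem brb_Xv (φ : K' →ₗ[K] K) (g : ι → MvPolynomial σ K) (c : ι → σ) (k : σ)
    (f : MvPolynomial σ K') :
    Xv g c k (brbT φ f) = brbT φ (Xv (fun i => map (algebraMap K K') (g i)) c k f) := by
  induction f using MvPolynomial.induction_on' with
  | monomial m a =>
    rw [brb_mono (K := K), brb_C_mul, C_mul', Derivation.map_smul, Derivation.map_smul, Xv_map, ← C_mul',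
      ← C_mul', brb_C_mul, C_mul']
  | add f h hf hh => rw [brb_add, map_add, map_add, brb_add, hf, hh]

omit [CharZero K] [Fintype σ] in
theorem brb_wd (φ : K' →ₗ[K] K) (g : ι → MvPolynomial σ K) (c : ι → σ) (w : List σ)
    (f : MvPolynomial σ K') :
    wd g c w (brbT φ f) = brbT φ (wd (fun i => map (algebraMap K K') (g i)) c w f) := by
  induction w with
  | nil => rfl
  | cons k w ih =>
    unfold wd at ih ⊢
    rw [List.foldr_cons, List.foldr_cons, ih, brb_Xv]

omit [CharZero K] [Fintype σ] in
theorem brb_wd_map (g : ι → MvPolynomial σ K) (c : ι → σ) (w : List σ)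
    (f : MvPolynomial σ K) :
    wd (fun i => map (algebraMap K K') (g i)) c w (map (algebraMap K K') f) =
      map (algebraMap K K') (wd g c w f) := by
  induction w with
  | nil => rfl
  | cons k w ih =>
    unfold wd at ih ⊢
    rw [List.foldr_cons, List.foldr_cons, ih, Xv_map]

omit [CharZero K] [Fintype σ] [Fintype ι] [DecidableEq ι] in
theorem brb_hg {g : ι → MvPolynomial σ K} {π : σ → K} (hg : ∀ i, aeval π (g i) = 0) (i : ι) :
    aeval (fun k => algebraMap K K' (π k)) (map (algebraMap K K') (g i)) = 0 := by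
  rw [brb_aeval_pt, hg, map_zero]

omit [CharZero K] [Fintype σ] in
theorem brb_hJ {g : ι → MvPolynomial σ K} {c : ι → σ} {π : σ → K}
    (hJ : aeval π (Jac g c) ≠ 0) :
    aeval (fun k => algebraMap K K' (π k)) (Jac (fun i => map (algebraMap K K') (g i)) c) ≠ 0 := by
  rw [jac_map, brb_aeval_pt]
  exact (map_ne_zero (algebraMap K K')).mpr hJ

omit [CharZero K] in
theorem brb_ind_pt {ρ : Type} [Fintype ρ] {g : ι → MvPolynomial σ K} {c : ι → σ} {e : ρ → σ}
    (he : Compl c e) {a : σ → K} (hg : ∀ i, aeval a (g i) = 0) (hJ : aeval a (Jac g c) ≠ 0)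
    {Ω : Type} [CommRing Ω] [Algebra K Ω] {p : σ → Ω}
    (hp : kr K p = Br (Set.range g) (kr K a)) : AlgebraicIndependent K (fun k => p (e k)) := by
  rw [← brb_ind_iff, hp]
  exact Br_ind he (kr_isPrime a) (dn_kr a) hg hJ

/-- coefficientwise linear maps send the extended branch into the branch. -/
theorem Br_coeff {g : ι → MvPolynomial σ K} {c : ι → σ} {π : σ → K}
    (hg : ∀ i, aeval π (g i) = 0) (hJ : aeval π (Jac g c) ≠ 0) (φ : K' →ₗ[K] K)
    {f : MvPolynomial σ K'}
    (hf : f ∈ Br (Set.range fun i => map (algebraMap K K') (g i))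
      (kr K' fun k => algebraMap K K' (π k)))
    {f' : MvPolynomial σ K} (hf' : ∀ m, coeff m f' = φ (coeff m f)) :
    f' ∈ Br (Set.range g) (kr K π) := by
  have : CharZero K' := charZero_of_injective_algebraMap (algebraMap K K').injective
  have h1 : f' = brbT φ f := by
    ext m
    rw [hf', brb_coeff]
  rw [mem_Br_iff_wd (brb_hg hg) (brb_hJ hJ)] at hf
  rw [mem_Br_iff_wd hg hJ, h1]
  intro w
  rw [brb_wd, brb_aeval, hf, map_zero]

theorem map_mem_Br_iff {g : ι → MvPolynomial σ K} {c : ι → σ} {π : σ → K}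
    (hg : ∀ i, aeval π (g i) = 0) (hJ : aeval π (Jac g c) ≠ 0) (f : MvPolynomial σ K) :
    map (algebraMap K K') f ∈ Br (Set.range fun i => map (algebraMap K K') (g i))
      (kr K' fun k => algebraMap K K' (π k)) ↔ f ∈ Br (Set.range g) (kr K π) := by
  have : CharZero K' := charZero_of_injective_algebraMap (algebraMap K K').injective
  rw [mem_Br_iff_wd (brb_hg hg) (brb_hJ hJ), mem_Br_iff_wd hg hJ]
  refine forall_congr' fun w => ?_
  rw [brb_wd_map, brb_aeval_pt, map_eq_zero_iff _ (algebraMap K K').injective]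

theorem Br_base_le_kr {g : ι → MvPolynomial σ K} {c : ι → σ} {π : σ → K}
    (hg : ∀ i, aeval π (g i) = 0) (hJ : aeval π (Jac g c) ≠ 0) {Ω : Type} [CommRing Ω]
    [Algebra K Ω] [Algebra K' Ω] [IsScalarTower K K' Ω] {q : σ → Ω}
    (hq : Br (Set.range g) (kr K π) ≤ kr K q) :
    Br (Set.range fun i => map (algebraMap K K') (g i)) (kr K' fun k => algebraMap K K' (π k))
      ≤ kr K' q := by
  intro f hf
  obtain ⟨n, s, b, φ, hexp⟩ := brb_expand (K := K) f
  rw [mem_kr, hexp, map_sum]
  refine Finset.sum_eq_zero fun i _ => ?_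
  have h1 : brbT (φ i) f ∈ kr K q := hq (Br_coeff hg hJ (φ i) hf (brb_coeff (φ i) f))
  rw [map_mul, brb_aeval_map, mem_kr.mp h1, mul_zero]

theorem kr_of_kr_base {g : ι → MvPolynomial σ K} {c : ι → σ} {π : σ → K}
    (hg : ∀ i, aeval π (g i) = 0) (hJ : aeval π (Jac g c) ≠ 0) {Ω : Type} [CommRing Ω]
    [Algebra K Ω] [Algebra K' Ω] [IsScalarTower K K' Ω] {q : σ → Ω}
    (hq : kr K' q = Br (Set.range fun i => map (algebraMap K K') (g i))
      (kr K' fun k => algebraMap K K' (π k))) :
    kr K q = Br (Set.range g) (kr K π) := by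
  ext f
  rw [← map_mem_Br_iff (K' := K') hg hJ, ← hq, mem_kr, mem_kr, brb_aeval_map]

/-- symmetry of generic pairs: if `p` is generic on the branch at `a` and `q` is generic over a
field containing `p` on the branch at `a'`, then there is an algebraically closed subfield
containing `q` over which `p` is generic on the branch at `a`. -/
theorem pair_swap {ι' : Type} [Fintype ι'] [DecidableEq ι'] {g : ι → MvPolynomial σ K}
    {c : ι → σ} {a : σ → K} (hg : ∀ i, aeval a (g i) = 0) (hJ : aeval a (Jac g c) ≠ 0)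
    {g' : ι' → MvPolynomial σ K} {c' : ι' → σ} {a' : σ → K} (hg' : ∀ i, aeval a' (g' i) = 0)
    (hJ' : aeval a' (Jac g' c') ≠ 0) {Ω : Type} [Field Ω] [IsAlgClosed Ω] [Algebra K Ω]
    [Algebra K' Ω] [IsScalarTower K K' Ω] {p : σ → K'} {q : σ → Ω}
    (hp : kr K p = Br (Set.range g) (kr K a))
    (hq : kr K' q = Br (Set.range fun i => map (algebraMap K K') (g' i))
      (kr K' fun k => algebraMap K K' (a' k))) :
    ∃ F : IntermediateField K Ω, IsAlgClosed F ∧ ∃ q' : σ → F, (∀ k, (q' k : Ω) = q k) ∧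
      kr K q' = Br (Set.range g') (kr K a') ∧
      kr F (fun k => algebraMap K' Ω (p k)) =
        Br (Set.range fun i => map (algebraMap K F) (g i)) (kr F fun k => algebraMap K F (a k)) := by
  classical
  have he := compl_free (inj_of_jac (g := g) (c := c) fun h => hJ (by rw [h, map_zero]))
  have he' := compl_free (inj_of_jac (g := g') (c := c') fun h => hJ' (by rw [h, map_zero]))
  have hq0 : kr K q = Br (Set.range g') (kr K a') := kr_of_kr_base hg' hJ' hq
  have hqi := brb_ind_pt he' hg' hJ' hq0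
  have hpi := brb_ind_pt he hg hJ hp
  have hqi' := brb_ind_pt he' (brb_hg hg') (brb_hJ hJ') hq
  have hsum := hpi.sumElim_comp hqi'
  have hsum' : AlgebraicIndependent K
      (Sum.elim (fun k : {k // k ∉ Set.range c} => algebraMap K' Ω (p k))
        (fun k : {k // k ∉ Set.range c'} => q k)) := by
    have h2 := hsum.comp _ (Equiv.sumComm _ _).injective
    have h3 : (Sum.elim (fun k : {k // k ∉ Set.range c'} => q k)
        (algebraMap K' Ω ∘ fun k : {k // k ∉ Set.range c} => p k) ∘ (Equiv.sumComm _ _)) =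
        Sum.elim (fun k : {k // k ∉ Set.range c} => algebraMap K' Ω (p k))
          (fun k : {k // k ∉ Set.range c'} => q k) := by
      funext x
      cases x <;> rfl
    rwa [h3] at h2
  let E : IntermediateField K Ω :=
    IntermediateField.adjoin K (Set.range fun k : {k // k ∉ Set.range c'} => q k)
  have hPE : AlgebraicIndependent E
      (fun k : {k // k ∉ Set.range c} => algebraMap K' Ω (p k)) :=
    IntermediateField.algebraicIndependent_adjoin_iff.mpr
      (AlgebraicIndependent.sumElim_iff.mp hsum').2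
  let F : IntermediateField K Ω := (algebraicClosure E Ω).restrictScalars K
  have hF : IsAlgClosed F := (algebraicClosure.isAlgClosure E Ω).isAlgClosed
  have hPF : AlgebraicIndependent F
      (fun k : {k // k ∉ Set.range c} => algebraMap K' Ω (p k)) := hPE.algebraicClosure
  have hmem : ∀ k, q k ∈ F := by
    intro k
    change q k ∈ algebraicClosure E Ω
    rw [mem_algebraicClosure_iff, IntermediateField.isAlgebraic_adjoin_iff]
    by_contra hk
    have h4 := (hqi.option_iff_transcendental (q k)).mpr hk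
    obtain ⟨φ, hb⟩ := exists_hb_Br he' (kr_isPrime a') (dn_kr a') hg' hJ'
    refine not_ind_of_HB hb (fun o : Option {k // k ∉ Set.range c'} => X (o.elim k Subtype.val))
      (by rw [Fintype.card_option]; omega) ?_
    rw [← hq0, brb_ind_iff]
    have h5 : (fun o : Option {k // k ∉ Set.range c'} => q (o.elim k Subtype.val)) =
        fun o => o.elim (q k) fun k : {k // k ∉ Set.range c'} => q k := by
      funext o
      cases o <;> rfl
    rw [h5]
    exact h4
  refine ⟨F, hF, fun k => ⟨q k, hmem k⟩, fun _ => rfl, ?_, ?_⟩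
  · rw [← hq0]
    exact (brb_kr_comp F.val Subtype.val_injective fun k => ⟨q k, hmem k⟩).symm
  · have hP : kr K (fun k => algebraMap K' Ω (p k)) = kr K p :=
      brb_kr_comp (IsScalarTower.toAlgHom K K' Ω) (algebraMap K' Ω).injective p
    have hle := Br_base_le_kr (K' := F) hg hJ (q := fun k => algebraMap K' Ω (p k))
      (by rw [hP, hp])
    obtain ⟨φ, hb⟩ := exists_hb_Br he (kr_isPrime fun k => algebraMap K F (a k))
      (dn_kr fun k => algebraMap K F (a k)) (brb_hg (K' := F) hg) (brb_hJ (K' := F) hJ)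
    exact (dim_eq (Br_kr_isPrime (brb_hg (K' := F) hg) (brb_hJ (K' := F) hJ)) (kr_isPrime _) hle
      hb _ rfl ((brb_ind_iff _ _).mpr hPF)).symm

/-- the free coordinates of a generic pair are jointly independent. -/
theorem pair_ind {ι' ρ ρ' : Type} [Fintype ι'] [DecidableEq ι'] [Fintype ρ] [Fintype ρ']
    {g : ι → MvPolynomial σ K} {c : ι → σ} {e : ρ → σ} (he : Compl c e) {a : σ → K}
    (hg : ∀ i, aeval a (g i) = 0) (hJ : aeval a (Jac g c) ≠ 0) {g' : ι' → MvPolynomial σ K}
    {c' : ι' → σ} {e' : ρ' → σ} (he' : Compl c' e') {a' : σ → K}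
    (hg' : ∀ i, aeval a' (g' i) = 0) (hJ' : aeval a' (Jac g' c') ≠ 0) {Ω : Type} [Field Ω]
    [Algebra K Ω] [Algebra K' Ω] [IsScalarTower K K' Ω] {p : σ → K'} {q : σ → Ω}
    (hp : kr K p = Br (Set.range g) (kr K a))
    (hq : kr K' q = Br (Set.range fun i => map (algebraMap K K') (g' i))
      (kr K' fun k => algebraMap K K' (a' k))) :
    AlgebraicIndependent K
      (Sum.elim (fun k : ρ => algebraMap K' Ω (p (e k))) (fun k : ρ' => q (e' k))) := by
  have hpi := brb_ind_pt he hg hJ hp
  have hqi' := brb_ind_pt he' (brb_hg hg') (brb_hJ hJ') hq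
  have h2 := (hpi.sumElim_comp hqi').comp _ (Equiv.sumComm _ _).injective
  have h3 : (Sum.elim (fun k : ρ' => q (e' k))
      (algebraMap K' Ω ∘ fun k : ρ => p (e k)) ∘ (Equiv.sumComm _ _)) =
      Sum.elim (fun k : ρ => algebraMap K' Ω (p (e k))) (fun k : ρ' => q (e' k)) := by
    funext x
    cases x <;> rfl
  rwa [h3] at h2

omit [CharZero K] [Fintype σ] [Fintype ι] [DecidableEq ι] in
/-- a generic pair specialises to the base pair. -/
theorem pair_spec {Ω : Type} [Field Ω] [Algebra K Ω] [Algebra K' Ω] [IsScalarTower K K' Ω]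
    {p : σ → K'} {q : σ → Ω} {a a' : σ → K} (hp : kr K p ≤ kr K a)
    (hq : kr K' q ≤ kr K' fun k => algebraMap K K' (a' k)) :
    kr K (Sum.elim (fun k => algebraMap K' Ω (p k)) q) ≤ kr K (Sum.elim a a') := by
  intro f hf
  rw [mem_kr] at hf ⊢
  have h1 : ∀ {Ω : Type} [CommRing Ω] [Algebra K Ω] [Algebra K' Ω] [IsScalarTower K K' Ω]
      (q : σ → Ω), aeval q (aeval (Sum.elim (fun k => (C (p k) : MvPolynomial σ K')) X) f) =
        aeval (Sum.elim (fun k => algebraMap K' Ω (p k)) q) f := by
    intro Ω _ _ _ _ q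
    have h := comp_aeval_apply (f := Sum.elim (fun k => (C (p k) : MvPolynomial σ K')) X)
      ((aeval q : MvPolynomial σ K' →ₐ[K'] Ω).restrictScalars K) f
    rw [AlgHom.restrictScalars_apply] at h
    rw [h]
    refine congrArg (fun x => aeval x f) ?_
    funext x
    cases x <;> simp
  have h2 : ∀ {Ω : Type} [CommRing Ω] [Algebra K Ω] (p : σ → Ω),
      aeval p (aeval (Sum.elim X (fun k => (C (a' k) : MvPolynomial σ K))) f) =
        aeval (Sum.elim p (fun k => algebraMap K Ω (a' k))) f := by
    intro Ω _ _ p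
    rw [comp_aeval_apply]
    refine congrArg (fun x => aeval x f) ?_
    funext x
    cases x <;> simp
  have h3 := mem_kr.mp (hq (mem_kr.mpr ((h1 q).trans hf)))
  rw [h1] at h3
  have h4 := mem_kr.mp (hp (mem_kr.mpr ((h2 p).trans h3)))
  rw [h2] at h4
  exact h4

omit [CharZero K] [Fintype ι] [DecidableEq ι] in
/-- a universal generic point of a prime. -/
theorem exists_generic (b : Ideal (MvPolynomial σ K)) (hb : b.IsPrime) :
    ∃ (F : Type) (_ : Field F) (_ : Algebra K F) (_ : IsAlgClosed F) (p : σ → F), kr K p = b ∧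
      ∀ (L : Type) [Field L] [Algebra K L] [IsAlgClosed L] (p' : σ → L), kr K p' = b →
        ∃ f : F →ₐ[K] L, ∀ k, f (p k) = p' k := by
  let A := MvPolynomial σ K ⧸ b
  let Q := FractionRing A
  let F := AlgebraicClosure Q
  let ψ : MvPolynomial σ K →ₐ[K] F :=
    ((IsScalarTower.toAlgHom K Q F).comp (IsScalarTower.toAlgHom K A Q)).comp
      (Ideal.Quotient.mkₐ K b)
  have hψ : aeval (fun k => ψ (X k)) = ψ := by
    ext k
    simp
  refine ⟨F, inferInstance, inferInstance, inferInstance, fun k => ψ (X k), ?_, ?_⟩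
  · ext f
    rw [mem_kr, hψ]
    change algebraMap Q F (algebraMap A Q (Ideal.Quotient.mk b f)) = 0 ↔ _
    rw [map_eq_zero_iff _ (algebraMap Q F).injective,
      map_eq_zero_iff _ (IsFractionRing.injective A Q), Ideal.Quotient.eq_zero_iff_mem]
  · intro L _ _ _ p' hp'
    let g₁ : A →ₐ[K] L := Ideal.Quotient.liftₐ b (aeval p') fun f hf => by
      rw [← hp'] at hf
      exact hf
    have hg₁ : Function.Injective g₁ := by
      rw [injective_iff_map_eq_zero]
      intro x hx
      obtain ⟨f, rfl⟩ := Ideal.Quotient.mk_surjective x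
      rw [Ideal.Quotient.eq_zero_iff_mem, ← hp']
      exact hx
    let g₂ : Q →ₐ[K] L := IsFractionRing.liftAlgHom (K := Q) hg₁
    let : Algebra Q L := g₂.toRingHom.toAlgebra
    have : IsScalarTower K Q L := IsScalarTower.of_algebraMap_eq fun x => (g₂.commutes x).symm
    let g₃ : F →ₐ[Q] L := IsAlgClosed.lift
    refine ⟨g₃.restrictScalars K, fun k => ?_⟩
    change g₃ (algebraMap Q F (algebraMap A Q (Ideal.Quotient.mk b (X k)))) = p' k
    rw [g₃.commutes]
    change g₂ (algebraMap A Q (Ideal.Quotient.mk b (X k))) = p' k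
    rw [IsFractionRing.liftAlgHom_apply, IsFractionRing.lift_algebraMap]
    change aeval p' (X k : MvPolynomial σ K) = p' k
    rw [aeval_X]

end

end Vale.Agent.P054
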