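import Vale.Agent.P054.CelAux

namespace Vale.Agent.P054

open MvPolynomial

noncomputable section

section Aux

variable {K : Type} [Field K] {σ : Type} [Fintype σ] {Λ : Type}

/-- the first `r` levels of the construction. -/
structure CelLev (a A : ℝ) (r : ℕ) (p : Λ → Ideal (MvPolynomial σ K)) (S : Finset Λ)
    (δ : ℕ → ℝ) (L : Finset Λ) (g : ℕ → MvPolynomial σ K) (c : (r : ℕ) → Fin r → σ) : Prop where
  sub : L ⊆ S
  card : a * S.card ≤ L.card
  deg : ∀ i, i < r → ((g i).totalDegree : ℝ) ≤ A * δ i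
  mem : ∀ i, i < r → ∀ l ∈ L, g i ∈ p l
  jac : ∀ r', r' ≤ r → ∀ l ∈ L, Jac (gs g r') (c r') ∉ p l

theorem CelLev.hb {α a A : ℝ} {R r : ℕ} {p : Λ → Ideal (MvPolynomial σ K)} {S L : Finset Λ}
    {F δ : ℕ → ℝ} {g : ℕ → MvPolynomial σ K} {c : (r : ℕ) → Fin r → σ}
    (D : CelData α R p S F δ) (E : CelLev a A r p S δ L g c) (hA : 1 ≤ A) (hr : r ≤ R) {t : ℕ}
    (ht : t ≤ r) :
    HB (⨅ l ∈ L, Br (Set.range (gs g t)) (p l))
      (2 ^ Fintype.card σ * (2 ^ Fintype.card σ * A) ^ t * fp δ t) (Fintype.card σ - t) := by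
  have := t1_rel L p g (fun i => A * δ i) (Nat.zero_le t) ((ht.trans hr).trans D.R_le)
    (fun l hl => D.prime l (E.sub hl)) (fun l hl => D.dn l (E.sub hl))
    (fun l hl i hi => E.mem i (hi.trans_le ht) l hl)
    (fun l hl => sm_of_jac (D.prime l (E.sub hl)) (E.jac t ht l hl))
    (fun i hi => E.deg i (hi.trans_le ht))
    (fun i => one_le_mul_of_one_le_of_one_le hA (D.one_le i)) (hb_card _)
  simp only [← mul_assoc] at this
  rwa [Nat.Ico_zero_eq_range, Finset.prod_mul_distrib, Finset.prod_const, Finset.card_range,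
    ← mul_assoc] at this

theorem cel_small_nat {α D θ : ℝ} (hα : 0 < α) (hD : 0 ≤ D) (hθ : 0 < θ) :
    ∃ T : ℕ, 1 ≤ T ∧ (D / T) ^ α ≤ θ := by
  have h0 : 0 < θ ^ α⁻¹ := Real.rpow_pos_of_pos hθ _
  obtain ⟨T, hT⟩ := exists_nat_gt (D / θ ^ α⁻¹)
  have hT0 : (0 : ℝ) < T := (div_nonneg hD h0.le).trans_lt hT
  refine ⟨T, by exact_mod_cast hT0, ?_⟩
  rw [← Real.rpow_inv_rpow hθ.le hα.ne']
  refine Real.rpow_le_rpow (div_nonneg hD hT0.le) ?_ hα.le
  rw [div_lt_iff₀ h0] at hT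
  rw [div_le_iff₀ hT0]
  linarith

theorem cel_pigeon {β : Type} [Fintype β] [Nonempty β] (L : Finset Λ) (Q : β → Λ → Prop)
    (h : ∀ l ∈ L, ∃ x, Q x l) :
    ∃ x, ∃ L' : Finset Λ, L' ⊆ L ∧ (∀ l ∈ L', Q x l) ∧ L.card ≤ Fintype.card β * L'.card := by
  classical
  obtain ⟨x, hx⟩ := Finite.exists_max fun x => (L.filter (Q x)).card
  refine ⟨x, L.filter (Q x), Finset.filter_subset _ _, fun l hl => (Finset.mem_filter.1 hl).2,
    le_trans (Finset.card_le_card fun l hl => ?_)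
      (Finset.card_biUnion_le_card_mul Finset.univ (fun x => L.filter (Q x)) _ fun y _ => hx y)⟩
  obtain ⟨y, hy⟩ := h l hl
  exact Finset.mem_biUnion.2 ⟨y, Finset.mem_univ _, Finset.mem_filter.2 ⟨hl, hy⟩⟩

omit [Fintype σ] in
theorem cel_word {ι : Type} [Fintype ι] [DecidableEq ι] (g : ι → MvPolynomial σ K) (c : ι → σ)
    {p : Ideal (MvPolynomial σ K)} {f : MvPolynomial σ K} (hf : f ∈ p) (w : List σ)
    (hw : wd g c w f ∉ p) :
    ∃ k, ∃ w' : List σ, w'.length < w.length ∧ wd g c w' f ∈ p ∧ Xv g c k (wd g c w' f) ∉ p := by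
  induction w with
  | nil => exact absurd hf hw
  | cons k w ih =>
    by_cases h : wd g c w f ∈ p
    · exact ⟨k, w, Nat.lt_succ_self _, h, hw⟩
    · obtain ⟨k', w', h1, h2⟩ := ih h
      exact ⟨k', w', Nat.lt_succ_of_lt h1, h2⟩

theorem cel_low {I I0 B : Ideal (MvPolynomial σ K)} {j m : ℕ} {Φ ψ : ℝ} (hm : 1 ≤ m)
    (hψ : 0 ≤ ψ) (hI : HB I Φ j) (hΦ : Φ ≤ ψ * m) (h0 : I ≤ I0) (hB : B ≤ I0)
    (hG : Gro B (j + 1)) (hlow : ∀ f ∈ I, f.totalDegree ≤ m → f ∈ B) :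
    HB I0 ((2 * ((j + 1 : ℕ) + 1)) ^ (j + 1) * ψ) (j + 1) := by
  intro m' hm'
  have hD : (1 : ℝ) ≤ (2 * ((j + 1 : ℕ) + 1)) ^ (j + 1) :=
    one_le_pow₀ (by linarith [Nat.cast_nonneg (α := ℝ) (j + 1)])
  rcases le_total m' m with h | h
  · have h1 := hf_down hG hm' h
    generalize (2 * (((j + 1 : ℕ) : ℝ) + 1)) ^ (j + 1) = D at hD h1 ⊢
    have h2 : (hf B m : ℝ) ≤ ψ * (m : ℝ) ^ (j + 1) := by
      have h3 : (hf B m : ℝ) ≤ hf I m := by exact_mod_cast hf_le_of_low hlow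
      refine (h3.trans (hI m hm)).trans ?_
      rw [pow_succ', ← mul_assoc]
      exact mul_le_mul_of_nonneg_right hΦ (by positivity)
    have h3 : (hf I0 m' : ℝ) ≤ hf B m' := by exact_mod_cast hf_anti hB m'
    refine h3.trans (le_of_mul_le_mul_right (h1.trans ?_)
      (show (0 : ℝ) < (m : ℝ) ^ (j + 1) by positivity))
    have h4 := mul_le_mul_of_nonneg_right h2
      (show (0 : ℝ) ≤ D * (m' : ℝ) ^ (j + 1) by positivity)
    linarith
  · generalize (2 * (((j + 1 : ℕ) : ℝ) + 1)) ^ (j + 1) = D at hD ⊢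
    have h1 : (m : ℝ) ≤ m' := by exact_mod_cast h
    have h2 : Φ ≤ D * ψ * m' :=
      hΦ.trans (mul_le_mul (le_mul_of_one_le_left hψ hD) h1 (by positivity) (by positivity))
    refine (hI.mono h0 le_rfl m' hm').trans ?_
    rw [pow_succ', ← mul_assoc]
    exact mul_le_mul_of_nonneg_right h2 (by positivity)

omit [Fintype σ] in
theorem cel_pick [CharZero K] (I : Ideal (MvPolynomial σ K)) (m : ℕ) (L : Finset Λ)
    (B : Λ → Ideal (MvPolynomial σ K))
    (h : ∀ l ∈ L, ¬ ∀ f ∈ I, f.totalDegree ≤ m → f ∈ B l) :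
    ∃ f ∈ I, f.totalDegree ≤ m ∧ ∀ l ∈ L, f ∉ B l := by
  obtain ⟨x, hx⟩ := Submodule.exists_forall_notMem_of_forall_ne_top
    (fun l : L => ((B l.1).restrictScalars K).comap
      (I.restrictScalars K ⊓ restrictTotalDegree σ K m).subtype) fun l hl =>
    h l.1 l.2 fun f hf hd => (Submodule.eq_top_iff'.1 hl)
      ⟨f, hf, (mem_restrictTotalDegree σ m f).2 hd⟩
  exact ⟨x.1, x.2.1, (mem_restrictTotalDegree σ m _).1 x.2.2, fun l hl => hx ⟨l, hl⟩⟩

theorem cel_gs_update {β : Type} (g : ℕ → β) (h : β) {r t : ℕ} (ht : t ≤ r) :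
    gs (Function.update g r h) t = gs g t :=
  funext fun i => Function.update_of_ne (by have := i.2; omega) _ _

end Aux

theorem cel_step (n r : ℕ) {α a A : ℝ} (hα : 0 < α) (ha : 0 < a) (hA : 1 ≤ A) :
    ∃ a' A' : ℝ, 0 < a' ∧ 1 ≤ A' ∧ ∀ (K : Type) [Field K] [CharZero K] (σ : Type) [Fintype σ]
      (Λ : Type) (R : ℕ) (p : Λ → Ideal (MvPolynomial σ K)) (S : Finset Λ) (F δ : ℕ → ℝ)
      (L : Finset Λ) (g : ℕ → MvPolynomial σ K) (c : (r : ℕ) → Fin r → σ),
      Fintype.card σ = n → r < R → CelData α R p S F δ → CelLev a A r p S δ L g c →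
      ∃ L' g' c', CelLev a' A' (r + 1) p S δ L' g' c' := by
  obtain ⟨j, hj⟩ : ∃ j, j = n - (r + 1) := ⟨_, rfl⟩
  obtain ⟨κ, hκ1, hκ⟩ := cel_small_nat (D := (2 * ((j + 1 : ℕ) + 1)) ^ (j + 1)) (θ := a / 4) hα
    (by positivity) (by positivity)
  obtain ⟨T, hT1, hT⟩ := cel_small_nat (D := ((j + 1).factorial : ℝ) * 2 ^ (2 * j + 1) *
    (2 ^ n * (2 ^ n * A) ^ r) * (2 * κ)) (θ := a / 4) hα (by positivity) (by positivity)
  obtain ⟨N, hN⟩ : ∃ N : ℕ, N = (∑ t : Fin T, n ^ (t : ℕ)) * n ^ (r + 1) := ⟨_, rfl⟩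
  refine ⟨a / (2 * (N + 1)), A + 2 * κ + T * (r * A), by positivity,
    hA.trans ((le_add_of_nonneg_right (by positivity)).trans
      (le_add_of_nonneg_right (by positivity))), ?_⟩
  intro K _ _ σ _ Λ R p S F δ L g c hn hr D E
  classical
  have hR := D.R_le
  have e1 : Fintype.card σ - r = j + 1 := by omega
  have e2 : Fintype.card σ - (r + 1) = j := by omega
  have hS0 : (0 : ℝ) < S.card := by exact_mod_cast D.ne.card_pos
  have hp : ∀ l ∈ L, (p l).IsPrime := fun l hl => D.prime l (E.sub hl)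
  have hd : ∀ l ∈ L, Dn (p l) := fun l hl => D.dn l (E.sub hl)
  have hg : ∀ l ∈ L, ∀ i, gs g r i ∈ p l := fun l hl i => E.mem i i.2 l hl
  have hJ := E.jac r le_rfl
  obtain ⟨l₀, hl₀⟩ : L.Nonempty := by
    rw [← Finset.card_pos]
    exact_mod_cast (mul_pos ha hS0).trans_le E.card
  have hc : Function.Injective (c r) :=
    inj_of_jac (g := gs g r) fun h => hJ l₀ hl₀ (h ▸ (p l₀).zero_mem)
  have hcf := compl_free hc
  have hcard : Fintype.card {k // k ∉ Set.range (c r)} = j + 1 := by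
    have := hcf.card_add
    rw [Fintype.card_fin] at this
    omega
  have hBp : ∀ l ∈ L, Br (Set.range (gs g r)) (p l) ≤ p l := fun l hl =>
    Br_le (hp l hl) (by rintro _ ⟨i, rfl⟩; exact hg l hl i) le_rfl
  have hFr := D.F_pos hr.le
  have hFr' := D.F_pos (r := r + 1) hr
  have hδ := D.one_le r
  have hκ0 : (1 : ℝ) ≤ κ := by exact_mod_cast hκ1
  have hκδ : 1 ≤ κ * δ r := one_le_mul_of_one_le_of_one_le hκ0 hδ
  obtain ⟨m, hm1, hm2⟩ : ∃ m : ℕ, κ * δ r ≤ m ∧ (m : ℝ) ≤ 2 * κ * δ r :=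
    ⟨⌈κ * δ r⌉₊, Nat.le_ceil _, by linarith [Nat.ceil_lt_add_one (zero_le_one.trans hκδ)]⟩
  have hm0 : (1 : ℝ) ≤ m := hκδ.trans hm1
  have hIL : HB (⨅ l ∈ L, p l) (F (r + 1)) j :=
    e2 ▸ (D.hb (r + 1) hr).mono (cel_iInf_le E.sub p) le_rfl
  obtain ⟨P0, hP0⟩ : ∃ P0 : Λ → Prop, ∀ l, P0 l ↔
      ∀ f ∈ ⨅ l ∈ L, p l, f.totalDegree ≤ m → f ∈ Br (Set.range (gs g r)) (p l) :=
    ⟨_, fun _ => Iff.rfl⟩
  have s0 := Finset.filter_subset P0 L
  have a0 : ((L.filter P0).card : ℝ) ≤ S.card * (a / 4) := by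
    have h1 := gro_Br (L.filter P0) p hcf (fun l hl => hp l (s0 hl)) (fun l hl => hd l (s0 hl))
      (fun l hl => hg l (s0 hl)) fun l hl => hJ l (s0 hl)
    rw [hcard] at h1
    have h2 := cel_low (ψ := F r / κ) (by exact_mod_cast hm0) (by positivity) hIL
      (by
        rw [D.succ r hr, div_mul_eq_mul_div, le_div_iff₀ (by linarith), mul_assoc, mul_comm (δ r)]
        exact mul_le_mul_of_nonneg_left hm1 hFr.le)
      (cel_iInf_le s0 p) (iInf₂_mono fun l hl => hBp l (s0 hl)) h1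
      fun f hf hdeg => Ideal.mem_iInf.2 fun l => Ideal.mem_iInf.2 fun hl =>
        (hP0 l).1 (Finset.mem_filter.1 hl).2 f hf hdeg
    have h3 := D.unif r hr.le _ (s0.trans E.sub)
    rw [e1] at h3
    refine (h3 _ h2).trans (mul_le_mul_of_nonneg_left (le_trans (le_of_eq ?_) hκ) hS0.le)
    congr 1
    field_simp
  obtain ⟨f, hfI, hfd, hfB⟩ := cel_pick (⨅ l ∈ L, p l) m (L.filter fun l => ¬ P0 l)
    (fun l => Br (Set.range (gs g r)) (p l)) fun l hl h =>
      (Finset.mem_filter.1 hl).2 ((hP0 l).2 h)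
  have hfp : ∀ l ∈ L, f ∈ p l := fun l hl => biInf_le p hl hfI
  obtain ⟨PT, hPT⟩ : ∃ PT : Λ → Prop, ∀ l, PT l ↔
      ∀ w : List σ, w.length < T → wd (gs g r) (c r) w f ∈ p l := ⟨_, fun _ => Iff.rfl⟩
  have s1 := Finset.filter_subset (fun l => ¬ P0 l) L
  have s2 := Finset.filter_subset PT (L.filter fun l => ¬ P0 l)
  have s3 := s2.trans s1
  have aT : (((L.filter fun l => ¬ P0 l).filter PT).card : ℝ) ≤ S.card * (a / 4) := by
    have h0 := E.hb D hA hr.le le_rfl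
    rw [e1, hn] at h0
    have h1 := lemA _ p hcf (fun l hl => hp l (s3 hl)) (fun l hl => hd l (s3 hl))
      (fun l hl => hg l (s3 hl)) (fun l hl => hJ l (s3 hl)) hcard
      (h0.mono (cel_iInf_le s3 _) (mul_le_mul_of_nonneg_left (D.fp_le hr.le) (by positivity)))
      (fun l hl => hfB l (s2 hl)) (Nat.cast_le.2 hfd) hm0 hT1
      fun l hl => (hPT l).1 (Finset.mem_filter.1 hl).2
    have h3 := D.unif (r + 1) hr _ (s3.trans E.sub)
    rw [e2] at h3
    refine (h3 _ h1).trans (mul_le_mul_of_nonneg_left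
      (le_trans (Real.rpow_le_rpow (by positivity) ?_ hα.le) hT) hS0.le)
    rw [div_right_comm]
    refine div_le_div_of_nonneg_right ?_ (Nat.cast_nonneg T)
    rw [div_le_iff₀ hFr', D.succ r hr]
    have h2 := mul_le_mul_of_nonneg_left hm2 (show (0 : ℝ) ≤ ((j + 1).factorial : ℝ) *
      2 ^ (2 * j + 1) * (2 ^ n * (2 ^ n * A) ^ r * F r) by positivity)
    linarith
  have s4 := (Finset.filter_subset (fun l => ¬ PT l) (L.filter fun l => ¬ P0 l)).trans s1
  have : Nonempty ((Σ t : Fin T, Fin t → σ) × (Fin (r + 1) → σ)) :=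
    ⟨⟨⟨⟨0, hT1⟩, Fin.elim0⟩, c (r + 1)⟩⟩
  obtain ⟨x, L', s5, hL', hcount⟩ := cel_pigeon
    (β := (Σ t : Fin T, Fin t → σ) × (Fin (r + 1) → σ))
    ((L.filter fun l => ¬ P0 l).filter fun l => ¬ PT l)
    (fun x l => wd (gs g r) (c r) (List.ofFn x.1.2) f ∈ p l ∧
      Jac (gs (Function.update g r (wd (gs g r) (c r) (List.ofFn x.1.2) f)) (r + 1)) x.2 ∉ p l)
    fun l hl => by
      have h1 := (Finset.mem_filter.1 hl).2
      rw [hPT] at h1
      push Not at h1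
      obtain ⟨w, hw, hw'⟩ := h1
      obtain ⟨k, w', b1, b2, b3⟩ := cel_word _ _ (hfp l (s4 hl)) w hw'
      have h2 : Sm (gs (Function.update g r (wd (gs g r) (c r) w' f)) (r + 1)) (p l) :=
        sm_snoc (c := c r) (k := k) (hp l (s4 hl))
          (by rw [cel_gs_update g _ le_rfl]; exact hJ l (s4 hl))
          (by rw [cel_gs_update g _ le_rfl, Function.update_self]; exact b3)
      obtain ⟨c', hc'⟩ := exists_jac_of_sm (hp l (s4 hl)) h2
      refine ⟨⟨⟨⟨w'.length, b1.trans hw⟩, w'.get⟩, c'⟩, ?_⟩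
      simp only [List.ofFn_get]
      exact ⟨b2, hc'⟩
  have s6 := s5.trans s4
  refine ⟨L', Function.update g r (wd (gs g r) (c r) (List.ofFn x.1.2) f),
    Function.update c (r + 1) x.2, s6.trans E.sub, ?_, fun i hi => ?_, fun i hi l hl => ?_,
    fun t ht l hl => ?_⟩
  · have h1 : Fintype.card ((Σ t : Fin T, Fin t → σ) × (Fin (r + 1) → σ)) = N := by
      simp only [Fintype.card_prod, Fintype.card_sigma, Fintype.card_fun, Fintype.card_fin, hn, hN]
    have h2 := Finset.card_filter_add_card_filter_not (s := L) P0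
    have h3 := Finset.card_filter_add_card_filter_not (s := L.filter fun l => ¬ P0 l) PT
    have h4 : L.card ≤ (L.filter P0).card + ((L.filter fun l => ¬ P0 l).filter PT).card +
        N * L'.card := by
      rw [h1] at hcount
      omega
    have h5 : (L.card : ℝ) ≤ (L.filter P0).card +
        ((L.filter fun l => ¬ P0 l).filter PT).card + N * L'.card := by exact_mod_cast h4
    rw [div_mul_eq_mul_div, div_le_iff₀ (by positivity)]
    have h6 := E.card
    have h7 : (0 : ℝ) ≤ L'.card := Nat.cast_nonneg _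
    linarith
  · have hδi := D.one_le i
    rcases Nat.lt_succ_iff_lt_or_eq.1 hi with h | rfl
    · rw [Function.update_of_ne h.ne]
      refine (E.deg i h).trans (mul_le_mul_of_nonneg_right ?_ (by linarith))
      exact (le_add_of_nonneg_right (by positivity)).trans (le_add_of_nonneg_right (by positivity))
    · rw [Function.update_self]
      have h1 : ((wd (gs g i) (c i) (List.ofFn x.1.2) f).totalDegree : ℝ) ≤
          f.totalDegree + (x.1.1 : ℕ) * ∑ k : Fin i, ((g k).totalDegree : ℝ) := by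
        have := totalDegree_wd (gs g i) (c i) (List.ofFn x.1.2) f
        rw [List.length_ofFn] at this
        exact_mod_cast this
      have h2 : ∑ k : Fin i, ((g k).totalDegree : ℝ) ≤ i * (A * δ i) := by
        have := Finset.sum_le_card_nsmul Finset.univ (fun k : Fin i => ((g k).totalDegree : ℝ))
          (A * δ i) fun k _ => (E.deg k k.2).trans
            (mul_le_mul_of_nonneg_left (D.mono k.2.le) (by linarith))
        rwa [Finset.card_univ, Fintype.card_fin, nsmul_eq_mul] at this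
      have h3 : ((x.1.1 : ℕ) : ℝ) ≤ T := by exact_mod_cast x.1.1.2.le
      have h4 := mul_le_mul h3 h2 (Finset.sum_nonneg fun _ _ => Nat.cast_nonneg _)
        (Nat.cast_nonneg T)
      have h5 : (f.totalDegree : ℝ) ≤ m := Nat.cast_le.2 hfd
      have h6 : 0 ≤ A * δ i := by positivity
      linarith
  · rcases Nat.lt_succ_iff_lt_or_eq.1 hi with h | rfl
    · rw [Function.update_of_ne h.ne]
      exact E.mem i h l (s6 hl)
    · rw [Function.update_self]
      exact (hL' l hl).1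
  · rcases Nat.le_succ_iff.1 ht with h | rfl
    · rw [cel_gs_update g _ h, Function.update_of_ne (by omega)]
      exact E.jac t h l (s6 hl)
    · rw [Function.update_self]
      exact (hL' l hl).2

theorem cel_levels (n r : ℕ) {α : ℝ} (hα : 0 < α) :
    ∃ a A : ℝ, 0 < a ∧ 1 ≤ A ∧ ∀ (K : Type) [Field K] [CharZero K] (σ : Type) [Fintype σ]
      [Nonempty σ] (Λ : Type) (R : ℕ) (p : Λ → Ideal (MvPolynomial σ K)) (S : Finset Λ)
      (F δ : ℕ → ℝ), Fintype.card σ = n → r ≤ R → CelData α R p S F δ →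
      ∃ L g c, CelLev a A r p S δ L g c := by
  induction r with
  | zero =>
    refine ⟨1, 1, one_pos, le_rfl, fun K _ _ σ _ _ Λ R p S F δ _ _ D =>
      ⟨S, 0, fun _ _ => Classical.arbitrary σ, subset_rfl, (one_mul _).le,
        fun i hi => absurd hi (Nat.not_lt_zero i), fun i hi => absurd hi (Nat.not_lt_zero i),
        fun t ht l hl => ?_⟩⟩
    obtain rfl := Nat.le_zero.1 ht
    rw [Jac, Matrix.det_isEmpty]
    exact (Ideal.ne_top_iff_one _).1 (D.prime l hl).ne_top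
  | succ r ih =>
    obtain ⟨a, A, ha, hA, h⟩ := ih
    obtain ⟨a', A', ha', hA', h'⟩ := cel_step n r hα ha hA
    refine ⟨a', A', ha', hA', fun K _ _ σ _ _ Λ R p S F δ hn hr D => ?_⟩
    obtain ⟨L, g, c, E⟩ := h K σ Λ R p S F δ hn (Nat.le_of_succ_le hr) D
    exact h' K σ Λ R p S F δ L g c hn hr D E

/-- the concentration lemma. -/
theorem cel (n R : ℕ) (C0 ε : ℝ) (hC0 : 1 ≤ C0) (hε : 0 < ε) (hn : 0 < n) :
    ∃ A α : ℝ, 1 ≤ A ∧ 0 < α ∧ ∀ (K : Type) [Field K] [CharZero K] (σ : Type) [Fintype σ]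
      (Λ ρ : Type) [Fintype ρ] (p : Λ → Ideal (MvPolynomial σ K)) (L : Finset Λ),
      Fintype.card σ = n → Fintype.card ρ + R = n → L.Nonempty → Set.InjOn p L →
      (∀ l ∈ L, (p l).IsPrime ∧ Dn (p l) ∧ HB (p l) C0 (Fintype.card ρ) ∧
        ∃ t : ρ → MvPolynomial σ K, Ind (p l) t ∧ ∀ k, (t k).totalDegree ≤ 1) →
      ∃ L' : Finset Λ, L' ⊆ L ∧ L'.Nonempty ∧ (L.card : ℝ) ^ (1 - ε) ≤ A * L'.card ∧
        Nonempty (Cel A α R p L') := by
  have hα : 0 < ε / (R + 1 : ℕ) := by positivity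
  obtain ⟨a, A, ha, hA, h⟩ := cel_levels n R hα
  obtain ⟨B, b1, b2, b3, b4, b5, b6⟩ : ∃ B : ℝ, A ≤ B ∧ C0 ^ ε / a ≤ B ∧
      (n - R).factorial * 2 ^ n ≤ B ∧ C0 / a ≤ B ∧ 2 ^ n * (2 ^ n * A) ^ R ≤ B ∧ 1 / a ≤ B :=
    ⟨max A (max (C0 ^ ε / a) (max ((n - R).factorial * 2 ^ n) (max (C0 / a)
      (max (2 ^ n * (2 ^ n * A) ^ R) (1 / a))))), by simp⟩
  refine ⟨B, _, hA.trans b1, hα, ?_⟩
  intro K _ _ σ _ Λ ρ _ p L hσ hρ hL hinj hp
  have : Nonempty σ := Fintype.card_pos_iff.1 (hσ ▸ hn)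
  obtain ⟨S, F, δ, hS, D, c1, c2, c3⟩ := cel_data hα (hρ.trans hσ.symm) p L hL
    (fun l hl => (hp l hl).1) (fun l hl => (hp l hl).2.1) fun l hl => (hp l hl).2.2.1
  obtain ⟨L', g, c, E⟩ := h K σ Λ R p S F δ hσ le_rfl D
  have hS0 : (0 : ℝ) < S.card := by exact_mod_cast D.ne.card_pos
  have hL0 : (0 : ℝ) < L.card := by exact_mod_cast hL.card_pos
  have hL'0 : (0 : ℝ) < L'.card := (mul_pos ha hS0).trans_le E.card
  have s1 := E.sub.trans hS
  have key : ∀ x : ℝ, 0 ≤ x → x / a ≤ B → x * S.card ≤ B * L'.card := fun x hx hB => by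
    have h1 := mul_le_mul hB E.card (mul_pos ha hS0).le ((div_nonneg hx ha.le).trans hB)
    rwa [← mul_assoc, div_mul_cancel₀ _ ha.ne'] at h1
  have hfp := fun r => zero_lt_one.trans_le (cel_one_le_fp D.one_le r)
  refine ⟨L', s1, Finset.card_pos.1 (by exact_mod_cast hL'0), ?_,
    ⟨⟨δ, g, c, D.one_le, D.mono, ?_, ?_, fun i hi => ?_, E.mem, E.jac, fun r hr => ?_,
      fun r hr S' hS' φ hφ hb => ?_⟩⟩⟩
  · refine le_trans ?_ (key _ (Real.rpow_nonneg (by linarith) ε) b2)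
    rw [div_mul_cancel₀ _ (by positivity), Real.mul_rpow (by linarith) hL0.le] at c1
    rw [Real.rpow_sub hL0, Real.rpow_one, div_le_iff₀ (Real.rpow_pos_of_pos hL0 ε)]
    linarith
  · have h1 := (D.hb R le_rfl).mono (cel_iInf_le E.sub p) le_rfl
    rw [show Fintype.card σ - R = Fintype.card ρ by omega] at h1
    refine (count_le L' p (fun l hl => (hp l (s1 hl)).1) (hinj.mono s1) h1
      fun l hl => (hp l (s1 hl)).2.2.2).trans ?_
    rw [D.F_eq le_rfl, ← mul_assoc, show Fintype.card ρ = n - R by omega]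
    refine mul_le_mul_of_nonneg_right (le_trans ?_ b3) (hfp R).le
    exact mul_le_mul_of_nonneg_left (hσ ▸ c2) (Nat.cast_nonneg _)
  · exact ((D.fp_le le_rfl).trans c3).trans (key _ (by linarith) b4)
  · exact (E.deg i hi).trans (mul_le_mul_of_nonneg_right b1 (zero_le_one.trans (D.one_le i)))
  · refine (E.hb D hA le_rfl hr).mono le_rfl (mul_le_mul_of_nonneg_right (le_trans ?_ b5)
      (hfp r).le)
    rw [hσ]
    exact mul_le_mul_of_nonneg_left (pow_le_pow_right₀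
      (one_le_mul_of_one_le_of_one_le (one_le_pow₀ one_le_two) hA) hr) (by positivity)
  · refine (D.unif r hr S' (hS'.trans E.sub) φ hb).trans (mul_le_mul ?_ (Real.rpow_le_rpow
      (div_nonneg hφ.le (D.F_pos hr).le) (div_le_div_of_nonneg_left hφ.le (hfp r) (D.fp_le hr))
      hα.le) (Real.rpow_nonneg (div_nonneg hφ.le (D.F_pos hr).le) _)
      (mul_nonneg (by linarith) hL'0.le))
    simpa using key 1 zero_le_one b6

end

end Vale.Agent.P054
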