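import Vale.Agent.P054.LemA
import Vale.Agent.P054.Gro

/-! The extremal subfamily used in the concentration lemma. -/

namespace Vale.Agent.P054

open MvPolynomial

noncomputable section

variable {K : Type} [Field K] {σ : Type} [Fintype σ] {Λ : Type}

/-- the best constant in the uniform Hilbert bound. -/
def celF (I : Ideal (MvPolynomial σ K)) (j : ℕ) : ℝ :=
  ⨆ m : ℕ, (hf I (m + 1) : ℝ) / ((m + 1 : ℕ) : ℝ) ^ j

omit [Fintype σ] in
theorem celF_le {I : Ideal (MvPolynomial σ K)} {φ : ℝ} {j : ℕ} (h : HB I φ j) : celF I j ≤ φ :=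
  ciSup_le fun m => (div_le_iff₀ (by positivity)).2 (h _ (Nat.le_add_left 1 m))

omit [Fintype σ] in
theorem celF_hb {I : Ideal (MvPolynomial σ K)} {φ : ℝ} {j : ℕ} (h : HB I φ j) :
    HB I (celF I j) j := by
  intro m hm
  obtain ⟨m, rfl⟩ := Nat.exists_eq_add_of_le' hm
  refine (div_le_iff₀ (by positivity)).1 (le_ciSup
    (f := fun m : ℕ => (hf I (m + 1) : ℝ) / ((m + 1 : ℕ) : ℝ) ^ j) ⟨φ, ?_⟩ m)
  rintro _ ⟨k, rfl⟩
  exact (div_le_iff₀ (by positivity)).2 (h _ (Nat.le_add_left 1 k))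

theorem celF_convex {I : Ideal (MvPolynomial σ K)} {φ : ℝ} {j : ℕ} (h : HB I φ j) :
    celF I (j + 1) ^ 2 ≤ celF I (j + 2) * celF I j := by
  have h0 := celF_hb h
  have h1 := celF_hb (h.of_le (Nat.le_succ j))
  have h2 := celF_hb (h.of_le (Nat.le_add_right j 2))
  have hp := mul_nonneg h2.nonneg h0.nonneg
  have h3 : HB I √(celF I (j + 2) * celF I j) (j + 1) := by
    intro m hm
    refine le_of_sq_le_sq ?_ (by positivity)
    rw [mul_pow, Real.sq_sqrt hp]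
    have h4 := mul_le_mul (h2 m hm) (h0 m hm) (Nat.cast_nonneg _)
      (mul_nonneg h2.nonneg (by positivity))
    calc (hf I m : ℝ) ^ 2 = hf I m * hf I m := sq _
      _ ≤ _ := h4
      _ = _ := by ring
  exact (pow_le_pow_left₀ h1.nonneg (celF_le h3) 2).trans_eq (Real.sq_sqrt hp)

omit [Fintype σ] in
theorem cel_iInf_le {S S' : Finset Λ} (h : S' ⊆ S) (p : Λ → Ideal (MvPolynomial σ K)) :
    ⨅ l ∈ S, p l ≤ ⨅ l ∈ S', p l := biInf_mono fun _ hl => h hl

omit [Fintype σ] in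
theorem cel_ne_top {S : Finset Λ} (h : S.Nonempty) {p : Λ → Ideal (MvPolynomial σ K)}
    (hp : ∀ l ∈ S, (p l).IsPrime) : ⨅ l ∈ S, p l ≠ ⊤ := by
  obtain ⟨l, hl⟩ := h
  exact ne_top_of_le_ne_top (hp l hl).ne_top (biInf_le p hl)

/-- a family with uniformly distributed Hilbert functions. -/
structure CelData (α : ℝ) (R : ℕ) (p : Λ → Ideal (MvPolynomial σ K)) (S : Finset Λ)
    (F δ : ℕ → ℝ) : Prop where
  ne : S.Nonempty
  prime : ∀ l ∈ S, (p l).IsPrime
  dn : ∀ l ∈ S, Dn (p l)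
  R_le : R ≤ Fintype.card σ
  one_le : ∀ i, 1 ≤ δ i
  mono : Monotone δ
  F0 : 1 ≤ F 0
  succ : ∀ i, i < R → F (i + 1) = F i * δ i
  hb : ∀ r, r ≤ R → HB (⨅ l ∈ S, p l) (F r) (Fintype.card σ - r)
  unif : ∀ r, r ≤ R → ∀ S' : Finset Λ, S' ⊆ S → ∀ φ : ℝ,
    HB (⨅ l ∈ S', p l) φ (Fintype.card σ - r) → (S'.card : ℝ) ≤ S.card * (φ / F r) ^ α

theorem cel_max {α : ℝ} (hα : 0 < α) (R : ℕ) (L : Finset Λ) (hL : L.Nonempty)
    (F : ℕ → Finset Λ → ℝ) (h1 : ∀ r, r ≤ R → ∀ S, S ⊆ L → S.Nonempty → 1 ≤ F r S)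
    (hm : ∀ r, r ≤ R → ∀ S, S ⊆ L → ∀ S', S' ⊆ S → F r S' ≤ F r S) {M : ℝ}
    (hM : ∀ r, r ≤ R → F r L ≤ M) :
    ∃ S, S ⊆ L ∧ S.Nonempty ∧ (L.card : ℝ) ≤ S.card * M ^ (α * (R + 1 : ℕ)) ∧
      ∀ r, r ≤ R → ∀ S', S' ⊆ S → S'.Nonempty →
        (S'.card : ℝ) ≤ S.card * (F r S' / F r S) ^ α := by
  classical
  obtain ⟨S, hS, hmax⟩ := Finset.exists_max_image (L.powerset.filter Finset.Nonempty)
    (fun S => (S.card : ℝ) / ∏ r ∈ Finset.range (R + 1), F r S ^ α) ⟨L, by simpa using hL⟩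
  rw [Finset.mem_filter, Finset.mem_powerset] at hS
  have hr : ∀ {r}, r ∈ Finset.range (R + 1) → r ≤ R := fun h =>
    Nat.lt_succ_iff.1 (Finset.mem_range.1 h)
  have hP : ∀ S, S ⊆ L → S.Nonempty → 1 ≤ ∏ r ∈ Finset.range (R + 1), F r S ^ α :=
    fun S h h' => Finset.one_le_prod fun r h2 => Real.one_le_rpow (h1 r (hr h2) S h h') hα.le
  have hPS := hP S hS.1 hS.2
  refine ⟨S, hS.1, hS.2, ?_, fun r hrR S' hS' hne => ?_⟩
  · have h2 := (hmax L (by simpa using hL)).trans (div_le_self (Nat.cast_nonneg _) hPS)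
    rw [div_le_iff₀ (zero_lt_one.trans_le (hP L subset_rfl hL))] at h2
    refine h2.trans (mul_le_mul_of_nonneg_left ?_ (Nat.cast_nonneg _))
    have hM0 : 0 ≤ M := zero_le_one.trans ((h1 0 R.zero_le L subset_rfl hL).trans (hM 0 R.zero_le))
    rw [Real.rpow_mul_natCast hM0, ← Finset.card_range (R + 1), ← Finset.prod_const,
      Finset.card_range]
    refine Finset.prod_le_prod (fun r h => ?_) fun r h => ?_
    · exact Real.rpow_nonneg (zero_le_one.trans (h1 r (hr h) L subset_rfl hL)) _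
    · exact Real.rpow_le_rpow (zero_le_one.trans (h1 r (hr h) L subset_rfl hL)) (hM r (hr h))
        hα.le
  · have hL' := hS'.trans hS.1
    have h2 := hmax S' (Finset.mem_filter.2 ⟨Finset.mem_powerset.2 hL', hne⟩)
    rw [div_le_iff₀ (zero_lt_one.trans_le (hP S' hL' hne)), div_mul_eq_mul_div, mul_div_assoc,
      ← Finset.prod_div_distrib] at h2
    refine h2.trans (mul_le_mul_of_nonneg_left ?_ (Nat.cast_nonneg _))
    have p1 : ∀ i, i ≤ R → 0 < F i S := fun i h => zero_lt_one.trans_le (h1 i h S hS.1 hS.2)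
    have p2 : ∀ i, i ≤ R → 0 < F i S' := fun i h => zero_lt_one.trans_le (h1 i h S' hL' hne)
    rw [← Finset.mul_prod_erase _ _ (Finset.mem_range.2 (Nat.lt_succ_of_le hrR)),
      Real.div_rpow (p2 r hrR).le (p1 r hrR).le]
    refine mul_le_of_le_one_right (div_nonneg (Real.rpow_nonneg (p2 r hrR).le _)
      (Real.rpow_nonneg (p1 r hrR).le _)) (Finset.prod_le_one (fun i h => ?_) fun i h => ?_)
    · have hi := hr (Finset.mem_of_mem_erase h)
      exact div_nonneg (Real.rpow_nonneg (p2 i hi).le _) (Real.rpow_nonneg (p1 i hi).le _)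
    · have hi := hr (Finset.mem_of_mem_erase h)
      exact (div_le_one (Real.rpow_pos_of_pos (p1 i hi) _)).2
        (Real.rpow_le_rpow (p2 i hi).le (hm i hi S hS.1 S' hS') hα.le)

theorem cel_data {C0 α : ℝ} (hα : 0 < α) {R j : ℕ} (hj : j + R = Fintype.card σ)
    (p : Λ → Ideal (MvPolynomial σ K)) (L : Finset Λ) (hL : L.Nonempty)
    (hp : ∀ l ∈ L, (p l).IsPrime) (hd : ∀ l ∈ L, Dn (p l)) (hb : ∀ l ∈ L, HB (p l) C0 j) :
    ∃ (S : Finset Λ) (F δ : ℕ → ℝ), S ⊆ L ∧ CelData α R p S F δ ∧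
      (L.card : ℝ) ≤ S.card * (C0 * L.card) ^ (α * (R + 1 : ℕ)) ∧
      F 0 ≤ 2 ^ Fintype.card σ ∧ F R ≤ C0 * S.card := by
  have hB : ∀ r, r ≤ R → ∀ S, S ⊆ L →
      HB (⨅ l ∈ S, p l) (C0 * S.card) (Fintype.card σ - r) := fun r hr S hS => by
    have := hb_iInf S p (fun _ => C0) fun l hl => hb l (hS hl)
    rw [Finset.sum_const, nsmul_eq_mul, mul_comm] at this
    exact this.of_le (by omega)
  have h1 : ∀ r, r ≤ R → ∀ S, S ⊆ L → S.Nonempty →
      1 ≤ celF (⨅ l ∈ S, p l) (Fintype.card σ - r) := fun r hr S hS hne =>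
    (celF_hb (hB r hr S hS)).one_le (cel_ne_top hne fun l hl => hp l (hS hl))
  obtain ⟨S, hS, hne, hc, hu⟩ := cel_max hα R L hL
    (fun r S => celF (⨅ l ∈ S, p l) (Fintype.card σ - r)) h1
    (fun r hr S hS S' hS' => celF_le ((celF_hb (hB r hr S hS)).mono (cel_iInf_le hS' p) le_rfl))
    (fun r hr => celF_le (hB r hr L subset_rfl))
  obtain ⟨F, hF⟩ : ∃ F : ℕ → ℝ, ∀ r, F r = celF (⨅ l ∈ S, p l) (Fintype.card σ - r) :=
    ⟨_, fun _ => rfl⟩
  have f1 : ∀ r, r ≤ R → 1 ≤ F r := fun r hr => hF r ▸ h1 r hr S hS hne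
  have f0 : ∀ r, r ≤ R → 0 < F r := fun r hr => zero_lt_one.trans_le (f1 r hr)
  have fb : ∀ r, r ≤ R → HB (⨅ l ∈ S, p l) (F r) (Fintype.card σ - r) := fun r hr =>
    hF r ▸ celF_hb (hB r hr S hS)
  have f2 : ∀ r, r < R → F r ≤ F (r + 1) := fun r hr =>
    (hF r).trans_le (celF_le ((fb (r + 1) hr).of_le (by omega)))
  have f3 : ∀ r, r + 2 ≤ R → F (r + 1) ^ 2 ≤ F r * F (r + 2) := fun r hr => by
    have := celF_convex (fb (r + 2) hr)
    rwa [show Fintype.card σ - (r + 2) + 1 = Fintype.card σ - (r + 1) by omega,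
      show Fintype.card σ - (r + 2) + 2 = Fintype.card σ - r by omega, ← hF, ← hF, ← hF] at this
  refine ⟨S, F, fun i => if i < R then F (i + 1) / F i else F R, hS,
    ⟨hne, fun l hl => hp l (hS hl), fun l hl => hd l (hS hl), by omega, fun i => ?_,
      monotone_nat_of_le_succ fun i => ?_, f1 0 R.zero_le, fun i hi => ?_, fb,
      fun r hr S' hS' φ hφ => ?_⟩, hc, (hF 0).trans_le (celF_le (hb_card _)),
    (hF R).trans_le (celF_le (hB R le_rfl S hS))⟩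
  · split_ifs with h
    · exact (one_le_div (f0 i h.le)).2 (f2 i h)
    · exact f1 R le_rfl
  · by_cases h : i + 1 < R
    · rw [if_pos h, if_pos (by omega), div_le_div_iff₀ (f0 i (by omega)) (f0 (i + 1) h.le)]
      have := f3 i h
      linarith
    · rw [if_neg h]
      split_ifs with h'
      · rw [show i + 1 = R by omega]
        exact div_le_self (f0 R le_rfl).le (f1 i h'.le)
      · exact le_rfl
  · rw [if_pos hi, mul_div_cancel₀ _ (f0 i hi.le).ne']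
  · rcases S'.eq_empty_or_nonempty with rfl | hne'
    · rw [Finset.card_empty, Nat.cast_zero]
      exact mul_nonneg (Nat.cast_nonneg _)
        (Real.rpow_nonneg (div_nonneg hφ.nonneg (f0 r hr).le) _)
    · refine (hu r hr S' hS' hne').trans (mul_le_mul_of_nonneg_left ?_ (Nat.cast_nonneg _))
      rw [← hF]
      exact Real.rpow_le_rpow (div_nonneg (celF_hb hφ).nonneg (f0 r hr).le)
        (div_le_div_of_nonneg_right (celF_le hφ) (f0 r hr).le) hα.le

theorem cel_one_le_fp {δ : ℕ → ℝ} (h : ∀ i, 1 ≤ δ i) (r : ℕ) : 1 ≤ fp δ r :=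
  Finset.one_le_prod fun i _ => h i

theorem CelData.F_eq {α : ℝ} {R : ℕ} {p : Λ → Ideal (MvPolynomial σ K)} {S : Finset Λ}
    {F δ : ℕ → ℝ} (D : CelData α R p S F δ) {r : ℕ} (hr : r ≤ R) : F r = F 0 * fp δ r := by
  induction r with
  | zero => simp [fp]
  | succ r ih => rw [D.succ r hr, ih (by omega), fp, fp, Finset.prod_range_succ, mul_assoc]

theorem CelData.fp_le {α : ℝ} {R : ℕ} {p : Λ → Ideal (MvPolynomial σ K)} {S : Finset Λ}
    {F δ : ℕ → ℝ} (D : CelData α R p S F δ) {r : ℕ} (hr : r ≤ R) : fp δ r ≤ F r := by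
  rw [D.F_eq hr]
  exact le_mul_of_one_le_left (zero_le_one.trans (cel_one_le_fp D.one_le r)) D.F0

theorem CelData.F_pos {α : ℝ} {R : ℕ} {p : Λ → Ideal (MvPolynomial σ K)} {S : Finset Λ}
    {F δ : ℕ → ℝ} (D : CelData α R p S F δ) {r : ℕ} (hr : r ≤ R) : 0 < F r :=
  zero_lt_one.trans_le ((cel_one_le_fp D.one_le r).trans (D.fp_le hr))

end

end Vale.Agent.P054
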