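import Vale.Agent.P054.CelReal

namespace Vale.Agent.P054

open MvPolynomial

noncomputable section

/-- maximality of the subfamily `L'` inside `L`. -/
def CelMax {K : Type} [Field K] {σ : Type} [Fintype σ] {Λ : Type} (A α : ℝ) (R : ℕ)
    (p : Λ → Ideal (MvPolynomial σ K)) (L L' : Finset Λ) (δ : ℕ → ℝ) : Prop :=
  ∀ S : Finset Λ, S ⊆ L → ∀ φ : ℕ → ℝ,
    (∀ r, r ≤ R → HB (⨅ l ∈ S, p l) (φ r) (Fintype.card σ - r)) →
    (S.card : ℝ) ≤ A * L'.card * ∏ r ∈ Finset.range (R + 1), (φ r / fp δ r) ^ α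

section Aux

variable {K : Type} [Field K] {σ : Type} [Fintype σ] {Λ : Type}

theorem celM_max {α : ℝ} (hα : 0 < α) (R : ℕ) (L : Finset Λ) (hL : L.Nonempty)
    (F : ℕ → Finset Λ → ℝ) (h1 : ∀ r, r ≤ R → ∀ S, S ⊆ L → S.Nonempty → 1 ≤ F r S)
    (hm : ∀ r, r ≤ R → ∀ S, S ⊆ L → ∀ S', S' ⊆ S → F r S' ≤ F r S) :
    ∃ S, S ⊆ L ∧ S.Nonempty ∧ (∀ S', S' ⊆ L → S'.Nonempty →
        (S'.card : ℝ) ≤ S.card * ∏ r ∈ Finset.range (R + 1), (F r S' / F r S) ^ α) ∧
      ∀ r, r ≤ R → ∀ S', S' ⊆ S → S'.Nonempty →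
        (S'.card : ℝ) ≤ S.card * (F r S' / F r S) ^ α := by
  classical
  obtain ⟨S, hS, hmax⟩ := Finset.exists_max_image (L.powerset.filter Finset.Nonempty)
    (fun S => (S.card : ℝ) / ∏ r ∈ Finset.range (R + 1), F r S ^ α) ⟨L, by simpa using hL⟩
  rw [Finset.mem_filter, Finset.mem_powerset] at hS
  have hr : ∀ {r}, r ∈ Finset.range (R + 1) → r ≤ R := fun h =>
    Nat.lt_succ_iff.1 (Finset.mem_range.1 h)
  have hP : ∀ S, S ⊆ L → S.Nonempty → 1 ≤ ∏ r ∈ Finset.range (R + 1), F r S ^ α :=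
    fun S h h' => Finset.one_le_prod fun r h2 => Real.one_le_rpow (h1 r (hr h2) S h h') hα.le
  have p0 : ∀ S, S ⊆ L → S.Nonempty → ∀ i, i ≤ R → 0 < F i S := fun S h h' i hi =>
    zero_lt_one.trans_le (h1 i hi S h h')
  have key : ∀ S', S' ⊆ L → S'.Nonempty →
      (S'.card : ℝ) ≤ S.card * ∏ r ∈ Finset.range (R + 1), (F r S' / F r S) ^ α := by
    intro S' hL' hne
    have h2 := hmax S' (Finset.mem_filter.2 ⟨Finset.mem_powerset.2 hL', hne⟩)
    rw [div_le_iff₀ (zero_lt_one.trans_le (hP S' hL' hne)), div_mul_eq_mul_div, mul_div_assoc,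
      ← Finset.prod_div_distrib] at h2
    refine h2.trans (le_of_eq ?_)
    congr 1
    exact Finset.prod_congr rfl fun i hi =>
      (Real.div_rpow (p0 S' hL' hne i (hr hi)).le (p0 S hS.1 hS.2 i (hr hi)).le α).symm
  refine ⟨S, hS.1, hS.2, key, fun r hrR S' hS' hne => ?_⟩
  have hL' := hS'.trans hS.1
  refine (key S' hL' hne).trans (mul_le_mul_of_nonneg_left ?_ (Nat.cast_nonneg _))
  have q0 : ∀ i, i ≤ R → 0 ≤ F i S' / F i S := fun i hi =>
    div_nonneg (p0 S' hL' hne i hi).le (p0 S hS.1 hS.2 i hi).le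
  rw [← Finset.mul_prod_erase _ _ (Finset.mem_range.2 (Nat.lt_succ_of_le hrR))]
  refine mul_le_of_le_one_right (Real.rpow_nonneg (q0 r hrR) _)
    (Finset.prod_le_one (fun i h => ?_) fun i h => ?_)
  · exact Real.rpow_nonneg (q0 i (hr (Finset.mem_of_mem_erase h))) _
  · have hi := hr (Finset.mem_of_mem_erase h)
    exact Real.rpow_le_one (q0 i hi)
      ((div_le_one (p0 S hS.1 hS.2 i hi)).2 (hm i hi S hS.1 S' hS')) hα.le

theorem celM_data {C0 α : ℝ} (hα : 0 < α) {R j : ℕ} (hj : j + R = Fintype.card σ)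
    (p : Λ → Ideal (MvPolynomial σ K)) (L : Finset Λ) (hL : L.Nonempty)
    (hp : ∀ l ∈ L, (p l).IsPrime) (hd : ∀ l ∈ L, Dn (p l)) (hb : ∀ l ∈ L, HB (p l) C0 j) :
    ∃ (S : Finset Λ) (F δ : ℕ → ℝ), S ⊆ L ∧ CelData α R p S F δ ∧
      (∀ S' : Finset Λ, S' ⊆ L → ∀ φ : ℕ → ℝ,
        (∀ r, r ≤ R → HB (⨅ l ∈ S', p l) (φ r) (Fintype.card σ - r)) →
        (S'.card : ℝ) ≤ S.card * ∏ r ∈ Finset.range (R + 1), (φ r / F r) ^ α) ∧
      F 0 ≤ 2 ^ Fintype.card σ ∧ F R ≤ C0 * S.card := by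
  have hB : ∀ r, r ≤ R → ∀ S, S ⊆ L →
      HB (⨅ l ∈ S, p l) (C0 * S.card) (Fintype.card σ - r) := fun r hr S hS => by
    have := hb_iInf S p (fun _ => C0) fun l hl => hb l (hS hl)
    rw [Finset.sum_const, nsmul_eq_mul, mul_comm] at this
    exact this.of_le (by omega)
  have h1 : ∀ r, r ≤ R → ∀ S, S ⊆ L → S.Nonempty →
      1 ≤ celF (⨅ l ∈ S, p l) (Fintype.card σ - r) := fun r hr S hS hne =>
    (celF_hb (hB r hr S hS)).one_le (cel_ne_top hne fun l hl => hp l (hS hl))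
  obtain ⟨S, hS, hne, hc, hu⟩ := celM_max hα R L hL
    (fun r S => celF (⨅ l ∈ S, p l) (Fintype.card σ - r)) h1
    (fun r hr S hS S' hS' => celF_le ((celF_hb (hB r hr S hS)).mono (cel_iInf_le hS' p) le_rfl))
  obtain ⟨F, hF⟩ : ∃ F : ℕ → ℝ, ∀ r, F r = celF (⨅ l ∈ S, p l) (Fintype.card σ - r) :=
    ⟨_, fun _ => rfl⟩
  have f1 : ∀ r, r ≤ R → 1 ≤ F r := fun r hr => hF r ▸ h1 r hr S hS hne
  have f0 : ∀ r, r ≤ R → 0 < F r := fun r hr => zero_lt_one.trans_le (f1 r hr)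
  have fb : ∀ r, r ≤ R → HB (⨅ l ∈ S, p l) (F r) (Fintype.card σ - r) := fun r hr =>
    hF r ▸ celF_hb (hB r hr S hS)
  have f2 : ∀ r, r < R → F r ≤ F (r + 1) := fun r hr =>
    (hF r).trans_le (celF_le ((fb (r + 1) hr).of_le (by omega)))
  have f3 : ∀ r, r + 2 ≤ R → F (r + 1) ^ 2 ≤ F r * F (r + 2) := fun r hr => by
    have := celF_convex (fb (r + 2) hr)
    rwa [show Fintype.card σ - (r + 2) + 1 = Fintype.card σ - (r + 1) by omega,
      show Fintype.card σ - (r + 2) + 2 = Fintype.card σ - r by omega, ← hF, ← hF, ← hF] at this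
  refine ⟨S, F, fun i => if i < R then F (i + 1) / F i else F R, hS,
    ⟨hne, fun l hl => hp l (hS hl), fun l hl => hd l (hS hl), by omega, fun i => ?_,
      monotone_nat_of_le_succ fun i => ?_, f1 0 R.zero_le, fun i hi => ?_, fb,
      fun r hr S' hS' φ hφ => ?_⟩, fun S' hS' φ hφ => ?_,
    (hF 0).trans_le (celF_le (hb_card _)),
    (hF R).trans_le (celF_le (hB R le_rfl S hS))⟩
  · split_ifs with h
    · exact (one_le_div (f0 i h.le)).2 (f2 i h)
    · exact f1 R le_rfl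
  · by_cases h : i + 1 < R
    · rw [if_pos h, if_pos (by omega), div_le_div_iff₀ (f0 i (by omega)) (f0 (i + 1) h.le)]
      have := f3 i h
      linarith
    · rw [if_neg h]
      split_ifs with h'
      · rw [show i + 1 = R by omega]
        exact div_le_self (f0 R le_rfl).le (f1 i h'.le)
      · exact le_rfl
  · rw [if_pos hi, mul_div_cancel₀ _ (f0 i hi.le).ne']
  · rcases S'.eq_empty_or_nonempty with rfl | hne'
    · rw [Finset.card_empty, Nat.cast_zero]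
      exact mul_nonneg (Nat.cast_nonneg _)
        (Real.rpow_nonneg (div_nonneg hφ.nonneg (f0 r hr).le) _)
    · refine (hu r hr S' hS' hne').trans (mul_le_mul_of_nonneg_left ?_ (Nat.cast_nonneg _))
      rw [← hF]
      exact Real.rpow_le_rpow (div_nonneg (celF_hb hφ).nonneg (f0 r hr).le)
        (div_le_div_of_nonneg_right (celF_le hφ) (f0 r hr).le) hα.le
  · have hr : ∀ {r}, r ∈ Finset.range (R + 1) → r ≤ R := fun h =>
      Nat.lt_succ_iff.1 (Finset.mem_range.1 h)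
    rcases S'.eq_empty_or_nonempty with rfl | hne'
    · rw [Finset.card_empty, Nat.cast_zero]
      exact mul_nonneg (Nat.cast_nonneg _) (Finset.prod_nonneg fun r h =>
        Real.rpow_nonneg (div_nonneg (hφ r (hr h)).nonneg (f0 r (hr h)).le) _)
    · refine (hc S' hS' hne').trans (mul_le_mul_of_nonneg_left ?_ (Nat.cast_nonneg _))
      refine Finset.prod_le_prod (fun r h => ?_) fun r h => ?_
      · rw [← hF]
        exact Real.rpow_nonneg
          (div_nonneg (celF_hb (hφ r (hr h))).nonneg (f0 r (hr h)).le) _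
      · rw [← hF]
        exact Real.rpow_le_rpow (div_nonneg (celF_hb (hφ r (hr h))).nonneg (f0 r (hr h)).le)
          (div_le_div_of_nonneg_right (celF_le (hφ r (hr h))) (f0 r (hr h)).le) hα.le

end Aux

/-- the concentration lemma with its maximality property. -/
theorem celM (n R : ℕ) (C0 α : ℝ) (hC0 : 1 ≤ C0) (hα : 0 < α) (hn : 0 < n) :
    ∃ A : ℝ, 1 ≤ A ∧ ∀ (K : Type) [Field K] [CharZero K] (σ : Type) [Fintype σ]
      (Λ ρ : Type) [Fintype ρ] (p : Λ → Ideal (MvPolynomial σ K)) (L : Finset Λ),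
      Fintype.card σ = n → Fintype.card ρ + R = n → L.Nonempty → Set.InjOn p L →
      (∀ l ∈ L, (p l).IsPrime ∧ Dn (p l) ∧ HB (p l) C0 (Fintype.card ρ) ∧
        ∃ t : ρ → MvPolynomial σ K, Ind (p l) t ∧ ∀ k, (t k).totalDegree ≤ 1) →
      ∃ L' : Finset Λ, L' ⊆ L ∧ L'.Nonempty ∧
        ∃ D : Cel A α R p L', CelMax A α R p L L' D.δ := by
  obtain ⟨a, A, ha, hA, h⟩ := cel_levels n R hα
  obtain ⟨B, b1, b3, b4, b5, b6⟩ : ∃ B : ℝ, A ≤ B ∧
      (n - R).factorial * 2 ^ n ≤ B ∧ C0 / a ≤ B ∧ 2 ^ n * (2 ^ n * A) ^ R ≤ B ∧ 1 / a ≤ B :=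
    ⟨max A (max ((n - R).factorial * 2 ^ n) (max (C0 / a)
      (max (2 ^ n * (2 ^ n * A) ^ R) (1 / a)))), by simp⟩
  refine ⟨B, hA.trans b1, ?_⟩
  intro K _ _ σ _ Λ ρ _ p L hσ hρ hL hinj hp
  have : Nonempty σ := Fintype.card_pos_iff.1 (hσ ▸ hn)
  obtain ⟨S, F, δ, hS, D, c1, c2, c3⟩ := celM_data hα (hρ.trans hσ.symm) p L hL
    (fun l hl => (hp l hl).1) (fun l hl => (hp l hl).2.1) fun l hl => (hp l hl).2.2.1
  obtain ⟨L', g, c, E⟩ := h K σ Λ R p S F δ hσ le_rfl D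
  have hS0 : (0 : ℝ) < S.card := by exact_mod_cast D.ne.card_pos
  have hL'0 : (0 : ℝ) < L'.card := (mul_pos ha hS0).trans_le E.card
  have s1 := E.sub.trans hS
  have key : ∀ x : ℝ, 0 ≤ x → x / a ≤ B → x * S.card ≤ B * L'.card := fun x hx hB => by
    have h1 := mul_le_mul hB E.card (mul_pos ha hS0).le ((div_nonneg hx ha.le).trans hB)
    rwa [← mul_assoc, div_mul_cancel₀ _ ha.ne'] at h1
  have hfp := fun r => zero_lt_one.trans_le (cel_one_le_fp D.one_le r)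
  refine ⟨L', s1, Finset.card_pos.1 (by exact_mod_cast hL'0),
    ⟨δ, g, c, D.one_le, D.mono, ?_, ?_, fun i hi => ?_, E.mem, E.jac, fun r hr => ?_,
      fun r hr S' hS' φ hφ hb => ?_⟩, fun S' hS' φ hφ => ?_⟩
  · have h1 := (D.hb R le_rfl).mono (cel_iInf_le E.sub p) le_rfl
    rw [show Fintype.card σ - R = Fintype.card ρ by omega] at h1
    refine (count_le L' p (fun l hl => (hp l (s1 hl)).1) (hinj.mono s1) h1
      fun l hl => (hp l (s1 hl)).2.2.2).trans ?_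
    rw [D.F_eq le_rfl, ← mul_assoc, show Fintype.card ρ = n - R by omega]
    refine mul_le_mul_of_nonneg_right (le_trans ?_ b3) (hfp R).le
    exact mul_le_mul_of_nonneg_left (hσ ▸ c2) (Nat.cast_nonneg _)
  · exact ((D.fp_le le_rfl).trans c3).trans (key _ (by linarith) b4)
  · exact (E.deg i hi).trans (mul_le_mul_of_nonneg_right b1 (zero_le_one.trans (D.one_le i)))
  · refine (E.hb D hA le_rfl hr).mono le_rfl (mul_le_mul_of_nonneg_right (le_trans ?_ b5)
      (hfp r).le)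
    rw [hσ]
    exact mul_le_mul_of_nonneg_left (pow_le_pow_right₀
      (one_le_mul_of_one_le_of_one_le (one_le_pow₀ one_le_two) hA) hr) (by positivity)
  · refine (D.unif r hr S' (hS'.trans E.sub) φ hb).trans (mul_le_mul ?_ (Real.rpow_le_rpow
      (div_nonneg hφ.le (D.F_pos hr).le) (div_le_div_of_nonneg_left hφ.le (hfp r) (D.fp_le hr))
      hα.le) (Real.rpow_nonneg (div_nonneg hφ.le (D.F_pos hr).le) _)
      (mul_nonneg (by linarith) hL'0.le))
    simpa using key 1 zero_le_one b6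
  · have hr : ∀ {r}, r ∈ Finset.range (R + 1) → r ≤ R := fun h =>
      Nat.lt_succ_iff.1 (Finset.mem_range.1 h)
    have q0 : ∀ r ∈ Finset.range (R + 1), 0 ≤ φ r / F r := fun r h =>
      div_nonneg (hφ r (hr h)).nonneg (D.F_pos (hr h)).le
    refine (c1 S' hS' φ hφ).trans (mul_le_mul ?_
      (Finset.prod_le_prod (fun r h => Real.rpow_nonneg (q0 r h) _) fun r h =>
        Real.rpow_le_rpow (q0 r h)
          (div_le_div_of_nonneg_left (hφ r (hr h)).nonneg (hfp r) (D.fp_le (hr h))) hα.le)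
      (Finset.prod_nonneg fun r h => Real.rpow_nonneg (q0 r h) _)
      (mul_nonneg (by linarith) hL'0.le))
    simpa using key 1 zero_le_one b6

theorem celM_points (n : ℕ) (α : ℝ) (hα : 0 < α) (hn0 : 0 < n) :
    ∃ A : ℝ, 1 ≤ A ∧ ∀ (K : Type) [Field K] [CharZero K] (σ : Type) [Fintype σ]
      (Λ : Type) (x : Λ → σ → K) (L : Finset Λ), Fintype.card σ = n → L.Nonempty →
      Set.InjOn x L →
      ∃ L' : Finset Λ, L' ⊆ L ∧ L'.Nonempty ∧
        ∃ D : Cel A α n (fun a => kr K (x a)) L', CelMax A α n (fun a => kr K (x a)) L L' D.δ := by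
  obtain ⟨A, hA, h⟩ := celM n n 1 α le_rfl hα hn0
  refine ⟨A, hA, ?_⟩
  intro K _ _ σ _ Λ x L hn hL hx
  refine h K σ Λ Empty (fun a => kr K (x a)) L hn (by simp) hL
    (fun a ha b hb hab => hx ha hb (celReal_kr_inj hab)) ?_
  intro l _
  refine ⟨kr_isPrime _, dn_kr _, ?_, Empty.elim, ?_, fun k => k.elim⟩
  · intro m _
    have := hf_kr_le (x l) m
    simp only [Fintype.card_empty, pow_zero, mul_one]
    exact_mod_cast this
  · intro P hP
    rw [eq_C_of_isEmpty P] at hP ⊢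
    rw [mem_kr] at hP
    simp only [algHom_C, algebraMap_eq, Algebra.algebraMap_self, RingHom.id_apply] at hP
    rw [hP, C_0]

theorem celM_real (n : ℕ) (α : ℝ) (hα : 0 < α) (hn0 : 0 < n) :
    ∃ A : ℝ, 1 ≤ A ∧ ∀ (σ : Type) [Fintype σ] (P : Finset (σ → ℝ)),
      Fintype.card σ = n → P.Nonempty →
      ∃ P' : Finset (σ → ℝ), P' ⊆ P ∧ P'.Nonempty ∧
        ∃ D : Cel A α n (fun a : σ → ℝ => kr ℂ (fun k => (a k : ℂ))) P',
          (∀ i, ∃ g0 : MvPolynomial σ ℝ, D.g i = map (algebraMap ℝ ℂ) g0) ∧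
          CelMax A α n (fun a : σ → ℝ => kr ℂ (fun k => (a k : ℂ))) P P' D.δ := by
  obtain ⟨A, hA, h⟩ := celM_points n α hα hn0
  have h2 : (1 : ℝ) ≤ 2 ^ n := one_le_pow₀ (by norm_num)
  have h3 : (1 : ℝ) ≤ 2 ^ n * A := one_le_mul_of_one_le_of_one_le h2 hA
  have h4 : (1 : ℝ) ≤ 2 ^ n * (2 ^ n * A) ^ n :=
    one_le_mul_of_one_le_of_one_le h2 (one_le_pow₀ h3)
  obtain ⟨A', hAA', hA'⟩ : ∃ A' : ℝ, A ≤ A' ∧ 2 ^ n * (2 ^ n * A) ^ n ≤ A' :=
    ⟨max _ _, le_max_left _ _, le_max_right _ _⟩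
  refine ⟨A', hA.trans hAA', ?_⟩
  intro σ _ P hn hP
  obtain ⟨L, hL, hne, D, hc⟩ := h ℝ σ (σ → ℝ) (fun a => a) P hn hP (fun _ _ _ _ h => h)
  have hfp := fun r => fp_pos D.one_le r
  have hdeg : ∀ i, i < n → ((map (algebraMap ℝ ℂ) (D.g i)).totalDegree : ℝ) ≤ A * D.δ i := by
    intro i hi
    refine le_trans ?_ (D.deg i hi)
    exact_mod_cast celReal_deg _
  have hmem : ∀ i, i < n → ∀ l ∈ L,
      map (algebraMap ℝ ℂ) (D.g i) ∈ kr ℂ (fun k => (l k : ℂ)) :=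
    fun i hi l hl => (celReal_mem l _).2 (D.mem i hi l hl)
  have hjac : ∀ r, r ≤ n → ∀ l ∈ L,
      Jac (gs (fun i => map (algebraMap ℝ ℂ) (D.g i)) r) (D.c r) ∉
        kr ℂ (fun k => (l k : ℂ)) := by
    intro r hr l hl hm
    have e : Jac (gs (fun i => map (algebraMap ℝ ℂ) (D.g i)) r) (D.c r) =
        map (algebraMap ℝ ℂ) (Jac (gs D.g r) (D.c r)) := jac_map _ (gs D.g r) (D.c r)
    rw [e, celReal_mem] at hm
    exact D.jac r hr l hl hm
  refine ⟨L, hL, hne,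
    { δ := D.δ
      g := fun i => map (algebraMap ℝ ℂ) (D.g i)
      c := D.c
      one_le := D.one_le
      mono := D.mono
      card_le := D.card_le.trans (mul_le_mul_of_nonneg_right hAA' (hfp n).le)
      le_card := D.le_card.trans (mul_le_mul_of_nonneg_right hAA' (Nat.cast_nonneg _))
      deg := fun i hi => (hdeg i hi).trans
        (mul_le_mul_of_nonneg_right hAA' (zero_le_one.trans (D.one_le i)))
      mem := hmem
      jac := hjac
      hb := ?_
      unif := ?_ }, fun i => ⟨D.g i, rfl⟩, ?_⟩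
  · intro r hr
    have ht := t1_rel L (fun a : σ → ℝ => kr ℂ (fun k => (a k : ℂ)))
      (fun i => map (algebraMap ℝ ℂ) (D.g i)) (fun i => A * D.δ i) (t := 0) (r := r)
      (Nat.zero_le r) (hn ▸ hr) (fun l _ => kr_isPrime _) (fun l _ => dn_kr _)
      (fun l hl i hi => hmem i (lt_of_lt_of_le hi hr) l hl)
      (fun l hl => sm_of_jac (kr_isPrime _) (hjac r hr l hl))
      (fun i hi => hdeg i (lt_of_lt_of_le hi hr))
      (fun i => one_le_mul_of_one_le_of_one_le hA (D.one_le i)) (hb_card _)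
    refine ht.mono le_rfl ?_
    rw [hn, ← Finset.range_eq_Ico]
    have e : ∏ i ∈ Finset.range r, ((2 : ℝ) ^ n * (A * D.δ i)) = (2 ^ n * A) ^ r * fp D.δ r := by
      unfold fp
      simp only [← mul_assoc]
      rw [Finset.prod_mul_distrib, Finset.prod_const, Finset.card_range]
    rw [e, ← mul_assoc]
    refine mul_le_mul_of_nonneg_right (le_trans ?_ hA') (hfp r).le
    exact mul_le_mul_of_nonneg_left (pow_le_pow_right₀ h3 hr) (by positivity)
  · intro r hr S hS φ hφ hb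
    have hb' : HB (⨅ l ∈ S, kr ℝ l) φ (Fintype.card σ - r) := by
      intro m hm
      refine le_trans ?_ (hb m hm)
      exact_mod_cast hf_points_baseChange (K' := ℂ) S (fun a : σ → ℝ => a) m
    refine (D.unif r hr S hS φ hφ hb').trans ?_
    exact mul_le_mul_of_nonneg_right (mul_le_mul_of_nonneg_right hAA' (Nat.cast_nonneg _))
      (Real.rpow_nonneg (div_pos hφ (hfp r)).le _)
  · intro S hS φ hb
    have hb' : ∀ r, r ≤ n → HB (⨅ l ∈ S, kr ℝ l) (φ r) (Fintype.card σ - r) := by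
      intro r hr m hm
      refine le_trans ?_ (hb r hr m hm)
      exact_mod_cast hf_points_baseChange (K' := ℂ) S (fun a : σ → ℝ => a) m
    refine (hc S hS φ hb').trans ?_
    exact mul_le_mul_of_nonneg_right (mul_le_mul_of_nonneg_right hAA' (Nat.cast_nonneg _))
      (Finset.prod_nonneg fun r h => Real.rpow_nonneg (div_nonneg
        (hb' r (Nat.lt_succ_iff.1 (Finset.mem_range.1 h))).nonneg (hfp r).le) _)

end

end Vale.Agent.P054
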