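import Vale.Agent.P054.Cel

namespace Vale.Agent.P054

open MvPolynomial

noncomputable section

theorem fp_pos {δ : ℕ → ℝ} (h : ∀ i, 1 ≤ δ i) (r : ℕ) : 0 < fp δ r :=
  Finset.prod_pos fun i _ => lt_of_lt_of_le one_pos (h i)

theorem one_le_fp {δ : ℕ → ℝ} (h : ∀ i, 1 ≤ δ i) (r : ℕ) : 1 ≤ fp δ r := by
  unfold fp
  induction r with
  | zero => simp
  | succ r ih =>
    rw [Finset.prod_range_succ]
    exact one_le_mul_of_one_le_of_one_le ih (h r)

theorem fp_succ (δ : ℕ → ℝ) (r : ℕ) : fp δ (r + 1) = fp δ r * δ r :=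
  Finset.prod_range_succ δ r

/-- uniformity in threshold form. -/
theorem cel_small (A α θ : ℝ) (hA : 1 ≤ A) (hα : 0 < α) (hθ : 0 < θ) :
    ∃ κ : ℝ, 0 < κ ∧ κ ≤ 1 ∧ ∀ (K : Type) [Field K] (σ : Type) [Fintype σ] (Λ : Type) (R : ℕ)
      (p : Λ → Ideal (MvPolynomial σ K)) (L : Finset Λ) (D : Cel A α R p L) (r : ℕ), r ≤ R →
      ∀ S : Finset Λ, S ⊆ L → ∀ φ : ℝ, φ ≤ κ * fp D.δ r →
      HB (⨅ l ∈ S, p l) φ (Fintype.card σ - r) → (S.card : ℝ) ≤ θ * L.card := by
  have hA0 : 0 < A := lt_of_lt_of_le one_pos hA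
  have hq : 0 < θ / A := div_pos hθ hA0
  have hκ : 0 < min 1 ((θ / A) ^ α⁻¹) := lt_min one_pos (Real.rpow_pos_of_pos hq _)
  refine ⟨min 1 ((θ / A) ^ α⁻¹), hκ, min_le_left _ _, ?_⟩
  intro K _ σ _ Λ R p L D r hr S hS φ hφ hb
  have hf := fp_pos D.one_le r
  have h := D.unif r hr S hS _ (mul_pos hκ hf) (hb.mono le_rfl hφ)
  rw [mul_div_assoc, div_self hf.ne', mul_one] at h
  have h2 : (min 1 ((θ / A) ^ α⁻¹)) ^ α ≤ θ / A := by
    calc _ ≤ ((θ / A) ^ α⁻¹) ^ α := Real.rpow_le_rpow hκ.le (min_le_right _ _) hα.le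
      _ = θ / A := Real.rpow_inv_rpow hq.le hα.ne'
  calc (S.card : ℝ) ≤ A * L.card * (θ / A) :=
        h.trans (mul_le_mul_of_nonneg_left h2 (by positivity))
    _ = θ * L.card := by field_simp

theorem celReal_kr_inj {K : Type} [Field K] {σ : Type} {x y : σ → K} (h : kr K x = kr K y) :
    x = y := by
  funext k
  have h1 : (X k - C (x k) : MvPolynomial σ K) ∈ kr K x := by
    rw [mem_kr]; simp
  rw [h, mem_kr] at h1
  simp only [map_sub, aeval_X, aeval_C, Algebra.algebraMap_self, RingHom.id_apply] at h1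
  exact (sub_eq_zero.1 h1).symm

/-- concentration lemma for points of any field of characteristic zero. -/
theorem cel_points (n : ℕ) (ε : ℝ) (hε : 0 < ε) (hn0 : 0 < n) :
    ∃ A α : ℝ, 1 ≤ A ∧ 0 < α ∧ ∀ (K : Type) [Field K] [CharZero K] (σ : Type) [Fintype σ]
      (Λ : Type) (x : Λ → σ → K) (L : Finset Λ), Fintype.card σ = n → L.Nonempty →
      Set.InjOn x L →
      ∃ L' : Finset Λ, L' ⊆ L ∧ L'.Nonempty ∧ (L.card : ℝ) ^ (1 - ε) ≤ A * L'.card ∧
        Nonempty (Cel A α n (fun a => kr K (x a)) L') := by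
  obtain ⟨A, α, hA, hα, h⟩ := cel n n 1 ε le_rfl hε hn0
  refine ⟨A, α, hA, hα, ?_⟩
  intro K _ _ σ _ Λ x L hn hL hx
  refine h K σ Λ Empty (fun a => kr K (x a)) L hn (by simp) hL
    (fun a ha b hb hab => hx ha hb (celReal_kr_inj hab)) ?_
  intro l _
  refine ⟨kr_isPrime _, dn_kr _, ?_, Empty.elim, ?_, fun k => k.elim⟩
  · intro m _
    have := hf_kr_le (x l) m
    simp only [Fintype.card_empty, pow_zero, mul_one]
    exact_mod_cast this
  · intro P hP
    rw [eq_C_of_isEmpty P] at hP ⊢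
    rw [mem_kr] at hP
    simp only [algHom_C, algebraMap_eq, Algebra.algebraMap_self, RingHom.id_apply] at hP
    rw [hP, C_0]

theorem celReal_mem {σ : Type} (a : σ → ℝ) (f : MvPolynomial σ ℝ) :
    map (algebraMap ℝ ℂ) f ∈ kr ℂ (fun k => (a k : ℂ)) ↔ f ∈ kr ℝ a := by
  rw [mem_kr, mem_kr, aeval_map_algebraMap]
  have h : aeval (fun k => (a k : ℂ)) f = algebraMap ℝ ℂ (aeval a f) :=
    aeval_algebraMap_apply ℂ a f
  rw [h]
  exact map_eq_zero _

theorem celReal_deg {σ : Type} (f : MvPolynomial σ ℝ) :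
    (map (algebraMap ℝ ℂ) f).totalDegree ≤ f.totalDegree :=
  Finset.sup_mono (support_map_subset _ f)

/-- concentration lemma for real points, over the complex numbers with real equations. -/
theorem cel_real (n : ℕ) (ε : ℝ) (hε : 0 < ε) (hn0 : 0 < n) :
    ∃ A α : ℝ, 1 ≤ A ∧ 0 < α ∧ ∀ (σ : Type) [Fintype σ] (P : Finset (σ → ℝ)),
      Fintype.card σ = n → P.Nonempty →
      ∃ P' : Finset (σ → ℝ), P' ⊆ P ∧ P'.Nonempty ∧ (P.card : ℝ) ^ (1 - ε) ≤ A * P'.card ∧
        ∃ D : Cel A α n (fun a : σ → ℝ => kr ℂ (fun k => (a k : ℂ))) P',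
          ∀ i, ∃ g0 : MvPolynomial σ ℝ, D.g i = map (algebraMap ℝ ℂ) g0 := by
  obtain ⟨A, α, hA, hα, h⟩ := cel_points n ε hε hn0
  have h2 : (1 : ℝ) ≤ 2 ^ n := one_le_pow₀ (by norm_num)
  have h3 : (1 : ℝ) ≤ 2 ^ n * A := one_le_mul_of_one_le_of_one_le h2 hA
  have h4 : (1 : ℝ) ≤ 2 ^ n * (2 ^ n * A) ^ n :=
    one_le_mul_of_one_le_of_one_le h2 (one_le_pow₀ h3)
  obtain ⟨A', hAA', hA'⟩ : ∃ A' : ℝ, A ≤ A' ∧ 2 ^ n * (2 ^ n * A) ^ n ≤ A' :=
    ⟨max _ _, le_max_left _ _, le_max_right _ _⟩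
  refine ⟨A', α, hA.trans hAA', hα, ?_⟩
  intro σ _ P hn hP
  obtain ⟨L, hL, hne, hc, ⟨D⟩⟩ := h ℝ σ (σ → ℝ) (fun a => a) P hn hP (fun _ _ _ _ h => h)
  have hfp := fun r => fp_pos D.one_le r
  have hdeg : ∀ i, i < n → ((map (algebraMap ℝ ℂ) (D.g i)).totalDegree : ℝ) ≤ A * D.δ i := by
    intro i hi
    refine le_trans ?_ (D.deg i hi)
    exact_mod_cast celReal_deg _
  have hmem : ∀ i, i < n → ∀ l ∈ L,
      map (algebraMap ℝ ℂ) (D.g i) ∈ kr ℂ (fun k => (l k : ℂ)) :=
    fun i hi l hl => (celReal_mem l _).2 (D.mem i hi l hl)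
  have hjac : ∀ r, r ≤ n → ∀ l ∈ L,
      Jac (gs (fun i => map (algebraMap ℝ ℂ) (D.g i)) r) (D.c r) ∉
        kr ℂ (fun k => (l k : ℂ)) := by
    intro r hr l hl hm
    have e : Jac (gs (fun i => map (algebraMap ℝ ℂ) (D.g i)) r) (D.c r) =
        map (algebraMap ℝ ℂ) (Jac (gs D.g r) (D.c r)) := jac_map _ (gs D.g r) (D.c r)
    rw [e, celReal_mem] at hm
    exact D.jac r hr l hl hm
  refine ⟨L, hL, hne, hc.trans (mul_le_mul_of_nonneg_right hAA' (Nat.cast_nonneg _)),
    { δ := D.δ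
      g := fun i => map (algebraMap ℝ ℂ) (D.g i)
      c := D.c
      one_le := D.one_le
      mono := D.mono
      card_le := D.card_le.trans (mul_le_mul_of_nonneg_right hAA' (hfp n).le)
      le_card := D.le_card.trans (mul_le_mul_of_nonneg_right hAA' (Nat.cast_nonneg _))
      deg := fun i hi => (hdeg i hi).trans
        (mul_le_mul_of_nonneg_right hAA' (zero_le_one.trans (D.one_le i)))
      mem := hmem
      jac := hjac
      hb := ?_
      unif := ?_ }, fun i => ⟨D.g i, rfl⟩⟩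
  · intro r hr
    have ht := t1_rel L (fun a : σ → ℝ => kr ℂ (fun k => (a k : ℂ)))
      (fun i => map (algebraMap ℝ ℂ) (D.g i)) (fun i => A * D.δ i) (t := 0) (r := r)
      (Nat.zero_le r) (hn ▸ hr) (fun l _ => kr_isPrime _) (fun l _ => dn_kr _)
      (fun l hl i hi => hmem i (lt_of_lt_of_le hi hr) l hl)
      (fun l hl => sm_of_jac (kr_isPrime _) (hjac r hr l hl))
      (fun i hi => hdeg i (lt_of_lt_of_le hi hr))
      (fun i => one_le_mul_of_one_le_of_one_le hA (D.one_le i)) (hb_card _)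
    refine ht.mono le_rfl ?_
    rw [hn, ← Finset.range_eq_Ico]
    have e : ∏ i ∈ Finset.range r, ((2 : ℝ) ^ n * (A * D.δ i)) = (2 ^ n * A) ^ r * fp D.δ r := by
      unfold fp
      simp only [← mul_assoc]
      rw [Finset.prod_mul_distrib, Finset.prod_const, Finset.card_range]
    rw [e, ← mul_assoc]
    refine mul_le_mul_of_nonneg_right (le_trans ?_ hA') (hfp r).le
    exact mul_le_mul_of_nonneg_left (pow_le_pow_right₀ h3 hr) (by positivity)
  · intro r hr S hS φ hφ hb
    have hb' : HB (⨅ l ∈ S, kr ℝ l) φ (Fintype.card σ - r) := by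
      intro m hm
      refine le_trans ?_ (hb m hm)
      exact_mod_cast hf_points_baseChange (K' := ℂ) S (fun a : σ → ℝ => a) m
    refine (D.unif r hr S hS φ hφ hb').trans ?_
    exact mul_le_mul_of_nonneg_right (mul_le_mul_of_nonneg_right hAA' (Nat.cast_nonneg _))
      (Real.rpow_nonneg (div_pos hφ (hfp r)).le _)

/-- first order expansions at a point with degree control. -/
def celRealE {K : Type} [Field K] {σ : Type} [Fintype σ] (π : σ → K) (d : ℕ)
    (f : MvPolynomial σ K) : Prop :=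
  f.totalDegree ≤ d ∧ ∃ (c : K) (h : σ → MvPolynomial σ K),
    f = C c + ∑ k, (X k - C (π k)) * h k ∧ ∀ k, (h k).totalDegree ≤ d

section Expand

variable {K : Type} [Field K] {σ : Type} [Fintype σ] {π : σ → K}

theorem celRealE_C (π : σ → K) (a : K) (d : ℕ) : celRealE π d (C a) :=
  ⟨by simp, a, 0, by simp, by simp⟩

theorem celRealE_X (π : σ → K) (k : σ) : celRealE π 1 (X k) := by
  classical
  refine ⟨by simp, π k, Pi.single k 1, ?_, ?_⟩
  · rw [Finset.sum_eq_single k]
    · simp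
    · intro b _ hb
      simp [hb]
    · simp
  · intro k'
    by_cases h : k' = k
    · subst h; simp
    · simp [h]

theorem celRealE_mono {d d' : ℕ} {f : MvPolynomial σ K} (h : celRealE π d f) (hd : d ≤ d') :
    celRealE π d' f := by
  obtain ⟨h1, c, g, h2, h3⟩ := h
  exact ⟨h1.trans hd, c, g, h2, fun k => (h3 k).trans hd⟩

theorem celRealE_add {d : ℕ} {f f' : MvPolynomial σ K} (h : celRealE π d f)
    (h' : celRealE π d f') : celRealE π d (f + f') := by
  obtain ⟨h1, c, g, h2, h3⟩ := h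
  obtain ⟨h1', c', g', h2', h3'⟩ := h'
  refine ⟨(totalDegree_add _ _).trans (max_le h1 h1'), c + c', fun k => g k + g' k, ?_,
    fun k => (totalDegree_add _ _).trans (max_le (h3 k) (h3' k))⟩
  rw [h2, h2', C_add]
  simp only [mul_add, Finset.sum_add_distrib]
  ring

theorem celRealE_mul {d d' : ℕ} {f f' : MvPolynomial σ K} (h : celRealE π d f)
    (h' : celRealE π d' f') : celRealE π (d + d') (f * f') := by
  obtain ⟨h1, c, g, h2, h3⟩ := h
  obtain ⟨h1', c', g', h2', h3'⟩ := h'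
  refine ⟨(totalDegree_mul _ _).trans (add_le_add h1 h1'), c * c',
    fun k => g k * f' + C c * g' k, ?_, fun k => (totalDegree_add _ _).trans (max_le ?_ ?_)⟩
  · have e : ∑ k, (X k - C (π k)) * (g k * f' + C c * g' k) =
        (∑ k, (X k - C (π k)) * g k) * f' + C c * ∑ k, (X k - C (π k)) * g' k := by
      rw [Finset.sum_mul, Finset.mul_sum, ← Finset.sum_add_distrib]
      exact Finset.sum_congr rfl fun k _ => by ring
    rw [e, C_mul]
    have e1 : ∑ k, (X k - C (π k)) * g k = f - C c := by rw [h2]; ring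
    have e2 : ∑ k, (X k - C (π k)) * g' k = f' - C c' := by rw [h2']; ring
    rw [e1, e2]
    ring
  · exact (totalDegree_mul _ _).trans (add_le_add (h3 k) h1')
  · refine (totalDegree_mul _ _).trans ?_
    rw [totalDegree_C]
    exact add_le_add (Nat.zero_le _) (h3' k)

theorem celRealE_monomial (π : σ → K) (u : σ →₀ ℕ) :
    celRealE π (u.sum fun _ e => e) (monomial u (1 : K)) := by
  induction u using Finsupp.induction_linear with
  | zero => exact celRealE_C π 1 _
  | add u v hu hv =>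
    rw [Finsupp.sum_add_index' (fun _ => rfl) (fun _ _ _ => rfl)]
    have := celRealE_mul hu hv
    rwa [monomial_mul, mul_one] at this
  | single k e =>
    rw [Finsupp.sum_single_index rfl, ← X_pow_eq_monomial]
    induction e with
    | zero => exact celRealE_C π 1 _
    | succ e ih =>
      rw [pow_succ]
      exact celRealE_mul ih (celRealE_X π k)

theorem celRealE_all (π : σ → K) (f : MvPolynomial σ K) : celRealE π f.totalDegree f := by
  have h : ∀ s : Finset (σ →₀ ℕ), s ⊆ f.support →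
      celRealE π f.totalDegree (∑ u ∈ s, monomial u (coeff u f)) := by
    intro s
    induction s using Finset.cons_induction with
    | empty => intro _; rw [Finset.sum_empty, ← C_0]; exact celRealE_C π 0 _
    | cons u s hu ih =>
      intro hs
      rw [Finset.sum_cons]
      refine celRealE_add ?_ (ih ((Finset.subset_cons hu).trans hs))
      have h1 := celRealE_mul (celRealE_C π (coeff u f) 0) (celRealE_monomial π u)
      rw [C_mul_monomial, mul_one, zero_add] at h1
      exact celRealE_mono h1 (le_totalDegree (hs (Finset.mem_cons_self _ _)))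
  have h2 := h _ subset_rfl
  rwa [← as_sum f] at h2

theorem celReal_expand (π : σ → K) (f : MvPolynomial σ K) (hf : aeval π f = 0) :
    ∃ h : σ → MvPolynomial σ K, (∀ k, (h k).totalDegree ≤ f.totalDegree) ∧
      (∀ k, aeval π (h k) = aeval π (pderiv k f)) ∧
      ∀ y : σ → K, aeval y f = ∑ k, aeval y (h k) * (y k - π k) := by
  classical
  obtain ⟨-, c, h, h2, h3⟩ := celRealE_all π f
  have hc : c = 0 := by
    rw [h2] at hf
    simpa using hf
  rw [hc, C_0, zero_add] at h2
  refine ⟨h, h3, fun k => ?_, fun y => ?_⟩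
  · rw [h2, map_sum, map_sum, Finset.sum_eq_single k]
    · simp [Derivation.leibniz]
    · intro b _ hb
      simp [Derivation.leibniz, pderiv_X, hb]
    · simp
  · rw [h2, map_sum]
    refine Finset.sum_congr rfl fun k _ => ?_
    simp [mul_comm]

omit [Fintype σ] in
theorem celReal_det {ι : Type} [Fintype ι] [DecidableEq ι] (M : Matrix ι ι (MvPolynomial σ K))
    (d : ι → ℕ) (h : ∀ i j, (M i j).totalDegree ≤ d i) : M.det.totalDegree ≤ ∑ i, d i := by
  rw [Matrix.det_apply']
  refine totalDegree_finsetSum_le fun s _ => ?_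
  have h1 : (∏ i, M (s i) i).totalDegree ≤ ∑ i, d i := by
    refine (totalDegree_finsetProd _ _).trans ?_
    rw [← Equiv.sum_comp s d]
    exact Finset.sum_le_sum fun i _ => h _ _
  rcases Int.units_eq_one_or (Equiv.Perm.sign s) with e | e
  · rw [e]; simpa using h1
  · rw [e]; simpa using h1

end Expand

/-- separators for the nondegenerate zeros of a square system (Bezoutian). -/
theorem bezout_sep {K : Type} [Field K] {σ ι Λ : Type} [Fintype σ] [Fintype ι] [DecidableEq ι]
    (g : ι → MvPolynomial σ K) (c : ι → σ) (hcard : Fintype.card ι = Fintype.card σ)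
    (S : Finset Λ) (x : Λ → σ → K) (hx : Set.InjOn x S)
    (hg : ∀ a ∈ S, ∀ i, aeval (x a) (g i) = 0) (hJ : ∀ a ∈ S, aeval (x a) (Jac g c) ≠ 0) :
    ∀ a ∈ S, ∃ F : MvPolynomial σ K, F.totalDegree ≤ ∑ i, (g i).totalDegree ∧
      aeval (x a) F ≠ 0 ∧ ∀ b ∈ S, b ≠ a → aeval (x b) F = 0 := by
  intro a ha
  choose h h1 h2 h3 using fun i => celReal_expand (x a) (g i) (hg a ha i)
  have hinj : Function.Injective c := inj_of_jac (g := g) fun e => hJ a ha (by rw [e, map_zero])
  have hbij : Function.Bijective c := (Fintype.bijective_iff_injective_and_card c).2 ⟨hinj, hcard⟩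
  refine ⟨(Matrix.of fun i j => h i (c j)).det, celReal_det _ _ fun i j => h1 i (c j), ?_, ?_⟩
  · have e : aeval (x a) (Matrix.of fun i j => h i (c j)).det = aeval (x a) (Jac g c) := by
      unfold Jac
      rw [AlgHom.map_det, AlgHom.map_det]
      congr 1
      ext i j
      exact h2 i (c j)
    rw [e]
    exact hJ a ha
  · intro b hb hba
    rw [AlgHom.map_det, ← Matrix.exists_mulVec_eq_zero_iff]
    refine ⟨fun j => x b (c j) - x a (c j), ?_, ?_⟩
    · intro e
      refine hba (hx hb ha (funext fun k => ?_))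
      obtain ⟨j, rfl⟩ := hbij.2 k
      exact sub_eq_zero.1 (congrFun e j)
    · funext i
      have e := h3 i (x b)
      rw [hg b hb i, ← (Equiv.ofBijective c hbij).sum_comp] at e
      exact e.symm

end

end Vale.Agent.P054
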