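import Vale.Agent.P054.ThmBL
import Vale.Agent.P054.BaseCore

namespace Vale.Agent.P054

open MvPolynomial

noncomputable section

theorem class3L : ∃ C : ℝ, 0 < C ∧
    ∀ (x : Pt × Pt) (N : Finset (Pt × Pt)) (Y ρ : ℝ) (E : ℕ)
      (q : MvPolynomial (Pr (Fin (3 + 1))) ℂ), 1 ≤ E → 1 ≤ Y → 0 ≤ ρ → q.totalDegree ≤ E →
      q ∉ IL (hat x) →
      (∀ y ∈ N, sqd x.1 y.1 = sqd x.2 y.2 ∧ (∀ j, y.2 j - y.1 j ≠ x.2 j - x.1 j) ∧
        q ∈ IL2 (hat x) (hat y)) →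
      (∀ y ∈ N, ∃ 𝓕 : Finset (Pt × Pt), (𝓕.card : ℝ) ≤ Y ∧ (∀ φ ∈ 𝓕, lf φ x y ≠ 0) ∧
        ∀ z ∈ N, z ≠ y → ∃ φ ∈ 𝓕, lf φ x z = 0) →
      (∀ T : Finset (Pt × Pt), T ⊆ N → Cmp T → (T.card : ℝ) ≤ ρ) →
      (N.card : ℝ) ≤ C * (E * (E + Y + ρ)) := by
  classical
  obtain ⟨C, hC, hB⟩ := thmBL 3 le_rfl
  refine ⟨C, hC, fun x N Y ρ E q hE hY hρ hq hqx hN hS hT => ?_⟩
  let k0 : Fin 3 := 0
  let u : Pt × Pt → Pt := fun y j => y.1 j - x.1 j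
  let v : Pt × Pt → Pt := fun y j => y.2 j - x.2 j
  let t : Pt × Pt → ℂ := fun y => ((v y k0 : ℂ) - u y k0)⁻¹
  let ν := fun y => fincoreV (t y) (u y) (v y)
  have ht0 : ∀ y ∈ N, (v y k0 : ℂ) - u y k0 ≠ 0 := fun y hy e => by
    have e' : v y k0 - u y k0 = 0 := by exact_mod_cast e
    refine (hN y hy).2.1 k0 ?_
    simp only [u, v] at e'
    linarith
  have ht : ∀ y ∈ N, t y ≠ 0 := fun y hy => inv_ne_zero (ht0 y hy)
  have huv : ∀ y ∈ N, ∑ j, u y j ^ 2 = ∑ j, v y j ^ 2 := fun y hy => by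
    have := (hN y hy).1
    rwa [sqd_comm x.1, sqd_comm x.2] at this
  have hsep : HSep N ν Y := by
    intro y hy
    obtain ⟨𝓕, h1, h2, h3⟩ := hS y hy
    obtain ⟨Q, hQ, e⟩ := class3_sep 𝓕
    refine ⟨𝓕.card, Q, h1, hQ, ?_, fun z hz hne => ?_⟩
    · rw [e]
      exact Finset.prod_ne_zero_iff.2 fun φ hφ =>
        mul_ne_zero (ht y hy) (Complex.ofReal_ne_zero.2 (h2 φ hφ))
    · rw [e]
      obtain ⟨φ, hφ, h4⟩ := h3 z hz hne
      exact Finset.prod_eq_zero hφ (mul_eq_zero_of_right _ (Complex.ofReal_eq_zero.2 h4))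
  obtain ⟨ψ, hψ1, -, hψ2, hψ3, hψ4⟩ := exists_par (nrm_hat x)
  have hcomp : ∀ M' : Pr (Ne0 (0 : Fin (3 + 1))) → ℂ,
      aeval M' (aeval ψ q) = aeval (fun p => aeval M' (ψ p)) q := fun M' => by
    rw [← AlgHom.comp_apply, comp_aeval]
  rw [← (fincore_hsep hsep).2]
  have := hB ℂ (Ne0 (0 : Fin (3 + 1))) (fincoreE 3 k0) (N.image ν) E Y ρ (aeval ψ q)
    (by rw [← Fintype.card_congr (fincoreE 3), Fintype.card_fin]) ?_ (by exact_mod_cast hE)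
    hY hρ ?_ ?_ ?_ (fincore_hsep hsep).1 ?_
  · refine this.trans (le_of_eq ?_)
    norm_num
    left
    ring
  · intro η hη
    obtain ⟨y, hy, rfl⟩ := Finset.mem_image.1 hη
    exact ⟨(fincoreV_inl _ _ _ _).trans (inv_mul_cancel₀ (ht0 y hy)), fincoreV_nul _ (huv y hy)⟩
  · intro h0
    refine hqx (mem_vI.2 fun M hM => ?_)
    obtain ⟨M', rfl⟩ := hψ3 M hM
    rw [← hcomp, h0, map_zero]
  · have := totalDegree_algHom_le (aeval ψ) (e := 1) (fun p => by simpa using hψ1 p) q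
    exact_mod_cast this.trans (by omega)
  · intro η hη
    obtain ⟨y, hy, rfl⟩ := Finset.mem_image.1 hη
    refine mem_vI.2 fun M' hM' => ?_
    rw [hcomp]
    refine mem_vI.1 (hN y hy).2.2 _ ⟨hψ2 M', (hψ4 (hat y) (nrm_hat y) ?_ M').2 ?_⟩
    · rw [bil_hat, (hN y hy).1, sub_self, Complex.ofReal_zero]
    · rw [← Fl_smul (ht y hy), ← fincoreV_hat]
      exact hM'
  · intro S' hS' hb
    have h1 : S' ⊆ (N.filter fun y => ν y ∈ S').image ν := fun η hη => by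
      obtain ⟨y, hy, rfl⟩ := Finset.mem_image.1 (hS' hη)
      exact Finset.mem_image_of_mem _ (Finset.mem_filter.2 ⟨hy, hη⟩)
    refine le_trans ?_ (hT (N.filter fun y => ν y ∈ S') (Finset.filter_subset _ _)
      fun y hy z hz => ?_)
    · exact_mod_cast (Finset.card_le_card h1).trans Finset.card_image_le
    · obtain ⟨hy, hy'⟩ := Finset.mem_filter.1 hy
      obtain ⟨hz, hz'⟩ := Finset.mem_filter.1 hz
      have h2 := hb _ hy' _ hz'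
      rw [fincoreV_bil] at h2
      have h3 : ∑ j, 2 * (v y j * v z j - u y j * u z j) = 0 := by
        exact_mod_cast (mul_eq_zero.1 h2).resolve_left (mul_ne_zero (ht y hy) (ht z hz))
      have h4 : sqd y.1 z.1 - sqd y.2 z.2 = ∑ j, 2 * (v y j * v z j - u y j * u z j)
          + (∑ j, u y j ^ 2 - ∑ j, v y j ^ 2) + (∑ j, u z j ^ 2 - ∑ j, v z j ^ 2) := by
        simp only [sqd, ← Finset.sum_sub_distrib, ← Finset.sum_add_distrib, u, v]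
        exact Finset.sum_congr rfl fun j _ => by ring
      rw [h3, huv y hy, huv z hz] at h4
      linarith

theorem q_partL : ∃ C : ℝ, 1 ≤ C ∧
    ∀ (x : Pt × Pt) (N : Finset (Pt × Pt)) (𝓖 : Finset Mo) (τ l ρ : ℝ) (C0 E : ℕ)
      (q : MvPolynomial (Pr (Fin (3 + 1))) ℂ), Nb x N 𝓖 τ l ρ C0 → 0 ≤ τ → 1 ≤ E →
      q.totalDegree ≤ E → q ∉ IL (hat x) → (∀ y ∈ N, q ∈ IL2 (hat x) (hat y)) →
      (N.card : ℝ) ≤ C0 * (C * (E * (E + 𝓖.card + τ + ρ))) := by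
  obtain ⟨C, hC, H⟩ := class3L
  refine ⟨max C 1, le_max_right _ _, fun x N 𝓖 τ l ρ C0 E q h hτ hE hq hqx hqy => ?_⟩
  have hρ : 0 ≤ ρ := by
    simpa using h.cmp ∅ (Finset.empty_subset _) fun y hy => absurd hy (Finset.notMem_empty _)
  have hpos : 0 ≤ (E : ℝ) * (E + 𝓖.card + τ + ρ) := by positivity
  have hC1 : 0 ≤ max C 1 := hC.le.trans (le_max_left _ _)
  rcases N.eq_empty_or_nonempty with rfl | ⟨y0, hy0⟩
  · rw [Finset.card_empty, Nat.cast_zero]; positivity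
  obtain ⟨N', hsub, hcard, hsep⟩ := exists_sep h
  have hG : (1 : ℝ) ≤ 𝓖.card := by
    obtain ⟨g, hg, -⟩ := h.ex y0 hy0
    exact_mod_cast Finset.card_pos.2 ⟨g, hg⟩
  have H1 := H x N' (𝓖.card + τ) ρ E q hE (by linarith) hρ hq hqx (fun y hy => by
    obtain ⟨g, hg, e⟩ := h.ex y (hsub hy)
    refine ⟨?_, (h.ne y (hsub hy)).2, hqy y (hsub hy)⟩
    rw [← e, ← (h.iso g hg).2, iso_sqd (h.iso g hg).1]) hsep
    fun T hT => h.cmp T (hT.trans hsub)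
  have H2 : (N'.card : ℝ) ≤ max C 1 * (E * (E + 𝓖.card + τ + ρ)) := by
    refine H1.trans ?_
    rw [← add_assoc]
    exact mul_le_mul_of_nonneg_right (le_max_left _ _) hpos
  calc (N.card : ℝ) ≤ C0 * N'.card := by exact_mod_cast hcard
    _ ≤ _ := mul_le_mul_of_nonneg_left H2 (Nat.cast_nonneg _)

open Classical in
theorem alg_boundL : ∃ C : ℝ, 1 ≤ C ∧
    ∀ (X : Finset (Pt × Pt)) (T : Finset ((Pt × Pt) × (Pt × Pt))) (𝓖 : Pt × Pt → Finset Mo)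
      (e s τ l ρ : ℝ) (C0 : ℕ), 1 ≤ e → (X.card : ℝ) ≤ e ^ 3 → 0 ≤ s → 0 ≤ τ → 1 ≤ l → 0 ≤ ρ →
      (∀ z ∈ T, z.1 ∈ X ∧ z.2 ∈ X ∧ (z.2, z.1) ∈ T) →
      (∀ x ∈ X, Nb x (X.filter fun y => (x, y) ∈ T) (𝓖 x) τ l ρ C0 ∧ ((𝓖 x).card : ℝ) ≤ s) →
      (T.card : ℝ) ≤ 2 * X.card * (C0 * (C * (e * (e + s + τ + ρ))) + 4 * ρ) +
        4 * l * ∑ x ∈ X, ((𝓖 x).card : ℝ) := by
  obtain ⟨C3, hC3, H3⟩ := interp_flats (3 + 1) (by omega)
  obtain ⟨CA, HA⟩ := thmA (3 + 1) (by omega)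
  obtain ⟨CQ, hCQ, HQ⟩ := q_partL
  obtain ⟨a, ha⟩ : ∃ a : ℝ, a = CA * C3 + 1 := ⟨_, rfl⟩
  have ha1 : 1 ≤ a := by
    have : (0 : ℝ) ≤ CA * C3 := by positivity
    linarith
  refine ⟨CQ * a ^ 2, one_le_mul_of_one_le_of_one_le hCQ (one_le_pow₀ ha1),
    fun X T 𝓖 e s τ l ρ C0 he hX hs hτ hl hρ hT hNb => ?_⟩
  set B : ℝ := C0 * (CQ * a ^ 2 * (e * (e + s + τ + ρ))) with hB
  have he0 : 0 ≤ e := by linarith
  have hCQ0 : 0 ≤ CQ := by linarith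
  have hB0 : 0 ≤ B := by positivity
  by_contra hcon
  rw [not_le] at hcon
  obtain ⟨𝓒, c1, c2, c3⟩ := exists_min_degree' X T (fun x => B + 4 * ρ + 2 * l * (𝓖 x).card)
    (fun v _ => by positivity) hT (by
      refine lt_of_eq_of_lt ?_ hcon
      rw [Finset.sum_add_distrib, Finset.sum_const, nsmul_eq_mul, ← Finset.mul_sum]
      ring)
  have hnrm : ∀ η ∈ 𝓒.image hat, Nrm 0 η := fun η hη => by
    obtain ⟨z, -, rfl⟩ := Finset.mem_image.1 hη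
    exact nrm_hat z
  obtain ⟨f, f0, f1, f2⟩ := H3 ℂ (Fin (3 + 1)) 0 (𝓒.image hat) (Fintype.card_fin _)
    (c2.image _) hnrm
  have f3 : (f.totalDegree : ℝ) ≤ C3 * e := by
    refine f2.trans (mul_le_mul_of_nonneg_left ?_ hC3.le)
    have d1 : (((𝓒.image hat).card : ℕ) : ℝ) ≤ e ^ 3 :=
      (Nat.cast_le.2 (Finset.card_image_le.trans (Finset.card_le_card c1))).trans hX
    rw [Nat.cast_add_one, add_sub_cancel_right]
    refine (Real.rpow_le_rpow (Nat.cast_nonneg _) d1 (by positivity)).trans (le_of_eq ?_)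
    rw [one_div, Real.pow_rpow_inv_natCast he0 (by norm_num)]
  have hE : ((CA * f.totalDegree + 1 : ℕ) : ℝ) ≤ a * e := by
    have := mul_le_mul_of_nonneg_left f3 (Nat.cast_nonneg (α := ℝ) CA)
    push_cast
    rw [ha]
    linarith
  have hsub : ∀ x, (𝓒.filter fun y => (x, y) ∈ T) ⊆ X.filter fun y => (x, y) ∈ T := fun x =>
    Finset.filter_subset_filter _ c1
  refine HA ℂ (Fin (3 + 1)) 0 (𝓒.image hat) f.totalDegree (CA * f.totalDegree + 1) f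
    (Fintype.card_fin _) (c2.image _) hnrm f0 f1 le_rfl (Nat.le_succ _)
    (algB_core (B := B) hl 𝓖 (fun x => 𝓒.filter fun y => (x, y) ∈ T)
      (fun x _ => Finset.filter_subset _ _) (fun x hx => (hNb x (c1 hx)).1.mono (hsub x))
      (fun x hx M q hM hq hqx hMq => ?_) fun x hx => (c3 x hx).trans_le
        (Nat.cast_le.2 (Finset.card_le_card fun y hy => by
          simp only [Finset.mem_filter] at hy ⊢
          exact hy)))
  refine (HQ x M (𝓖 x) τ l ρ C0 _ q ((hNb x (c1 hx)).1.mono (hM.trans (hsub x))) hτ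
    (Nat.le_add_left _ _) hq hqx hMq).trans ?_
  refine mul_le_mul_of_nonneg_left ?_ (Nat.cast_nonneg _)
  rw [mul_assoc]
  refine mul_le_mul_of_nonneg_left ?_ hCQ0
  have g1 := (hNb x (c1 hx)).2
  have g2 : ((CA * f.totalDegree + 1 : ℕ) : ℝ) + (𝓖 x).card + τ + ρ ≤ a * (e + s + τ + ρ) := by
    have : s + τ + ρ ≤ a * (s + τ + ρ) := le_mul_of_one_le_left (by positivity) ha1
    linarith
  calc _ ≤ (a * e) * (a * (e + s + τ + ρ)) :=
        mul_le_mul hE g2 (by positivity) (by positivity)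
    _ = _ := by ring

/-- the algebraic step for a family without rich lines and without popular pairs. -/
theorem base_coreL : ∃ θ C : ℝ, 0 < θ ∧ θ ≤ 1 / 4 ∧ 1 ≤ C ∧
    ∀ (n e t ρ : ℝ) (P : Finset Pt) (X : Finset (Pt × Pt)) (Hv : Finset ((Pt × Pt) × (Pt × Pt)))
      (𝓖 : Finset Mo) (V : Mo → Finset (Pt × Pt)), 1 ≤ e → (X.card : ℝ) ≤ e ^ 3 → Gen3 P →
      (P.card : ℝ) ≤ n → X ⊆ P ×ˢ P → HvP X Hv ρ → 1 ≤ ρ → 1 ≤ θ * t → Fam X 𝓖 V t θ →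
      (𝓖.card : ℝ) * t ^ 2 ≤ C * (X.card * (e * (e + t + ρ) + ρ + n) + Hv.card) := by
  classical
  obtain ⟨C0, θ0, _, hθ0, hgc⟩ := good_count
  obtain ⟨CA, hCA, hab⟩ := alg_boundL
  have hθ1 : min θ0 (1 / 128) ≤ 1 / 128 := min_le_right _ _
  have hθp : 0 < min θ0 (1 / 128) := lt_min hθ0 (by norm_num)
  have hc : (0 : ℝ) ≤ C0 := Nat.cast_nonneg _
  have hD : 0 ≤ (CA * (3 + C0)) := by positivity
  refine ⟨min θ0 (1 / 128), 32 * C0 * (CA * (3 + C0)) + 128 * (1 + C0) + 32, hθp,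
    by linarith, ?_, ?_⟩
  · have : 0 ≤ 32 * C0 * (CA * (3 + C0)) := by positivity
    linarith
  intro n e t ρ P X Hv 𝓖 V he he3 hP hPn hX hH hρ hθt hF
  have hn : 0 ≤ n := (Nat.cast_nonneg _).trans hPn
  have ht : 0 ≤ t := by
    by_contra hneg
    have := mul_neg_of_pos_of_neg hθp (not_le.1 hneg)
    linarith
  have hcnt := basecore_count Hv C0 hX hF
  generalize hT : ((X ×ˢ X).filter fun z : (Pt × Pt) × (Pt × Pt) =>
    (∃ g ∈ 𝓖, GoodP 𝓖 V C0 g z.1 z.2) ∧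
      ((fun j => z.2.2 j - z.2.1 j) ≠ fun j => z.1.2 j - z.1.1 j) ∧ z ∉ Hv ∧
      (z.2, z.1) ∉ Hv) = T at hcnt
  have hmem : ∀ z, z ∈ T ↔ (z.1 ∈ X ∧ z.2 ∈ X) ∧ (∃ g ∈ 𝓖, GoodP 𝓖 V C0 g z.1 z.2) ∧
      ((fun j => z.2.2 j - z.2.1 j) ≠ fun j => z.1.2 j - z.1.1 j) ∧ z ∉ Hv ∧
      (z.2, z.1) ∉ Hv := fun z => by
    rw [← hT, Finset.mem_filter, Finset.mem_product]
  have h2 := hab X T (fun x => 𝓖.filter fun g => x ∈ V g) e
    (min θ0 (1 / 128) * t) (2 * t) (min θ0 (1 / 128) * t) (ρ + C0) C0 he he3 (by positivity)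
    (by positivity) hθt (by linarith) (fun z hz => by
      obtain ⟨a1, ⟨g, hg, a2⟩, a3, a4, a5⟩ := (hmem z).1 hz
      exact ⟨a1.1, a1.2, (hmem _).2 ⟨⟨a1.2, a1.1⟩, ⟨g, hg, a2.symm⟩, a3.symm, a5, a4⟩⟩)
    (fun x hx => ⟨nb_of_good hP hX hH (by linarith) hF hx fun y hy => by
        obtain ⟨_, a2, a3, a4, _⟩ := (hmem _).1 (Finset.mem_filter.1 hy).2
        exact ⟨a2, a3, a4⟩,
      hF.deg x _ (Finset.filter_subset _ _) fun g hg => (Finset.mem_filter.1 hg).2⟩)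
  have hS : ∑ x ∈ X, ((𝓖.filter fun g => x ∈ V g).card : ℝ) ≤ 𝓖.card * (2 * t) := by
    have a1 : ∑ x ∈ X, ((𝓖.filter fun g => x ∈ V g).card : ℝ) ≤ ∑ g ∈ 𝓖, ((V g).card : ℝ) := by
      exact_mod_cast basecore_dc X 𝓖 V
    refine a1.trans ((Finset.sum_le_card_nsmul _ _ _ hF.up).trans (le_of_eq ?_))
    rw [nsmul_eq_mul]
  have h3 : (𝓖.card : ℝ) * t ^ 2 ≤ 8 * (T.card + X.card * n + 2 * Hv.card) := by
    have a1 := Finset.card_nsmul_le_sum _ _ _ (hgc X 𝓖 V t _ hθp (min_le_left _ _) hF hθt)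
    rw [nsmul_eq_mul, ← Finset.mul_sum] at a1
    have a2 : ∑ g ∈ 𝓖, (((V g ×ˢ V g).filter fun z => GoodP 𝓖 V C0 g z.1 z.2).card : ℝ) ≤
        T.card + X.card * P.card + 2 * Hv.card := by exact_mod_cast hcnt
    have a3 : (X.card : ℝ) * P.card ≤ X.card * n :=
      mul_le_mul_of_nonneg_left hPn (Nat.cast_nonneg _)
    linarith
  have hpow := basecore_pow (γ := 1) hCA he ht hρ hθp.le (hθ1.trans (by norm_num)) hc zero_le_one
  simp only [Real.rpow_one] at hpow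
  exact basecore_num (Nat.cast_nonneg _) hθp.le hθ1 ht (Nat.cast_nonneg _) (Nat.cast_nonneg _)
    hn hρ hc hD (by positivity) hpow hS h3 h2

end

end Vale.Agent.P054
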