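import Vale.Agent.P054.BTypeR
import Vale.Agent.P054.ThmA2
import Vale.Agent.P054.CelReal

namespace Vale.Agent.P054

open MvPolynomial

noncomputable section

theorem thmB_remove {Λ T : Type} [Fintype T] (L : Finset Λ) (Bad : T → Λ → Prop) {B N : ℝ}
    (hB : 0 ≤ B) (hN : (Fintype.card T : ℝ) ≤ N)
    (h : ∀ t, ∀ S : Finset Λ, S ⊆ L → (∀ a ∈ S, Bad t a) → (S.card : ℝ) ≤ B) :
    ∃ S : Finset Λ, S ⊆ L ∧ (∀ a ∈ S, ∀ t, ¬ Bad t a) ∧ (L.card : ℝ) ≤ S.card + N * B := by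
  classical
  refine ⟨L.filter fun a => ∀ t, ¬ Bad t a, Finset.filter_subset _ _,
    fun a ha => (Finset.mem_filter.1 ha).2, ?_⟩
  have h1 : L ⊆ L.filter (fun a => ∀ t, ¬ Bad t a) ∪
      Finset.univ.biUnion fun t => L.filter (Bad t) := fun a ha => by
    by_cases h2 : ∀ t, ¬ Bad t a
    · exact Finset.mem_union_left _ (Finset.mem_filter.2 ⟨ha, h2⟩)
    · push Not at h2
      obtain ⟨t, ht⟩ := h2
      exact Finset.mem_union_right _ (Finset.mem_biUnion.2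
        ⟨t, Finset.mem_univ _, Finset.mem_filter.2 ⟨ha, ht⟩⟩)
  have h2 : (L.card : ℝ) ≤ (L.filter fun a => ∀ t, ¬ Bad t a).card +
      ∑ t, ((L.filter (Bad t)).card : ℝ) := by
    exact_mod_cast (Finset.card_le_card h1).trans ((Finset.card_union_le _ _).trans
      (add_le_add le_rfl Finset.card_biUnion_le))
  have h3 := Finset.sum_le_card_nsmul Finset.univ _ B fun t _ =>
    h t _ (Finset.filter_subset (Bad t) L) fun a ha => (Finset.mem_filter.1 ha).2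
  rw [nsmul_eq_mul, Finset.card_univ] at h3
  linarith [mul_le_mul_of_nonneg_right hN hB]

section Aux

variable {K : Type} [Field K] [CharZero K] {ε : Type} [Fintype ε] [LinearOrder ε]

theorem thmB_tc {σ : Type} {I : Ideal (MvPolynomial (Option σ) K)} {Θ : MvPolynomial (Option σ) K}
    (hd : degreeOf none Θ ≤ 2) (h0 : Θ ∈ I) (h1 : pderiv none Θ ∈ I)
    (h2 : pderiv none (pderiv none Θ) ∈ I) (n : Fin 3) : rename some (tc n Θ) ∈ I := by
  have e := eq_sum_tc Θ hd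
  simp only [Finset.sum_range_succ, Finset.sum_range_zero] at e
  have e1 : pderiv none Θ = rename some (tc 1 Θ) + rename some (tc 2 Θ) * (2 * X none) := by
    conv_lhs => rw [e]
    simp [homog_pderiv_rename]
  have e2 : pderiv none (pderiv none Θ) = (2 : K) • rename some (tc 2 Θ) := by
    rw [e1, two_smul, two_mul]
    simp [homog_pderiv_rename, mul_add]
  have k2 : rename some (tc 2 Θ) ∈ I := by
    have := I.smul_of_tower_mem (2 : K)⁻¹ h2
    rwa [e2, inv_smul_smul₀ two_ne_zero] at this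
  have k1 : rename some (tc 1 Θ) ∈ I :=
    (I.add_mem_iff_left (I.mul_mem_right _ k2)).1 (e1 ▸ h1)
  fin_cases n
  · rw [e] at h0
    simpa using (I.add_mem_iff_left (I.mul_mem_right _ k1)).1
      ((I.add_mem_iff_left (I.mul_mem_right _ k2)).1 h0)
  · exact k1
  · exact k2

omit [CharZero K] in
theorem thmB_tc_zero {σ : Type} {Θ : MvPolynomial (Option σ) K} {n : ℕ}
    (h : degreeOf none Θ < n) : tc n Θ = 0 :=
  Polynomial.coeff_eq_zero_of_natDegree_lt (by rwa [natDegree_optionEquivLeft])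

theorem thmB_lift {ι : Type} {g : ι → MvPolynomial (Pr ε) K} {Φ : MvPolynomial (Option (Pr ε)) K}
    {i0 i1 : ε} {η : ε ⊕ ε → K} (h : Nrm i0 η) {f : MvPolynomial (Pr ε) K}
    (hf : f ∈ Br (Set.range g) (IL η)) :
    rename some f ∈ Br (Set.range (lift1 g Φ)) (IH i1 η) := by
  obtain ⟨s, hs, h1⟩ := (mem_Br (IL_isPrime h)).1 hf
  refine (mem_Br (IH_isPrime i1 h)).2 ⟨rename some s, mt rename_mem_IH.1 hs, ?_⟩
  have h2 := Ideal.mem_map_of_mem (rename some : _ →ₐ[K] MvPolynomial (Option (Pr ε)) K) h1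
  rw [map_mul, Ideal.map_span] at h2
  refine Ideal.span_mono ?_ h2
  rintro _ ⟨_, ⟨i, rfl⟩, rfl⟩
  exact ⟨some i, rfl⟩

theorem thmB_P {i0 i1 : ε} {ι : Type} [Fintype ι] [DecidableEq ι] [Unique ι]
    {g : ι → MvPolynomial (Pr ε) K} {c : ι → Pr ε} {L : Finset (ε ⊕ ε → K)} {φ D B ρ : ℝ} {j : ℕ}
    (hj : Fintype.card (Pr ε) = j + 2) (hD : 1 ≤ D) (hB : 0 ≤ B) (hρ : 0 ≤ ρ)
    (hdeg : ((g default).totalDegree : ℝ) ≤ D) (hN : ∀ η ∈ L, Nrm i0 η)
    (hg : ∀ η ∈ L, g default ∈ IL η) (hJ : ∀ η ∈ L, Jac g c ∉ IL η)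
    (hκ : ∀ η ∈ L, Dd i1 i0 (g default) ∉ IL η)
    (hT : ∀ η ∈ L, ∀ a b r, ∀ n : Fin 3, tc n (Th i0 i1 (g default) a b r) ∈ IL η)
    (hb : HB (⨅ η ∈ L, Br (Set.range g) (IL η)) φ (j + 1))
    (hs : ∀ S : Finset (ε ⊕ ε → K), S ⊆ L →
      HB (⨅ η ∈ S, IL η) (7 * 3 ^ (j + 1) * φ * (7 * D)) j → (S.card : ℝ) ≤ B)
    (hb0 : ∀ S : Finset (ε ⊕ ε → K), S ⊆ L → (∀ η ∈ S, ∀ η' ∈ S, bil η η' = 0) →
      (S.card : ℝ) ≤ ρ) :
    (L.card : ℝ) ≤ (j + 1).factorial * φ * ρ + 4 * (Fintype.card ε : ℝ) ^ 3 * B := by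
  classical
  have hg' : ∀ η ∈ L, ∀ i, g i ∈ IL η := fun η hη i => Unique.eq_default i ▸ hg η hη
  have hpr : ∀ η ∈ L, (Br (Set.range g) (IL η)).IsPrime := fun η hη =>
    Br_isPrime (IL_isPrime (hN η hη)) (dn_IL η) (hg' η hη) (sm_of_jac (IL_isPrime (hN η hη)) (hJ η hη))
  let G : ε × ε ⊕ ε × ε × ε × Fin 3 → MvPolynomial (Pr ε) K :=
    Sum.elim (fun t => Pl i0 i1 (g default) t.1 t.2)
      fun t => tc t.2.2.2 (Th i0 i1 (g default) t.1 t.2.1 t.2.2.1)
  obtain ⟨S, hS, h1, h2⟩ := thmB_remove L (fun t η => G t ∉ Br (Set.range g) (IL η)) hB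
    (N := 4 * (Fintype.card ε : ℝ) ^ 3) (by
      have k : Fintype.card ε * Fintype.card ε ≤ Fintype.card ε ^ 3 := by
        rw [← sq]
        exact Nat.pow_le_pow_right (Fintype.card_pos_iff.2 ⟨i0⟩) (by norm_num)
      have k' : Fintype.card (ε × ε ⊕ ε × ε × ε × Fin 3) ≤ 4 * Fintype.card ε ^ 3 := by
        simp only [Fintype.card_sum, Fintype.card_prod, Fintype.card_fin]
        nlinarith
      exact_mod_cast k') fun t S hS hn => hs S hS (by
      refine (hb_cut_family S _ IL (fun η hη => hpr η (hS hη)) (fun η hη => Br_le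
        (IL_isPrime (hN η (hS hη))) (by rintro _ ⟨i, rfl⟩; exact hg' η (hS hη) i) le_rfl)
        (fun η hη => ?_) hn (δ := 7 * D) ?_ (by linarith)
        (hb.mono (biInf_mono hS) le_rfl)).mono le_rfl ?_
      · rcases t with t | t
        exacts [Pl_mem_IL i1 (hN η (hS hη)) (hg η (hS hη)) _ _, hT η (hS hη) _ _ _ _]
      · rcases t with t | t
        · have : ((G (.inl t)).totalDegree : ℝ) ≤ 2 * (g default).totalDegree := by
            exact_mod_cast totalDegree_Pl i0 i1 (g default) t.1 t.2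
          linarith
        · have : ((G (.inr t)).totalDegree : ℝ) ≤ 3 * (g default).totalDegree + 2 := by
            exact_mod_cast (totalDegree_tc _ _).trans (totalDegree_Th i0 i1 (g default) _ _ _)
          linarith
      · have k0 := hb.nonneg
        have k1 : (2 : ℝ) ^ (j + 1) ≤ 3 ^ (j + 1) := by gcongr; norm_num
        have k2 : (0 : ℝ) ≤ 3 ^ (j + 1) := by positivity
        gcongr
        linarith)
  simp only [not_not] at h1
  refine h2.trans (add_le_add ?_ le_rfl)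
  rcases S.eq_empty_or_nonempty with rfl | ⟨η0, h0⟩
  · have := hb.nonneg
    rw [Finset.card_empty, Nat.cast_zero]
    positivity
  have hc := compl_free (inj_of_jac (g := g) (c := c) fun k => hJ η0 (hS h0) (k ▸ zero_mem _))
  have hcard : Fintype.card {k // k ∉ Set.range c} = j + 1 := by
    have := hc.card_add
    rw [Fintype.card_unique] at this
    omega
  have h3 := count_le (S.image fun η => Br (Set.range g) (IL η)) id (φ := φ)
    (ρ := {k // k ∉ Set.range c}) (fun b hb => by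
      obtain ⟨η, hη, rfl⟩ := Finset.mem_image.1 hb
      exact hpr η (hS hη)) (Set.injOn_id _) (by
      rw [hcard]
      refine hb.mono (le_iInf₂ fun b hb => ?_) le_rfl
      obtain ⟨η, hη, rfl⟩ := Finset.mem_image.1 hb
      exact biInf_le _ (hS hη)) fun b hb => by
      obtain ⟨η, hη, rfl⟩ := Finset.mem_image.1 hb
      exact ⟨_, Br_ind hc (IL_isPrime (hN η (hS hη))) (dn_IL η) (hg' η (hS hη)) (hJ η (hS hη)),
        fun k => (totalDegree_X _).le⟩
  rw [hcard] at h3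
  rw [Finset.card_eq_sum_card_image (fun η => Br (Set.range g) (IL η)) S, Nat.cast_sum]
  refine (Finset.sum_le_card_nsmul _ _ ρ fun b _ => hb0 _ ((Finset.filter_subset _ _).trans hS)
    fun η hη η' hη' => ?_).trans (by rw [nsmul_eq_mul]; gcongr)
  obtain ⟨k1, k2⟩ := Finset.mem_filter.1 hη
  obtain ⟨k3, k4⟩ := Finset.mem_filter.1 hη'
  refine typeP_bil (hN η (hS k1)) (hN η' (hS k3)) (hg η (hS k1)) (hg η' (hS k3)) (hκ η (hS k1))
    (hκ η' (hS k3)) (k2.trans k4.symm) (fun a b => h1 η k1 (.inl (a, b))) fun a b r n => ?_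
  by_cases hn : n < 3
  · exact h1 η k1 (.inr (a, b, r, ⟨n, hn⟩))
  · rw [thmB_tc_zero ((degreeOf_Th _ _ _ _ _ _).trans_lt (by omega))]
    exact zero_mem _

end Aux

theorem thmB_R (d : ℕ) : ∃ C : ℝ, 0 < C ∧ ∀ (K : Type) [Field K] [CharZero K] [IsAlgClosed K]
    (ε : Type) [Fintype ε] [LinearOrder ε] (i0 i1 : ε) (ι : Type) [Fintype ι] [DecidableEq ι]
    (g : ι → MvPolynomial (Pr ε) K) (c : ι → Pr ε) (i : ι) (δ : ι → ℝ)
    (Φ : MvPolynomial (Option (Pr ε)) K) (L : Finset (ε ⊕ ε → K)) (X φ D B : ℝ) (j : ℕ),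
    Fintype.card ε = d → Fintype.card ι + 2 ≤ d → (∀ i', 1 ≤ δ i') →
    (∀ i', ((g i').totalDegree : ℝ) ≤ δ i') → degreeOf none Φ ≤ 2 → 1 ≤ X →
    (∀ η ∈ L, Nrm i0 η) → (∀ η ∈ L, ∀ i', g i' ∈ IL η) → (∀ η ∈ L, Jac g c ∉ IL η) →
    (∀ η ∈ L, Dd i1 i0 (g i) ∉ IL η) → (∀ η ∈ L, Φ ∈ IH i1 η) →
    (∀ η ∈ L, pderiv none Φ ∉ IH i1 η) → HSep L id X → 0 ≤ B → (∀ i', δ i' ≤ D) →
    (Φ.totalDegree : ℝ) ≤ 5 * D → HB (⨅ η ∈ L, Br (Set.range g) (IL η)) φ (j + 1) →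
    (∀ S : Finset (ε ⊕ ε → K), S ⊆ L →
      HB (⨅ η ∈ S, IL η) (7 * 3 ^ (j + 1) * φ * (7 * D)) j → (S.card : ℝ) ≤ B) →
    (L.card : ℝ) ≤ C * (∏ i', δ i') * X ^ (d - 1 - Fintype.card ι) + 4 * (d : ℝ) ^ 3 * B := by
  obtain ⟨C, hC, H⟩ := typeR d
  refine ⟨C, hC, fun K _ _ _ ε _ _ i0 i1 ι _ _ g c i δ Φ L X φ D B j hd hι hδ hdeg hΦ2 hX hN hg hJ hκ
    hΦ hΦ' hsep hB hD hΦD hb hs => ?_⟩
  have hD1 := (hδ i).trans (hD i)
  have hl : ∀ η ∈ L, ∀ o, lift1 g Φ o ∈ IH i1 η := fun η hη o => by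
    rcases o with _ | i'
    exacts [hΦ η hη, rename_mem_IH.2 (hg η hη i')]
  let G : ε × ε × Option ι ⊕ ε × ε × ε → MvPolynomial (Option (Pr ε)) K :=
    Sum.elim (fun t => Vv i0 i1 (g i) t.1 t.2.1 (lift1 g Φ t.2.2))
      fun t => Th i0 i1 (g i) t.1 t.2.1 t.2.2
  have hle : ∀ η ∈ L, Br (Set.range (lift1 g Φ)) (IH i1 η) ≤ IH i1 η := fun η hη =>
    Br_le (IH_isPrime i1 (hN η hη)) (by rintro _ ⟨o, rfl⟩; exact hl η hη o) le_rfl
  obtain ⟨S, hS, h1, h2⟩ := thmB_remove L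
    (fun t η => G t ∉ Br (Set.range (lift1 g Φ)) (IH i1 η)) hB (N := 4 * (d : ℝ) ^ 3) (by
      have k' : Fintype.card (ε × ε × Option ι ⊕ ε × ε × ε) ≤ 4 * d ^ 3 := by
        have k : d * (d * (Fintype.card ι + 1)) ≤ d * (d * d) := by gcongr; omega
        simp only [Fintype.card_sum, Fintype.card_prod, Fintype.card_option, hd]
        nlinarith
      exact_mod_cast k') fun t S hS hn => hs S hS (by
      have key := hb_dcut S (fun η => Br (Set.range g) (IL η)) IL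
        (fun η => Br (Set.range (lift1 g Φ)) (IH i1 η)) (IH i1) (s := 3) (δ := 7 * D) (G := G t)
        (Φ := Φ)
        (fun η hη => Br_isPrime (IL_isPrime (hN η (hS hη))) (dn_IL η) (hg η (hS hη))
          (sm_of_jac (IL_isPrime (hN η (hS hη))) (hJ η (hS hη))))
        (fun η hη => Br_isPrime (IH_isPrime i1 (hN η (hS hη))) (dn_IH i1 η) (hl η (hS hη))
          (sm_of_jac (c := Option.map c) (IH_isPrime i1 (hN η (hS hη))) fun k => by
            rw [jac_lift1] at k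
            exact ((IH_isPrime i1 (hN η (hS hη))).mem_or_mem k).elim (hΦ' η (hS hη))
              (mt rename_mem_IH.1 (hJ η (hS hη)))))
        (fun η hη f hf => thmB_lift (hN η (hS hη)) hf) (fun η hη => hle η (hS hη))
        (fun η _ f hf => rename_mem_IH.1 hf)
        (fun η hη => mem_Br_of_mem (IH_isPrime i1 (hN η (hS hη))) ⟨none, rfl⟩)
        (fun η hη k => hΦ' η (hS hη) (hle η (hS hη) k)) (fun η hη => by
          rcases t with t | t
          exacts [Vv_mem_IH i1 (hN η (hS hη)) (hg η (hS hη) i) _ _ (hl η (hS hη) _),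
            Th_mem_IH i1 (hN η (hS hη)) (hg η (hS hη) i) _ _ _]) hn (by linarith) (by linarith) (by
          have k0 := (hdeg i).trans (hD i)
          rcases t with t | t
          · have k1 : ((G (.inl t)).totalDegree : ℝ) ≤
                (lift1 g Φ t.2.2).totalDegree + (g i).totalDegree + 1 := by
              exact_mod_cast totalDegree_Vv i0 i1 (g i) _ _ _
            have k2 : ((lift1 g Φ t.2.2).totalDegree : ℝ) ≤ 5 * D := by
              rcases t.2.2 with _ | i'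
              · exact hΦD
              · have k3 : ((lift1 g Φ (some i')).totalDegree : ℝ) ≤ (g i').totalDegree := by
                  exact_mod_cast totalDegree_rename_le some (g i')
                linarith [hdeg i', hD i']
            linarith
          · have k1 : ((G (.inr t)).totalDegree : ℝ) ≤ 3 * (g i).totalDegree + 2 := by
              exact_mod_cast totalDegree_Th i0 i1 (g i) _ _ _
            linarith) (by omega) (by
          rcases t with t | t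
          · refine (degreeOf_Vv i0 i1 (g i) _ _ _).trans (Nat.succ_le_succ ?_)
            rcases t.2.2 with _ | i'
            exacts [hΦ2, (degreeOf_rename_some (g i')).trans_le (Nat.zero_le 2)]
          · exact (degreeOf_Th i0 i1 (g i) _ _ _).trans (by norm_num))
        (hb.mono (biInf_mono hS) le_rfl)
      exact key.mono le_rfl (le_of_eq (by norm_num)))
  simp only [not_not] at h1
  refine h2.trans (add_le_add (H K ε i0 i1 ι g c i δ Φ S X hd hι hδ hdeg hΦ2 hX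
    (fun η h => hN η (hS h)) (fun η h => hg η (hS h)) (fun η h => hJ η (hS h))
    (fun η h => hκ η (hS h)) (fun η h => hΦ η (hS h)) (fun η h => hΦ' η (hS h))
    (fun η h a b o => h1 η h (.inl (a, b, o))) (fun η h a b r => h1 η h (.inr (a, b, r)))
    fun η h => ?_) le_rfl)
  obtain ⟨m, F, k1, k2, k3, k4⟩ := hsep η (hS h)
  exact ⟨m, F, k1, k2, k3, fun b hb => k4 b (hS hb)⟩

theorem thmB_gap {δ : ℕ → ℝ} {Q : ℝ} (hQ : 0 ≤ Q) (r : ℕ) :
    ∃ l, l ≤ r ∧ δ l ≤ Q ^ l * δ 0 ∧ (l = r ∨ Q * δ l ≤ δ (l + 1)) := by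
  induction r with
  | zero => exact ⟨0, le_rfl, by simp, Or.inl rfl⟩
  | succ r ih =>
    obtain ⟨l, h1, h2, rfl | h3⟩ := ih
    · rcases le_total (Q * δ l) (δ (l + 1)) with h | h
      · exact ⟨l, l.le_succ, h2, Or.inr h⟩
      · refine ⟨l + 1, le_rfl, h.trans ?_, Or.inl rfl⟩
        rw [pow_succ', mul_assoc]
        exact mul_le_mul_of_nonneg_left h2 hQ
    · exact ⟨l, h1.trans r.le_succ, h2, Or.inr h3⟩

theorem thmB_type {K : Type} [Field K] [CharZero K] {ε : Type} [Fintype ε] [LinearOrder ε] {i0 : ε}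
    {l : ℕ} {g : Fin (l + 1) → MvPolynomial (Pr ε) K} {L : Finset (ε ⊕ ε → K)} {D : ℝ}
    (hl : l + 1 ≤ Fintype.card ε) (hD : 1 ≤ D) (hdeg : ∀ i, ((g i).totalDegree : ℝ) ≤ D)
    (hN : ∀ η ∈ L, Nrm i0 η) (hg : ∀ η ∈ L, ∀ i, g i ∈ IL η) (hs : ∀ η ∈ L, Sm g (IL η)) :
    ∃ (i1 : ε) (S : Finset (ε ⊕ ε → K)), S ⊆ L ∧
      (L.card : ℝ) ≤ 5 * (Fintype.card ε : ℝ) ^ 4 * S.card ∧ (∀ η ∈ S, Dd i1 i0 (g 0) ∉ IL η) ∧
      ((∃ Φ : MvPolynomial (Option (Pr ε)) K, degreeOf none Φ ≤ 2 ∧ (Φ.totalDegree : ℝ) ≤ 5 * D ∧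
          (∀ η ∈ S, Φ ∈ IH i1 η) ∧ ∀ η ∈ S, pderiv none Φ ∉ IH i1 η) ∨
        (S.Nonempty → l = 0) ∧
          ∀ η ∈ S, ∀ a b r, ∀ n : Fin 3, tc n (Th i0 i1 (g 0) a b r) ∈ IL η) := by
  let Θ : ε → ε × ε × Fin (l + 1) ⊕ ε × ε × ε → MvPolynomial (Option (Pr ε)) K := fun i1 =>
    Sum.elim (fun t => Vv i0 i1 (g 0) t.1 t.2.1 (rename some (g t.2.2)))
      fun t => Th i0 i1 (g 0) t.1 t.2.1 t.2.2
  have hΘ : ∀ i1 t, ∀ η ∈ L, Θ i1 t ∈ IH i1 η := by
    rintro i1 (t | t) η hη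
    exacts [Vv_mem_IH i1 (hN η hη) (hg η hη 0) _ _ (rename_mem_IH.2 (hg η hη _)),
      Th_mem_IH i1 (hN η hη) (hg η hη 0) _ _ _]
  have hΘ2 : ∀ i1 t, degreeOf none (Θ i1 t) ≤ 2 ∧ ((Θ i1 t).totalDegree : ℝ) ≤ 5 * D := by
    rintro i1 (t | t)
    · refine ⟨(degreeOf_Vv i0 i1 (g 0) _ _ _).trans (by rw [degreeOf_rename_some]; norm_num), ?_⟩
      have k : ((Θ i1 (.inl t)).totalDegree : ℝ) ≤ (g t.2.2).totalDegree + (g 0).totalDegree + 1 := by
        exact_mod_cast (totalDegree_Vv i0 i1 (g 0) _ _ _).trans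
          (add_le_add (add_le_add (totalDegree_rename_le some (g t.2.2)) le_rfl) le_rfl)
      linarith [hdeg 0, hdeg t.2.2]
    · refine ⟨degreeOf_Th i0 i1 (g 0) _ _ _, ?_⟩
      have k : ((Θ i1 (.inr t)).totalDegree : ℝ) ≤ 3 * (g 0).totalDegree + 2 := by
        exact_mod_cast totalDegree_Th i0 i1 (g 0) _ _ _
      linarith [hdeg 0]
  let Ψ := fun i1 => Sum.elim (Θ i1) fun t => pderiv none (Θ i1 t)
  have : Nonempty ε := ⟨i0⟩
  obtain ⟨⟨i1, o⟩, S, hS, h1, h2⟩ := cel_pigeon L (fun (x : ε × Option _) η =>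
    Dd x.1 i0 (g 0) ∉ IL η ∧ x.2.elim (∀ z, pderiv none (Ψ x.1 z) ∈ IH x.1 η)
      fun z => Ψ x.1 z ∈ IH x.1 η ∧ pderiv none (Ψ x.1 z) ∉ IH x.1 η) fun η hη => by
    obtain ⟨c, hc⟩ := exists_jac_of_sm (IL_isPrime (hN η hη))
      ((hs η hη).comp (fun _ : Unit => 0) fun _ _ _ => rfl)
    rw [jac_unique] at hc
    obtain ⟨i1, -, hi⟩ := exists_kappa (hN η hη) (hg η hη 0) hc
    by_cases h : ∀ z, pderiv none (Ψ i1 z) ∈ IH i1 η
    · exact ⟨(i1, none), hi, h⟩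
    push Not at h
    obtain ⟨t | t, ht⟩ := h
    · exact ⟨(i1, some (.inl t)), hi, hΘ i1 t η hη, ht⟩
    · by_cases k : pderiv none (Θ i1 t) ∈ IH i1 η
      exacts [⟨(i1, some (.inr t)), hi, k, ht⟩, ⟨(i1, some (.inl t)), hi, hΘ i1 t η hη, k⟩]
  refine ⟨i1, S, hS, ?_, fun η hη => (h1 η hη).1, ?_⟩
  · have k : L.card ≤ 5 * Fintype.card ε ^ 4 * S.card := by
      refine h2.trans (Nat.mul_le_mul_right _ ?_)
      simp only [Fintype.card_sum, Fintype.card_prod, Fintype.card_option, Fintype.card_fin]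
      generalize Fintype.card ε = e at hl
      have k1 : e * (e * (l + 1)) ≤ e * (e * e) := by gcongr
      have he : 0 < e := by omega
      have k2 : 1 ≤ e * (e * e) := Nat.succ_le_of_lt (by positivity)
      calc _ ≤ e * (5 * (e * (e * e))) := Nat.mul_le_mul_left _ (by omega)
        _ = _ := by ring
    exact_mod_cast k
  rcases o with _ | z
  · refine Or.inr ⟨fun ⟨η, hη⟩ => ?_, fun η hη a b r n => rename_mem_IH.1 (thmB_tc
      (degreeOf_Th _ _ _ _ _ _) (hΘ i1 (.inr (a, b, r)) η (hS hη)) ((h1 η hη).2 (.inl (.inr (a, b, r))))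
      ((h1 η hη).2 (.inr (.inr (a, b, r)))) n)⟩
    by_contra h0
    obtain ⟨a, b, h⟩ := exists_pderiv_Vv (hN η (hS hη)) (hg η (hS hη)) (hs η (hS hη))
      (i := 0) (i' := Fin.last l) (fun k => h0 (congrArg Fin.val k).symm) (h1 η hη).1
    exact h ((h1 η hη).2 (.inl (.inl (a, b, Fin.last l))))
  · refine Or.inl ⟨Ψ i1 z, ?_, ?_, fun η hη => (h1 η hη).2.1, fun η hη => (h1 η hη).2.2⟩
    · rcases z with t | t
      exacts [(hΘ2 i1 t).1, (degreeOf_pderiv_none _).trans ((Nat.sub_le _ _).trans (hΘ2 i1 t).1)]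
    · rcases z with t | t
      exacts [(hΘ2 i1 t).2, (Nat.cast_le.2 (totalDegree_pderiv_le _ _)).trans (hΘ2 i1 t).2]

/-- Theorem B: flats on a hypersurface of degree `E` with separated parameters are few. -/
theorem thmB (d : ℕ) (hd : 3 ≤ d) (ε0 : ℝ) (hε : 0 < ε0) : ∃ C : ℝ, 0 < C ∧
    ∀ (K : Type) [Field K] [CharZero K] [IsAlgClosed K] (ε : Type) [Fintype ε] [LinearOrder ε]
    (i0 : ε) (𝓝 : Finset (ε ⊕ ε → K)) (E X ρ : ℝ) (h : MvPolynomial (Pr ε) K),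
    Fintype.card ε = d → (∀ η ∈ 𝓝, Nrm i0 η) → 1 ≤ E → 1 ≤ X → 0 ≤ ρ → h ≠ 0 →
    (h.totalDegree : ℝ) ≤ E → (∀ η ∈ 𝓝, h ∈ IL η) → HSep 𝓝 id X →
    (∀ S : Finset (ε ⊕ ε → K), S ⊆ 𝓝 → (∀ η ∈ S, ∀ η' ∈ S, bil η η' = 0) → (S.card : ℝ) ≤ ρ) →
    (𝓝.card : ℝ) ^ (1 - ε0) ≤ C * ((E + X) ^ (d - 1) + E * ρ) := by
  obtain ⟨n, hn⟩ : ∃ n, n = d * (d - 1) / 2 := ⟨_, rfl⟩
  have hdn : d ≤ n := by
    rw [hn, Nat.le_div_iff_mul_le two_pos]
    exact Nat.mul_le_mul_left _ (by omega)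
  have hd0 : (0 : ℝ) < d := by positivity
  obtain ⟨A, α, hA, hα, H⟩ := cel n (d - 1) (2 ^ n) ε0 (one_le_pow₀ one_le_two) hε (by omega)
  obtain ⟨κ0, hκ0, -, H0⟩ := cel_small A α (1 / 2) hA hα (by norm_num)
  obtain ⟨κ, hκ, -, H1⟩ := cel_small A α (1 / (40 * d ^ 7)) hA hα (by positivity)
  obtain ⟨CR, hCR, HR⟩ := thmB_R d
  obtain ⟨G, hG1, hG⟩ : ∃ G : ℝ, 1 ≤ G ∧ 49 * 3 ^ n * A ^ 2 ≤ κ * G :=
    ⟨_, le_max_left _ _, (div_le_iff₀' hκ).1 (le_max_right _ _)⟩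
  obtain ⟨G0, hG2, hG0⟩ : ∃ G0 : ℝ, 1 ≤ G0 ∧ 2 ^ n * 2 ^ n ≤ κ0 * G0 :=
    ⟨_, le_max_left _ _, (div_le_iff₀' hκ0).1 (le_max_right _ _)⟩
  obtain ⟨Q, hQ⟩ : ∃ Q, Q = A * (G ^ d * G0) := ⟨_, rfl⟩
  have hQ1 : 1 ≤ Q := hQ ▸ one_le_mul_of_one_le_of_one_le hA
    (one_le_mul_of_one_le_of_one_le (one_le_pow₀ hG1) hG2)
  refine ⟨A * (A * Q ^ d + 10 * d ^ 4 * (CR * Q ^ d + n.factorial * Q)) + 1, by positivity,
    fun K _ _ _ ε _ _ i0 𝓝 E X ρ h hε' hN hE hX hρ h0 hdeg hh hsep hb0 => ?_⟩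
  have hY : 1 ≤ (E + X) ^ (d - 1) := one_le_pow₀ (by linarith)
  have hZ : 0 ≤ E * ρ := by positivity
  rcases 𝓝.eq_empty_or_nonempty with rfl | hne
  · rw [Finset.card_empty, Nat.cast_zero]
    exact (Real.zero_rpow_le_one _).trans (one_le_mul_of_one_le_of_one_le
      (le_add_of_nonneg_left (by positivity)) (by linarith))
  have hc : Fintype.card (Pr ε) = n := by
    have := card_Pr_eq (ε := ε)
    rw [hε'] at this
    omega
  have hc' := card_Pr i0
  obtain ⟨L, hL, hLne, hcard, ⟨D⟩⟩ := H K (Pr ε) _ (Pr (Ne0 i0)) IL 𝓝 hc (by omega) hne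
    (fun η hη η' hη' k => IL_inj (by omega) (hN η hη) (hN η' hη') k) fun η hη =>
      ⟨IL_isPrime (hN η hη), dn_IL η, (hb_IL (hN η hη)).mono le_rfl
        (pow_le_pow_right₀ one_le_two (by omega)), ind_IL (hN η hη)⟩
  refine hcard.trans ?_
  rw [add_mul _ 1, mul_assoc]
  refine le_add_of_le_of_nonneg (mul_le_mul_of_nonneg_left ?_ (by linarith)) (by linarith)
  have hδ0 : D.δ 0 ≤ G0 * E := by
    by_contra k
    have k1 := H0 K (Pr ε) _ _ IL L D 1 (by omega) L subset_rfl (2 ^ n * 2 ^ n * E) (by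
      rw [fp_succ, fp, Finset.prod_range_zero, one_mul]
      calc _ ≤ κ0 * G0 * E := by gcongr
        _ ≤ _ := by rw [mul_assoc]; gcongr; exact (not_le.1 k).le) (by
      have k2 := hb_card (⊥ : Ideal (MvPolynomial (Pr ε) K))
      rw [hc, show n = n - 1 + 1 by omega] at k2
      have k3 := hb_cut (I' := ⨅ η ∈ L, IL η) bot_le (by
        simp only [Ideal.mem_iInf]
        exact fun η hη => hh η (hL hη)) (fun f hf => (mul_eq_zero.1 hf).resolve_left h0) hdeg hE k2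
      rw [← show n = n - 1 + 1 by omega] at k3
      rw [hc]
      exact k3)
    have k2 : (0 : ℝ) < L.card := by exact_mod_cast hLne.card_pos
    linarith
  obtain ⟨l, hl, hl1, hl2⟩ := thmB_gap (δ := D.δ) (show 0 ≤ G by linarith) (d - 2)
  have hδ1 := D.one_le
  have hAδ : ∀ i, 1 ≤ A * D.δ i := fun i => one_le_mul_of_one_le_of_one_le hA (hδ1 i)
  have hδ : ∀ i ≤ l, A * D.δ i ≤ Q * E := fun i hi => by
    have := hδ1 0
    calc A * D.δ i ≤ A * (G ^ l * D.δ 0) := by gcongr; exact (D.mono hi).trans hl1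
      _ ≤ A * (G ^ d * (G0 * E)) := by gcongr; omega
      _ = _ := by rw [hQ]; ring
  have hprod : (∏ i : Fin (l + 1), A * D.δ i) * X ^ (d - 1 - (l + 1)) ≤
      Q ^ d * (E + X) ^ (d - 1) := by
    calc _ ≤ (∏ _i : Fin (l + 1), Q * (E + X)) * (E + X) ^ (d - 1 - (l + 1)) :=
          mul_le_mul (Finset.prod_le_prod (fun i _ => zero_le_one.trans (hAδ i)) fun i _ =>
            (hδ i (Nat.lt_succ_iff.1 i.2)).trans
              (mul_le_mul_of_nonneg_left (by linarith) (by linarith)))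
            (pow_le_pow_left₀ (by linarith) (by linarith) _) (by positivity) (by positivity)
      _ = Q ^ (l + 1) * (E + X) ^ (d - 1) := by
          rw [Finset.prod_const, Finset.card_fin, mul_pow, mul_assoc, ← pow_add,
            show l + 1 + (d - 1 - (l + 1)) = d - 1 by omega]
      _ ≤ _ := by gcongr; omega
  have hW : 0 ≤ CR * Q ^ d + n.factorial * Q := by positivity
  by_cases hld : l = d - 2
  · have k1 : fp D.δ (d - 1) ≤ ∏ i : Fin (l + 1), A * D.δ i := by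
      rw [congrArg (fp D.δ) (show d - 1 = l + 1 by omega), fp, Finset.prod_range]
      exact Finset.prod_le_prod (fun i _ => zero_le_one.trans (hδ1 i)) fun i _ =>
        le_mul_of_one_le_left (zero_le_one.trans (hδ1 i)) hA
    rw [show d - 1 - (l + 1) = 0 by omega, pow_zero, mul_one] at hprod
    calc _ ≤ A * fp D.δ (d - 1) := D.card_le
      _ ≤ A * (Q ^ d * (E + X) ^ (d - 1)) := by gcongr; exact k1.trans hprod
      _ = A * Q ^ d * (E + X) ^ (d - 1) := by ring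
      _ ≤ _ := by
        gcongr
        · exact le_add_of_nonneg_right (by positivity)
        · linarith
  replace hl2 := hl2.resolve_left hld
  have hN' : ∀ η ∈ L, Nrm i0 η := fun η hη => hN η (hL hη)
  have hg : ∀ η ∈ L, ∀ i, gs D.g (l + 1) i ∈ IL η := fun η hη i => D.mem i (by omega) η hη
  have hJ := D.jac (l + 1) (by omega)
  have hDl : ∀ i : Fin (l + 1), A * D.δ i ≤ A * D.δ l := fun i =>
    mul_le_mul_of_nonneg_left (D.mono (Nat.lt_succ_iff.1 i.2)) (by linarith)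
  have hdg : ∀ i : Fin (l + 1), ((gs D.g (l + 1) i).totalDegree : ℝ) ≤ A * D.δ i := fun i =>
    D.deg i (by omega)
  have hι : Fintype.card (Fin (l + 1)) + 2 ≤ d := by rw [Fintype.card_fin]; omega
  have hb1 := D.hb (l + 1) (by omega)
  rw [show Fintype.card (Pr ε) - (l + 1) = Fintype.card (Pr ε) - (l + 1 + 1) + 1 by omega] at hb1
  have hs1 := fun S' (hS' : S' ⊆ L) => H1 K (Pr ε) _ _ IL L D (l + 1 + 1) (by omega) S' hS'
    (7 * 3 ^ (Fintype.card (Pr ε) - (l + 1 + 1) + 1) * (A * fp D.δ (l + 1)) * (7 * (A * D.δ l))) (by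
      have k1 := fp_pos hδ1 (l + 1)
      have k2 := hδ1 l
      rw [fp_succ _ (l + 1)]
      calc _ = 49 * 3 ^ (Fintype.card (Pr ε) - (l + 1 + 1) + 1) * A ^ 2 * D.δ l * fp D.δ (l + 1) := by
            ring
        _ ≤ 49 * 3 ^ n * A ^ 2 * D.δ l * fp D.δ (l + 1) := by gcongr; norm_num; omega
        _ ≤ κ * G * D.δ l * fp D.δ (l + 1) := by gcongr
        _ = κ * (fp D.δ (l + 1) * (G * D.δ l)) := by ring
        _ ≤ _ := by gcongr)
  obtain ⟨i1, S, hS, hcS, hκS, hcase⟩ := thmB_type (i0 := i0) (by omega) (hAδ l)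
    (fun i => (hdg i).trans (hDl i)) hN' hg fun η hη => sm_of_jac (IL_isPrime (hN' η hη)) (hJ η hη)
  have hb := hb1.mono (biInf_mono hS) le_rfl
  have hs := fun S' (hS' : S' ⊆ S) => hs1 S' (hS'.trans hS)
  have hfin : (S.card : ℝ) ≤ (CR * Q ^ d + n.factorial * Q) * ((E + X) ^ (d - 1) + E * ρ) +
      4 * (d : ℝ) ^ 3 * (1 / (40 * d ^ 7) * L.card) := by
    rcases hcase with ⟨Φ, k1, k2, k3, k4⟩ | ⟨k1, k2⟩
    · refine (HR K ε i0 i1 _ _ (D.c (l + 1)) 0 (fun i => A * D.δ i) Φ S X _ _ _ _ hε'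
        hι (fun i => hAδ i) hdg k1 hX (fun η h => hN' η (hS h))
        (fun η h => hg η (hS h)) (fun η h => hJ η (hS h)) hκS k3 k4 (fun η h => ?_) (by positivity)
        hDl k2 hb hs).trans (add_le_add ?_ le_rfl)
      · obtain ⟨m, F, e1, e2, e3, e4⟩ := hsep η (hL (hS h))
        exact ⟨m, F, e1, e2, e3, fun b hb => e4 b (hL (hS hb))⟩
      · rw [Fintype.card_fin, mul_assoc]
        calc _ ≤ CR * (Q ^ d * (E + X) ^ (d - 1)) := by gcongr
          _ = CR * Q ^ d * (E + X) ^ (d - 1) := by ring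
          _ ≤ _ := by
            gcongr
            · exact le_add_of_nonneg_right (by positivity)
            · linarith
    · rcases S.eq_empty_or_nonempty with rfl | hSne
      · rw [Finset.card_empty, Nat.cast_zero]
        positivity
      obtain rfl := k1 hSne
      have k3 := thmB_P (ι := Fin 1) (g := gs D.g 1) (c := D.c 1) (by omega) (hAδ 0) (by positivity) hρ
        (hdg 0) (fun η h => hN' η (hS h)) (fun η h => hg η (hS h) 0) (fun η h => hJ η (hS h)) hκS k2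
        hb hs fun S' h => hb0 S' (h.trans (hS.trans hL))
      rw [hε'] at k3
      refine k3.trans (add_le_add ?_ le_rfl)
      rw [fp_succ, fp, Finset.prod_range_zero, one_mul]
      calc _ ≤ n.factorial * (Q * E) * ρ :=
            mul_le_mul_of_nonneg_right (mul_le_mul (Nat.cast_le.2 (Nat.factorial_le (by omega)))
              (hδ 0 le_rfl) (zero_le_one.trans (hAδ 0)) (by positivity)) hρ
        _ = n.factorial * Q * (E * ρ) := by ring
        _ ≤ _ := by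
          gcongr
          · exact le_add_of_nonneg_left (by positivity)
          · linarith
  rw [hε'] at hcS
  have e : 5 * (d : ℝ) ^ 4 * (4 * (d : ℝ) ^ 3 * (1 / (40 * d ^ 7) * L.card)) = L.card / 2 := by
    field_simp
    norm_num
  have k := mul_le_mul_of_nonneg_left hfin (show 0 ≤ 5 * (d : ℝ) ^ 4 by positivity)
  have k' : 0 ≤ A * Q ^ d * ((E + X) ^ (d - 1) + E * ρ) := by positivity
  rw [mul_add, e] at k
  linarith

end

end Vale.Agent.P054
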