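import Vale.Agent.P054.FinGraph
import Vale.Agent.P054.ThmB

namespace Vale.Agent.P054

open MvPolynomial

noncomputable section

theorem fincore_smul {K σ : Type} [Field K] [Fintype σ] {F : MvPolynomial σ K} {m : ℕ}
    (hF : F.IsHomogeneous m) (t : K) (x : σ → K) :
    aeval (fun i => t * x i) F = t ^ m * aeval x F := by
  rw [aeval_def, aeval_def, eval₂_eq', eval₂_eq', Finset.mul_sum]
  refine Finset.sum_congr rfl fun u hu => ?_
  have h : ∑ i, u i = m := by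
    rw [← Finsupp.degree_eq_sum]
    by_contra h
    exact mem_support_iff.1 hu (hF.coeff_eq_zero h)
  simp only [mul_pow, Finset.prod_mul_distrib, Finset.prod_pow_eq_pow_sum, h]
  ring

/-- the indices other than `0`. -/
def fincoreE (d : ℕ) : Fin d ≃ Ne0 (0 : Fin (d + 1)) := finSuccAboveEquiv 0

/-- the scaled null vector of a pair of vectors of equal length. -/
def fincoreV {d : ℕ} (t : ℂ) (u v : Fin d → ℝ) :
    Ne0 (0 : Fin (d + 1)) ⊕ Ne0 (0 : Fin (d + 1)) → ℂ :=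
  Sum.elim (fun j => t * ((v ((fincoreE d).symm j) - u ((fincoreE d).symm j) : ℝ) : ℂ))
    (fun j => t * ((v ((fincoreE d).symm j) + u ((fincoreE d).symm j) : ℝ) : ℂ))

theorem fincoreV_inl {d : ℕ} (t : ℂ) (u v : Fin d → ℝ) (j : Fin d) :
    fincoreV t u v (Sum.inl (fincoreE d j)) = t * ((v j : ℂ) - u j) := by
  simp [fincoreV]

theorem fincoreV_inr {d : ℕ} (t : ℂ) (u v : Fin d → ℝ) (j : Fin d) :
    fincoreV t u v (Sum.inr (fincoreE d j)) = t * ((v j : ℂ) + u j) := by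
  simp [fincoreV]

theorem fincoreV_hat {d : ℕ} (t : ℂ) (x y : (Fin d → ℝ) × (Fin d → ℝ)) :
    fincoreV t (fun j => y.1 j - x.1 j) (fun j => y.2 j - x.2 j) = fun s =>
      t * (hat y (Sum.map Subtype.val Subtype.val s) - hat x (Sum.map Subtype.val Subtype.val s)) := by
  funext s
  rcases s with j | j
  · obtain ⟨j, rfl⟩ := (fincoreE d).surjective j
    rw [fincoreV_inl]
    change _ = t * (((y.2 j - y.1 j : ℝ) : ℂ) - ((x.2 j - x.1 j : ℝ) : ℂ))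
    push_cast; ring
  · obtain ⟨j, rfl⟩ := (fincoreE d).surjective j
    rw [fincoreV_inr]
    change _ = t * (((y.2 j + y.1 j : ℝ) : ℂ) - ((x.2 j + x.1 j : ℝ) : ℂ))
    push_cast; ring

theorem fincoreV_bil {d : ℕ} (t t' : ℂ) (u v u' v' : Fin d → ℝ) :
    bil (fincoreV t u v) (fincoreV t' u' v') =
      t * t' * ((∑ j, 2 * (v j * v' j - u j * u' j) : ℝ) : ℂ) := by
  rw [bil, ← Equiv.sum_comp (fincoreE d)]
  simp only [fincoreV_inl, fincoreV_inr]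
  push_cast
  rw [Finset.mul_sum]
  exact Finset.sum_congr rfl fun j _ => by ring

theorem fincoreV_nul {d : ℕ} (t : ℂ) {u v : Fin d → ℝ} (h : ∑ j, u j ^ 2 = ∑ j, v j ^ 2) :
    Nul (fincoreV t u v) := by
  rw [Nul, ← Equiv.sum_comp (fincoreE d)]
  simp only [fincoreV_inl, fincoreV_inr]
  have h' : ∑ j, (u j : ℂ) ^ 2 = ∑ j, (v j : ℂ) ^ 2 := by exact_mod_cast h
  calc ∑ j, t * ((v j : ℂ) - u j) * (t * ((v j : ℂ) + u j))
      = t ^ 2 * (∑ j, (v j : ℂ) ^ 2 - ∑ j, (u j : ℂ) ^ 2) := by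
        rw [← Finset.sum_sub_distrib, Finset.mul_sum]
        exact Finset.sum_congr rfl fun j _ => by ring
    _ = 0 := by rw [h', sub_self, mul_zero]

/-- the separator. -/
theorem fincore_sep {d : ℕ} {F : MvPolynomial (Fin d) ℂ} {m : ℕ} (hF : F.IsHomogeneous m)
    (R : Finset ℝ) (u0 v0 : Fin d → ℝ) (k : Fin d) :
    ∃ S : MvPolynomial (Ne0 (0 : Fin (d + 1)) ⊕ Ne0 (0 : Fin (d + 1))) ℂ,
      S.IsHomogeneous (m + 2 * R.card) ∧ ∀ (t : ℂ) (u v : Fin d → ℝ),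
        aeval (fincoreV t u v) S = t ^ m * aeval (cx u) F *
          ∏ r ∈ R, (t ^ 2 * (∑ j, ((v j : ℂ) - (u0 k : ℂ)⁻¹ * u k * v0 j) ^ 2
            - r * ((u0 k : ℂ)⁻¹ * u k) ^ 2)) := by
  let U : Fin d → MvPolynomial (Ne0 (0 : Fin (d + 1)) ⊕ Ne0 (0 : Fin (d + 1))) ℂ := fun j =>
    C (1 / 2) * (X (Sum.inr (fincoreE d j)) - X (Sum.inl (fincoreE d j)))
  let V : Fin d → MvPolynomial (Ne0 (0 : Fin (d + 1)) ⊕ Ne0 (0 : Fin (d + 1))) ℂ := fun j =>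
    C (1 / 2) * (X (Sum.inr (fincoreE d j)) + X (Sum.inl (fincoreE d j)))
  have hU : ∀ j, (U j).IsHomogeneous 1 := fun j =>
    ((isHomogeneous_X _ _).sub (isHomogeneous_X _ _)).C_mul _
  have hV : ∀ j, (V j).IsHomogeneous 1 := fun j =>
    ((isHomogeneous_X _ _).add (isHomogeneous_X _ _)).C_mul _
  have eU : ∀ (t : ℂ) (u v : Fin d → ℝ) j, aeval (fincoreV t u v) (U j) = t * u j := by
    intro t u v j
    simp only [U, map_mul, map_sub, aeval_C, aeval_X, fincoreV_inl, fincoreV_inr,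
      Algebra.algebraMap_self, RingHom.id_apply]
    ring
  have eV : ∀ (t : ℂ) (u v : Fin d → ℝ) j, aeval (fincoreV t u v) (V j) = t * v j := by
    intro t u v j
    simp only [V, map_mul, map_add, aeval_C, aeval_X, fincoreV_inl, fincoreV_inr,
      Algebra.algebraMap_self, RingHom.id_apply]
    ring
  refine ⟨aeval U F * ∏ r ∈ R, (∑ j, (V j - C ((u0 k : ℂ)⁻¹ * v0 j) * U k) ^ 2
    - C (r : ℂ) * (C (u0 k : ℂ)⁻¹ * U k) ^ 2), ?_, fun t u v => ?_⟩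
  · have h1 := hF.aeval U hU
    have h2 := IsHomogeneous.prod R (fun r => ∑ j, (V j - C ((u0 k : ℂ)⁻¹ * v0 j) * U k) ^ 2
      - C (r : ℂ) * (C (u0 k : ℂ)⁻¹ * U k) ^ 2) (fun _ => 2) fun r _ =>
      (IsHomogeneous.sum _ _ _ fun j _ => ((hV j).sub ((hU k).C_mul _)).pow 2).sub
        ((((hU k).C_mul _).pow 2).C_mul _)
    have h3 := h1.mul h2
    rwa [one_mul, Finset.sum_const, smul_eq_mul, mul_comm R.card] at h3
  · rw [map_mul, ← AlgHom.comp_apply, comp_aeval, funext (eU t u v), fincore_smul hF, map_prod]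
    congr 1
    refine Finset.prod_congr rfl fun r _ => ?_
    simp only [map_sub, map_sum, map_pow, map_mul, aeval_C, eU, eV, Algebra.algebraMap_self,
      RingHom.id_apply, mul_sub, Finset.mul_sum]
    congr 1
    · exact Finset.sum_congr rfl fun j _ => by ring
    · ring

theorem fincore_hsep {K Λ β : Type} [Field K] [DecidableEq (β → K)] {S : Finset Λ} {ν : Λ → β → K}
    {X : ℝ} (h : HSep S ν X) : HSep (S.image ν) id X ∧ (S.image ν).card = S.card := by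
  refine ⟨fun a ha => ?_, Finset.card_image_of_injOn fun a ha b hb e => ?_⟩
  · obtain ⟨y, hy, rfl⟩ := Finset.mem_image.1 ha
    obtain ⟨m, F, h1, h2, h3, h4⟩ := h y hy
    refine ⟨m, F, h1, h2, h3, fun b hb hne => ?_⟩
    obtain ⟨z, hz, rfl⟩ := Finset.mem_image.1 hb
    exact h4 z hz fun e => hne (by rw [e])
  · by_contra hne
    obtain ⟨m, F, -, -, h3, h4⟩ := h b hb
    exact h3 (e ▸ h4 a ha hne)

/-- neighbours in one class whose flats are killed by `q`. -/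
theorem fincore_class (d : ℕ) (hd : 3 ≤ d) (ε0 : ℝ) (hε : 0 < ε0) : ∃ C : ℝ, 0 < C ∧
    ∀ (P : Finset (Fin d → ℝ)) (x : (Fin d → ℝ) × (Fin d → ℝ))
      (N : Finset ((Fin d → ℝ) × (Fin d → ℝ))) (S : Finset (Fin d → ℝ)) (X ρ : ℝ) (E : ℕ)
      (q : MvPolynomial (Pr (Fin (d + 1))) ℂ), 1 ≤ E → 1 ≤ X → 0 ≤ ρ → q.totalDegree ≤ E →
      q ∉ IL (hat x) → HSep S (fun b => cx fun j => b j - x.1 j) X →
      (∀ y ∈ N, y.1 ∈ S ∧ y.2 ∈ P ∧ x.1 ≠ y.1 ∧ sqd x.1 y.1 = sqd x.2 y.2 ∧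
        (∀ j, y.2 j - y.1 j ≠ x.2 j - x.1 j) ∧ q ∈ IL2 (hat x) (hat y)) →
      (∀ T : Finset ((Fin d → ℝ) × (Fin d → ℝ)), T ⊆ N →
        (∀ y ∈ T, ∀ z ∈ T, sqd y.1 z.1 = sqd y.2 z.2) → (T.card : ℝ) ≤ ρ) →
      (N.card : ℝ) ^ (1 - ε0) ≤ C * ((E + (X + 2 * nd P)) ^ (d - 1) + E * ρ) := by
  classical
  obtain ⟨C, hC, hB⟩ := thmB d hd ε0 hε
  refine ⟨C, hC, fun P x N S X ρ E q hE hX hρ hq hqx hS hN hT => ?_⟩
  let k0 : Fin d := ⟨0, by omega⟩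
  let u : (Fin d → ℝ) × (Fin d → ℝ) → Fin d → ℝ := fun y j => y.1 j - x.1 j
  let v : (Fin d → ℝ) × (Fin d → ℝ) → Fin d → ℝ := fun y j => y.2 j - x.2 j
  let t : (Fin d → ℝ) × (Fin d → ℝ) → ℂ := fun y => ((v y k0 : ℂ) - u y k0)⁻¹
  let ν := fun y => fincoreV (t y) (u y) (v y)
  have ht0 : ∀ y ∈ N, (v y k0 : ℂ) - u y k0 ≠ 0 := fun y hy e => by
    have e' : v y k0 - u y k0 = 0 := by exact_mod_cast e
    refine (hN y hy).2.2.2.2.1 k0 ?_
    simp only [u, v] at e'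
    linarith
  have ht : ∀ y ∈ N, t y ≠ 0 := fun y hy => inv_ne_zero (ht0 y hy)
  have huv : ∀ y ∈ N, ∑ j, u y j ^ 2 = ∑ j, v y j ^ 2 := fun y hy => by
    have := (hN y hy).2.2.2.1
    rwa [sqd_comm x.1, sqd_comm x.2] at this
  obtain ⟨R, hR, hR0, hRm⟩ := exists_dist_sep P
  have hsep : HSep N ν (X + 2 * nd P) := by
    intro y hy
    obtain ⟨m, F, h1, h2, h3, h4⟩ := hS y.1 (hN y hy).1
    obtain ⟨k, hk⟩ : ∃ k, u y k ≠ 0 := by
      by_contra! h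
      exact (hN y hy).2.2.1 (funext fun j => (sub_eq_zero.1 (h j)).symm)
    have hk' : (u y k : ℂ)⁻¹ * u y k = 1 := inv_mul_cancel₀ (by exact_mod_cast hk)
    obtain ⟨Q, hQ, e⟩ := fincore_sep h2 R (u y) (v y) k
    refine ⟨m + 2 * R.card, Q, by push_cast; rw [hR]; linarith, hQ, ?_, fun z hz hne => ?_⟩
    · rw [e, hk']
      refine mul_ne_zero (mul_ne_zero (pow_ne_zero _ (ht y hy)) h3)
        (Finset.prod_ne_zero_iff.2 fun r hr => mul_ne_zero (pow_ne_zero _ (ht y hy)) ?_)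
      simpa using hR0 r hr
    · rw [e]
      by_cases e1 : z.1 = y.1
      · have e2 : u z = u y := by simp only [u, e1]
        have hne2 : z.2 ≠ y.2 := fun e3 => hne (Prod.ext e1 e3)
        rw [Finset.prod_eq_zero (hRm z.2 (hN z hz).2.1 y.2 (hN y hy).2.1 hne2), mul_zero]
        rw [e2, hk', sqd]
        push_cast
        simp only [v, one_mul, one_pow, mul_one, Complex.ofReal_sub, sub_sub_sub_cancel_right,
          sub_self, mul_zero]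
      · rw [h4 z.1 (hN z hz).1 e1, mul_zero, zero_mul]
  obtain ⟨ψ, hψ1, -, hψ2, hψ3, hψ4⟩ := exists_par (nrm_hat x)
  have hcomp : ∀ M' : Pr (Ne0 (0 : Fin (d + 1))) → ℂ,
      aeval M' (aeval ψ q) = aeval (fun p => aeval M' (ψ p)) q := fun M' => by
    rw [← AlgHom.comp_apply, comp_aeval]
  rw [← (fincore_hsep hsep).2]
  have := hB ℂ (Ne0 (0 : Fin (d + 1))) (fincoreE d k0) (N.image ν) E (X + 2 * nd P) ρ (aeval ψ q)
    (by rw [← Fintype.card_congr (fincoreE d), Fintype.card_fin]) ?_ (by exact_mod_cast hE)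
    (by linarith [Nat.cast_nonneg (α := ℝ) (nd P)]) hρ ?_ ?_ ?_ (fincore_hsep hsep).1 ?_
  · exact this
  · intro η hη
    obtain ⟨y, hy, rfl⟩ := Finset.mem_image.1 hη
    exact ⟨(fincoreV_inl _ _ _ _).trans (inv_mul_cancel₀ (ht0 y hy)), fincoreV_nul _ (huv y hy)⟩
  · intro h0
    refine hqx (mem_vI.2 fun M hM => ?_)
    obtain ⟨M', rfl⟩ := hψ3 M hM
    rw [← hcomp, h0, map_zero]
  · have := totalDegree_algHom_le (aeval ψ) (e := 1) (fun p => by simpa using hψ1 p) q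
    exact_mod_cast this.trans (by omega)
  · intro η hη
    obtain ⟨y, hy, rfl⟩ := Finset.mem_image.1 hη
    refine mem_vI.2 fun M' hM' => ?_
    rw [hcomp]
    refine mem_vI.1 (hN y hy).2.2.2.2.2 _ ⟨hψ2 M', (hψ4 (hat y) (nrm_hat y) ?_ M').2 ?_⟩
    · rw [bil_hat, (hN y hy).2.2.2.1, sub_self, Complex.ofReal_zero]
    · rw [← Fl_smul (ht y hy), ← fincoreV_hat]
      exact hM'
  · intro S' hS' hb
    have h1 : S' ⊆ (N.filter fun y => ν y ∈ S').image ν := fun η hη => by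
      obtain ⟨y, hy, rfl⟩ := Finset.mem_image.1 (hS' hη)
      exact Finset.mem_image_of_mem _ (Finset.mem_filter.2 ⟨hy, hη⟩)
    refine le_trans ?_ (hT (N.filter fun y => ν y ∈ S') (Finset.filter_subset _ _)
      fun y hy z hz => ?_)
    · exact_mod_cast (Finset.card_le_card h1).trans Finset.card_image_le
    · obtain ⟨hy, hy'⟩ := Finset.mem_filter.1 hy
      obtain ⟨hz, hz'⟩ := Finset.mem_filter.1 hz
      have h2 := hb _ hy' _ hz'
      rw [fincoreV_bil] at h2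
      have h3 : ∑ j, 2 * (v y j * v z j - u y j * u z j) = 0 := by
        exact_mod_cast (mul_eq_zero.1 h2).resolve_left (mul_ne_zero (ht y hy) (ht z hz))
      have h4 : sqd y.1 z.1 - sqd y.2 z.2 = ∑ j, 2 * (v y j * v z j - u y j * u z j)
          + (∑ j, u y j ^ 2 - ∑ j, v y j ^ 2) + (∑ j, u z j ^ 2 - ∑ j, v z j ^ 2) := by
        simp only [sqd, ← Finset.sum_sub_distrib, ← Finset.sum_add_distrib, u, v]
        exact Finset.sum_congr rfl fun j _ => by ring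
      rw [h3, huv y hy, huv z hz] at h4
      linarith

open Classical in
/-- many neighbours give the core property. -/
theorem core_of_nbrs (d : ℕ) (hd : 3 ≤ d) (ε0 : ℝ) (hε : 0 < ε0) (hε1 : ε0 < 1) :
    ∃ C : ℝ, 0 < C ∧ ∀ (P : Finset (Fin d → ℝ)) (G 𝓒 : Finset ((Fin d → ℝ) × (Fin d → ℝ)))
    (s X ρ k : ℝ) (E : ℕ), 1 ≤ E → 1 ≤ X → 0 ≤ ρ → 0 ≤ s →
    (∀ a ∈ P, ∀ p ∈ P, ∀ a' ∈ P, ∀ p' ∈ P, (fun j => p' j - a' j) ≠ (fun j => p j - a j) →
      ∀ j, p' j - a' j ≠ p j - a j) →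
    (∀ a ∈ P, Cov (P.filter fun b => (a, b) ∈ G) (fun b => cx fun j => b j - a j) s X) →
    (∀ x ∈ 𝓒, x.1 ∈ P ∧ x.2 ∈ P) →
    (∀ x ∈ 𝓒, ∃ N : Finset ((Fin d → ℝ) × (Fin d → ℝ)), N ⊆ 𝓒 ∧ k < (N.card : ℝ) ∧
      (∀ y ∈ N, (x.1, y.1) ∈ G ∧ x.1 ≠ y.1 ∧ sqd x.1 y.1 = sqd x.2 y.2 ∧
        (fun j => y.2 j - y.1 j) ≠ fun j => x.2 j - x.1 j) ∧
      ∀ S : Finset ((Fin d → ℝ) × (Fin d → ℝ)), S ⊆ N →
        (∀ y ∈ S, ∀ z ∈ S, sqd y.1 z.1 = sqd y.2 z.2) → (S.card : ℝ) ≤ ρ) →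
    s * (C * ((E + X + nd P) ^ (d - 1) + E * ρ)) ^ (1 / (1 - ε0)) +
      C * (((nd P : ℝ) + 1) ^ (d - 1) + ρ) ≤ k →
    Core 0 (𝓒.image hat) E := by
  obtain ⟨CB, hCB, hB⟩ := fincore_class d hd ε0 hε
  obtain ⟨C1, hC1, hS⟩ := special_count d (by omega)
  refine ⟨CB * 2 ^ (d - 1) + (2 * C1 + 2), by positivity,
    fun P G 𝓒 s X ρ k E hE hX hρ hs hgen hcov hP hN hk => ?_⟩
  intro η hη q hq hqx U1 U2 hU1 hU2
  obtain ⟨x, hx, rfl⟩ := Finset.mem_image.1 hη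
  obtain ⟨N, hN𝓒, hkN, hy, hρN⟩ := hN x hx
  have hne : ∀ y ∈ N, ∀ j, y.2 j - y.1 j ≠ x.2 j - x.1 j := fun y h =>
    hgen _ (hP x hx).1 _ (hP x hx).2 _ (hP y (hN𝓒 h)).1 _ (hP y (hN𝓒 h)).2 (hy y h).2.2.2
  by_contra hcon
  have hall : ∀ y ∈ N, hat y ∈ U1 ∨ hat y ∈ U2 ∨ q ∈ IL2 (hat x) (hat y) := by
    intro y h
    by_contra! h'
    refine hcon ⟨hat y, Finset.mem_image_of_mem _ (hN𝓒 h), ?_, fun j hj => ?_, h'⟩
    · rw [bil_hat, (hy y h).2.2.1, sub_self, Complex.ofReal_zero]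
    · obtain ⟨j, rfl⟩ := Fin.exists_succ_eq.2 hj
      intro e
      have e' : ((x.2 j - x.1 j : ℝ) : ℂ) = ((y.2 j - y.1 j : ℝ) : ℂ) := e
      exact hne y h j (Complex.ofReal_injective e').symm
  have hD : (0 : ℝ) ≤ nd P := Nat.cast_nonneg _
  have hE0 : (0 : ℝ) ≤ E := Nat.cast_nonneg _
  have hU : ∀ U : Submodule ℂ (Fin (d + 1) ⊕ Fin (d + 1) → ℂ),
      Module.finrank ℂ U ≤ Fintype.card (Fin (d + 1)) →
      ((N.filter fun y => hat y ∈ U).card : ℝ) ≤ C1 * ((nd P : ℝ) + 1) ^ (d - 1) + ρ := by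
    intro U hU
    have h0 : 0 ≤ C1 * ((nd P : ℝ) + 1) ^ (d - 1) := by positivity
    rcases hS P U (N.filter fun y => hat y ∈ U) (by simpa using hU) fun y h =>
      ⟨(hP y (hN𝓒 (Finset.mem_filter.1 h).1)).1, (hP y (hN𝓒 (Finset.mem_filter.1 h).1)).2,
        (Finset.mem_filter.1 h).2⟩ with h | h
    · linarith [hρN _ (Finset.filter_subset _ _) h]
    · linarith
  obtain ⟨𝓢, h𝓢, hsep, hmem⟩ := hcov x.1 (hP x hx).1
  set B : ℝ := ((CB * 2 ^ (d - 1) + (2 * C1 + 2)) * ((E + X + nd P) ^ (d - 1) + E * ρ)) ^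
    (1 / (1 - ε0)) with hBdef
  have hX0 : 0 ≤ X := by linarith
  have hB0 : 0 ≤ B := Real.rpow_nonneg (by positivity) _
  have hcl : ∀ S ∈ 𝓢,
      ((N.filter fun y => y.1 ∈ S ∧ q ∈ IL2 (hat x) (hat y)).card : ℝ) ≤ B := by
    intro S hS𝓢
    have h1 := hB P x (N.filter fun y => y.1 ∈ S ∧ q ∈ IL2 (hat x) (hat y)) S X ρ E q hE hX hρ hq
      hqx (hsep S hS𝓢) (fun y h => by
        obtain ⟨h, h2, h3⟩ := Finset.mem_filter.1 h
        exact ⟨h2, (hP y (hN𝓒 h)).2, (hy y h).2.1, (hy y h).2.2.1, hne y h, h3⟩)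
      fun T hT => hρN T (hT.trans (Finset.filter_subset _ _))
    rw [hBdef, one_div, Real.le_rpow_inv_iff_of_pos (Nat.cast_nonneg _) (by positivity)
      (by linarith)]
    refine h1.trans ?_
    have h2 : ((E : ℝ) + (X + 2 * nd P)) ^ (d - 1) ≤ 2 ^ (d - 1) * (E + X + nd P) ^ (d - 1) := by
      rw [← mul_pow]
      exact pow_le_pow_left₀ (by positivity) (by linarith) _
    have h3 : (E : ℝ) * ρ ≤ 2 ^ (d - 1) * (E * ρ) :=
      le_mul_of_one_le_left (by positivity) (one_le_pow₀ one_le_two)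
    have h4 := mul_le_mul_of_nonneg_left (add_le_add h2 h3) hCB.le
    have h5 : 0 ≤ (2 * C1 + 2) * (((E : ℝ) + X + nd P) ^ (d - 1) + E * ρ) := by positivity
    linarith
  have hsub : N ⊆ (N.filter fun y => hat y ∈ U1) ∪ ((N.filter fun y => hat y ∈ U2) ∪
      𝓢.biUnion fun S => N.filter fun y => y.1 ∈ S ∧ q ∈ IL2 (hat x) (hat y)) := by
    intro y h
    simp only [Finset.mem_union, Finset.mem_filter, Finset.mem_biUnion]
    rcases hall y h with h1 | h1 | h1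
    · exact Or.inl ⟨h, h1⟩
    · exact Or.inr (Or.inl ⟨h, h1⟩)
    · obtain ⟨S, hS𝓢, hyS⟩ := hmem y.1 (Finset.mem_filter.2 ⟨(hP y (hN𝓒 h)).1, (hy y h).1⟩)
      exact Or.inr (Or.inr ⟨S, hS𝓢, h, hyS, h1⟩)
  have hcard : (N.card : ℝ) ≤ (N.filter fun y => hat y ∈ U1).card +
      ((N.filter fun y => hat y ∈ U2).card +
        ∑ S ∈ 𝓢, ((N.filter fun y => y.1 ∈ S ∧ q ∈ IL2 (hat x) (hat y)).card : ℝ)) := by
    exact_mod_cast (Finset.card_le_card hsub).trans ((Finset.card_union_le _ _).trans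
      (Nat.add_le_add_left ((Finset.card_union_le _ _).trans
        (Nat.add_le_add_left Finset.card_biUnion_le _)) _))
  have hsum := Finset.sum_le_card_nsmul 𝓢 _ B hcl
  rw [nsmul_eq_mul] at hsum
  have h6 := mul_le_mul_of_nonneg_right h𝓢 hB0
  have h7 := hU U1 hU1
  have h8 := hU U2 hU2
  have h9 : 0 ≤ CB * 2 ^ (d - 1) * (((nd P : ℝ) + 1) ^ (d - 1) + ρ) := by positivity
  have h10 : 0 ≤ C1 * ρ := by positivity
  have h11 : 0 ≤ ((nd P : ℝ) + 1) ^ (d - 1) := by positivity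
  linarith

end

end Vale.Agent.P054
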