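import Vale.Agent.P054.ThmBL
import Vale.Agent.P054.FinCore

namespace Vale.Agent.P054

open MvPolynomial

noncomputable section

/-- separators for neighbours whose points `a y` have separated directions. -/
theorem coreL_sep {d : ℕ} {Λ : Type} (N : Finset Λ) (P S : Finset (Fin d → ℝ))
    (a b : Λ → Fin d → ℝ) (a0 b0 : Fin d → ℝ) (t : Λ → ℂ) (X : ℝ)
    (hinj : ∀ y z, a y = a z → b y = b z → y = z)
    (hS : HSep S (fun p => cx fun j => p j - a0 j) X)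
    (hN : ∀ y ∈ N, a y ∈ S ∧ b y ∈ P ∧ a0 ≠ a y ∧ t y ≠ 0) :
    HSep N (fun y => fincoreV (t y) (fun j => a y j - a0 j) fun j => b y j - b0 j)
      (X + 2 * nd P) := by
  obtain ⟨R, hR, hR0, hRm⟩ := exists_dist_sep P
  intro y hy
  obtain ⟨m, F, h1, h2, h3, h4⟩ := hS (a y) (hN y hy).1
  obtain ⟨k, hk⟩ : ∃ k, a y k - a0 k ≠ 0 := by
    by_contra! h
    exact (hN y hy).2.2.1 (funext fun j => (sub_eq_zero.1 (h j)).symm)
  have hk' : ((a y k - a0 k : ℝ) : ℂ)⁻¹ * ((a y k - a0 k : ℝ) : ℂ) = 1 :=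
    inv_mul_cancel₀ (by exact_mod_cast hk)
  have ht := (hN y hy).2.2.2
  obtain ⟨Q, hQ, e⟩ := fincore_sep h2 R (fun j => a y j - a0 j) (fun j => b y j - b0 j) k
  refine ⟨m + 2 * R.card, Q, by push_cast; rw [hR]; linarith, hQ, ?_, fun z hz hne => ?_⟩
  · rw [e, hk']
    refine mul_ne_zero (mul_ne_zero (pow_ne_zero _ ht) h3)
      (Finset.prod_ne_zero_iff.2 fun r hr => mul_ne_zero (pow_ne_zero _ ht) ?_)
    simpa using hR0 r hr
  · rw [e]
    by_cases e1 : a z = a y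
    · have hne2 : b z ≠ b y := fun e3 => hne (hinj z y e1 e3)
      rw [Finset.prod_eq_zero (hRm (b z) (hN z hz).2.1 (b y) (hN y hy).2.1 hne2), mul_zero]
      rw [e1, hk', sqd]
      push_cast
      simp only [one_mul, one_pow, mul_one, sub_sub_sub_cancel_right, sub_self, mul_zero]
    · rw [h4 (a z) (hN z hz).1 e1, mul_zero, zero_mul]

/-- exchanging the two halves. -/
theorem coreL_flip {d : ℕ} {Λ : Type} {N : Finset Λ} {u v : Λ → Fin d → ℝ} {t : Λ → ℂ} {Y : ℝ}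
    (h : HSep N (fun y => fincoreV (t y) (v y) (u y)) Y) :
    HSep N (fun y => fincoreV (t y) (u y) (v y)) Y := by
  let φ : Ne0 (0 : Fin (d + 1)) ⊕ Ne0 (0 : Fin (d + 1)) →
      MvPolynomial (Ne0 (0 : Fin (d + 1)) ⊕ Ne0 (0 : Fin (d + 1))) ℂ :=
    Sum.elim (fun j => -X (Sum.inl j)) fun j => X (Sum.inr j)
  have h1 : ∀ s, (φ s).IsHomogeneous 1 := by
    rintro (j | j)
    · exact (isHomogeneous_X _ _).neg
    · exact isHomogeneous_X _ _
  have e : ∀ y F, aeval (fincoreV (t y) (u y) (v y)) (aeval φ F) =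
      aeval (fincoreV (t y) (v y) (u y)) F := fun y F => by
    rw [← AlgHom.comp_apply, comp_aeval]
    congr 2
    funext s
    rcases s with j | j
    · obtain ⟨j, rfl⟩ := (fincoreE d).surjective j
      simp only [φ, Sum.elim_inl, map_neg, aeval_X, fincoreV_inl]
      ring
    · obtain ⟨j, rfl⟩ := (fincoreE d).surjective j
      simp only [φ, Sum.elim_inr, aeval_X, fincoreV_inr]
      ring
  intro y hy
  obtain ⟨m, F, h2, h3, h4, h5⟩ := h y hy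
  refine ⟨m, aeval φ F, h2, by simpa using h3.aeval φ h1, by rwa [e], fun z hz hne => ?_⟩
  rw [e]
  exact h5 z hz hne

/-- neighbours whose first points have separated directions. -/
theorem fincore_classL (d : ℕ) (hd : 3 ≤ d) : ∃ C : ℝ, 0 < C ∧
    ∀ (P : Finset (Fin d → ℝ)) (x : (Fin d → ℝ) × (Fin d → ℝ))
      (N : Finset ((Fin d → ℝ) × (Fin d → ℝ))) (S : Finset (Fin d → ℝ)) (X ρ : ℝ) (E : ℕ)
      (q : MvPolynomial (Pr (Fin (d + 1))) ℂ), 1 ≤ E → 1 ≤ X → 0 ≤ ρ → q.totalDegree ≤ E →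
      q ∉ IL (hat x) →
      ((HSep S (fun b => cx fun j => b j - x.1 j) X ∧ ∀ y ∈ N, y.1 ∈ S ∧ y.2 ∈ P) ∨
        (HSep S (fun b => cx fun j => b j - x.2 j) X ∧ ∀ y ∈ N, y.2 ∈ S ∧ y.1 ∈ P)) →
      (∀ y ∈ N, x.1 ≠ y.1 ∧ sqd x.1 y.1 = sqd x.2 y.2 ∧
        (∀ j, y.2 j - y.1 j ≠ x.2 j - x.1 j) ∧ q ∈ IL2 (hat x) (hat y)) →
      (∀ T : Finset ((Fin d → ℝ) × (Fin d → ℝ)), T ⊆ N →
        (∀ y ∈ T, ∀ z ∈ T, sqd y.1 z.1 = sqd y.2 z.2) → (T.card : ℝ) ≤ ρ) →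
      (N.card : ℝ) ≤ C * ((E + (X + 2 * nd P)) ^ (d - 1) + E * ρ) := by
  classical
  obtain ⟨C, hC, hB⟩ := thmBL d hd
  refine ⟨C, hC, fun P x N S X ρ E q hE hX hρ hq hqx hS hN hT => ?_⟩
  let k0 : Fin d := ⟨0, by omega⟩
  let u : (Fin d → ℝ) × (Fin d → ℝ) → Fin d → ℝ := fun y j => y.1 j - x.1 j
  let v : (Fin d → ℝ) × (Fin d → ℝ) → Fin d → ℝ := fun y j => y.2 j - x.2 j
  let t : (Fin d → ℝ) × (Fin d → ℝ) → ℂ := fun y => ((v y k0 : ℂ) - u y k0)⁻¹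
  let ν := fun y => fincoreV (t y) (u y) (v y)
  have ht0 : ∀ y ∈ N, (v y k0 : ℂ) - u y k0 ≠ 0 := fun y hy e => by
    have e' : v y k0 - u y k0 = 0 := by exact_mod_cast e
    refine (hN y hy).2.2.1 k0 ?_
    simp only [u, v] at e'
    linarith
  have ht : ∀ y ∈ N, t y ≠ 0 := fun y hy => inv_ne_zero (ht0 y hy)
  have huv : ∀ y ∈ N, ∑ j, u y j ^ 2 = ∑ j, v y j ^ 2 := fun y hy => by
    have := (hN y hy).2.1
    rwa [sqd_comm x.1, sqd_comm x.2] at this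
  have hsep : HSep N ν (X + 2 * nd P) := by
    rcases hS with ⟨hS, hm⟩ | ⟨hS, hm⟩
    · exact coreL_sep N P S Prod.fst Prod.snd x.1 x.2 t X (fun _ _ => Prod.ext) hS
        fun y hy => ⟨(hm y hy).1, (hm y hy).2, (hN y hy).1, ht y hy⟩
    · exact coreL_flip (coreL_sep N P S Prod.snd Prod.fst x.2 x.1 t X
        (fun _ _ e1 e2 => Prod.ext e2 e1) hS fun y hy => ⟨(hm y hy).1, (hm y hy).2, fun e =>
          (hN y hy).1 (sqd_eq_zero.1 ((hN y hy).2.1.trans (sqd_eq_zero.2 e))), ht y hy⟩)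
  obtain ⟨ψ, hψ1, -, hψ2, hψ3, hψ4⟩ := exists_par (nrm_hat x)
  have hcomp : ∀ M' : Pr (Ne0 (0 : Fin (d + 1))) → ℂ,
      aeval M' (aeval ψ q) = aeval (fun p => aeval M' (ψ p)) q := fun M' => by
    rw [← AlgHom.comp_apply, comp_aeval]
  rw [← (fincore_hsep hsep).2]
  have := hB ℂ (Ne0 (0 : Fin (d + 1))) (fincoreE d k0) (N.image ν) E (X + 2 * nd P) ρ (aeval ψ q)
    (by rw [← Fintype.card_congr (fincoreE d), Fintype.card_fin]) ?_ (by exact_mod_cast hE)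
    (by linarith [Nat.cast_nonneg (α := ℝ) (nd P)]) hρ ?_ ?_ ?_ (fincore_hsep hsep).1 ?_
  · refine this.trans (mul_le_mul_of_nonneg_left (add_le_add_left ?_ _) hC.le)
    have h0 : (0 : ℝ) ≤ X + 2 * nd P := by linarith [Nat.cast_nonneg (α := ℝ) (nd P)]
    rw [show d - 1 = d - 2 + 1 by omega, pow_succ']
    exact mul_le_mul_of_nonneg_right (by linarith) (by positivity)
  · intro η hη
    obtain ⟨y, hy, rfl⟩ := Finset.mem_image.1 hη
    exact ⟨(fincoreV_inl _ _ _ _).trans (inv_mul_cancel₀ (ht0 y hy)), fincoreV_nul _ (huv y hy)⟩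
  · intro h0
    refine hqx (mem_vI.2 fun M hM => ?_)
    obtain ⟨M', rfl⟩ := hψ3 M hM
    rw [← hcomp, h0, map_zero]
  · have := totalDegree_algHom_le (aeval ψ) (e := 1) (fun p => by simpa using hψ1 p) q
    exact_mod_cast this.trans (by omega)
  · intro η hη
    obtain ⟨y, hy, rfl⟩ := Finset.mem_image.1 hη
    refine mem_vI.2 fun M' hM' => ?_
    rw [hcomp]
    refine mem_vI.1 (hN y hy).2.2.2 _ ⟨hψ2 M', (hψ4 (hat y) (nrm_hat y) ?_ M').2 ?_⟩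
    · rw [bil_hat, (hN y hy).2.1, sub_self, Complex.ofReal_zero]
    · rw [← Fl_smul (ht y hy), ← fincoreV_hat]
      exact hM'
  · intro S' hS' hb
    have h1 : S' ⊆ (N.filter fun y => ν y ∈ S').image ν := fun η hη => by
      obtain ⟨y, hy, rfl⟩ := Finset.mem_image.1 (hS' hη)
      exact Finset.mem_image_of_mem _ (Finset.mem_filter.2 ⟨hy, hη⟩)
    refine le_trans ?_ (hT (N.filter fun y => ν y ∈ S') (Finset.filter_subset _ _)
      fun y hy z hz => ?_)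
    · exact_mod_cast (Finset.card_le_card h1).trans Finset.card_image_le
    · obtain ⟨hy, hy'⟩ := Finset.mem_filter.1 hy
      obtain ⟨hz, hz'⟩ := Finset.mem_filter.1 hz
      have h2 := hb _ hy' _ hz'
      rw [fincoreV_bil] at h2
      have h3 : ∑ j, 2 * (v y j * v z j - u y j * u z j) = 0 := by
        exact_mod_cast (mul_eq_zero.1 h2).resolve_left (mul_ne_zero (ht y hy) (ht z hz))
      have h4 : sqd y.1 z.1 - sqd y.2 z.2 = ∑ j, 2 * (v y j * v z j - u y j * u z j)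
          + (∑ j, u y j ^ 2 - ∑ j, v y j ^ 2) + (∑ j, u z j ^ 2 - ∑ j, v z j ^ 2) := by
        simp only [sqd, ← Finset.sum_sub_distrib, ← Finset.sum_add_distrib, u, v]
        exact Finset.sum_congr rfl fun j _ => by ring
      rw [h3, huv y hy, huv z hz] at h4
      linarith

open Classical in
/-- many neighbours give the core property. -/
theorem core_of_nbrsL (d : ℕ) (hd : 3 ≤ d) :
    ∃ C : ℝ, 0 < C ∧ ∀ (P : Finset (Fin d → ℝ)) (G 𝓒 : Finset ((Fin d → ℝ) × (Fin d → ℝ)))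
    (X ρ k : ℝ) (E : ℕ), 1 ≤ E → 1 ≤ X → 0 ≤ ρ →
    (∀ a ∈ P, ∀ p ∈ P, ∀ a' ∈ P, ∀ p' ∈ P, (fun j => p' j - a' j) ≠ (fun j => p j - a j) →
      ∀ j, p' j - a' j ≠ p j - a j) →
    (∀ a ∈ P, HSep (P.filter fun b => (a, b) ∈ G) (fun b => cx fun j => b j - a j) X) →
    (∀ x ∈ 𝓒, x.1 ∈ P ∧ x.2 ∈ P) →
    (∀ x ∈ 𝓒, ∃ N : Finset ((Fin d → ℝ) × (Fin d → ℝ)), N ⊆ 𝓒 ∧ k < (N.card : ℝ) ∧
      (∀ y ∈ N, ((x.1, y.1) ∈ G ∨ (x.2, y.2) ∈ G) ∧ x.1 ≠ y.1 ∧ sqd x.1 y.1 = sqd x.2 y.2 ∧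
        (fun j => y.2 j - y.1 j) ≠ fun j => x.2 j - x.1 j) ∧
      ∀ S : Finset ((Fin d → ℝ) × (Fin d → ℝ)), S ⊆ N →
        (∀ y ∈ S, ∀ z ∈ S, sqd y.1 z.1 = sqd y.2 z.2) → (S.card : ℝ) ≤ ρ) →
    C * ((E + X + nd P) ^ (d - 1) + E * ρ) ≤ k →
    Core 0 (𝓒.image hat) E := by
  obtain ⟨CB, hCB, hB⟩ := fincore_classL d hd
  obtain ⟨C1, hC1, hS⟩ := special_count d (by omega)
  refine ⟨2 * (CB * 2 ^ (d - 1)) + (2 * C1 + 2), by positivity,
    fun P G 𝓒 X ρ k E hE hX hρ hgen hcov hP hN hk => ?_⟩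
  intro η hη q hq hqx U1 U2 hU1 hU2
  obtain ⟨x, hx, rfl⟩ := Finset.mem_image.1 hη
  obtain ⟨N, hN𝓒, hkN, hy, hρN⟩ := hN x hx
  have hne : ∀ y ∈ N, ∀ j, y.2 j - y.1 j ≠ x.2 j - x.1 j := fun y h =>
    hgen _ (hP x hx).1 _ (hP x hx).2 _ (hP y (hN𝓒 h)).1 _ (hP y (hN𝓒 h)).2 (hy y h).2.2.2
  by_contra hcon
  have hall : ∀ y ∈ N, hat y ∈ U1 ∨ hat y ∈ U2 ∨ q ∈ IL2 (hat x) (hat y) := by
    intro y h
    by_contra! h'
    refine hcon ⟨hat y, Finset.mem_image_of_mem _ (hN𝓒 h), ?_, fun j hj => ?_, h'⟩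
    · rw [bil_hat, (hy y h).2.2.1, sub_self, Complex.ofReal_zero]
    · obtain ⟨j, rfl⟩ := Fin.exists_succ_eq.2 hj
      intro e
      have e' : ((x.2 j - x.1 j : ℝ) : ℂ) = ((y.2 j - y.1 j : ℝ) : ℂ) := e
      exact hne y h j (Complex.ofReal_injective e').symm
  have hD : (0 : ℝ) ≤ nd P := Nat.cast_nonneg _
  have hE0 : (0 : ℝ) ≤ E := Nat.cast_nonneg _
  have hU : ∀ U : Submodule ℂ (Fin (d + 1) ⊕ Fin (d + 1) → ℂ),
      Module.finrank ℂ U ≤ Fintype.card (Fin (d + 1)) →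
      ((N.filter fun y => hat y ∈ U).card : ℝ) ≤ C1 * ((nd P : ℝ) + 1) ^ (d - 1) + ρ := by
    intro U hU
    have h0 : 0 ≤ C1 * ((nd P : ℝ) + 1) ^ (d - 1) := by positivity
    rcases hS P U (N.filter fun y => hat y ∈ U) (by simpa using hU) fun y h =>
      ⟨(hP y (hN𝓒 (Finset.mem_filter.1 h).1)).1, (hP y (hN𝓒 (Finset.mem_filter.1 h).1)).2,
        (Finset.mem_filter.1 h).2⟩ with h | h
    · linarith [hρN _ (Finset.filter_subset _ _) h]
    · linarith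
  have hX0 : 0 ≤ X := by linarith
  have hE1 : (1 : ℝ) ≤ E := by exact_mod_cast hE
  have h2 : ((E : ℝ) + (X + 2 * nd P)) ^ (d - 1) ≤ 2 ^ (d - 1) * (E + X + nd P) ^ (d - 1) := by
    rw [← mul_pow]
    exact pow_le_pow_left₀ (by positivity) (by linarith) _
  have h3 : (E : ℝ) * ρ ≤ 2 ^ (d - 1) * (E * ρ) :=
    le_mul_of_one_le_left (by positivity) (one_le_pow₀ one_le_two)
  have h4 := mul_le_mul_of_nonneg_left (add_le_add h2 h3) hCB.le
  have hc1 := hB P x (N.filter fun y => (x.1, y.1) ∈ G ∧ q ∈ IL2 (hat x) (hat y)) _ X ρ E q hE hX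
    hρ hq hqx (Or.inl ⟨hcov x.1 (hP x hx).1, fun y h => by
      obtain ⟨h, h2, -⟩ := Finset.mem_filter.1 h
      exact ⟨Finset.mem_filter.2 ⟨(hP y (hN𝓒 h)).1, h2⟩, (hP y (hN𝓒 h)).2⟩⟩)
    (fun y h => by
      obtain ⟨h, -, h3⟩ := Finset.mem_filter.1 h
      exact ⟨(hy y h).2.1, (hy y h).2.2.1, hne y h, h3⟩)
    fun T hT => hρN T (hT.trans (Finset.filter_subset _ _))
  have hc2 := hB P x (N.filter fun y => (x.2, y.2) ∈ G ∧ q ∈ IL2 (hat x) (hat y)) _ X ρ E q hE hX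
    hρ hq hqx (Or.inr ⟨hcov x.2 (hP x hx).2, fun y h => by
      obtain ⟨h, h2, -⟩ := Finset.mem_filter.1 h
      exact ⟨Finset.mem_filter.2 ⟨(hP y (hN𝓒 h)).2, h2⟩, (hP y (hN𝓒 h)).1⟩⟩)
    (fun y h => by
      obtain ⟨h, -, h3⟩ := Finset.mem_filter.1 h
      exact ⟨(hy y h).2.1, (hy y h).2.2.1, hne y h, h3⟩)
    fun T hT => hρN T (hT.trans (Finset.filter_subset _ _))
  have hsub : N ⊆ (N.filter fun y => hat y ∈ U1) ∪ ((N.filter fun y => hat y ∈ U2) ∪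
      ((N.filter fun y => (x.1, y.1) ∈ G ∧ q ∈ IL2 (hat x) (hat y)) ∪
        N.filter fun y => (x.2, y.2) ∈ G ∧ q ∈ IL2 (hat x) (hat y))) := by
    intro y h
    simp only [Finset.mem_union, Finset.mem_filter]
    rcases hall y h with h1 | h1 | h1
    · exact Or.inl ⟨h, h1⟩
    · exact Or.inr (Or.inl ⟨h, h1⟩)
    · exact Or.inr (Or.inr ((hy y h).1.imp (fun h5 => ⟨h, h5, h1⟩) fun h5 => ⟨h, h5, h1⟩))
  have hcard : (N.card : ℝ) ≤ (N.filter fun y => hat y ∈ U1).card +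
      ((N.filter fun y => hat y ∈ U2).card +
        (((N.filter fun y => (x.1, y.1) ∈ G ∧ q ∈ IL2 (hat x) (hat y)).card : ℝ) +
          (N.filter fun y => (x.2, y.2) ∈ G ∧ q ∈ IL2 (hat x) (hat y)).card)) := by
    exact_mod_cast (Finset.card_le_card hsub).trans ((Finset.card_union_le _ _).trans
      (Nat.add_le_add_left ((Finset.card_union_le _ _).trans
        (Nat.add_le_add_left (Finset.card_union_le _ _) _)) _))
  have h7 := hU U1 hU1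
  have h8 := hU U2 hU2
  have h9 : C1 * ((nd P : ℝ) + 1) ^ (d - 1) ≤ C1 * (E + X + nd P) ^ (d - 1) :=
    mul_le_mul_of_nonneg_left (pow_le_pow_left₀ (by positivity) (by linarith) _) hC1.le
  have h10 : ρ ≤ E * ρ := le_mul_of_one_le_left hρ hE1
  have h11 : 0 ≤ ((E : ℝ) + X + nd P) ^ (d - 1) := by positivity
  have h12 : 0 ≤ C1 * (E * ρ) := by positivity
  linarith

open Classical in
/-- Cauchy-Schwarz count of distance quadruples with both pairs in `G`. -/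
theorem quad_countL {σ : Type} [Fintype σ] (P : Finset (σ → ℝ)) (G : Finset ((σ → ℝ) × (σ → ℝ)))
    (hG : ∀ x ∈ G, x.1 ∈ P ∧ x.2 ∈ P ∧ x.1 ≠ x.2) :
    (G.card : ℝ) ^ 2 ≤ nd P * (((((P ×ˢ P) ×ˢ (P ×ˢ P)).filter fun z =>
      (z.1.1, z.2.1) ∈ G ∧ (z.2.2, z.1.2) ∈ G ∧ sqd z.1.1 z.2.1 = sqd z.1.2 z.2.2 ∧
        (fun k => z.2.2 k - z.2.1 k) ≠ fun k => z.1.2 k - z.1.1 k).card : ℝ) + (P.card : ℝ) ^ 3) := by
  refine (finGraph_cs P G hG).trans (mul_le_mul_of_nonneg_left ?_ (Nat.cast_nonneg _))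
  set Q := (G ×ˢ G).filter fun w => sqd w.1.1 w.1.2 = sqd w.2.1 w.2.2 with hQ
  have hQ' : ∀ w ∈ Q, w.1 ∈ G ∧ w.2 ∈ G ∧ sqd w.1.1 w.1.2 = sqd w.2.1 w.2.2 := fun w hw => by
    obtain ⟨a, b⟩ := Finset.mem_filter.1 hw
    exact ⟨(Finset.mem_product.1 a).1, (Finset.mem_product.1 a).2, b⟩
  rw [← Finset.card_filter_add_card_filter_not (s := Q)
    (fun w => (fun k => w.2.1 k - w.1.2 k) ≠ fun k => w.2.2 k - w.1.1 k), Nat.cast_add]
  refine add_le_add (Nat.cast_le.2 ?_) ?_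
  · refine Finset.card_le_card_of_injOn (fun w => ((w.1.1, w.2.2), (w.1.2, w.2.1)))
      (fun w hw => ?_) (fun w _ w' _ e => ?_)
    · obtain ⟨a, b⟩ := Finset.mem_filter.1 (Finset.mem_coe.1 hw)
      obtain ⟨c1, c2, c3⟩ := hQ' w a
      refine Finset.mem_coe.2 (Finset.mem_filter.2 ⟨?_, c1, c2, c3.trans (sqd_comm _ _), b⟩)
      exact Finset.mem_product.2 ⟨Finset.mem_product.2 ⟨(hG _ c1).1, (hG _ c2).2.1⟩,
        Finset.mem_product.2 ⟨(hG _ c1).2.1, (hG _ c2).1⟩⟩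
    · simp only [Prod.mk.injEq] at e
      exact Prod.ext (Prod.ext e.1.1 e.2.1) (Prod.ext e.2.2 e.1.2)
  · have e3 : (P.card : ℝ) ^ 3 = ((P ×ˢ P) ×ˢ P).card := by
      rw [Finset.card_product, Finset.card_product]
      push_cast
      ring
    rw [e3]
    refine Nat.cast_le.2 (Finset.card_le_card_of_injOn (fun w => ((w.1.1, w.2.2), w.1.2))
      (fun w hw => ?_) (fun w hw w' hw' e => ?_))
    · obtain ⟨c1, c2, -⟩ := hQ' w (Finset.mem_filter.1 (Finset.mem_coe.1 hw)).1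
      exact Finset.mem_coe.2 (Finset.mem_product.2
        ⟨Finset.mem_product.2 ⟨(hG _ c1).1, (hG _ c2).2.1⟩, (hG _ c1).2.1⟩)
    · have a := not_not.1 (Finset.mem_filter.1 (Finset.mem_coe.1 hw)).2
      have a' := not_not.1 (Finset.mem_filter.1 (Finset.mem_coe.1 hw')).2
      simp only [Prod.mk.injEq] at e
      refine Prod.ext (Prod.ext e.1.1 e.2) (Prod.ext (funext fun k => ?_) e.1.2)
      have b := congrFun a k
      have b' := congrFun a' k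
      have c1 := congrFun e.1.1 k
      have c2 := congrFun e.1.2 k
      have c3 := congrFun e.2 k
      linarith

end

end Vale.Agent.P054
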