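import Vale.Agent.P054.RootB
import Vale.Agent.P054.Rank
import Vale.Agent.P054.T1

namespace Vale.Agent.P054

open MvPolynomial

noncomputable section

section Aux

variable {K : Type} [Field K] {σ τ : Type}

theorem cover_fone_deg [Fintype σ] (f : MvPolynomial σ K) (p : σ → K) (u : σ → MvPolynomial τ K)
    (hu : ∀ k, (u k).totalDegree ≤ 1) : (fone f p u).totalDegree ≤ 1 := by
  unfold fone
  refine totalDegree_finsetSum_le fun k _ => ?_
  refine (totalDegree_mul _ _).trans ?_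
  rw [totalDegree_C, zero_add]
  exact hu k

theorem cover_aeval_rename {Ω : Type} [Field Ω] [Algebra K Ω] (f1 : MvPolynomial τ K) (x : τ → Ω)
    (s : Ω) (f : MvPolynomial τ K) : aeval (wpt f1 x s) (rename some f) = aeval x f := by
  rw [aeval_rename]
  rfl

theorem cover_comap {Ω : Type} [Field Ω] [Algebra K Ω] (f1 : MvPolynomial τ K) (x : τ → Ω)
    (s : Ω) :
    (kr K (wpt f1 x s)).comap (rename some : MvPolynomial τ K →ₐ[K] MvPolynomial (Option τ) K) =
      kr K x := (rank_kr_comap (wpt f1 x s)).symm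

/-- a point that specialises to a lifted root is itself a lifted point. -/
theorem cover_wpt {Ω Ω' : Type} [Field Ω] [Algebra K Ω] [Field Ω'] [Algebra K Ω']
    {f1 : MvPolynomial τ K} {x : τ → Ω} {s : Ω} (hs : s ≠ 0) (hf : aeval x f1 ≠ 0)
    {x' : τ → Ω'} {w : Ω'} (h : kr K (fun o : Option τ => o.elim w x') ≤ kr K (wpt f1 x s)) :
    w ≠ 0 ∧ aeval x' f1 ≠ 0 ∧
      (fun o : Option τ => o.elim w x') = wpt f1 x' (aeval x' f1 / w) := by
  have h0 : w ≠ 0 := by
    intro hw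
    have h1 : (X none : MvPolynomial (Option τ) K) ∈ kr K (fun o : Option τ => o.elim w x') := by
      rw [mem_kr, aeval_X]
      exact hw
    have h2 := h h1
    rw [mem_kr, aeval_X] at h2
    exact div_ne_zero hf hs h2
  have h1 : aeval x' f1 ≠ 0 := by
    intro hw
    have h1 : (rename some f1 : MvPolynomial (Option τ) K) ∈
        kr K (fun o : Option τ => o.elim w x') := by
      rw [mem_kr, aeval_rename]
      exact hw
    have h2 := h h1
    rw [mem_kr, cover_aeval_rename] at h2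
    exact hf h2
  refine ⟨h0, h1, ?_⟩
  funext o
  cases o with
  | none =>
    show w = aeval x' f1 / (aeval x' f1 / w)
    field_simp
  | some k => rfl

/-- the branch of the lifted system at a lifted root. -/
theorem cover_branch [IsAlgClosed K] [Fintype τ] {ι ρ : Type} [Fintype ι] [DecidableEq ι]
    [Fintype ρ] {γ : ι → MvPolynomial τ K} {c : ι → τ} {e : ρ → τ} (hc : Compl c e)
    {F : MvPolynomial (Option τ) K} {r : Ideal (MvPolynomial (Option τ) K)} (hr : r.IsPrime)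
    (hg : ∀ o, lift1 γ F o ∈ r) (hJ : Jac (lift1 γ F) (Option.map c) ∉ r) :
    (Br (Set.range (lift1 γ F)) r).IsPrime ∧ Br (Set.range (lift1 γ F)) r ≤ r ∧
      (Br (Set.range (lift1 γ F)) r).comap (rename some : MvPolynomial τ K →ₐ[K] _) =
        Br (Set.range γ) (r.comap (rename some : MvPolynomial τ K →ₐ[K] _)) ∧
      Ind ((Br (Set.range (lift1 γ F)) r).comap (rename some : MvPolynomial τ K →ₐ[K] _))
        (fun k => X (e k)) ∧
      F ∈ Br (Set.range (lift1 γ F)) r ∧ pderiv none F ∉ Br (Set.range (lift1 γ F)) r := by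
  have hd : Dn r := dn_of_isAlgClosed hr
  have hB : (Br (Set.range (lift1 γ F)) r).IsPrime := Br_isPrime hr hd hg (sm_of_jac hr hJ)
  have hle : Br (Set.range (lift1 γ F)) r ≤ r := by
    refine Br_le hr ?_ le_rfl
    rintro f ⟨o, rfl⟩
    exact hg o
  have hind : Ind ((Br (Set.range (lift1 γ F)) r).comap
      (rename some : MvPolynomial τ K →ₐ[K] MvPolynomial (Option τ) K)) (fun k => X (e k)) := by
    intro P hP
    refine Br_ind hc.lift hr hd hg hJ P ?_
    rw [Ideal.mem_comap] at hP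
    have h1 : (rename some : MvPolynomial τ K →ₐ[K] MvPolynomial (Option τ) K)
        (aeval (fun k => (X (e k) : MvPolynomial τ K)) P) =
        aeval (fun k => (X (some (e k)) : MvPolynomial (Option τ) K)) P := by
      rw [← AlgHom.comp_apply, comp_aeval]
      simp only [rename_X]
    rw [← h1]
    exact hP
  rw [jac_lift1] at hJ
  have hp : (r.comap (rename some : MvPolynomial τ K →ₐ[K] MvPolynomial (Option τ) K)).IsPrime :=
    Ideal.comap_isPrime _ r
  refine ⟨hB, hle, ?_, hind, mem_Br_of_mem hr ⟨none, rfl⟩, fun h => hJ ?_⟩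
  · refine eq_Br_of_ind hc hp (dn_of_isAlgClosed hp) (Ideal.comap_isPrime _ _) (fun i => ?_)
      (Ideal.comap_mono hle) (fun h => hJ ?_) _ rfl hind
    · rw [Ideal.mem_comap]
      exact mem_Br_of_mem hr ⟨some i, rfl⟩
    · rw [Ideal.mem_comap] at h
      exact Ideal.mul_mem_left _ _ h
  · exact Ideal.mul_mem_right _ _ (hle h)

theorem cover_real {A φ X ν δ : ℝ} (hA : 0 ≤ A) (hφ : 0 ≤ φ) (h : ν * δ ≤ X) (j : ℕ) :
    2 ^ (j + 1) * (ν * φ * A) * (2 * δ) ≤ 2 ^ (j + 2) * A * φ * X := by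
  have h1 : 2 ^ (j + 1) * (ν * φ * A) * (2 * δ) = 2 ^ (j + 2) * A * φ * (ν * δ) := by ring
  rw [h1]
  exact mul_le_mul_of_nonneg_left h (by positivity)

end Aux

/-- roots that do not persist lie on a variety of small degree. -/
theorem cover_cut (j l : ℕ) (hl : 1 ≤ l) : ∃ C : ℝ, 0 < C ∧ ∀ (K : Type) [Field K] [CharZero K]
    [IsAlgClosed K] (σ τ ι ρ Λ : Type) [Fintype σ] [Fintype τ] [Fintype ι] [DecidableEq ι]
    [Fintype ρ] (g J : ℕ → MvPolynomial σ K) (δ ν : ℕ → ℝ) (p : σ → K)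
    (u : σ → MvPolynomial τ K) (γ : ι → MvPolynomial τ K) (c : ι → τ) (e : ρ → τ)
    (S : Finset Λ) (r : Λ → Ideal (MvPolynomial (Option τ) K)) (φ X : ℝ),
    Fintype.card ρ = j + 1 → Compl c e → (∀ i, 1 ≤ δ i) →
    (∀ i, i < l → ((g i).totalDegree : ℝ) ≤ δ i) → aeval p (g 0) = 0 →
    (∀ k, (u k).totalDegree ≤ 1) → 0 ≤ X → (∀ t, 1 ≤ t → t < l → 0 ≤ ν t ∧ ν t * δ t ≤ X) →
    (∀ a ∈ S, ∃ (Ω : Type) (_ : Field Ω) (_ : Algebra K Ω) (x : τ → Ω) (s : Ω),
      r a = kr K (wpt (fone (g 0) p u) x s) ∧ aeval x (fone (g 0) p u) ≠ 0 ∧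
      s ∈ Rt g J l (am Ω p) (fun k => aeval x (u k)) ∧ (∀ i, aeval x (γ i) = 0) ∧
      aeval x (Jac γ c) ≠ 0) →
    (∀ a ∈ S, ¬ Pers g J l p u
      (Br (Set.range γ) ((r a).comap (rename some : MvPolynomial τ K →ₐ[K] _))) (r a)) →
    HB (⨅ a ∈ S, Br (Set.range γ) ((r a).comap (rename some : MvPolynomial τ K →ₐ[K] _))) φ
      (j + 1) →
    (∀ a ∈ S, ∀ t, 1 ≤ t → t < l → ∀ (Ω : Type) [Field Ω] [Algebra K Ω] (x : τ → Ω) (s : Ω),
      kr K x = Br (Set.range γ) ((r a).comap (rename some : MvPolynomial τ K →ₐ[K] _)) →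
      s ∈ Rt g J t (am Ω p) (fun k => aeval x (u k)) → kr K (wpt (fone (g 0) p u) x s) ≤ r a →
      RtB g J t (am Ω p) (fun k => aeval x (u k)) (ν t)) →
    HB (⨅ a ∈ S, r a) (C * φ * X) j := by
  classical
  refine ⟨l * (2 ^ (j + 2) * (2 * ((j : ℝ) + 1 + 1)) ^ (j + 1)), ?_, ?_⟩
  · have : (0 : ℝ) < l := by exact_mod_cast hl
    positivity
  intro K _ _ _ σ τ ι ρ Λ _ _ _ _ _ g J δ ν p u γ c e S r φ Y hρ hc hδ hdeg hp hu hY hν hr hP hb
    hlast
  have hφ : 0 ≤ φ := hb.nonneg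
  have hf1 := cover_fone_deg (g 0) p u hu
  obtain ⟨E, b, hbd, hF⟩ := exists_monic (g 0) p hp u hu
  choose H hHd hH using fun i => exists_lift p u hu (fone (g 0) p u) hf1 (g i)
  obtain ⟨F, hFdef⟩ : ∃ F : MvPolynomial (Option τ) K,
    F = X none ^ E + ∑ i ∈ Finset.range E, rename some (b i) * X none ^ i := ⟨_, rfl⟩
  rw [← hFdef] at hF
  have hrp : ∀ a ∈ S, (r a).IsPrime := by
    intro a ha
    obtain ⟨Ω, _, _, x, s, h1, -⟩ := hr a ha
    rw [h1]
    exact kr_isPrime _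
  have hg : ∀ a ∈ S, ∀ o, lift1 γ F o ∈ r a := by
    intro a ha o
    obtain ⟨Ω, _, _, x, s, h1, h2, h3, h4, -⟩ := hr a ha
    rw [h1, mem_kr]
    cases o with
    | none => exact ((hF Ω x s h3.1 h2).1).2 (h3.2.1 0 (by omega))
    | some i =>
      show aeval _ (rename some (γ i)) = 0
      rw [cover_aeval_rename]
      exact h4 i
  have hJ : ∀ a ∈ S, Jac (lift1 γ F) (Option.map c) ∉ r a := by
    intro a ha
    obtain ⟨Ω, _, _, x, s, h1, h2, h3, h4, h5⟩ := hr a ha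
    rw [h1, mem_kr, jac_lift1, map_mul, cover_aeval_rename]
    exact mul_ne_zero ((hF Ω x s h3.1 h2).2 (h3.2.1 0 (by omega)) h3.2.2.2) h5
  obtain ⟨B, hBdef⟩ : ∃ B : Λ → Ideal (MvPolynomial (Option τ) K),
    ∀ a, B a = Br (Set.range (lift1 γ F)) (r a) := ⟨_, fun _ => rfl⟩
  have hB : ∀ a ∈ S, (B a).IsPrime ∧ B a ≤ r a ∧
      (B a).comap (rename some : MvPolynomial τ K →ₐ[K] _) =
        Br (Set.range γ) ((r a).comap (rename some : MvPolynomial τ K →ₐ[K] _)) ∧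
      Ind ((B a).comap (rename some : MvPolynomial τ K →ₐ[K] _)) (fun k => X (e k)) ∧
      F ∈ B a ∧ pderiv none F ∉ B a := by
    intro a ha
    rw [hBdef a]
    exact cover_branch hc (hrp a ha) (hg a ha) (hJ a ha)
  -- realisations of the branches
  have hreal : ∀ a ∈ S, ∀ (Ω : Type) [Field Ω] [Algebra K Ω] (x : τ → Ω) (w : Ω),
      kr K (fun o : Option τ => o.elim w x) = B a →
      w ≠ 0 ∧ aeval x (fone (g 0) p u) ≠ 0 ∧
      kr K (wpt (fone (g 0) p u) x (aeval x (fone (g 0) p u) / w)) = B a ∧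
      kr K x = Br (Set.range γ) ((r a).comap (rename some : MvPolynomial τ K →ₐ[K] _)) ∧
      ∀ t, t ≤ l → (∀ i, i < t → H i ∈ B a) →
        aeval x (fone (g 0) p u) / w ∈ Rt g J t (am Ω p) (fun k => aeval x (u k)) := by
    intro a ha Ω _ _ x w hx
    obtain ⟨Ω', _, _, x', s', h1, h2, h3, -⟩ := hr a ha
    have hle : kr K (fun o : Option τ => o.elim w x) ≤ kr K (wpt (fone (g 0) p u) x' s') := by
      rw [hx, ← h1]
      exact (hB a ha).2.1
    obtain ⟨k1, k2, k3⟩ := cover_wpt h3.1 h2 hle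
    rw [k3] at hx hle
    refine ⟨k1, k2, hx, ?_, fun t ht hi => ?_⟩
    · rw [← (hB a ha).2.2.1, ← hx, cover_comap]
    · refine mem_Rt_of_spec p u _ ht (div_ne_zero k2 k1) h2 hle h3 fun i hit => ?_
      rw [← hH i Ω x _ (div_ne_zero k2 k1) k2, ← mem_kr, hx]
      exact hi i hit
  have hgen : ∀ a ∈ S, ∃ (Ω : Type) (_ : Field Ω) (_ : Algebra K Ω) (x : τ → Ω) (w : Ω),
      kr K (fun o : Option τ => o.elim w x) = B a := by
    intro a ha
    obtain ⟨Ω, _, _, y, hy, -⟩ := rank_generic (B a) (hB a ha).1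
    refine ⟨Ω, inferInstance, inferInstance, fun k => y (some k), y none, ?_⟩
    rw [← hy]
    congr 1
    funext o
    cases o <;> rfl
  have hH0 : ∀ a ∈ S, H 0 ∈ B a := by
    intro a ha
    obtain ⟨Ω, _, _, x, w, hx⟩ := hgen a ha
    obtain ⟨k1, k2, k3, -⟩ := hreal a ha Ω x w hx
    rw [← k3, mem_kr, hH 0 Ω x _ (div_ne_zero k2 k1) k2, ← (hF Ω x _ (div_ne_zero k2 k1) k2).1,
      ← mem_kr, k3]
    exact (hB a ha).2.2.2.2.1
  have hcls : ∀ a ∈ S, ∃ t ∈ Finset.Ico 1 l, (∀ i, i < t → H i ∈ B a) ∧ H t ∉ B a := by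
    intro a ha
    have hex : ∃ t, t < l ∧ H t ∉ B a := by
      by_contra hcon
      push Not at hcon
      obtain ⟨Ω, _, _, x, w, hx⟩ := hgen a ha
      obtain ⟨k1, k2, k3, k4, k5⟩ := hreal a ha Ω x w hx
      refine hP a ha ⟨Ω, inferInstance, inferInstance, x, _, k4, k5 l le_rfl hcon, ?_⟩
      rw [k3]
      exact (hB a ha).2.1
    have h1 := Nat.find_spec hex
    refine ⟨Nat.find hex, Finset.mem_Ico.2 ⟨?_, h1.1⟩, fun i hi => ?_, h1.2⟩
    · by_contra h0
      have h2 : Nat.find hex = 0 := by omega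
      rw [h2] at h1
      exact h1.2 (hH0 a ha)
    · by_contra hi'
      exact Nat.find_min hex hi ⟨hi.trans h1.1, hi'⟩
  have hHr : ∀ a ∈ S, ∀ t, t < l → H t ∈ r a := by
    intro a ha t ht
    obtain ⟨Ω, _, _, x, s, h1, h2, h3, -⟩ := hr a ha
    rw [h1, mem_kr, hH t Ω x s h3.1 h2]
    exact h3.2.1 t ht
  obtain ⟨St, hSt⟩ : ∃ St : ℕ → Finset Λ,
      ∀ t a, a ∈ St t ↔ a ∈ S ∧ (∀ i, i < t → H i ∈ B a) ∧ H t ∉ B a :=
    ⟨fun t => S.filter fun a => (∀ i, i < t → H i ∈ B a) ∧ H t ∉ B a,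
      fun t a => Finset.mem_filter⟩
  have hsub : ∀ t, ∀ a ∈ St t, a ∈ S := fun t a ha => ((hSt t a).1 ha).1
  have hclass : ∀ t ∈ Finset.Ico 1 l, HB (⨅ a ∈ St t, r a)
      (2 ^ (j + 2) * (2 * ((j : ℝ) + 1 + 1)) ^ (j + 1) * φ * Y) j := by
    intro t ht
    obtain ⟨ht1, htl⟩ := Finset.mem_Ico.1 ht
    have hb' : HB (⨅ a ∈ St t, (B a).comap (rename some : MvPolynomial τ K →ₐ[K] _)) φ
        (Fintype.card ρ) := by
      rw [hρ]
      refine hb.mono ?_ le_rfl
      refine le_iInf₂ fun a ha => ?_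
      rw [(hB a (hsub t a ha)).2.2.1]
      exact iInf₂_le a (hsub t a ha)
    have hgro : Gro (⨅ a ∈ St t, B a) (Fintype.card ρ) := by
      simp only [hBdef]
      exact gro_Br (St t) r hc.lift (fun a ha => hrp a (hsub t a ha))
        (fun a ha => dn_of_isAlgClosed (hrp a (hsub t a ha))) (fun a ha => hg a (hsub t a ha))
        (fun a ha => hJ a (hsub t a ha))
    have hcov := root_cover (St t) B (fun a ha => (hB a (hsub t a ha)).1)
      (fun a ha => ⟨_, (hB a (hsub t a ha)).2.2.2.1⟩) hb'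
      (fun a ha => ⟨F, (hB a (hsub t a ha)).2.2.2.2⟩) (hν t ht1 htl).1 ?_ E b hbd
      (fun a ha => by rw [← hFdef]; exact (hB a (hsub t a ha)).2.2.2.2.1) hgro
    · rw [hρ] at hcov
      have hd : ((H t).totalDegree : ℝ) ≤ 2 * δ t := by
        have h1 : ((H t).totalDegree : ℝ) ≤ 2 * ((g t).totalDegree : ℝ) := by
          exact_mod_cast hHd t
        linarith [hdeg t htl]
      have hcut := hb_cut_family (St t) B r (fun a ha => (hB a (hsub t a ha)).1)
        (fun a ha => (hB a (hsub t a ha)).2.1) (fun a ha => hHr a (hsub t a ha) t htl)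
        (fun a ha => ((hSt t a).1 ha).2.2) hd (by linarith [hδ t]) hcov
      refine hcut.mono le_rfl ?_
      push_cast
      exact cover_real (by positivity) hφ (hν t ht1 htl).2 j
    · intro a _ Ω _ _ x _ T hT
      rcases T.eq_empty_or_nonempty with rfl | ⟨w0, hw0⟩
      · rw [Finset.card_empty, Nat.cast_zero]
        exact (hν t ht1 htl).1
      obtain ⟨a0, ha0, hx0⟩ := hT w0 hw0
      obtain ⟨-, k2, k3, k4, k5⟩ := hreal a0 (hsub t a0 ha0) Ω x w0 hx0
      have hR := hlast a0 (hsub t a0 ha0) t ht1 htl Ω x _ k4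
        (k5 t htl.le ((hSt t a0).1 ha0).2.1) (by rw [k3]; exact (hB a0 (hsub t a0 ha0)).2.1)
      have hinj : Set.InjOn (fun w : Ω => aeval x (fone (g 0) p u) / w) T := by
        intro w _ w' _ hww
        have h1 : aeval x (fone (g 0) p u) * w⁻¹ = aeval x (fone (g 0) p u) * w'⁻¹ := by
          rw [← div_eq_mul_inv, ← div_eq_mul_inv]
          exact hww
        exact inv_injective (mul_left_cancel₀ k2 h1)
      rw [← Finset.card_image_of_injOn hinj]
      refine hR _ fun s hs => ?_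
      obtain ⟨w, hw, rfl⟩ := Finset.mem_image.1 hs
      obtain ⟨a1, ha1, hx1⟩ := hT w hw
      exact (hreal a1 (hsub t a1 ha1) Ω x w hx1).2.2.2.2 t htl.le ((hSt t a1).1 ha1).2.1
  refine (hb_iInf (Finset.Ico 1 l) (fun t => ⨅ a ∈ St t, r a) _ hclass).mono ?_ ?_
  · refine le_iInf₂ fun a ha => ?_
    obtain ⟨t, ht, h1⟩ := hcls a ha
    exact (iInf₂_le t ht).trans (iInf₂_le a ((hSt t a).2 ⟨ha, h1⟩))
  · rw [Finset.sum_const, Nat.card_Ico, nsmul_eq_mul]
    have h1 : ((l - 1 : ℕ) : ℝ) ≤ l := by exact_mod_cast Nat.sub_le l 1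
    have h2 : (0 : ℝ) ≤ 2 ^ (j + 2) * (2 * ((j : ℝ) + 1 + 1)) ^ (j + 1) * φ * Y := by positivity
    calc _ ≤ (l : ℝ) * (2 ^ (j + 2) * (2 * ((j : ℝ) + 1 + 1)) ^ (j + 1) * φ * Y) :=
          mul_le_mul_of_nonneg_right h1 h2
      _ = _ := by ring

end

end Vale.Agent.P054
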