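import Vale.Agent.P054.D3Defs

namespace Vale.Agent.P054

open MvPolynomial

noncomputable section

/-- decay of the number of rich motions with exponent five halves. -/
def RB5 (X : Finset (Pt × Pt)) (w0 B : ℝ) : Prop :=
  ∀ (w : ℝ) (𝓖 : Finset Mo), w0 ≤ w → (∀ g ∈ 𝓖, Iso g ∧ Rich X g w) →
    (𝓖.card : ℝ) * w ^ ((5 : ℝ) / 2) ≤ B

/-- the lossless statement proved by induction on `n`. -/
def SBL (K A : ℝ) (n : ℕ) : Prop :=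
  ∀ (P : Finset Pt) (X : Finset (Pt × Pt)), Gen3 P → P.card ≤ n → X ⊆ P ×ˢ P →
    RB5 X (A * (n : ℝ) ^ ((2 : ℝ) / 3) * (1 + ((X.card : ℝ) / (n : ℝ) ^ 2) ^ ((1 : ℝ) / 40)))
      (K * (n : ℝ) ^ ((53 : ℝ) / 30) * (X.card : ℝ) ^ ((19 : ℝ) / 20))

theorem RB5.mono {X : Finset (Pt × Pt)} {w0 w1 B B' : ℝ} (h : RB5 X w0 B) (hw : w0 ≤ w1)
    (hB : B ≤ B') : RB5 X w1 B' := fun w 𝓖 h1 h2 => (h w 𝓖 (hw.trans h1) h2).trans hB

end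

end Vale.Agent.P054
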