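import Mathlib

/-!
P054 toolkit definitions (Hilbert functions, branches, Jacobian systems, Taylor maps).
All types live in `Type`.
-/

namespace Vale.Agent.P054

open MvPolynomial

noncomputable section

variable {K : Type} [Field K] {σ : Type}

/-- affine Hilbert function: dimension of the polynomials of degree at most `m` modulo `I`. -/
def hf (I : Ideal (MvPolynomial σ K)) (m : ℕ) : ℕ :=
  Module.finrank K ((restrictTotalDegree σ K m).map (Ideal.Quotient.mkₐ K I).toLinearMap)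

/-- dimension of the forms of degree `m` modulo `I`. -/
def hh (I : Ideal (MvPolynomial σ K)) (m : ℕ) : ℕ :=
  Module.finrank K ((homogeneousSubmodule σ K m).map (Ideal.Quotient.mkₐ K I).toLinearMap)

/-- uniform Hilbert bound with degree `φ` and dimension `j`. -/
def HB (I : Ideal (MvPolynomial σ K)) (φ : ℝ) (j : ℕ) : Prop :=
  ∀ m : ℕ, 1 ≤ m → (hf I m : ℝ) ≤ φ * (m : ℝ) ^ j

/-- the growth property in dimension `j`. -/
def Gro (I : Ideal (MvPolynomial σ K)) (j : ℕ) : Prop :=
  ∀ k m : ℕ, 1 ≤ k → k ^ j * hf I m ≤ hf I (k * (m + j))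

/-- linear independence modulo an ideal. -/
def IndM (I : Ideal (MvPolynomial σ K)) {ι : Type} [Fintype ι] (v : ι → MvPolynomial σ K) : Prop :=
  ∀ a : ι → K, ∑ i, a i • v i ∈ I → ∀ i, a i = 0

/-- algebraic independence modulo an ideal. -/
def Ind (I : Ideal (MvPolynomial σ K)) {ρ : Type} (t : ρ → MvPolynomial σ K) : Prop :=
  ∀ P : MvPolynomial ρ K, aeval t P ∈ I → P = 0

variable (K) in
/-- the ideal of a point with coordinates in a `K`-algebra. -/
def kr {Ω : Type} [CommRing Ω] [Algebra K Ω] (q : σ → Ω) : Ideal (MvPolynomial σ K) :=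
  RingHom.ker (aeval q : MvPolynomial σ K →ₐ[K] Ω)

/-- vanishing ideal of a set of rational points. -/
def vI (S : Set (σ → K)) : Ideal (MvPolynomial σ K) := ⨅ x ∈ S, kr K x

/-- rational points are dense in the zero set of `p`. -/
def Dn (p : Ideal (MvPolynomial σ K)) : Prop :=
  ∀ f, f ∉ p → ∃ π : σ → K, p ≤ kr K π ∧ aeval π f ≠ 0

/-- the branch at the prime `p` of the zero set of `G`. -/
def Br (G : Set (MvPolynomial σ K)) (p : Ideal (MvPolynomial σ K)) : Ideal (MvPolynomial σ K) :=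
  Ideal.span {f | ∃ s, s ∉ p ∧ s * f ∈ Ideal.span G}

/-- the differentials of the `g i` are independent at `p`. -/
def Sm {ι : Type} [Fintype ι] (g : ι → MvPolynomial σ K) (p : Ideal (MvPolynomial σ K)) : Prop :=
  ∀ a : ι → MvPolynomial σ K, (∀ k, ∑ i, a i * pderiv k (g i) ∈ p) → ∀ i, a i ∈ p

/-- `c` lists the dependent and `e` the free coordinates. -/
def Compl {ι ρ : Type} (c : ι → σ) (e : ρ → σ) : Prop :=
  Function.Injective c ∧ Function.Injective e ∧ ∀ k, (k ∈ Set.range c ↔ k ∉ Set.range e)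

/-- tangent vectors at `p` are determined by their free coordinates. -/
def TrP [Fintype σ] {ι ρ : Type} (g : ι → MvPolynomial σ K) (e : ρ → σ)
    (p : Ideal (MvPolynomial σ K)) : Prop :=
  ∀ a : σ → MvPolynomial σ K, (∀ k, a (e k) ∈ p) →
    (∀ i, ∑ k, pderiv k (g i) * a k ∈ p) → ∀ k, a k ∈ p

section Jac

variable {ι : Type} [Fintype ι] [DecidableEq ι]

/-- Jacobian matrix in the dependent coordinates. -/
def Jm (g : ι → MvPolynomial σ K) (c : ι → σ) : Matrix ι ι (MvPolynomial σ K) :=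
  Matrix.of fun i i' => pderiv (c i') (g i)

/-- Jacobian minor. -/
def Jac (g : ι → MvPolynomial σ K) (c : ι → σ) : MvPolynomial σ K := (Jm g c).det

/-- normal vector fields: `Nv g c i (g i') = Jac * δ`. -/
def Nv (g : ι → MvPolynomial σ K) (c : ι → σ) (i : ι) :
    Derivation K (MvPolynomial σ K) (MvPolynomial σ K) :=
  ∑ i', (Jm g c).adjugate i' i • pderiv (c i')

/-- tangent vector fields. -/
def Xv (g : ι → MvPolynomial σ K) (c : ι → σ) (k : σ) :
    Derivation K (MvPolynomial σ K) (MvPolynomial σ K) :=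
  Jac g c • pderiv k - ∑ i, pderiv k (g i) • Nv g c i

/-- words in the tangent vector fields. -/
def wd (g : ι → MvPolynomial σ K) (c : ι → σ) (w : List σ) (f : MvPolynomial σ K) :
    MvPolynomial σ K :=
  w.foldr (fun k h => Xv g c k h) f

end Jac

/-- Taylor expansion along the branch of `g` at the rational point `π`. -/
structure Tay {ι ρ : Type} (g : ι → MvPolynomial σ K) (e : ρ → σ) (π : σ → K)
    (θ : MvPolynomial σ K →ₐ[K] MvPowerSeries ρ K) : Prop where
  const : ∀ f, MvPowerSeries.constantCoeff (θ f) = aeval π f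
  free : ∀ k, θ (X (e k)) = MvPowerSeries.C (π (e k)) + MvPowerSeries.X k
  kill : ∀ i, θ (g i) = 0

/-- a system with one more variable (`none`) and one more equation. -/
def lift1 {ι : Type} (g : ι → MvPolynomial σ K) (Φ : MvPolynomial (Option σ) K) :
    Option ι → MvPolynomial (Option σ) K :=
  fun o => o.elim Φ (fun i => rename some (g i))

/-- the first `r` members of a sequence. -/
def gs {α : Type} (g : ℕ → α) (r : ℕ) : Fin r → α := fun i => g i

/-- initial products. -/
def fp (δ : ℕ → ℝ) (r : ℕ) : ℝ := ∏ i ∈ Finset.range r, δ i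

/-- output of the concentration lemma for the family `p` on `L`, with `R` levels. -/
structure Cel [Fintype σ] {Λ : Type} (A α : ℝ) (R : ℕ) (p : Λ → Ideal (MvPolynomial σ K))
    (L : Finset Λ) where
  δ : ℕ → ℝ
  g : ℕ → MvPolynomial σ K
  c : (r : ℕ) → Fin r → σ
  one_le : ∀ i, 1 ≤ δ i
  mono : Monotone δ
  card_le : (L.card : ℝ) ≤ A * fp δ R
  le_card : fp δ R ≤ A * L.card
  deg : ∀ i, i < R → ((g i).totalDegree : ℝ) ≤ A * δ i
  mem : ∀ i, i < R → ∀ l ∈ L, g i ∈ p l
  jac : ∀ r, r ≤ R → ∀ l ∈ L, Jac (gs g r) (c r) ∉ p l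
  hb : ∀ r, r ≤ R →
    HB (⨅ l ∈ L, Br (Set.range (gs g r)) (p l)) (A * fp δ r) (Fintype.card σ - r)
  unif : ∀ r, r ≤ R → ∀ S : Finset Λ, S ⊆ L → ∀ φ : ℝ, 0 < φ →
    HB (⨅ l ∈ S, p l) φ (Fintype.card σ - r) →
    (S.card : ℝ) ≤ A * L.card * (φ / fp δ r) ^ α

theorem mem_kr {Ω : Type} [CommRing Ω] [Algebra K Ω] {q : σ → Ω} {f : MvPolynomial σ K} :
    f ∈ kr K q ↔ aeval q f = 0 := Iff.rfl

theorem mem_vI {S : Set (σ → K)} {f : MvPolynomial σ K} :
    f ∈ vI S ↔ ∀ x ∈ S, aeval x f = 0 := by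
  simp only [vI, Ideal.mem_iInf, mem_kr]

theorem kr_isPrime {Ω : Type} [CommRing Ω] [IsDomain Ω] [Algebra K Ω] (q : σ → Ω) :
    (kr K q).IsPrime := RingHom.ker_isPrime _

theorem dn_kr (π : σ → K) : Dn (kr K π) := fun _ hf => ⟨π, le_rfl, hf⟩

end

end Vale.Agent.P054
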