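import Vale.Agent.P054.FinStep

namespace Vale.Agent.P054

open MvPolynomial

noncomputable section

theorem distB_three_half {β : ℝ} (hβ : β < 1 / 2) : DistB 3 β := by
  by_cases h0 : β ≤ 0
  · have h := distB_succ (d := 2) (β := 1 / 2) (by norm_num) (distB_two (by norm_num))
    exact h.mono (h0.trans (by norm_num))
  · push Not at h0
    have h1 : 0 < 1 - β := by linarith
    have hγ : 0 < β / (1 - β) := div_pos h0 h1
    have hγ1 : β / (1 - β) < 1 := by rw [div_lt_one h1]; linarith
    have h := distB_succ (d := 2) hγ (distB_two hγ1)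
    have e : β / (1 - β) / (1 + β / (1 - β)) = β := by field_simp; ring
    rw [e] at h
    exact h

theorem distB_main (d : ℕ) (hd : 4 ≤ d) : ∀ β : ℝ, β < 2 / (d : ℝ) → DistB d β := by
  induction d, hd using Nat.le_induction with
  | base =>
    intro β hβ
    have hβ' : β < 1 / 2 := by norm_num at hβ ⊢; linarith
    have hm : max β (1 / 4) < 1 / 2 := max_lt hβ' (by norm_num)
    have hpos : 0 < max β (1 / 4) := lt_of_lt_of_le (by norm_num) (le_max_right _ _)
    have h := distB_step 3 le_rfl (β := (max β (1 / 4) + 1 / 2) / 2) (β' := max β (1 / 4))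
      (distB_three_half (by linarith)) hpos (by linarith) (by norm_num at hm ⊢; exact hm)
    exact h.mono (le_max_left _ _)
  | succ d hd ih =>
    intro β hβ
    have hd0 : (4 : ℝ) ≤ d := by exact_mod_cast hd
    have hlt : (2 : ℝ) / ((d : ℝ) + 1) < 2 / (d : ℝ) :=
      div_lt_div_of_pos_left (by norm_num) (by linarith) (by linarith)
    have hq : (1 : ℝ) / ((d : ℝ) + 1) < 2 / ((d : ℝ) + 1) :=
      div_lt_div_of_pos_right (by norm_num) (by linarith)
    have hβ' : β < 2 / ((d : ℝ) + 1) := by push_cast at hβ; exact hβ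
    have hm : max β (1 / ((d : ℝ) + 1)) < 2 / ((d : ℝ) + 1) := max_lt hβ' hq
    have hpos : 0 < max β (1 / ((d : ℝ) + 1)) :=
      lt_of_lt_of_le (by positivity) (le_max_right _ _)
    have h := distB_step d (by omega) (β := 2 / ((d : ℝ) + 1)) (ih _ hlt) hpos hm hm
    exact h.mono (le_max_left _ _)

end

end Vale.Agent.P054
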