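import Vale.Agent.P054.SMain
import Vale.Agent.P054.FinMain

namespace Vale.Agent.P054

open MvPolynomial Filter Topology

noncomputable section

/-- few pairs of pairs lie in large compatible sets. -/
theorem top_heavy (b : ℝ) (hb : 0 < b) (hb1 : b ≤ 1 / 100) : ∃ C : ℝ, 1 ≤ C ∧
    ∀ P : Finset Pt, Gen3 P → P.Nonempty → ∃ Hv : Finset ((Pt × Pt) × (Pt × Pt)),
      (Hv.card : ℝ) ≤ C * (P.card : ℝ) ^ (10 / 3 + 18 * b) ∧
      ∀ x ∈ P ×ˢ P, ∀ S : Finset (Pt × Pt), S ⊆ P ×ˢ P → Cmp S →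
        (∀ y ∈ S, sqd x.1 y.1 = sqd x.2 y.2 ∧ (x, y) ∉ Hv) →
        (S.card : ℝ) ≤ C * (P.card : ℝ) ^ (2 / 3 + 12 * b) + 2 * nd P + 1 := by
  classical
  obtain ⟨K, A, hK, hA, HS⟩ := exists_SB b hb hb1
  obtain ⟨C, hC, HH⟩ := heavy_pairs
  have hCK : 0 ≤ C * (K + 1) := by positivity
  refine ⟨C * (K + 1) + 3 * A, by linarith, fun P hgen hP => ?_⟩
  have h1 := HS P.card P (P ×ˢ P) hgen le_rfl Finset.Subset.rfl
  set x : ℝ := (P.card : ℝ) with hx
  have hx1 : 1 ≤ x := by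
    rw [hx]
    exact_mod_cast hP.card_pos
  have hx0 : 0 < x := by linarith
  have hX : (((P ×ˢ P).card : ℕ) : ℝ) = x ^ (2 : ℝ) := by
    rw [Finset.card_product, Nat.cast_mul, Real.rpow_two, sq]
  set w := x ^ (2 / 3 + 12 * b) with hw
  have hw1 : 1 ≤ w := Real.one_le_rpow hx1 (by positivity)
  have e1 : A * x ^ (2 / 3 + 10 * b) * (x ^ (2 : ℝ)) ^ b = 3 * A * w / 3 := by
    rw [← Real.rpow_mul hx0.le, mul_assoc, ← Real.rpow_add hx0, hw,
      show 2 / 3 + 10 * b + 2 * b = 2 / 3 + 12 * b by ring]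
    ring
  rw [hX, e1] at h1
  have hww : x ≤ w ^ 2 := by
    rw [hw, ← Real.rpow_two, ← Real.rpow_mul hx0.le]
    nth_rewrite 1 [← Real.rpow_one x]
    exact Real.rpow_le_rpow_of_exponent_le hx1 (by linarith)
  have hρ : 6 * w ≤ 3 * A * w := by nlinarith
  obtain ⟨Hv, h2, h3⟩ := HH x (3 * A * w) _ P (P ×ˢ P) le_rfl Finset.Subset.rfl (by linarith)
    (by nlinarith) h1
  refine ⟨Hv, ?_, fun z hz S hS hc hy => ?_⟩
  · set t := x ^ (10 / 3 + 18 * b) with ht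
    have ht0 : 0 < t := Real.rpow_pos_of_pos hx0 _
    have e2 : x ^ (2 : ℝ) * x ^ (2 + 30 * b) = t * w := by
      rw [ht, hw, ← Real.rpow_add hx0, ← Real.rpow_add hx0]
      exact congrArg (x ^ ·) (by ring)
    have e3 : x ^ 2 * x ^ (2 : ℝ) ≤ t * w := by
      rw [← e2, mul_comm, ← Real.rpow_two]
      exact mul_le_mul_of_nonneg_left (Real.rpow_le_rpow_of_exponent_le hx1 (by linarith))
        (by positivity)
    rw [hX, mul_assoc K, e2] at h2
    have b1 : C * (K * (t * w) + x ^ 2 * x ^ (2 : ℝ)) ≤ C * ((K + 1) * (t * w)) :=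
      mul_le_mul_of_nonneg_left (by linarith) (by linarith)
    have b2 : (Hv.card : ℝ) * w ≤ Hv.card * (3 * A * w) :=
      mul_le_mul_of_nonneg_left (by linarith) (Nat.cast_nonneg _)
    have b3 : (Hv.card : ℝ) ≤ C * (K + 1) * t :=
      le_of_mul_le_mul_right (by linarith) (by linarith : 0 < w)
    have b4 : 0 ≤ 3 * A * t := by positivity
    linarith
  · have b0 : 0 ≤ C * (K + 1) * w := by positivity
    have b1 : (0 : ℝ) ≤ nd P := Nat.cast_nonneg _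
    rcases h3 z hz S hS hc hy with h | ⟨a, a', haa, -, h⟩
    · linarith
    · have c1 : (S.image Prod.fst).card = S.card :=
        Finset.card_image_of_injOn fun y hy y' hy' e => Prod.ext e (by
          rw [← sqd_eq_zero, ← hc y hy y' hy', sqd_eq_zero]
          exact e)
      have c2 := line_le_nd (P := P) (S := S.image Prod.fst) haa (fun p hp => by
        obtain ⟨y, k1, rfl⟩ := Finset.mem_image.1 hp
        exact (Finset.mem_product.1 (hS k1)).1) (fun p hp => by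
        obtain ⟨y, k1, rfl⟩ := Finset.mem_image.1 hp
        exact h y k1)
      rw [c1] at c2
      have c3 : (S.card : ℝ) ≤ 2 * nd P + 1 := by exact_mod_cast c2
      nlinarith

theorem finstep3_num {ε0 b C1 C2 a C4 CT : ℝ} (h0 : 0 < ε0) (h1 : ε0 < 1) (hb : 0 < b)
    (hC1 : 0 ≤ C1) (hC2 : 0 ≤ C2) (ha : 0 ≤ a) (hC4 : 0 ≤ C4) (hCT : 0 ≤ CT) : ∃ C8 : ℝ, 0 ≤ C8 ∧
      ∀ x E D D' : ℝ, 1 ≤ x → 0 ≤ E → E ≤ a * x ^ ((2 : ℝ) / 3) → 0 ≤ D' → D' ≤ D →
      D ≤ C2 * x ^ ((2 : ℝ) / 3) →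
      C1 * x ^ ε0 * (C4 * ((E + C1 * (x ^ ((2 : ℝ) / 3) + D + 1) + D') ^ 2 +
        E * (CT * x ^ (2 / 3 + 12 * b) + 2 * D' + 1))) ^ (1 / (1 - ε0)) +
        C4 * ((D' + 1) ^ 2 + (CT * x ^ (2 / 3 + 12 * b) + 2 * D' + 1)) ≤
        C8 * x ^ (ε0 + (4 / 3 + 12 * b) / (1 - ε0)) := by
  have hε : 0 < 1 - ε0 := by linarith
  set C5 := a + C1 * (C2 + 2) + C2 with hC5
  set C9 := CT + 2 * C2 + 1 with hC9
  set C6 := C4 * (C5 ^ 2 + a * C9) with hC6
  set C7 := C4 * ((C2 + 1) ^ 2 + C9) with hC7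
  refine ⟨C1 * C6 ^ (1 / (1 - ε0)) + C7, by positivity, fun x E D D' hx hE hEa hD' hDD hD => ?_⟩
  have hx0 : 0 < x := by linarith
  set u := x ^ ((2 : ℝ) / 3) with hu
  set w := x ^ (2 / 3 + 12 * b) with hw
  set v := x ^ (4 / 3 + 12 * b) with hv
  have hu1 : 1 ≤ u := Real.one_le_rpow hx (by norm_num)
  have hv0 : 0 ≤ v := by positivity
  have huw : u ≤ w := Real.rpow_le_rpow_of_exponent_le hx (by linarith)
  have e2 : u * w = v := by
    rw [hu, hw, hv, ← Real.rpow_add hx0]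
    exact congrArg (x ^ ·) (by ring)
  have e1 : u ^ 2 ≤ v := by
    rw [← e2, sq]
    exact mul_le_mul_of_nonneg_left huw (zero_le_one.trans hu1)
  have e3 : w ≤ v := by
    rw [← e2]
    exact le_mul_of_one_le_left (by positivity) hu1
  have a0 : CT * w + 2 * D' + 1 ≤ C9 * w := by
    have : C2 * u ≤ C2 * w := mul_le_mul_of_nonneg_left huw hC2
    rw [hC9]
    linarith only [this, hDD, hD, huw, hu1]
  have a1 : E + C1 * (u + D + 1) + D' ≤ C5 * u := by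
    have : C1 * (u + D + 1) ≤ C1 * ((C2 + 2) * u) :=
      mul_le_mul_of_nonneg_left (by linarith only [hD, hu1]) hC1
    rw [hC5]
    linarith only [this, hEa, hDD, hD]
  have hD0 : 0 ≤ D := hD'.trans hDD
  have a2 : (E + C1 * (u + D + 1) + D') ^ 2 ≤ C5 ^ 2 * v :=
    (pow_le_pow_left₀ (by positivity) a1 2).trans (by
      rw [mul_pow]
      exact mul_le_mul_of_nonneg_left e1 (by positivity))
  have a3 : E * (CT * w + 2 * D' + 1) ≤ a * C9 * v := by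
    refine (mul_le_mul hEa a0 (by positivity) (by positivity)).trans (le_of_eq ?_)
    rw [← e2]
    ring
  have a4 : C4 * ((E + C1 * (u + D + 1) + D') ^ 2 + E * (CT * w + 2 * D' + 1)) ≤ C6 * v := by
    rw [hC6, mul_assoc]
    exact mul_le_mul_of_nonneg_left (by linarith only [a2, a3]) hC4
  have a5 : (D' + 1) ^ 2 ≤ (C2 + 1) ^ 2 * v :=
    (pow_le_pow_left₀ (by positivity) (by linarith only [hDD, hD, hu1] : D' + 1 ≤ (C2 + 1) * u) 2).trans (by
      rw [mul_pow]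
      exact mul_le_mul_of_nonneg_left e1 (by positivity))
  have a6 : C4 * ((D' + 1) ^ 2 + (CT * w + 2 * D' + 1)) ≤ C7 * v := by
    have : C9 * w ≤ C9 * v := mul_le_mul_of_nonneg_left e3 (by positivity)
    rw [hC7, mul_assoc]
    exact mul_le_mul_of_nonneg_left (by linarith only [this, a0, a5]) hC4
  have a7 := Real.rpow_le_rpow (by positivity) a4 (one_div_pos.2 hε).le
  rw [Real.mul_rpow (x := C6) (by positivity) hv0, hv, ← Real.rpow_mul hx0.le, mul_one_div] at a7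
  have a8 : v ≤ x ^ (ε0 + (4 / 3 + 12 * b) / (1 - ε0)) := by
    refine Real.rpow_le_rpow_of_exponent_le hx ?_
    have : 4 / 3 + 12 * b ≤ (4 / 3 + 12 * b) / (1 - ε0) := by
      rw [le_div_iff₀ hε]
      nlinarith only [h0, hb, mul_pos h0 hb]
    linarith only [this, h0]
  have a9 := mul_le_mul_of_nonneg_left a7 (by positivity : 0 ≤ C1 * x ^ ε0)
  have a10 := a6.trans (mul_le_mul_of_nonneg_left a8 (by positivity))
  rw [Real.rpow_add hx0] at a10 ⊢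
  linarith only [a9, a10]

theorem finstep3_del {V : Type} (Γ Hv : Finset (V × V)) : ∃ Γ' : Finset (V × V),
    (∀ z, z ∈ Γ' ↔ z ∈ Γ ∧ z ∉ Hv ∧ z.swap ∉ Hv) ∧ (Γ.card : ℝ) ≤ Γ'.card + 2 * Hv.card := by
  classical
  refine ⟨Γ.filter fun z => z ∉ Hv ∧ z.swap ∉ Hv, fun z => Finset.mem_filter, ?_⟩
  have h : Γ ⊆ (Γ.filter fun z => z ∉ Hv ∧ z.swap ∉ Hv) ∪ (Hv ∪ Hv.image Prod.swap) := by
    intro z hz
    by_cases h1 : z ∈ Hv
    · exact Finset.mem_union_right _ (Finset.mem_union_left _ h1)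
    by_cases h2 : z.swap ∈ Hv
    · exact Finset.mem_union_right _
        (Finset.mem_union_right _ (Finset.mem_image.2 ⟨_, h2, Prod.swap_swap z⟩))
    · exact Finset.mem_union_left _ (Finset.mem_filter.2 ⟨hz, h1, h2⟩)
  have h1 := (Finset.card_le_card h).trans ((Finset.card_union_le _ _).trans
    (Nat.add_le_add_left ((Finset.card_union_le _ _).trans
      (Nat.add_le_add_left Finset.card_image_le _)) _))
  rw [two_mul]
  exact_mod_cast h1

open Classical in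
theorem finstep3_core {ε0 b γ C1 C2 : ℝ} (h0 : 0 < ε0) (h1 : ε0 < 1) (hb : 0 < b)
    (hb1 : b ≤ 1 / 100) (hC1 : 1 ≤ C1) (hC2 : 0 < C2)
    (hγ : ε0 + (4 / 3 + 12 * b) / (1 - ε0) + γ < 2) (hγ2 : γ + 18 * b < 2 / 3) :
    ∃ N : ℝ, ∀ (P : Finset Pt) (G : Finset (Pt × Pt)) (D : ℝ),
      N ≤ P.card → Gen3 P → (nd P : ℝ) ≤ D → D ≤ C2 * (P.card : ℝ) ^ γ →
      (P.card : ℝ) ^ 2 ≤ 4 * G.card →
      (∀ x ∈ G, x.1 ∈ P ∧ x.2 ∈ P ∧ x.1 ≠ x.2 ∧ (x.2, x.1) ∈ G) →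
      (∀ a ∈ P, Cov (P.filter fun b => (a, b) ∈ G) (fun b => cx fun k => b k - a k)
        (C1 * (P.card : ℝ) ^ ε0) (C1 * ((P.card : ℝ) ^ ((2 : ℝ) / (3 : ℕ)) + D + 1))) → False := by
  have hε : 0 < 1 - ε0 := by linarith
  obtain ⟨C3, hC3, H3⟩ := interp_flats (3 + 1) (by omega)
  obtain ⟨CA, HA⟩ := thmA (3 + 1) (by omega)
  obtain ⟨C4, hC4, H4⟩ := core_of_nbrs 3 le_rfl ε0 h0 h1
  obtain ⟨CT, hCT, HT⟩ := top_heavy b hb hb1
  obtain ⟨C8, hC8, H8⟩ := finstep3_num h0 h1 hb (zero_le_one.trans hC1) hC2.le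
    (a := CA * C3 + 1) (by positivity) hC4.le (zero_le_one.trans hCT)
  obtain ⟨N, hN⟩ := eventually_atTop.1 ((((finstep_ev (64 * C2) (a := γ) (b := 1)
    (by linarith)).and (finstep_ev (128 * C2 * C8) hγ)).and (eventually_ge_atTop 1)).and
    (finstep_ev (128 * C2 * CT) (a := γ + (10 / 3 + 18 * b)) (b := 4) (by linarith)))
  refine ⟨N, fun P G D hP hgen hD hD2 hG hGs hcov => ?_⟩
  obtain ⟨⟨⟨n1, n2⟩, n3⟩, n4⟩ := hN _ hP
  obtain ⟨Hv, hH1, hH2⟩ := HT P hgen (Finset.card_pos.1 (Nat.cast_pos.1 (one_pos.trans_le n3)))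
  rw [Nat.cast_ofNat] at hcov
  set x : ℝ := (P.card : ℝ) with hx
  have hx0 : 0 < x := by linarith
  rw [Real.rpow_one] at n1
  rw [Real.rpow_add hx0, Real.rpow_two] at n2
  rw [Real.rpow_add hx0, show (4 : ℝ) = (4 : ℕ) by norm_num, Real.rpow_natCast] at n4
  set y := x ^ γ with hy
  have hy0 : 0 < y := Real.rpow_pos_of_pos hx0 _
  have hq1 := quad_count P G fun z hz => ⟨(hGs z hz).1, (hGs z hz).2.1, (hGs z hz).2.2.1⟩
  set Γ := ((P ×ˢ P) ×ˢ (P ×ˢ P)).filter fun z =>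
      (z.1.1, z.2.1) ∈ G ∧ sqd z.1.1 z.2.1 = sqd z.1.2 z.2.2 ∧
        (fun k => z.2.2 k - z.2.1 k) ≠ fun k => z.1.2 k - z.1.1 k with hΓ
  obtain ⟨Γ', hΓ', hdel⟩ := finstep3_del Γ Hv
  set k := x ^ 2 / (128 * C2 * y) with hk
  have hk' : k * (128 * C2 * y) = x ^ 2 := div_mul_cancel₀ _ (by positivity)
  obtain ⟨T, hT1, hT2, hT3⟩ := finstep_deg (P ×ˢ P) Γ' k (by positivity) (fun z hz => by
      obtain ⟨hz, k1, k2⟩ := (hΓ' z).1 hz
      obtain ⟨a1, a2, a3, a4⟩ := Finset.mem_filter.1 hz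
      obtain ⟨a5, a6⟩ := Finset.mem_product.1 a1
      refine ⟨a5, a6, (hΓ' _).2 ⟨Finset.mem_filter.2 ⟨Finset.mem_product.2 ⟨a6, a5⟩,
        (hGs _ a2).2.2.2, ?_, a4.symm⟩, k2, k1⟩⟩
      rw [sqd_comm, a3, sqd_comm]) (by
      rw [Finset.card_product, Nat.cast_mul, ← hx]
      by_contra hc
      have b1 : (x ^ 2) ^ 2 ≤ (4 * (G.card : ℝ)) ^ 2 := pow_le_pow_left₀ (by positivity) hG 2
      have b2 : (nd P : ℝ) * (Γ.card + x ^ 3) ≤
          C2 * y * (2 * k * (x * x) + 2 * (CT * x ^ (10 / 3 + 18 * b)) + x ^ 3) :=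
        mul_le_mul (hD.trans hD2) (by linarith) (by positivity) (by positivity)
      have b3 : C2 * y * (2 * k * (x * x)) = x ^ 4 / 64 := by
        linear_combination x ^ 2 / 64 * hk'
      have b4 := mul_lt_mul_of_pos_right n1 (pow_pos hx0 3)
      have b5 : 0 < x ^ 4 := pow_pos hx0 4
      linarith)
  have hnrm : ∀ η ∈ T.image hat, Nrm 0 η := fun η hη => by
    obtain ⟨z, -, rfl⟩ := Finset.mem_image.1 hη
    exact nrm_hat z
  obtain ⟨f, f0, f1, f2⟩ := H3 ℂ (Fin (3 + 1)) 0 (T.image hat) (Fintype.card_fin _)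
    (hT2.image _) hnrm
  have hu1 : 1 ≤ x ^ ((2 : ℝ) / 3) := Real.one_le_rpow n3 (by positivity)
  have f3 : (f.totalDegree : ℝ) ≤ C3 * x ^ ((2 : ℝ) / 3) := by
    refine f2.trans (mul_le_mul_of_nonneg_left ?_ hC3.le)
    have c1 : (((T.image hat).card : ℕ) : ℝ) ≤ x ^ (2 : ℝ) := by
      rw [Real.rpow_two, sq, hx, ← Nat.cast_mul, ← Finset.card_product]
      exact Nat.cast_le.2 (Finset.card_image_le.trans (Finset.card_le_card hT1))
    rw [Nat.cast_add_one, add_sub_cancel_right, Nat.cast_ofNat]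
    refine (Real.rpow_le_rpow (Nat.cast_nonneg _) c1 (by positivity)).trans (le_of_eq ?_)
    rw [← Real.rpow_mul hx0.le, mul_one_div]
  have hD0 : 0 ≤ D := (Nat.cast_nonneg _).trans hD
  refine HA ℂ (Fin (3 + 1)) 0 (T.image hat) f.totalDegree (CA * f.totalDegree + 1) f
    (Fintype.card_fin _) (hT2.image _) hnrm f0 f1 le_rfl (Nat.le_succ _)
    (H4 P G T _ _ (CT * x ^ (2 / 3 + 12 * b) + 2 * nd P + 1) k _ (Nat.le_add_left _ _) ?_
      (by positivity) (by positivity) hgen hcov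
      (fun z hz => Finset.mem_product.1 (hT1 hz)) (fun z hz => ?_) ?_)
  · nlinarith
  · obtain ⟨N0, s1, s2, s3⟩ := hT3 z hz
    refine ⟨N0, s1, s2, fun w hw => ?_, fun S hS hS' => ?_⟩
    · obtain ⟨-, a2, a3, a4⟩ := Finset.mem_filter.1 ((hΓ' _).1 (s3 w hw)).1
      exact ⟨a2, (hGs _ a2).2.2.1, a3, a4⟩
    · refine hH2 z (hT1 hz) S (hS.trans (s1.trans hT1)) hS' fun w hw => ?_
      obtain ⟨k0, k1, -⟩ := (hΓ' _).1 (s3 w (hS hw))
      exact ⟨(Finset.mem_filter.1 k0).2.2.1, k1⟩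
  · refine (H8 x _ D _ n3 (Nat.cast_nonneg _) ?_ (Nat.cast_nonneg _) hD ?_).trans ?_
    · have := mul_le_mul_of_nonneg_left f3 (Nat.cast_nonneg (α := ℝ) CA)
      push_cast
      linarith
    · exact hD2.trans (mul_le_mul_of_nonneg_left
        (Real.rpow_le_rpow_of_exponent_le n3 (by linarith)) hC2.le)
    · rw [hk, le_div_iff₀ (by positivity)]
      linarith

theorem distB_three_pos {β' : ℝ} (h0 : 0 < β') (h2 : β' < 2 / 3) : DistB 3 β' := by
  have hβ : (0 : ℝ) < 5 / 6 := by norm_num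
  obtain ⟨CH, hCH, HH⟩ := hyp_bound hβ (distB_two (by norm_num))
  obtain ⟨ε0, e0, e1, e2, e3, e4⟩ : ∃ ε0 : ℝ, 0 < ε0 ∧ ε0 < 1 / 100 ∧ β' / (5 / 6) < 1 - ε0 ∧
      ε0 + (4 / 3 + 12 * ε0) / (1 - ε0) + β' / (1 - ε0) < 2 ∧
      β' / (1 - ε0) + 18 * ε0 < 2 / 3 := by
    have c1 : ∀ᶠ ε : ℝ in 𝓝 0, ε < 1 / 100 := gt_mem_nhds (by norm_num)
    have c2 : ∀ᶠ ε : ℝ in 𝓝 0, β' / (5 / 6) < 1 - ε :=
      ContinuousAt.eventually_lt continuousAt_const (by fun_prop)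
        (by rw [sub_zero, div_lt_one hβ]; linarith)
    have c3 : ∀ᶠ ε : ℝ in 𝓝 0, ε + (4 / 3 + 12 * ε) / (1 - ε) + β' / (1 - ε) < 2 := by
      refine ContinuousAt.eventually_lt (by fun_prop (disch := norm_num)) continuousAt_const ?_
      simp only [sub_zero, div_one]
      linarith
    have c4 : ∀ᶠ ε : ℝ in 𝓝 0, β' / (1 - ε) + 18 * ε < 2 / 3 := by
      refine ContinuousAt.eventually_lt (by fun_prop (disch := norm_num)) continuousAt_const ?_
      simp only [sub_zero, div_one]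
      linarith
    obtain ⟨ε, a1, a2⟩ := (((((c1.and c2).and c3).and c4).filter_mono nhdsWithin_le_nhds).and
      (self_mem_nhdsWithin (s := Set.Ioi (0 : ℝ)))).exists
    exact ⟨ε, a2, a1.1.1.1, a1.1.1.2, a1.1.2, a1.2⟩
  have hε : 0 < 1 - ε0 := by linarith
  obtain ⟨C1, c0, hC1, hc0, HC⟩ := thmC 3 (by omega) ε0 e0 (by linarith)
  obtain ⟨N', HN⟩ := finstep3_core e0 (by linarith) e0 e1.le hC1
    (C2 := C1 ^ (β' / (1 - ε0))) (by positivity) e3 e4
  obtain ⟨N, hN⟩ := eventually_atTop.1 (((finstep_ev (CH * 2 ^ (1 / (5 / 6 : ℝ)) / c0) e2).and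
    (finstep_ev (C1 * N') hε)).and (eventually_ge_atTop 1))
  obtain ⟨n0, hn0⟩ := exists_nat_ge N
  refine distB_of_large one_pos n0 fun P0 hP0 => ?_
  obtain ⟨P, hgen, hnd, hcard⟩ := finstep_rot (m := 3) (by omega) P0
  rw [← hnd, ← hcard, one_mul]
  rw [← hcard] at hP0
  by_contra hc
  rw [not_le] at hc
  obtain ⟨⟨n1, n2⟩, n3⟩ := hN _ (hn0.trans (Nat.cast_le.2 hP0))
  set x : ℝ := (P.card : ℝ) with hx
  have hx0 : 0 < x := by linarith
  rw [Real.rpow_zero, mul_one] at n2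
  obtain ⟨P', G, a1, a2, a3, a4, a5⟩ := HC (Fin 3) 0 P _ (Fintype.card_fin _)
    (Finset.card_pos.1 (Nat.cast_pos.1 hx0)) (fun a ha b hb hab e => by
      refine hgen a ha a ha b hb a ha (fun h' => hab (funext fun j => ?_)) 0 (by rw [e])
      have := congrFun h' j
      linarith) (HH P) (by
      have b1 : (nd P : ℝ) + 1 ≤ 2 * x ^ β' := by
        have := Real.one_le_rpow n3 h0.le
        linarith
      have b2 := Real.rpow_le_rpow (by positivity) b1 (one_div_pos.2 hβ).le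
      rw [Real.mul_rpow zero_le_two (by positivity), ← Real.rpow_mul hx0.le, mul_one_div] at b2
      rw [div_mul_eq_mul_div, div_lt_iff₀ hc0] at n1
      have b3 := mul_le_mul_of_nonneg_left b2 (zero_le_one.trans hCH)
      linarith)
  refine HN P' G (nd P) ?_ (fun a ha p hp a' ha' p' hp' =>
    hgen a (a1 ha) p (a1 hp) a' (a1 ha') p' (a1 hp')) (Nat.cast_le.2 (nd_mono a1)) ?_ a3 a4 a5
  · exact le_of_mul_le_mul_left (n2.le.trans a2) (by linarith)
  · have b1 := Real.rpow_le_rpow (by positivity) a2 (div_pos h0 hε).le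
    rw [← Real.rpow_mul hx0.le, mul_div_cancel₀ _ hε.ne',
      Real.mul_rpow (by linarith) (Nat.cast_nonneg _)] at b1
    exact hc.le.trans b1

theorem distB_three {β : ℝ} (hβ : β < 2 / 3) : DistB 3 β :=
  (distB_three_pos (β' := max β (1 / 3)) (lt_of_lt_of_le (by norm_num) (le_max_right _ _))
    (max_lt hβ (by norm_num))).mono (le_max_left _ _)

end

end Vale.Agent.P054
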