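import Vale.Agent.P054.RootDefs

namespace Vale.Agent.P054

open MvPolynomial

noncomputable section

/-- lower bound with exponent `β` in dimension `d`. -/
def DistB (d : ℕ) (β : ℝ) : Prop :=
  ∃ c : ℝ, 0 < c ∧ ∀ P : Finset (Fin d → ℝ), 2 ≤ P.card → c * (P.card : ℝ) ^ β ≤ nd P

/-- the null vector attached to a pair of points. -/
def hat {d : ℕ} (x : (Fin d → ℝ) × (Fin d → ℝ)) : Fin (d + 1) ⊕ Fin (d + 1) → ℂ :=
  Sum.elim (Fin.cons 1 fun k => ((x.2 k - x.1 k : ℝ) : ℂ))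
    (Fin.cons ((-∑ k, (x.2 k - x.1 k) * (x.2 k + x.1 k) : ℝ) : ℂ) fun k => ((x.2 k + x.1 k : ℝ) : ℂ))

end

end Vale.Agent.P054
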