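import Vale.Agent.P054.FinDefs
import Vale.Agent.P054.Homog
import Vale.Agent.P041.Places

namespace Vale.Agent.P054

open MvPolynomial

noncomputable section

open Classical in
theorem fg_mem {σ : Type} [Fintype σ] {P : Finset (σ → ℝ)} {r : ℝ} :
    r ∈ (((P ×ˢ P).filter fun x => x.1 ≠ x.2).image fun x => sqd x.1 x.2) ↔
      ∃ a ∈ P, ∃ b ∈ P, a ≠ b ∧ sqd a b = r := by
  simp only [Finset.mem_image, Finset.mem_filter, Finset.mem_product, Prod.exists]
  constructor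
  · rintro ⟨a, b, ⟨⟨ha, hb⟩, hab⟩, hr⟩
    exact ⟨a, ha, b, hb, hab, hr⟩
  · rintro ⟨a, ha, b, hb, hab, hr⟩
    exact ⟨a, b, ⟨⟨ha, hb⟩, hab⟩, hr⟩

theorem nd_mono {σ : Type} [Fintype σ] {P Q : Finset (σ → ℝ)} (h : P ⊆ Q) : nd P ≤ nd Q := by
  unfold nd
  refine Finset.card_le_card fun r hr => ?_
  obtain ⟨a, ha, b, hb, hab, hr⟩ := fg_mem.1 hr
  exact fg_mem.2 ⟨a, h ha, b, h hb, hab, hr⟩

theorem one_le_nd {σ : Type} [Fintype σ] {P : Finset (σ → ℝ)} (h : 2 ≤ P.card) : 1 ≤ nd P := by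
  obtain ⟨a, ha, b, hb, hab⟩ := Finset.one_lt_card.1 h
  unfold nd
  exact Finset.card_pos.2 ⟨_, fg_mem.2 ⟨a, ha, b, hb, hab, rfl⟩⟩

theorem sqd_eq_zero {σ : Type} [Fintype σ] {a b : σ → ℝ} : sqd a b = 0 ↔ a = b := by
  unfold sqd
  rw [Finset.sum_eq_zero_iff_of_nonneg fun k _ => sq_nonneg _]
  constructor
  · intro h
    funext k
    exact sub_eq_zero.1 (pow_eq_zero_iff two_ne_zero |>.1 (h k (Finset.mem_univ _)))
  · rintro rfl k _
    simp

theorem sqd_comm {σ : Type} [Fintype σ] (a b : σ → ℝ) : sqd a b = sqd b a := by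
  unfold sqd
  refine Finset.sum_congr rfl fun k _ => ?_
  ring

open Classical in
theorem nd_image {σ τ : Type} [Fintype σ] [Fintype τ] (P : Finset (σ → ℝ)) (f : (σ → ℝ) → τ → ℝ)
    (hf : ∀ a ∈ P, ∀ b ∈ P, sqd (f a) (f b) = sqd a b) :
    nd (P.image f) = nd P ∧ (P.image f).card = P.card := by
  have hinj : ∀ a ∈ P, ∀ b ∈ P, f a = f b → a = b := by
    intro a ha b hb hab
    rw [← sqd_eq_zero, ← hf a ha b hb, sqd_eq_zero]
    exact hab
  refine ⟨?_, Finset.card_image_of_injOn fun a ha b hb hab => hinj a ha b hb hab⟩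
  unfold nd
  congr 1
  ext r
  rw [fg_mem, fg_mem]
  constructor
  · rintro ⟨a', ha', b', hb', hab, hr⟩
    obtain ⟨a, ha, rfl⟩ := Finset.mem_image.1 ha'
    obtain ⟨b, hb, rfl⟩ := Finset.mem_image.1 hb'
    exact ⟨a, ha, b, hb, fun h => hab (congrArg f h), (hf a ha b hb).symm.trans hr⟩
  · rintro ⟨a, ha, b, hb, hab, hr⟩
    exact ⟨f a, Finset.mem_image_of_mem f ha, f b, Finset.mem_image_of_mem f hb,
      fun h => hab (hinj a ha b hb h), (hf a ha b hb).trans hr⟩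

/-- affine separators from the distances. -/
theorem exists_dist_sep {σ : Type} [Fintype σ] (P : Finset (σ → ℝ)) :
    ∃ R : Finset ℝ, R.card = nd P ∧ (∀ r ∈ R, r ≠ 0) ∧
      ∀ a ∈ P, ∀ b ∈ P, a ≠ b → sqd a b ∈ R := by
  refine ⟨_, rfl, fun r hr => ?_, fun a ha b hb hab => fg_mem.2 ⟨a, ha, b, hb, hab, rfl⟩⟩
  obtain ⟨a, -, b, -, hab, rfl⟩ := fg_mem.1 hr
  exact fun h => hab (sqd_eq_zero.1 h)

/-- reflection in the hyperplane orthogonal to `v`. -/
def fgRefl {σ : Type} [Fintype σ] (v : σ → ℝ) : (σ → ℝ) →ₗ[ℝ] (σ → ℝ) where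
  toFun w := fun k => w k - 2 * (∑ j, v j * w j) / (∑ j, v j * v j) * v k
  map_add' a b := by
    funext k
    simp only [Pi.add_apply, mul_add, Finset.sum_add_distrib]
    ring
  map_smul' c a := by
    funext k
    have h : ∑ j, v j * (c * a j) = c * ∑ j, v j * a j := by
      rw [Finset.mul_sum]
      exact Finset.sum_congr rfl fun j _ => by ring
    simp only [Pi.smul_apply, smul_eq_mul, RingHom.id_apply, h]
    ring

theorem fgRefl_apply {σ : Type} [Fintype σ] (v w : σ → ℝ) (k : σ) :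
    fgRefl v w k = w k - 2 * (∑ j, v j * w j) / (∑ j, v j * v j) * v k := rfl

theorem fgRefl_sq {σ : Type} [Fintype σ] (v w : σ → ℝ) :
    ∑ k, fgRefl v w k ^ 2 = ∑ k, w k ^ 2 := by
  have h : ∀ s : ℝ, ∑ k, (w k - s * v k) ^ 2 =
      ∑ k, w k ^ 2 - 2 * s * ∑ k, v k * w k + s ^ 2 * ∑ k, v k * v k := by
    intro s
    simp only [Finset.mul_sum, ← Finset.sum_sub_distrib, ← Finset.sum_add_distrib]
    exact Finset.sum_congr rfl fun k _ => by ring
  simp only [fgRefl_apply]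
  rw [h]
  by_cases h0 : ∑ j, v j * v j = 0
  · rw [h0]
    simp
  · field_simp
    ring

/-- a generic isometry. -/
theorem exists_rot {σ : Type} [Fintype σ] (h2 : 2 ≤ Fintype.card σ) (W : Finset (σ → ℝ))
    (hW : ∀ w ∈ W, w ≠ 0) : ∃ R : (σ → ℝ) →ₗ[ℝ] (σ → ℝ),
      (∀ a b, sqd (R a) (R b) = sqd a b) ∧ ∀ w ∈ W, ∀ k, R w k ≠ 0 := by
  classical
  let Q : (σ → ℝ) × σ → MvPolynomial σ ℝ := fun z =>
    (∑ j, X j * X j) * C (z.1 z.2) - 2 * (∑ j, X j * C (z.1 j)) * X z.2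
  have hQ : ∀ (v : σ → ℝ) (z : (σ → ℝ) × σ), aeval v (Q z) =
      (∑ j, v j * v j) * z.1 z.2 - 2 * (∑ j, v j * z.1 j) * v z.2 := by
    intro v z
    simp only [Q, map_sub, map_mul, map_sum, aeval_X, aeval_C, map_ofNat, Algebra.algebraMap_self,
      RingHom.id_apply]
  obtain ⟨v, hv⟩ := exists_aeval_ne_zero (W ×ˢ (Finset.univ : Finset σ)) Q (by
    rintro ⟨w, k⟩ hz h0
    have hw := hW w (Finset.mem_product.1 hz).1
    have h1 : ∀ v : σ → ℝ, (∑ j, v j * v j) * w k - 2 * (∑ j, v j * w j) * v k = 0 := by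
      intro v
      rw [← hQ v (w, k), h0, map_zero]
    obtain ⟨j, hj⟩ := Fintype.exists_ne_of_one_lt_card h2 k
    have hk : w k = 0 := by
      have := h1 (Pi.single j 1)
      simpa [Pi.single_apply, hj.symm] using this
    refine hw (funext fun i => ?_)
    by_cases hi : i = k
    · rw [hi]
      exact hk
    · have := h1 (Pi.single i 1 + Pi.single k 1)
      simpa [Pi.single_apply, hk, add_mul, Finset.sum_add_distrib, Ne.symm hi] using this)
  refine ⟨fgRefl v, fun a b => ?_, fun w hw k h0 => ?_⟩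
  · have h1 := fgRefl_sq v (a - b)
    rw [map_sub] at h1
    exact h1
  · have h1 := hv (w, k) (Finset.mem_product.2 ⟨hw, Finset.mem_univ _⟩)
    rw [hQ] at h1
    rw [fgRefl_apply] at h0
    apply h1
    by_cases h3 : ∑ j, v j * v j = 0
    · have h4 := (Finset.sum_eq_zero_iff_of_nonneg fun j _ => mul_self_nonneg (v j)).1 h3 k
        (Finset.mem_univ _)
      rw [h3, mul_self_eq_zero.1 h4]
      ring
    · have h4 := div_mul_cancel₀ (2 * ∑ j, v j * w j) h3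
      linear_combination (∑ j, v j * v j) * h0 + v k * h4

/-- a hyperplane is isometric to the space of one dimension less. -/
theorem fg_hyp_iso {d : ℕ} (l : Fin (d + 1) → ℝ) (hl : l ≠ 0) :
    ∃ f : (Fin (d + 1) → ℝ) → Fin d → ℝ, ∀ a b, ∑ k, l k * a k = ∑ k, l k * b k →
      sqd (f a) (f b) = sqd a b := by
  have h1 : ∃ t : ℝ, t ^ 2 = ∑ k, l k ^ 2 ∧ l 0 - t ≠ 0 := by
    have h2 : 0 ≤ ∑ k, l k ^ 2 := Finset.sum_nonneg fun k _ => sq_nonneg _
    have h3 : ∑ k, l k ^ 2 ≠ 0 := by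
      intro h
      have := sqd_eq_zero (a := l) (b := 0)
      simp only [sqd, Pi.zero_apply, sub_zero] at this
      exact hl (this.1 h)
    have h4 : 0 < √(∑ k, l k ^ 2) := Real.sqrt_pos.2 (lt_of_le_of_ne h2 h3.symm)
    by_cases h5 : l 0 ≤ 0
    · exact ⟨√(∑ k, l k ^ 2), Real.sq_sqrt h2, by linarith⟩
    · exact ⟨-√(∑ k, l k ^ 2), by rw [neg_sq, Real.sq_sqrt h2], by linarith⟩
  obtain ⟨t, ht, ht0⟩ := h1
  refine ⟨fun a k => a k.succ - a 0 / (l 0 - t) * l k.succ, fun a b hab => ?_⟩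
  obtain ⟨s, hs⟩ : ∃ s, s = (a 0 - b 0) / (l 0 - t) := ⟨_, rfl⟩
  have h0 : a 0 - b 0 = s * (l 0 - t) := by rw [hs, div_mul_cancel₀ _ ht0]
  have h2 : sqd (fun k : Fin d => a k.succ - a 0 / (l 0 - t) * l k.succ)
      (fun k => b k.succ - b 0 / (l 0 - t) * l k.succ) =
      ∑ k : Fin d, (a k.succ - b k.succ) ^ 2 - 2 * s * (∑ k : Fin d, l k.succ * a k.succ -
        ∑ k : Fin d, l k.succ * b k.succ) + s ^ 2 * ∑ k : Fin d, l k.succ ^ 2 := by
    unfold sqd
    simp only [Finset.mul_sum, ← Finset.sum_sub_distrib, ← Finset.sum_add_distrib]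
    refine Finset.sum_congr rfl fun k _ => ?_
    rw [hs]
    ring
  rw [h2]
  unfold sqd
  rw [Fin.sum_univ_succ, Fin.sum_univ_succ] at hab
  rw [Fin.sum_univ_succ] at ht ⊢
  linear_combination (-2 * s) * hab - s ^ 2 * ht +
    (2 * s * l 0 - (a 0 - b 0) - s * (l 0 - t)) * h0

/-- points on a hyperplane. -/
theorem hyp_bound {d : ℕ} {β : ℝ} (hβ : 0 < β) (h : DistB d β) : ∃ C : ℝ, 1 ≤ C ∧
    ∀ P : Finset (Fin (d + 1) → ℝ), HypB P (C * ((nd P : ℝ) + 1) ^ (1 / β)) := by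
  classical
  obtain ⟨c, hc, h⟩ := h
  refine ⟨max 1 ((1 / c) ^ (1 / β)), le_max_left _ _, fun P l b S hl hS hb => ?_⟩
  have hβ' : 0 < 1 / β := one_div_pos.2 hβ
  have hD : (1 : ℝ) ≤ ((nd P : ℝ) + 1) ^ (1 / β) :=
    Real.one_le_rpow (by linarith [Nat.cast_nonneg (α := ℝ) (nd P)]) hβ'.le
  by_cases h2 : 2 ≤ S.card
  · obtain ⟨f, hf⟩ := fg_hyp_iso l hl
    obtain ⟨T, h3, h4⟩ : ∃ T : Finset (Fin d → ℝ), nd T = nd S ∧ T.card = S.card :=
      ⟨_, nd_image S f fun a ha a' ha' => hf a a' ((hb a ha).trans (hb a' ha').symm)⟩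
    have h5 := h T (h4 ▸ h2)
    rw [h3, h4] at h5
    have h6 : c * (S.card : ℝ) ^ β ≤ nd P := h5.trans (Nat.cast_le.2 (nd_mono hS))
    have h7 : (S.card : ℝ) ^ β ≤ 1 / c * ((nd P : ℝ) + 1) := by
      rw [one_div, ← div_eq_inv_mul, le_div_iff₀ hc]
      linarith
    have h8 := Real.rpow_le_rpow (Real.rpow_nonneg (Nat.cast_nonneg _) _) h7 hβ'.le
    rw [← Real.rpow_mul (Nat.cast_nonneg _), mul_one_div_cancel hβ.ne', Real.rpow_one,
      Real.mul_rpow (by positivity) (by positivity)] at h8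
    exact h8.trans (mul_le_mul_of_nonneg_right (le_max_right _ _) (by positivity))
  · have h3 : (S.card : ℝ) ≤ 1 := by exact_mod_cast Nat.lt_succ_iff.1 (not_le.1 h2)
    exact h3.trans (one_le_mul_of_one_le_of_one_le (le_max_left _ _) hD)

theorem DistB.mono {d : ℕ} {β β' : ℝ} (h : DistB d β) (hβ : β' ≤ β) : DistB d β' := by
  obtain ⟨c, hc, h⟩ := h
  refine ⟨c, hc, fun P hP => le_trans ?_ (h P hP)⟩
  have h1 : (1 : ℝ) ≤ P.card := by exact_mod_cast le_trans one_le_two hP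
  exact mul_le_mul_of_nonneg_left (Real.rpow_le_rpow_of_exponent_le h1 hβ) hc.le

/-- it is enough to treat large sets. -/
theorem distB_of_large {d : ℕ} {β c : ℝ} (hc : 0 < c) (n0 : ℕ)
    (h : ∀ P : Finset (Fin d → ℝ), n0 ≤ P.card → c * (P.card : ℝ) ^ β ≤ nd P) : DistB d β := by
  have h0 : (0 : ℝ) ≤ (n0 : ℝ) ^ β := Real.rpow_nonneg (Nat.cast_nonneg _) _
  refine ⟨min c (1 / (1 + (n0 : ℝ) ^ β)), lt_min hc (by positivity), fun P hP => ?_⟩
  have hp : (0 : ℝ) ≤ (P.card : ℝ) ^ β := Real.rpow_nonneg (Nat.cast_nonneg _) _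
  by_cases hn : n0 ≤ P.card
  · exact (mul_le_mul_of_nonneg_right (min_le_left _ _) hp).trans (h P hn)
  · have h1 : (1 : ℝ) ≤ P.card := by exact_mod_cast le_trans one_le_two hP
    have h2 : (P.card : ℝ) ^ β ≤ 1 + (n0 : ℝ) ^ β := by
      rcases le_total 0 β with hβ | hβ
      · have h3 : (P.card : ℝ) ≤ n0 := by exact_mod_cast (not_le.1 hn).le
        have := Real.rpow_le_rpow (Nat.cast_nonneg _) h3 hβ
        linarith
      · have := Real.rpow_le_one_of_one_le_of_nonpos h1 hβ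
        linarith
    have h3 : (1 : ℝ) ≤ nd P := by exact_mod_cast one_le_nd hP
    refine (mul_le_mul_of_nonneg_right (min_le_right _ _) hp).trans (le_trans ?_ h3)
    rw [one_div, ← div_eq_inv_mul, div_le_one (by positivity)]
    exact h2

theorem fg_dist_finite {α : Type} [PseudoMetricSpace α] (P : Finset α) :
    {r : ℝ | ∃ p ∈ P, ∃ q ∈ P, p ≠ q ∧ r = dist p q}.Finite := by
  refine ((P.finite_toSet.prod P.finite_toSet).image fun z => dist z.1 z.2).subset ?_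
  rintro r ⟨p, hp, q, hq, -, rfl⟩
  exact ⟨(p, q), ⟨hp, hq⟩, rfl⟩

open Classical in
theorem fg_nd_eq {d : ℕ} (P : Finset (EuclideanSpace ℝ (Fin d))) :
    nd (P.image fun p => p.ofLp) =
      Set.ncard {r : ℝ | ∃ p ∈ P, ∃ q ∈ P, p ≠ q ∧ r = dist p q} := by
  have hd : ∀ p q : EuclideanSpace ℝ (Fin d), dist p q = √(sqd p.ofLp q.ofLp) := by
    intro p q
    rw [EuclideanSpace.dist_eq]
    simp only [Real.dist_eq, sq_abs, sqd]
  have hn : ∀ a b : Fin d → ℝ, 0 ≤ sqd a b := fun a b => Finset.sum_nonneg fun k _ => sq_nonneg _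
  unfold nd
  rw [← Set.ncard_coe_finset, ← Set.InjOn.ncard_image (f := Real.sqrt)]
  · congr 1
    ext r
    constructor
    · rintro ⟨s, hs, rfl⟩
      obtain ⟨a, ha, b, hb, hab, rfl⟩ := fg_mem.1 (Finset.mem_coe.1 hs)
      obtain ⟨p, hp, rfl⟩ := Finset.mem_image.1 ha
      obtain ⟨q, hq, rfl⟩ := Finset.mem_image.1 hb
      exact ⟨p, hp, q, hq, fun h => hab (congrArg _ h), (hd p q).symm⟩
    · rintro ⟨p, hp, q, hq, hpq, rfl⟩
      exact ⟨_, Finset.mem_coe.2 (fg_mem.2 ⟨_, Finset.mem_image_of_mem _ hp, _,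
        Finset.mem_image_of_mem _ hq, fun h => hpq (WithLp.ofLp_injective 2 h), rfl⟩),
        (hd p q).symm⟩
  · intro r hr s hs hrs
    obtain ⟨a, -, b, -, -, rfl⟩ := fg_mem.1 (Finset.mem_coe.1 hr)
    obtain ⟨a', -, b', -, -, rfl⟩ := fg_mem.1 (Finset.mem_coe.1 hs)
    exact (Real.sqrt_inj (hn _ _) (hn _ _)).1 hrs

theorem distB_two {β : ℝ} (hβ : β < 1) : DistB 2 β := by
  classical
  obtain ⟨n0, h⟩ := Vale.Agent.P041.weak_pinned (1 - β) (by linarith)
  refine distB_of_large one_pos n0 fun Q hQ => ?_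
  let P : Finset (EuclideanSpace ℝ (Fin 2)) := Q.image (WithLp.toLp 2)
  have hc : P.card = Q.card := Finset.card_image_of_injective _ (WithLp.toLp_injective 2)
  have hPQ : (P.image fun p => p.ofLp) = Q := by
    ext a
    simp [P]
  obtain ⟨x, hx, h1⟩ := h P (hc ▸ hQ)
  have h2 := fg_nd_eq P
  have h3 : nd Q = Set.ncard {r : ℝ | ∃ p ∈ P, ∃ q ∈ P, p ≠ q ∧ r = dist p q} := by
    rw [← h2]
    congr 1
    convert hPQ.symm
  rw [one_mul, h3, ← hc]
  rw [sub_sub_cancel] at h1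
  refine h1.trans (Nat.cast_le.2 (Set.ncard_le_ncard ?_ (fg_dist_finite P)))
  rintro r ⟨y, ⟨hy, hyx⟩, rfl⟩
  exact ⟨y, hy, x, hx, hyx, (dist_eq_norm y x).symm⟩

theorem fg_cs {α γ : Type} [DecidableEq γ] (s : Finset α) (t : Finset γ) (f : α → γ)
    (hf : ∀ a ∈ s, f a ∈ t) :
    s.card ^ 2 ≤ t.card * ((s ×ˢ s).filter fun z => f z.1 = f z.2).card := by
  have h1 : s.card = ∑ r ∈ t, (s.filter fun a => f a = r).card :=
    Finset.card_eq_sum_card_fiberwise hf
  have h2 : ((s ×ˢ s).filter fun z => f z.1 = f z.2).card =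
      ∑ r ∈ t, (s.filter fun a => f a = r).card ^ 2 := by
    rw [Finset.card_eq_sum_card_fiberwise (f := fun z : α × α => f z.1) (t := t)
      (fun z hz => hf _ (Finset.mem_product.1 (Finset.mem_filter.1 hz).1).1)]
    refine Finset.sum_congr rfl fun r _ => ?_
    rw [sq, ← Finset.card_product]
    congr 1
    ext z
    simp only [Finset.mem_filter, Finset.mem_product]
    constructor
    · rintro ⟨⟨⟨h1, h2⟩, h3⟩, h4⟩
      exact ⟨⟨h1, h4⟩, h2, h3.symm.trans h4⟩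
    · rintro ⟨⟨h1, h2⟩, h3, h4⟩
      exact ⟨⟨⟨h1, h3⟩, h2.trans h4.symm⟩, h2⟩
  rw [h2]
  conv_lhs => rw [h1]
  exact sq_sum_le_card_mul_sum_sq

theorem fg_bisector {σ : Type} [Fintype σ] (P : Finset (σ → ℝ)) {H : ℝ} (hH : HypB P H)
    (h0 : 0 ≤ H) (hP : 0 < P.card) : (P.card : ℝ) ≤ ((nd P : ℝ) + 1) * (1 + H) := by
  classical
  obtain ⟨R, hR, -, hR2⟩ := exists_dist_sep P
  have hn : (0 : ℝ) < P.card := by exact_mod_cast hP
  have h1 : ∀ x ∈ P, (P.card : ℝ) ^ 2 ≤ ((nd P : ℝ) + 1) *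
      ∑ z ∈ P ×ˢ P, if sqd x z.1 = sqd x z.2 then (1 : ℝ) else 0 := by
    intro x hx
    have h2 := fg_cs P (insert 0 R) (sqd x) fun a ha => by
      by_cases hxa : x = a
      · rw [sqd_eq_zero.2 hxa]
        exact Finset.mem_insert_self _ _
      · exact Finset.mem_insert_of_mem (hR2 x hx a ha hxa)
    have h3 : (insert 0 R).card ≤ nd P + 1 := hR ▸ Finset.card_insert_le _ _
    rw [Finset.sum_boole]
    exact_mod_cast h2.trans (Nat.mul_le_mul_right _ h3)
  have h2 : ∀ z ∈ P ×ˢ P, (∑ x ∈ P, if sqd x z.1 = sqd x z.2 then (1 : ℝ) else 0) ≤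
      (if z.1 = z.2 then (P.card : ℝ) else 0) + H := by
    intro z _
    rw [Finset.sum_boole]
    split_ifs with hz
    · have : ((P.filter fun x => sqd x z.1 = sqd x z.2).card : ℝ) ≤ P.card := by
        exact_mod_cast Finset.card_filter_le _ _
      linarith
    · rw [zero_add]
      refine hH (fun k => 2 * (z.1 k - z.2 k)) (∑ k, (z.1 k ^ 2 - z.2 k ^ 2)) _ (fun h => hz ?_)
        (Finset.filter_subset _ _) fun x hx => ?_
      · funext k
        have := congrFun h k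
        simp only [Pi.zero_apply] at this
        linarith
      · have h3 := (Finset.mem_filter.1 hx).2
        unfold sqd at h3
        rw [← sub_eq_zero, ← Finset.sum_sub_distrib] at h3 ⊢
        rw [← neg_eq_zero, ← Finset.sum_neg_distrib, ← h3]
        exact Finset.sum_congr rfl fun k _ => by ring
  have h3 := Finset.sum_le_sum h1
  rw [Finset.sum_const, nsmul_eq_mul, ← Finset.mul_sum, Finset.sum_comm] at h3
  have h4 := Finset.sum_le_sum h2
  have h5 : (∑ z ∈ P ×ˢ P, if z.1 = z.2 then (P.card : ℝ) else 0) = P.card * P.card := by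
    rw [Finset.sum_product]
    rw [Finset.sum_congr rfl fun a ha => (Finset.sum_ite_eq P a fun _ => (P.card : ℝ)).trans
      (if_pos ha), Finset.sum_const, nsmul_eq_mul]
  rw [Finset.sum_add_distrib, h5, Finset.sum_const, nsmul_eq_mul, Finset.card_product,
    Nat.cast_mul] at h4
  have h6 := h3.trans (mul_le_mul_of_nonneg_left h4 (by positivity))
  refine le_of_mul_le_mul_right ?_ (mul_pos hn hn)
  calc (P.card : ℝ) * (P.card * P.card) = P.card * P.card ^ 2 := by ring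
    _ ≤ _ := h6
    _ = _ := by ring

/-- the bisector argument. -/
theorem distB_succ {d : ℕ} {β : ℝ} (hβ : 0 < β) (h : DistB d β) : DistB (d + 1) (β / (1 + β)) := by
  obtain ⟨C, hC, hH⟩ := hyp_bound hβ h
  have hγ : 0 < β / (1 + β) := by positivity
  have hβ' : 0 < 1 / β := one_div_pos.2 hβ
  refine ⟨1 / (2 * (2 * C) ^ (β / (1 + β))), by positivity, fun P hP => ?_⟩
  have hD : (1 : ℝ) ≤ nd P := by exact_mod_cast one_le_nd hP
  have h1 : (1 : ℝ) ≤ ((nd P : ℝ) + 1) ^ (1 / β) := Real.one_le_rpow (by linarith) hβ'.le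
  have h2 := fg_bisector P (hH P) (by positivity) (by omega)
  have h3 : (P.card : ℝ) ≤ 2 * C * ((nd P : ℝ) + 1) ^ (1 + 1 / β) := by
    rw [Real.rpow_add (by positivity), Real.rpow_one]
    have h4 := one_le_mul_of_one_le_of_one_le hC h1
    calc (P.card : ℝ) ≤ _ := h2
      _ ≤ ((nd P : ℝ) + 1) * (2 * (C * ((nd P : ℝ) + 1) ^ (1 / β))) :=
        mul_le_mul_of_nonneg_left (by linarith) (by positivity)
      _ = _ := by ring
  have h4 := Real.rpow_le_rpow (Nat.cast_nonneg _) h3 hγ.le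
  have h5 : (1 + 1 / β) * (β / (1 + β)) = 1 := by
    field_simp
    ring
  rw [Real.mul_rpow (by positivity) (by positivity), ← Real.rpow_mul (by positivity), h5,
    Real.rpow_one] at h4
  rw [one_div, ← div_eq_inv_mul, div_le_iff₀ (by positivity)]
  have h6 : (0 : ℝ) ≤ (2 * C) ^ (β / (1 + β)) := by positivity
  nlinarith

/-- comparison with the Euclidean distance. -/
theorem ncard_dist_eq {d : ℕ} (P : Finset (EuclideanSpace ℝ (Fin d))) :
    ∃ Q : Finset (Fin d → ℝ), Q.card = P.card ∧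
      nd Q = Set.ncard {r : ℝ | ∃ p ∈ P, ∃ q ∈ P, p ≠ q ∧ r = dist p q} := by
  classical
  exact ⟨_, Finset.card_image_of_injective _ (WithLp.ofLp_injective 2), fg_nd_eq P⟩

end

end Vale.Agent.P054
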