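import Vale.Agent.P054.FinGeom

namespace Vale.Agent.P054

open MvPolynomial

noncomputable section

open Classical in
/-- a graph with many edges has a subgraph of large minimum degree. -/
theorem exists_min_degree {V : Type} (S : Finset V) (Γ : Finset (V × V)) (k : ℝ) (hk : 0 ≤ k)
    (hΓ : ∀ x ∈ Γ, x.1 ∈ S ∧ x.2 ∈ S ∧ (x.2, x.1) ∈ Γ) (h : 2 * k * S.card < Γ.card) :
    ∃ T : Finset V, T ⊆ S ∧ T.Nonempty ∧
      ∀ v ∈ T, k < ((T.filter fun w => (v, w) ∈ Γ).card : ℝ) := by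
  induction S using Finset.strongInduction generalizing Γ with
  | H S ih =>
  by_cases hall : ∀ v ∈ S, k < ((S.filter fun w => (v, w) ∈ Γ).card : ℝ)
  · refine ⟨S, le_rfl, ?_, hall⟩
    have h0 : (0 : ℝ) < Γ.card := lt_of_le_of_lt (by positivity) h
    obtain ⟨x, hx⟩ := Finset.card_pos.1 (Nat.cast_pos.1 h0)
    exact ⟨x.1, (hΓ x hx).1⟩
  · push Not at hall
    obtain ⟨v, hv, hdeg⟩ := hall
    have h1 : (Γ.filter fun x => x.1 = v).card ≤ (S.filter fun w => (v, w) ∈ Γ).card := by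
      refine Finset.card_le_card_of_injOn (fun x => x.2) (fun x hx => ?_) (fun x hx y hy e => ?_)
      · obtain ⟨a, b⟩ := Finset.mem_filter.1 (Finset.mem_coe.1 hx)
        refine Finset.mem_coe.2 (Finset.mem_filter.2 ⟨(hΓ x a).2.1, ?_⟩)
        rw [← b]
        exact a
      · exact Prod.ext ((Finset.mem_filter.1 (Finset.mem_coe.1 hx)).2.trans
          (Finset.mem_filter.1 (Finset.mem_coe.1 hy)).2.symm) e
    have h2 : (Γ.filter fun x => x.2 = v).card ≤ (S.filter fun w => (v, w) ∈ Γ).card := by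
      refine Finset.card_le_card_of_injOn (fun x => x.1) (fun x hx => ?_) (fun x hx y hy e => ?_)
      · obtain ⟨a, b⟩ := Finset.mem_filter.1 (Finset.mem_coe.1 hx)
        refine Finset.mem_coe.2 (Finset.mem_filter.2 ⟨(hΓ x a).1, ?_⟩)
        rw [← b]
        exact (hΓ x a).2.2
      · exact Prod.ext e ((Finset.mem_filter.1 (Finset.mem_coe.1 hx)).2.trans
          (Finset.mem_filter.1 (Finset.mem_coe.1 hy)).2.symm)
    have h3 : Γ.card ≤ (Γ.filter fun x => x.1 ≠ v ∧ x.2 ≠ v).card +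
        ((Γ.filter fun x => x.1 = v).card + (Γ.filter fun x => x.2 = v).card) := by
      refine le_trans (Finset.card_le_card (t := (Γ.filter fun x => x.1 ≠ v ∧ x.2 ≠ v) ∪
        ((Γ.filter fun x => x.1 = v) ∪ (Γ.filter fun x => x.2 = v))) fun x hx => ?_)
        ((Finset.card_union_le _ _).trans (Nat.add_le_add_left (Finset.card_union_le _ _) _))
      simp only [Finset.mem_union, Finset.mem_filter, hx, true_and]
      tauto
    have h4 : (S.card : ℝ) = (S.erase v).card + 1 := by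
      exact_mod_cast (Finset.card_erase_add_one hv).symm
    obtain ⟨T, t1, t2, t3⟩ := ih (S.erase v) (Finset.erase_ssubset hv)
      (Γ.filter fun x => x.1 ≠ v ∧ x.2 ≠ v) (fun x hx => by
        obtain ⟨a, b, c⟩ := Finset.mem_filter.1 hx
        exact ⟨Finset.mem_erase.2 ⟨b, (hΓ x a).1⟩, Finset.mem_erase.2 ⟨c, (hΓ x a).2.1⟩,
          Finset.mem_filter.2 ⟨(hΓ x a).2.2, c, b⟩⟩) (by
        have a1 : ((Γ.filter fun x => x.1 = v).card : ℝ) ≤ k := (Nat.cast_le.2 h1).trans hdeg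
        have a2 : ((Γ.filter fun x => x.2 = v).card : ℝ) ≤ k := (Nat.cast_le.2 h2).trans hdeg
        have a3 : (Γ.card : ℝ) ≤ (Γ.filter fun x => x.1 ≠ v ∧ x.2 ≠ v).card +
          (((Γ.filter fun x => x.1 = v).card : ℝ) + (Γ.filter fun x => x.2 = v).card) := by
          exact_mod_cast h3
        rw [h4] at h
        linarith)
    refine ⟨T, t1.trans (Finset.erase_subset _ _), t2, fun w hw => (t3 w hw).trans_le ?_⟩
    refine Nat.cast_le.2 (Finset.card_le_card fun u hu => ?_)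
    obtain ⟨a, b⟩ := Finset.mem_filter.1 hu
    exact Finset.mem_filter.2 ⟨a, (Finset.mem_filter.1 b).1⟩

theorem finGraph_cs0 {α β : Type} [DecidableEq β] (G : Finset α) (f : α → β) (R : Finset β)
    (hm : ∀ x ∈ G, f x ∈ R) :
    (G.card : ℝ) ^ 2 ≤ R.card * (((G ×ˢ G).filter fun w => f w.1 = f w.2).card : ℝ) := by
  have h1 : G.card = ∑ r ∈ R, (G.filter fun x => f x = r).card :=
    Finset.card_eq_sum_card_fiberwise fun x hx => Finset.mem_coe.2 (hm x (Finset.mem_coe.1 hx))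
  have h2 : ((G ×ˢ G).filter fun w => f w.1 = f w.2).card =
      ∑ r ∈ R, (G.filter fun x => f x = r).card ^ 2 := by
    have h3 : ((G ×ˢ G).filter fun w => f w.1 = f w.2).card =
        ∑ r ∈ R, (((G ×ˢ G).filter fun w => f w.1 = f w.2).filter fun w => f w.1 = r).card :=
      Finset.card_eq_sum_card_fiberwise fun w hw => Finset.mem_coe.2 (hm _ (Finset.mem_product.1
        (Finset.mem_filter.1 (Finset.mem_coe.1 hw)).1).1)
    rw [h3]
    refine Finset.sum_congr rfl fun r _ => ?_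
    rw [sq, ← Finset.card_product]
    refine congrArg Finset.card (Finset.ext fun w => ?_)
    simp only [Finset.mem_filter, Finset.mem_product]
    constructor
    · rintro ⟨⟨⟨a, b⟩, c⟩, e⟩
      exact ⟨⟨a, e⟩, b, c.symm.trans e⟩
    · rintro ⟨⟨a, b⟩, c, e⟩
      exact ⟨⟨⟨a, c⟩, b.trans e.symm⟩, b⟩
  rw [h1, h2]
  push_cast
  exact sq_sum_le_card_mul_sum_sq

open Classical in
theorem finGraph_cs {σ : Type} [Fintype σ] (P : Finset (σ → ℝ))
    (G : Finset ((σ → ℝ) × (σ → ℝ))) (hG : ∀ x ∈ G, x.1 ∈ P ∧ x.2 ∈ P ∧ x.1 ≠ x.2) :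
    (G.card : ℝ) ^ 2 ≤ nd P *
      (((G ×ˢ G).filter fun w => sqd w.1.1 w.1.2 = sqd w.2.1 w.2.2).card : ℝ) :=
  finGraph_cs0 G (fun x => sqd x.1 x.2) _ fun x hx =>
    Finset.mem_image.2 ⟨x, Finset.mem_filter.2 ⟨Finset.mem_product.2
      ⟨(hG x hx).1, (hG x hx).2.1⟩, (hG x hx).2.2⟩, rfl⟩

open Classical in
/-- Cauchy-Schwarz count of distance quadruples. -/
theorem quad_count {σ : Type} [Fintype σ] (P : Finset (σ → ℝ)) (G : Finset ((σ → ℝ) × (σ → ℝ)))
    (hG : ∀ x ∈ G, x.1 ∈ P ∧ x.2 ∈ P ∧ x.1 ≠ x.2) :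
    (G.card : ℝ) ^ 2 ≤ nd P * (((((P ×ˢ P) ×ˢ (P ×ˢ P)).filter fun z =>
      (z.1.1, z.2.1) ∈ G ∧ sqd z.1.1 z.2.1 = sqd z.1.2 z.2.2 ∧
        (fun k => z.2.2 k - z.2.1 k) ≠ fun k => z.1.2 k - z.1.1 k).card : ℝ) + (P.card : ℝ) ^ 3) := by
  refine (finGraph_cs P G hG).trans (mul_le_mul_of_nonneg_left ?_ (Nat.cast_nonneg _))
  set Q := (G ×ˢ G).filter fun w => sqd w.1.1 w.1.2 = sqd w.2.1 w.2.2 with hQ
  have hQ' : ∀ w ∈ Q, w.1 ∈ G ∧ w.2 ∈ G ∧ sqd w.1.1 w.1.2 = sqd w.2.1 w.2.2 := fun w hw => by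
    obtain ⟨a, b⟩ := Finset.mem_filter.1 hw
    exact ⟨(Finset.mem_product.1 a).1, (Finset.mem_product.1 a).2, b⟩
  rw [← Finset.card_filter_add_card_filter_not (s := Q)
    (fun w => (fun k => w.2.2 k - w.1.2 k) ≠ fun k => w.2.1 k - w.1.1 k), Nat.cast_add]
  refine add_le_add (Nat.cast_le.2 ?_) ?_
  · refine Finset.card_le_card_of_injOn (fun w => ((w.1.1, w.2.1), (w.1.2, w.2.2)))
      (fun w hw => ?_) (fun w _ w' _ e => ?_)
    · obtain ⟨a, b⟩ := Finset.mem_filter.1 (Finset.mem_coe.1 hw)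
      obtain ⟨c1, c2, c3⟩ := hQ' w a
      refine Finset.mem_coe.2 (Finset.mem_filter.2 ⟨?_, c1, c3, b⟩)
      exact Finset.mem_product.2 ⟨Finset.mem_product.2 ⟨(hG _ c1).1, (hG _ c2).1⟩,
        Finset.mem_product.2 ⟨(hG _ c1).2.1, (hG _ c2).2.1⟩⟩
    · simp only [Prod.mk.injEq] at e
      exact Prod.ext (Prod.ext e.1.1 e.2.1) (Prod.ext e.1.2 e.2.2)
  · have e3 : (P.card : ℝ) ^ 3 = ((P ×ˢ P) ×ˢ P).card := by
      rw [Finset.card_product, Finset.card_product]
      push_cast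
      ring
    rw [e3]
    refine Nat.cast_le.2 (Finset.card_le_card_of_injOn (fun w => ((w.1.1, w.2.1), w.1.2))
      (fun w hw => ?_) (fun w hw w' hw' e => ?_))
    · obtain ⟨c1, c2, -⟩ := hQ' w (Finset.mem_filter.1 (Finset.mem_coe.1 hw)).1
      exact Finset.mem_coe.2 (Finset.mem_product.2
        ⟨Finset.mem_product.2 ⟨(hG _ c1).1, (hG _ c2).1⟩, (hG _ c1).2.1⟩)
    · have a := not_not.1 (Finset.mem_filter.1 (Finset.mem_coe.1 hw)).2
      have a' := not_not.1 (Finset.mem_filter.1 (Finset.mem_coe.1 hw')).2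
      simp only [Prod.mk.injEq] at e
      refine Prod.ext (Prod.ext e.1.1 e.2) (Prod.ext e.1.2 (funext fun k => ?_))
      have b := congrFun a k
      have b' := congrFun a' k
      have c1 := congrFun e.1.1 k
      have c2 := congrFun e.1.2 k
      have c3 := congrFun e.2 k
      linarith

theorem nrm_hat {d : ℕ} (x : (Fin d → ℝ) × (Fin d → ℝ)) : Nrm 0 (hat x) := by
  refine ⟨rfl, ?_⟩
  simp only [Nul, hat, Fin.sum_univ_succ, Sum.elim_inl, Sum.elim_inr, Fin.cons_zero, Fin.cons_succ]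
  push_cast
  ring

theorem bil_hat {d : ℕ} (x y : (Fin d → ℝ) × (Fin d → ℝ)) :
    bil (hat x) (hat y) = ((sqd x.1 y.1 - sqd x.2 y.2 : ℝ) : ℂ) := by
  simp only [bil, hat, sqd, Fin.sum_univ_succ, Sum.elim_inl, Sum.elim_inr, Fin.cons_zero,
    Fin.cons_succ]
  push_cast
  rw [one_mul, one_mul, ← Finset.sum_neg_distrib, ← Finset.sum_neg_distrib,
    ← Finset.sum_add_distrib, ← Finset.sum_add_distrib, ← Finset.sum_sub_distrib]
  exact Finset.sum_congr rfl fun k _ => by ring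

theorem hat_injective {d : ℕ} : Function.Injective (hat (d := d)) := by
  intro x y e
  have h1 : ∀ k, x.2 k - x.1 k = y.2 k - y.1 k := fun k => by
    have := congrFun e (Sum.inl k.succ)
    simp only [hat, Sum.elim_inl, Fin.cons_succ] at this
    exact_mod_cast this
  have h2 : ∀ k, x.2 k + x.1 k = y.2 k + y.1 k := fun k => by
    have := congrFun e (Sum.inr k.succ)
    simp only [hat, Sum.elim_inr, Fin.cons_succ] at this
    exact_mod_cast this
  exact Prod.ext (funext fun k => by linarith [h1 k, h2 k]) (funext fun k => by linarith [h1 k, h2 k])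

theorem finGraph_sep {d : ℕ} {τ : Type} (A : Fin d → MvPolynomial τ ℂ)
    (hA : ∀ k, (A k).totalDegree ≤ 1) (a0 : Fin d → ℝ) (R : Finset ℝ) :
    ∃ F : MvPolynomial τ ℂ, F.totalDegree ≤ 2 * R.card ∧ ∀ (c : τ → ℂ) (a : Fin d → ℝ),
      (∀ k, aeval c (A k) = (a k : ℂ)) → aeval c F = ((∏ r ∈ R, (sqd a a0 - r) : ℝ) : ℂ) := by
  refine ⟨∏ r ∈ R, (∑ k, (A k - C (a0 k : ℂ)) ^ 2 - C (r : ℂ)), ?_, fun c a ha => ?_⟩
  · refine (totalDegree_finsetProd _ _).trans ?_
    rw [mul_comm, ← smul_eq_mul]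
    refine Finset.sum_le_card_nsmul _ _ _ fun r _ => (totalDegree_sub _ _).trans (max_le ?_ (by simp))
    refine totalDegree_finsetSum_le fun k _ => (totalDegree_pow _ _).trans ?_
    have : (A k - C (a0 k : ℂ)).totalDegree ≤ 1 :=
      (totalDegree_sub _ _).trans (max_le (hA k) (by simp))
    omega
  · simp only [map_prod, map_sub, map_sum, map_pow, ha, aeval_C, sqd, Algebra.algebraMap_self,
      RingHom.id_apply]
    push_cast
    rfl

theorem finGraph_par {β : Type} [Fintype β] (U0 : Submodule ℂ (β → ℂ)) (η : β → ℂ) :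
    ∃ ψ : β → MvPolynomial (Fin (Module.finrank ℂ U0)) ℂ, (∀ j, (ψ j).totalDegree ≤ 1) ∧
      ∀ ξ : β → ℂ, ξ - η ∈ U0 → ∃ c : Fin (Module.finrank ℂ U0) → ℂ,
        ∀ j, aeval c (ψ j) = ξ j := by
  let b := Module.finBasis ℂ U0
  refine ⟨fun j => C (η j) + ∑ i, C ((b i : β → ℂ) j) * X i, fun j => ?_, fun ξ hξ => ?_⟩
  · refine (totalDegree_add _ _).trans (max_le (by simp) (totalDegree_finsetSum_le fun i _ => ?_))
    refine (totalDegree_mul _ _).trans ?_
    simp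
  · refine ⟨b.repr ⟨_, hξ⟩, fun j => ?_⟩
    have h := congrFun (congrArg Subtype.val (b.sum_repr ⟨_, hξ⟩)) j
    simp only [Submodule.coe_sum, Submodule.coe_smul, Finset.sum_apply, Pi.smul_apply, smul_eq_mul,
      Pi.sub_apply] at h
    simp only [map_add, map_sum, map_mul, aeval_C, aeval_X, Algebra.algebraMap_self,
      RingHom.id_apply]
    rw [Finset.sum_congr rfl fun i _ => mul_comm _ _, h]
    ring

/-- pairs of points whose null vectors lie in a small subspace. -/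
theorem special_count (d : ℕ) (hd : 1 ≤ d) : ∃ C : ℝ, 0 < C ∧ ∀ (P : Finset (Fin d → ℝ))
    (U : Submodule ℂ (Fin (d + 1) ⊕ Fin (d + 1) → ℂ)) (N : Finset ((Fin d → ℝ) × (Fin d → ℝ))),
    Module.finrank ℂ U ≤ d + 1 → (∀ x ∈ N, x.1 ∈ P ∧ x.2 ∈ P ∧ hat x ∈ U) →
    (∀ x ∈ N, ∀ y ∈ N, sqd x.1 y.1 = sqd x.2 y.2) ∨
      (N.card : ℝ) ≤ C * ((nd P : ℝ) + 1) ^ (d - 1) := by
  refine ⟨2 ^ d * 2 ^ d * 2 * 4 ^ (d - 1), by positivity, fun P U N hU hN => ?_⟩
  by_cases h0 : ∀ x ∈ N, ∀ y ∈ N, sqd x.1 y.1 = sqd x.2 y.2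
  · exact Or.inl h0
  right
  push Not at h0
  obtain ⟨x, hx, y, hy, hxy⟩ := h0
  set U0 : Submodule ℂ (Fin (d + 1) ⊕ Fin (d + 1) → ℂ) :=
    U ⊓ LinearMap.ker (LinearMap.proj (Sum.inl 0)) with hU0
  have hm : Module.finrank ℂ U0 ≤ d := by
    have : U0 < U := lt_of_le_of_ne inf_le_left fun e => by
      have h1 : hat x ∈ U0 := e ▸ (hN x hx).2.2
      have h2 : hat x (Sum.inl 0) = 0 := h1.2
      exact one_ne_zero ((nrm_hat x).1.symm.trans h2)
    have := Submodule.finrank_lt_finrank_of_lt this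
    omega
  obtain ⟨ψ, hψ, hpar⟩ := finGraph_par U0 (hat x)
  have hmem : ∀ z ∈ N, hat z - hat x ∈ U0 := fun z hz =>
    ⟨U.sub_mem (hN z hz).2.2 (hN x hx).2.2, by
      change hat z (Sum.inl 0) - hat x (Sum.inl 0) = 0
      rw [(nrm_hat z).1, (nrm_hat x).1, sub_self]⟩
  have hc : ∀ z : (Fin d → ℝ) × (Fin d → ℝ), ∃ c : Fin (Module.finrank ℂ U0) → ℂ, z ∈ N →
      ∀ j, aeval c (ψ j) = hat z j := fun z => by
    by_cases hz : z ∈ N
    · obtain ⟨c, hc⟩ := hpar _ (hmem z hz)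
      exact ⟨c, fun _ => hc⟩
    · exact ⟨0, fun h => (hz h).elim⟩
  choose c hc using hc
  set Q : MvPolynomial (Fin (Module.finrank ℂ U0)) ℂ := ∑ i, ψ (Sum.inl i) * ψ (Sum.inr i) with hQ
  have hQ0 : Q ≠ 0 := by
    intro e
    obtain ⟨c', hc'⟩ := hpar ((2 : ℂ)⁻¹ • (hat y - hat x) + hat x) (by
      rw [add_sub_cancel_right]
      exact U0.smul_mem _ (hmem y hy))
    have h1 : aeval c' Q = 0 := by rw [e, map_zero]
    simp only [hQ, map_sum, map_mul, hc', Pi.add_apply, Pi.smul_apply, Pi.sub_apply,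
      smul_eq_mul] at h1
    have h2 := (nrm_hat x).2
    have h3 := (nrm_hat y).2
    have h4 := bil_hat x y
    unfold Nul at h2 h3
    unfold bil at h4
    have h5 : ((sqd x.1 y.1 - sqd x.2 y.2 : ℝ) : ℂ) = 4 * 0 - 0 - 0 := by
      rw [← h4]
      nth_rewrite 3 [← h3]
      nth_rewrite 2 [← h2]
      rw [← h1, Finset.mul_sum, ← Finset.sum_sub_distrib, ← Finset.sum_sub_distrib]
      exact Finset.sum_congr rfl fun i _ => by ring
    apply hxy
    have h6 : sqd x.1 y.1 - sqd x.2 y.2 = 0 := by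
      rw [mul_zero, sub_zero, sub_zero] at h5
      exact_mod_cast h5
    linarith
  have hQd : Q.totalDegree ≤ 2 := totalDegree_finsetSum_le fun i _ =>
    (totalDegree_mul _ _).trans (by have := hψ (Sum.inl i); have := hψ (Sum.inr i); omega)
  have hQm : Q ∈ ⨅ z ∈ N, kr ℂ (c z) := by
    simp only [Ideal.mem_iInf, mem_kr, hQ, map_sum, map_mul]
    intro z hz
    simp only [hc z hz]
    exact (nrm_hat z).2
  have hb0 : HB (⊥ : Ideal (MvPolynomial (Fin (Module.finrank ℂ U0)) ℂ)) (2 ^ d) (d - 1 + 1) := by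
    have h1 := hb_card (⊥ : Ideal (MvPolynomial (Fin (Module.finrank ℂ U0)) ℂ))
    rw [Fintype.card_fin] at h1
    exact (h1.of_le (by omega)).mono le_rfl (pow_le_pow_right₀ (by norm_num) hm)
  have hb1 := hb_cut (I' := ⨅ z ∈ N, kr ℂ (c z)) (δ := 2) bot_le hQm
    (fun f hf => (mul_eq_zero.1 hf).resolve_left hQ0) (by exact_mod_cast hQd) (by norm_num) hb0
  obtain ⟨R, r1, r2, r3⟩ := exists_dist_sep P
  have hsep := card_le_hf_of_sep N c (4 * (nd P + 1)) fun z hz => by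
    obtain ⟨F, f1, f2⟩ := finGraph_sep
      (fun k => C (2 : ℂ)⁻¹ * (ψ (Sum.inr k.succ) - ψ (Sum.inl k.succ))) (fun k => by
        refine (totalDegree_mul _ _).trans ?_
        rw [totalDegree_C, zero_add]
        exact (totalDegree_sub _ _).trans (max_le (hψ _) (hψ _))) z.1 R
    obtain ⟨F', f1', f2'⟩ := finGraph_sep
      (fun k => C (2 : ℂ)⁻¹ * (ψ (Sum.inr k.succ) + ψ (Sum.inl k.succ))) (fun k => by
        refine (totalDegree_mul _ _).trans ?_
        rw [totalDegree_C, zero_add]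
        exact (totalDegree_add _ _).trans (max_le (hψ _) (hψ _))) z.2 R
    have e : ∀ w ∈ N, aeval (c w) (F * F') =
        (((∏ r ∈ R, (sqd w.1 z.1 - r)) * ∏ r ∈ R, (sqd w.2 z.2 - r) : ℝ) : ℂ) := fun w hw => by
      rw [map_mul, f2 (c w) w.1 fun k => ?_, f2' (c w) w.2 fun k => ?_, Complex.ofReal_mul]
      · simp only [map_mul, map_add, aeval_C, hc w hw, hat, Sum.elim_inl, Sum.elim_inr,
          Fin.cons_succ, Algebra.algebraMap_self, RingHom.id_apply]
        push_cast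
        ring
      · simp only [map_mul, map_sub, aeval_C, hc w hw, hat, Sum.elim_inl, Sum.elim_inr,
          Fin.cons_succ, Algebra.algebraMap_self, RingHom.id_apply]
        push_cast
        ring
    refine ⟨F * F', (totalDegree_mul _ _).trans (by omega), ?_, fun w hw hne => ?_⟩
    · rw [e z hz, sqd_eq_zero.2 rfl, sqd_eq_zero.2 rfl, Complex.ofReal_ne_zero]
      have : ∏ r ∈ R, (0 - r) ≠ 0 := Finset.prod_ne_zero_iff.2 fun r hr => by
        rw [zero_sub]
        exact neg_ne_zero.2 (r2 r hr)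
      exact mul_ne_zero this this
    · rw [e w hw, Complex.ofReal_eq_zero, mul_eq_zero]
      by_cases h1 : w.1 = z.1
      · exact Or.inr (Finset.prod_eq_zero (r3 _ (hN w hw).2.1 _ (hN z hz).2.1
          fun h2 => hne (Prod.ext h1 h2)) (sub_self _))
      · exact Or.inl (Finset.prod_eq_zero (r3 _ (hN w hw).1 _ (hN z hz).1 h1) (sub_self _))
  have h7 := hb1 (4 * (nd P + 1)) (by omega)
  refine (Nat.cast_le.2 hsep).trans (h7.trans_eq ?_)
  rw [Nat.sub_add_cancel hd]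
  push_cast
  rw [mul_pow]
  ring

end

end Vale.Agent.P054
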