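import Vale.Agent.P054.Induct

namespace Vale.Agent.P054

open MvPolynomial

noncomputable section

theorem thmC_hsep_mono {K Λ β : Type} [Field K] {S : Finset Λ} {x : Λ → β → K} {X X' : ℝ}
    (h : HSep S x X) (hX : X ≤ X') : HSep S x X' := by
  intro a ha
  obtain ⟨m, F, h1, h2⟩ := h a ha
  exact ⟨m, F, h1.trans hX, h2⟩

/-- representatives of the fibres of a map with small fibres. -/
theorem thmC_reps {Λ β : Type} (R : Finset Λ) (f : Λ → β) (μ : ℝ)
    (h : ∀ b ∈ R, ∀ T : Finset Λ, T ⊆ R → (∀ a ∈ T, f a = f b) → (T.card : ℝ) ≤ μ) :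
    ∃ R' : Finset Λ, R' ⊆ R ∧ Set.InjOn f R' ∧ (R.card : ℝ) ≤ μ * R'.card := by
  classical
  have h1 : ∀ y ∈ R.image f, ∃ a ∈ R, f a = y := fun y hy => Finset.mem_image.mp hy
  choose! r hr hfr using fun y : {y // y ∈ R.image f} => h1 y.1 y.2
  have hinj : Function.Injective r := fun y z hyz => Subtype.ext (by rw [← hfr y, ← hfr z, hyz])
  refine ⟨Finset.univ.image r, ?_, ?_, ?_⟩
  · intro a ha
    obtain ⟨y, _, rfl⟩ := Finset.mem_image.mp ha
    exact hr y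
  · intro a ha b hb hab
    obtain ⟨y, _, rfl⟩ := Finset.mem_image.mp (Finset.mem_coe.mp ha)
    obtain ⟨z, _, rfl⟩ := Finset.mem_image.mp (Finset.mem_coe.mp hb)
    rw [hfr, hfr] at hab
    rw [Subtype.ext hab]
  · rw [Finset.card_image_of_injective _ hinj, Finset.card_univ, Fintype.card_coe,
      Finset.card_eq_sum_card_image f R]
    push_cast
    rw [mul_comm, ← nsmul_eq_mul]
    refine Finset.sum_le_card_nsmul _ _ _ fun y hy => ?_
    obtain ⟨b, hb, rfl⟩ := Finset.mem_image.mp hy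
    exact h b hb _ (Finset.filter_subset _ _) fun a ha => (Finset.mem_filter.mp ha).2

theorem thmC_card_rel {α : Type} (P : Finset α) (r : α → α → Prop) [∀ a b, Decidable (r a b)] :
    (((P ×ˢ P).filter fun x => r x.1 x.2).card : ℝ) = ∑ a ∈ P, ((P.filter (r a)).card : ℝ) := by
  rw [Finset.card_filter, Finset.sum_product]
  push_cast
  refine Finset.sum_congr rfl fun a _ => ?_
  rw [Finset.card_filter]
  push_cast
  rfl

theorem thmC_fp_ge {δ : ℕ → ℝ} (h1 : ∀ i, 1 ≤ δ i) (hm : Monotone δ) (r : ℕ) :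
    δ 0 * δ 1 ^ r ≤ fp δ (r + 1) := by
  induction r with
  | zero => simp [fp]
  | succ r ih =>
    rw [fp_succ, pow_succ, ← mul_assoc]
    exact mul_le_mul ih (hm (by omega)) (by linarith [h1 1]) (fp_pos h1 _).le

theorem thmC_two {δ : ℕ → ℝ} (h1 : ∀ i, 1 ≤ δ i) (hm : Monotone δ) {d : ℕ} (hd : 2 ≤ d)
    {A n : ℝ} (hA : 1 ≤ A) (hn : 0 ≤ n) (h : fp δ d ≤ A * n) :
    δ 0 * δ 1 ≤ A * n ^ ((2 : ℝ) / d) := by
  obtain ⟨r, rfl⟩ : ∃ r, d = r + 2 := ⟨d - 2, by omega⟩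
  have h0 : 0 ≤ δ 0 := by linarith [h1 0]
  have h0' : 0 ≤ δ 1 := by linarith [h1 1]
  have e1 := (thmC_fp_ge h1 hm (r + 1)).trans h
  have e2 : (δ 0 * δ 1) ^ (r + 2) ≤ (A * n) ^ 2 := by
    refine le_trans ?_ (pow_le_pow_left₀ (by positivity) e1 2)
    have e3 : δ 0 ^ r ≤ δ 1 ^ r := pow_le_pow_left₀ h0 (hm (by omega)) r
    calc (δ 0 * δ 1) ^ (r + 2) = δ 0 ^ r * (δ 0 ^ 2 * δ 1 ^ (r + 2)) := by ring
      _ ≤ δ 1 ^ r * (δ 0 ^ 2 * δ 1 ^ (r + 2)) := by gcongr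
      _ = (δ 0 * δ 1 ^ (r + 1)) ^ 2 := by ring
  have hr : (0 : ℝ) < ((r + 2 : ℕ) : ℝ) := by positivity
  have e4 : δ 0 * δ 1 ≤ (A * n) ^ ((2 : ℝ) / ((r + 2 : ℕ) : ℝ)) := by
    have e5 := Real.rpow_le_rpow (by positivity) e2 (by positivity : (0 : ℝ) ≤ 1 / ((r + 2 : ℕ) : ℝ))
    rw [← Real.rpow_natCast, ← Real.rpow_natCast, ← Real.rpow_mul (by positivity),
      ← Real.rpow_mul (by positivity), mul_one_div_cancel hr.ne', Real.rpow_one] at e5
    rw [div_eq_mul_one_div]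
    exact_mod_cast e5
  rw [Real.mul_rpow (by linarith) hn] at e4
  refine e4.trans (mul_le_mul_of_nonneg_right ?_ (by positivity))
  calc A ^ ((2 : ℝ) / ((r + 2 : ℕ) : ℝ)) ≤ A ^ (1 : ℝ) := by
        refine Real.rpow_le_rpow_of_exponent_le hA ?_
        rw [div_le_one hr]
        push_cast
        linarith [(Nat.cast_nonneg r : (0 : ℝ) ≤ r)]
    _ = A := Real.rpow_one A

/-- separators built from distances. -/
theorem thmC_sep {σ : Type} [Fintype σ] (P P' : Finset (σ → ℝ)) (hP : P' ⊆ P) :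
    ∀ a ∈ P', ∃ F : MvPolynomial σ ℂ, F.totalDegree ≤ 2 * nd P + 1 ∧ aeval (cx a) F ≠ 0 ∧
      ∀ b ∈ P', b ≠ a → aeval (cx b) F = 0 := by
  classical
  intro a ha
  let Dst : Finset ℝ := ((P ×ˢ P).filter fun x => x.1 ≠ x.2).image fun x => sqd x.1 x.2
  have hD : Dst.card = nd P := by
    unfold nd
    congr
  let q : MvPolynomial σ ℂ := ∑ k, (X k - C (a k : ℂ)) ^ 2
  have hq : ∀ b : σ → ℝ, aeval (cx b) q = (sqd b a : ℂ) := by
    intro b
    simp [q, sqd]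
  have hqd : q.totalDegree ≤ 2 := by
    refine totalDegree_finsetSum_le fun k _ => (totalDegree_pow _ _).trans ?_
    have : (X k - C (a k : ℂ) : MvPolynomial σ ℂ).totalDegree ≤ 1 :=
      (totalDegree_sub _ _).trans (by simp)
    omega
  refine ⟨∏ r ∈ Dst, (q - C (r : ℂ)), ?_, ?_, ?_⟩
  · refine (totalDegree_finsetProd _ _).trans ?_
    have : ∑ r ∈ Dst, (q - C (r : ℂ)).totalDegree ≤ Dst.card • 2 :=
      Finset.sum_le_card_nsmul _ _ _ fun r _ => (totalDegree_sub _ _).trans (by simpa using hqd)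
    rw [hD, smul_eq_mul] at this
    omega
  · rw [map_prod, Finset.prod_ne_zero_iff]
    intro r hr
    obtain ⟨x, hx, rfl⟩ := Finset.mem_image.mp hr
    have hne := (Finset.mem_filter.mp hx).2
    rw [map_sub, hq, aeval_C]
    have h0 : sqd a a = 0 := by simp [sqd]
    rw [h0]
    simp only [Complex.ofReal_zero, Algebra.algebraMap_self, RingHom.id_apply, zero_sub, ne_eq,
      neg_eq_zero, Complex.ofReal_eq_zero]
    intro h1
    apply hne
    funext k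
    have := (Finset.sum_eq_zero_iff_of_nonneg fun k _ => sq_nonneg (x.1 k - x.2 k)).mp h1 k
      (Finset.mem_univ k)
    exact sub_eq_zero.mp (pow_eq_zero_iff two_ne_zero |>.mp this)
  · intro b hb hba
    rw [map_prod]
    refine Finset.prod_eq_zero (i := sqd b a) (Finset.mem_image.mpr ⟨(b, a),
      Finset.mem_filter.mpr ⟨Finset.mem_product.mpr ⟨hP hb, hP ha⟩, hba⟩, rfl⟩) ?_
    rw [map_sub, hq, aeval_C]
    simp

theorem thmC_last {σ : Type} [Fintype σ] {d : ℕ} (hd : 1 ≤ d) (hσ : Fintype.card σ = d)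
    {A α : ℝ} (hA : 1 ≤ A) (P P' : Finset (σ → ℝ)) (hP : P' ⊆ P)
    (D : Cel A α d (fun a : σ → ℝ => kr ℂ (cx a)) P') :
    D.δ (d - 1) ≤ A ^ 2 * (2 * nd P + 1) := by
  obtain ⟨r, rfl⟩ : ∃ r, d = r + 1 := ⟨d - 1, by omega⟩
  have h1 := D.hb r (by omega)
  rw [hσ, Nat.add_sub_cancel_left] at h1
  have h2 : HB (⨅ a ∈ P', kr ℂ (cx a)) (A * fp D.δ r) 1 := by
    refine h1.mono (iInf₂_mono fun a ha => Br_le (kr_isPrime _) ?_ le_rfl) le_rfl
    rintro _ ⟨i, rfl⟩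
    exact D.mem i (by omega) a ha
  have h3 := h2 (2 * nd P + 1) (by omega)
  have h4 : (P'.card : ℝ) ≤ hf (⨅ a ∈ P', kr ℂ (cx a)) (2 * nd P + 1) := by
    exact_mod_cast card_le_hf_of_sep P' cx _ (thmC_sep P P' hP)
  have h5 := D.le_card
  rw [fp_succ] at h5
  have h6 := fp_pos D.one_le r
  rw [Nat.add_sub_cancel]
  push_cast at h3
  rw [pow_one] at h3
  refine le_of_mul_le_mul_left ?_ h6
  calc fp D.δ r * D.δ r ≤ A * P'.card := h5
    _ ≤ A * (A * fp D.δ r * (2 * nd P + 1)) :=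
      mul_le_mul_of_nonneg_left (h4.trans h3) (by linarith)
    _ = fp D.δ r * (A ^ 2 * (2 * nd P + 1)) := by ring

/-- few good points share a direction. -/
theorem thmC_dir {σ : Type} [Fintype σ] {d : ℕ} {g J : ℕ → MvPolynomial σ ℂ} (i0 : σ)
    (p : σ → ℂ) {Λ : Type} (x : Λ → σ → ℂ) (T : Finset Λ) (hinj : Set.InjOn x T) (q : σ → ℂ)
    (hq : q i0 ≠ p i0) {μ : ℝ} (hRB : RB g J d p q μ)
    (hT : ∀ b ∈ T, (∀ i, i < d → aeval (x b) (g i) = 0) ∧ (∀ r, r ≤ d → aeval (x b) (J r) ≠ 0) ∧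
      x b i0 ≠ p i0 ∧ NT (g 0) p (x b) ∧
      ∀ k, k ≠ i0 → (x b k - p k) / (x b i0 - p i0) = (q k - p k) / (q i0 - p i0)) :
    (T.card : ℝ) ≤ μ + 1 := by
  classical
  have hq' : q i0 - p i0 ≠ 0 := sub_ne_zero.mpr hq
  let s : Λ → ℂ := fun b => (x b i0 - p i0) / (q i0 - p i0)
  have hs : ∀ b ∈ T, ∀ k, x b k - p k = s b * (q k - p k) := by
    intro b hb k
    obtain ⟨_, _, h3, _, h5⟩ := hT b hb
    have h3' : x b i0 - p i0 ≠ 0 := sub_ne_zero.mpr h3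
    by_cases hk : k = i0
    · subst hk
      simp only [s]
      field_simp
    · have := h5 k hk
      simp only [s]
      field_simp at this ⊢
      linear_combination this
  have hlp : ∀ b ∈ T, lp p (fun k => q k - p k) (s b) = x b := by
    intro b hb
    funext k
    simp only [lp]
    rw [← hs b hb k]
    ring
  have hsinj : Set.InjOn s T := by
    intro b hb b' hb' hbb
    apply hinj hb hb'
    rw [← hlp b hb, ← hlp b' hb', hbb]
  rw [← Finset.card_image_of_injOn hsinj]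
  refine hRB.rtB' _ fun t ht => ?_
  obtain ⟨b, hb, rfl⟩ := Finset.mem_image.mp ht
  obtain ⟨h1, h2, h3, h4, _⟩ := hT b hb
  refine ⟨div_ne_zero (sub_ne_zero.mpr h3) hq', ?_⟩
  rw [hlp b hb]
  refine ⟨h1, h2, fun h0 => h4.2 ?_⟩
  have : dg (g 0) (x b) (fun k => x b k - p k) = s b * dg (g 0) (x b) (fun k => q k - p k) := by
    simp only [dg, Finset.mul_sum]
    refine Finset.sum_congr rfl fun k _ => ?_
    rw [hs b hb k]
    ring
  rw [this, h0, mul_zero]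

theorem thmC_num {n K0 C2 ε0 : ℝ} (hn0 : 0 < n) (hK0 : 1 ≤ K0) (hC2 : 1 ≤ C2) (hε : 0 < ε0) :
    n / ((n / (8 * (K0 + 1))) ^ (1 - ε0) / C2) ≤ 8 * (K0 + 1) * C2 * n ^ ε0 := by
  have hK8 : (1 : ℝ) ≤ 8 * (K0 + 1) := by linarith
  have e2 : (8 * (K0 + 1)) ^ (1 - ε0) ≤ 8 * (K0 + 1) := by
    calc (8 * (K0 + 1)) ^ (1 - ε0) ≤ (8 * (K0 + 1)) ^ (1 : ℝ) :=
          Real.rpow_le_rpow_of_exponent_le hK8 (by linarith)
      _ = 8 * (K0 + 1) := Real.rpow_one _
  have e3 : n = n ^ ε0 * n ^ (1 - ε0) := by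
    rw [← Real.rpow_add hn0, add_sub_cancel, Real.rpow_one]
  have e4 : 0 < n ^ (1 - ε0) := by positivity
  have e5 : 0 < n ^ ε0 := by positivity
  have e6 : 0 < (8 * (K0 + 1)) ^ (1 - ε0) := by positivity
  calc _ = (8 * (K0 + 1)) ^ (1 - ε0) * C2 * n ^ ε0 := by
        rw [Real.div_rpow hn0.le (by positivity)]
        nth_rewrite 1 [e3]
        field_simp
    _ ≤ 8 * (K0 + 1) * C2 * n ^ ε0 := by gcongr

/-- pairs covered in both directions. -/
theorem thmC_sym {α : Type} [DecidableEq α] (P : Finset α) (G0 : Finset (α × α))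
    (T : α → Finset α) (hG : ∀ x ∈ G0, x.1 ∈ P ∧ x.2 ∈ P)
    (hG0 : (1 - 1 / 8) * (P.card : ℝ) ^ 2 ≤ G0.card) (hT : ∀ a ∈ P, T a ⊆ P)
    (hTc : ∀ a ∈ P, ((P.filter fun b => (a, b) ∈ G0).card : ℝ) ≤ (T a).card + P.card / 8) :
    (P.card : ℝ) ^ 2 ≤ 4 * ((P ×ˢ P).filter fun x => x.2 ∈ T x.1 ∧ x.1 ∈ T x.2).card := by
  have e0 : G0 = (P ×ˢ P).filter fun x => (x.1, x.2) ∈ G0 := by
    ext x
    simp only [Finset.mem_filter, Finset.mem_product]
    exact ⟨fun hx => ⟨hG x hx, hx⟩, fun hx => hx.2⟩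
  have e1 : (G0.card : ℝ) = ∑ a ∈ P, ((P.filter fun b => (a, b) ∈ G0).card : ℝ) := by
    rw [← thmC_card_rel P fun a b => (a, b) ∈ G0, ← e0]
  have e2 : (((P ×ˢ P).filter fun x => x.2 ∈ T x.1).card : ℝ) = ∑ a ∈ P, ((T a).card : ℝ) := by
    rw [thmC_card_rel P fun a b => b ∈ T a]
    refine Finset.sum_congr rfl fun a ha => ?_
    rw [Finset.filter_mem_eq_inter, Finset.inter_eq_right.mpr (hT a ha)]
  have e3 : ((P ×ˢ P).filter fun x => x.1 ∈ T x.2).card =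
      ((P ×ˢ P).filter fun x => x.2 ∈ T x.1).card := by
    refine Finset.card_equiv (Equiv.prodComm _ _) fun x => ?_
    simp only [Finset.mem_filter, Finset.mem_product, Equiv.prodComm_apply, Prod.fst_swap,
      Prod.snd_swap, and_comm]
  have e4 : (G0.card : ℝ) ≤ ∑ a ∈ P, ((T a).card : ℝ) + P.card * ((P.card : ℝ) / 8) := by
    rw [e1, ← nsmul_eq_mul, ← Finset.sum_const, ← Finset.sum_add_distrib]
    exact Finset.sum_le_sum hTc
  have e5 := Finset.card_union_add_card_inter ((P ×ˢ P).filter fun x => x.2 ∈ T x.1)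
    ((P ×ˢ P).filter fun x => x.1 ∈ T x.2)
  have e6 : (((P ×ˢ P).filter fun x => x.2 ∈ T x.1) ∪
      ((P ×ˢ P).filter fun x => x.1 ∈ T x.2)).card ≤ P.card * P.card := by
    rw [← Finset.card_product]
    exact Finset.card_le_card
      (Finset.union_subset (Finset.filter_subset _ _) (Finset.filter_subset _ _))
  rw [← Finset.filter_and, e3] at e5
  have e5' := congrArg (Nat.cast : ℕ → ℝ) e5
  have e6' := (Nat.cast_le (α := ℝ)).mpr e6
  push_cast at e5' e6'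
  rw [e2] at e5'
  nlinarith

end

end Vale.Agent.P054
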