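import Vale.Agent.P054.Induct
import Vale.Agent.P054.ThmCAux

namespace Vale.Agent.P054

open MvPolynomial

noncomputable section

/-- greedy covering by large good subsets. -/
theorem greedy_cover {Λ : Type} [DecidableEq Λ] (T : Finset Λ) (Q : Finset Λ → Prop)
    (m0 m1 : ℝ) (hm1 : 0 < m1)
    (h : ∀ R : Finset Λ, R ⊆ T → m0 ≤ (R.card : ℝ) → ∃ S : Finset Λ, S ⊆ R ∧ Q S ∧
      m1 ≤ (S.card : ℝ)) :
    ∃ (𝓢 : Finset (Finset Λ)) (T' : Finset Λ), T' ⊆ T ∧ (T.card : ℝ) ≤ T'.card + max m0 0 ∧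
      (𝓢.card : ℝ) ≤ T.card / m1 ∧ (∀ S ∈ 𝓢, Q S) ∧ ∀ a ∈ T', ∃ S ∈ 𝓢, a ∈ S := by
  induction hn : T.card using Nat.strong_induction_on generalizing T with
  | _ n ih =>
    by_cases h0 : m0 ≤ (T.card : ℝ)
    · obtain ⟨S, hS, hQ, hm⟩ := h T subset_rfl h0
      have hSpos : 0 < S.card := by
        have : (0 : ℝ) < S.card := hm1.trans_le hm
        exact_mod_cast this
      have hcard : (T \ S).card + S.card = T.card := Finset.card_sdiff_add_card_eq_card hS
      obtain ⟨𝓢, T', hT', h1, h2, h3, h4⟩ := ih (T \ S).card (by omega) (T \ S)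
        (fun R hR => h R (hR.trans Finset.sdiff_subset)) rfl
      have hdisj : Disjoint T' S := Finset.disjoint_of_subset_left hT' Finset.sdiff_disjoint
      have hcard' : ((T \ S).card : ℝ) + S.card = n := by rw [← hn]; exact_mod_cast hcard
      refine ⟨insert S 𝓢, T' ∪ S, Finset.union_subset (hT'.trans Finset.sdiff_subset) hS,
        ?_, ?_, ?_, ?_⟩
      · rw [Finset.card_union_of_disjoint hdisj]
        push_cast
        linarith
      · have h5 : ((insert S 𝓢).card : ℝ) ≤ 𝓢.card + 1 := by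
          exact_mod_cast Finset.card_insert_le S 𝓢
        have h6 : (1 : ℝ) ≤ S.card / m1 := by rw [le_div_iff₀ hm1]; linarith
        rw [← hcard', add_div]
        linarith
      · intro S' hS'
        rcases Finset.mem_insert.mp hS' with rfl | hS'
        · exact hQ
        · exact h3 S' hS'
      · intro a ha
        rcases Finset.mem_union.mp ha with ha | ha
        · obtain ⟨S', hS', ha'⟩ := h4 a ha
          exact ⟨S', Finset.mem_insert_of_mem hS', ha'⟩
        · exact ⟨S, Finset.mem_insert_self _ _, ha⟩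
    · refine ⟨∅, ∅, Finset.empty_subset _, ?_, ?_, by simp, by simp⟩
      · rw [hn] at h0
        have := le_max_left m0 0
        simp only [Finset.card_empty, Nat.cast_zero, zero_add]
        linarith
      · simp only [Finset.card_empty, Nat.cast_zero]
        positivity

/-- a set of directions with few points on curves has a large subset with separators. -/
theorem exists_class (d : ℕ) (hd : 2 ≤ d) (ε0 C1 : ℝ) (hε : 0 < ε0) (hC1 : 1 ≤ C1) :
    ∃ C : ℝ, 1 ≤ C ∧ ∀ (σ Λ : Type) [Fintype σ] [DecidableEq σ] (i0 : σ) (R : Finset Λ)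
    (u : Λ → σ → ℂ) (X : ℝ), Fintype.card σ = d → R.Nonempty → 1 ≤ X → (∀ a ∈ R, u a i0 ≠ 0) →
    Set.InjOn (fun a => fun k : Ne0 i0 => u a k / u a i0) R →
    (∀ (S : Finset Λ) (γ : Fin (d - 2) → MvPolynomial (Ne0 i0) ℂ) (c : Fin (d - 2) → Ne0 i0)
      (φ : ℝ), S ⊆ R →
      (∀ a ∈ S, (∀ i, aeval (fun k : Ne0 i0 => u a k / u a i0) (γ i) = 0) ∧
        aeval (fun k : Ne0 i0 => u a k / u a i0) (Jac γ c) ≠ 0) →
      HB (⨅ a ∈ S, Br (Set.range γ) (kr ℂ fun k : Ne0 i0 => u a k / u a i0)) φ 1 →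
      (S.card : ℝ) ≤ C1 * φ * X) →
    ∃ S : Finset Λ, S ⊆ R ∧ HSep S u (C * X) ∧ (R.card : ℝ) ^ (1 - ε0) ≤ C * S.card := by
  obtain ⟨r, rfl⟩ : ∃ r, d = r + 2 := ⟨d - 2, by omega⟩
  obtain ⟨A, α, hA, hα, hcel⟩ := cel_points (r + 1) ε0 hε (by omega)
  have hr1 : (1 : ℝ) ≤ ((r + 1 : ℕ) : ℝ) := by exact_mod_cast Nat.le_add_left 1 r
  have hA3 : A ≤ A ^ 3 := le_self_pow₀ hA (by norm_num)
  have hAC : A ≤ ((r + 1 : ℕ) : ℝ) * (A ^ 3 * C1) := by
    have : A ^ 3 ≤ A ^ 3 * C1 := le_mul_of_one_le_right (by positivity) hC1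
    have h2 : A ^ 3 * C1 ≤ ((r + 1 : ℕ) : ℝ) * (A ^ 3 * C1) :=
      le_mul_of_one_le_left (by positivity) hr1
    linarith
  refine ⟨((r + 1 : ℕ) : ℝ) * (A ^ 3 * C1), hA.trans hAC, ?_⟩
  intro σ Λ _ _ i0 R u X hσ hR hX hu hinj hyp
  have hcard : Fintype.card (Ne0 i0) = r + 1 := by
    rw [Fintype.card_subtype_compl, hσ, Fintype.card_unique]
    rfl
  obtain ⟨L, hL, _, hLc, ⟨D⟩⟩ := hcel ℂ (Ne0 i0) Λ (fun a => fun k : Ne0 i0 => u a k / u a i0) R
    hcard hR hinj
  have h1 := D.hb r (by omega)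
  rw [hcard, Nat.add_sub_cancel_left] at h1
  have h2 := hyp L (gs D.g r) (D.c r) _ hL (fun a ha =>
    ⟨fun i => D.mem i (by omega) a ha, D.jac r (by omega) a ha⟩) h1
  have h5 := D.le_card
  rw [fp_succ] at h5
  have h6 := fp_pos D.one_le r
  have h7 : D.δ r ≤ A ^ 2 * C1 * X := by
    refine le_of_mul_le_mul_left ?_ h6
    calc fp D.δ r * D.δ r ≤ A * L.card := h5
      _ ≤ A * (C1 * (A * fp D.δ r) * X) := mul_le_mul_of_nonneg_left h2 (by linarith)
      _ = fp D.δ r * (A ^ 2 * C1 * X) := by ring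
  have h8 : ∀ i : Fin (r + 1), ((gs D.g (r + 1) i).totalDegree : ℝ) ≤ A ^ 3 * C1 * X := by
    intro i
    calc ((gs D.g (r + 1) i).totalDegree : ℝ) ≤ A * D.δ i := D.deg i i.2
      _ ≤ A * (A ^ 2 * C1 * X) :=
        mul_le_mul_of_nonneg_left ((D.mono (Nat.lt_succ_iff.mp i.2)).trans h7) (by linarith)
      _ = A ^ 3 * C1 * X := by ring
  refine ⟨L, hL, fun a ha => ?_, hLc.trans (mul_le_mul_of_nonneg_right hAC (by positivity))⟩
  obtain ⟨F, hF1, hF2, hF3⟩ := bezout_sep (gs D.g (r + 1)) (D.c (r + 1)) (by simp [hcard]) L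
    (fun a => fun k : Ne0 i0 => u a k / u a i0) (hinj.mono hL)
    (fun a ha i => D.mem i i.2 a ha) (fun a ha => D.jac (r + 1) le_rfl a ha) a ha
  obtain ⟨G, hG1, hG2⟩ := exists_homog F (le_refl F.totalDegree)
  have hev : ∀ b ∈ R, aeval (u b) (rename (fun o : Option (Ne0 i0) => o.elim i0 Subtype.val) G) =
      u b i0 ^ F.totalDegree * aeval (fun k : Ne0 i0 => u b k / u b i0) F := by
    intro b hb
    rw [aeval_rename, ← hG2 ℂ]
    congr 2
    funext o
    cases o with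
    | none => rfl
    | some k =>
      simp only [Function.comp, Option.elim]
      rw [mul_div_cancel₀ _ (hu b hb)]
  refine ⟨F.totalDegree, rename (fun o : Option (Ne0 i0) => o.elim i0 Subtype.val) G, ?_,
    hG1.rename_isHomogeneous, ?_, fun b hb hba => ?_⟩
  · have h9 : (F.totalDegree : ℝ) ≤ ∑ i : Fin (r + 1), ((gs D.g (r + 1) i).totalDegree : ℝ) := by
      exact_mod_cast hF1
    refine h9.trans ((Finset.sum_le_card_nsmul _ _ _ fun i _ => h8 i).trans (le_of_eq ?_))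
    rw [Finset.card_univ, Fintype.card_fin, nsmul_eq_mul]
    ring
  · rw [hev a (hL ha)]
    exact mul_ne_zero (pow_ne_zero _ (hu a (hL ha))) hF2
  · rw [hev b (hL hb), hF3 b hb hba, mul_zero]

open Classical in
/-- Theorem C: most directions between the points of a large subset have separators of low
degree. -/
theorem thmC (d : ℕ) (hd : 2 ≤ d) (ε0 : ℝ) (hε : 0 < ε0) (hε1 : ε0 < 1) : ∃ C c0 : ℝ, 1 ≤ C ∧
    0 < c0 ∧ ∀ (σ : Type) [Fintype σ] (i0 : σ) (P : Finset (σ → ℝ)) (H : ℝ),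
    Fintype.card σ = d → P.Nonempty → (∀ a ∈ P, ∀ b ∈ P, a ≠ b → a i0 ≠ b i0) → HypB P H →
    H ≤ c0 * (P.card : ℝ) ^ (1 - ε0) →
    ∃ (P' : Finset (σ → ℝ)) (G : Finset ((σ → ℝ) × (σ → ℝ))), P' ⊆ P ∧
      (P.card : ℝ) ^ (1 - ε0) ≤ C * P'.card ∧ (P'.card : ℝ) ^ 2 ≤ 4 * G.card ∧
      (∀ x ∈ G, x.1 ∈ P' ∧ x.2 ∈ P' ∧ x.1 ≠ x.2 ∧ (x.2, x.1) ∈ G) ∧
      ∀ a ∈ P', Cov (P'.filter fun b => (a, b) ∈ G) (fun b => cx fun k => b k - a k)
        (C * (P'.card : ℝ) ^ ε0) (C * ((P'.card : ℝ) ^ ((2 : ℝ) / d) + nd P + 1)) := by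
  obtain ⟨A, α, hA, hα, hcel⟩ := cel_real d ε0 hε (by omega)
  obtain ⟨K0, c0, hK0, hc0, hgood⟩ := good_pairs d hd A α (1 / 8) hA hα (by norm_num)
  obtain ⟨Cn, hCn, hnc⟩ := nc_bound d (by omega)
  obtain ⟨C2, hC2, hcl⟩ := exists_class d hd ε0 (max Cn 1) hε (le_max_right _ _)
  have hA0 : 0 < A := by linarith
  have hK2 : 0 ≤ 8 * (K0 + 1) * C2 := by positivity
  have hK3 : 0 ≤ C2 * (2 * K0 * A ^ 2) := by positivity
  have hC0 : A ≤ A + 8 * (K0 + 1) * C2 + C2 * (2 * K0 * A ^ 2) := by linarith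
  have hC1 : 8 * (K0 + 1) * C2 ≤ A + 8 * (K0 + 1) * C2 + C2 * (2 * K0 * A ^ 2) := by linarith
  have hC3 : C2 * (2 * K0 * A ^ 2) ≤ A + 8 * (K0 + 1) * C2 + C2 * (2 * K0 * A ^ 2) := by linarith
  refine ⟨A + 8 * (K0 + 1) * C2 + C2 * (2 * K0 * A ^ 2), c0 / A, by linarith, by positivity, ?_⟩
  intro σ _ i0 P H hσ hP hi0 hH hHc
  obtain ⟨P', hP', hne, hcard, D, hreal⟩ := hcel σ P hσ hP
  have hn1 : (1 : ℝ) ≤ P'.card := by exact_mod_cast hne.card_pos
  have hn0 : (0 : ℝ) < P'.card := by linarith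
  have hH' : HypB P' H := fun l b S hl hS hb => hH l b S hl (hS.trans hP') hb
  have hHc' : H ≤ c0 * P'.card := by
    refine hHc.trans ?_
    calc c0 / A * (P.card : ℝ) ^ (1 - ε0) ≤ c0 / A * (A * P'.card) :=
          mul_le_mul_of_nonneg_left hcard (by positivity)
      _ = c0 * P'.card := by field_simp
  obtain ⟨μ, G0, hG0, hμ, hG0m⟩ := hgood σ P' D H hσ hreal hH' hHc'
  set n : ℝ := (P'.card : ℝ) with hn
  set Y : ℝ := n ^ ((2 : ℝ) / d) + nd P + 1 with hY
  have hY0 : 0 ≤ n ^ ((2 : ℝ) / d) := by positivity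
  have hnd0 : (0 : ℝ) ≤ nd P := by positivity
  have hY1 : 1 ≤ Y := by linarith
  set X : ℝ := 2 * K0 * A ^ 2 * Y with hX
  have hA2 : A ≤ A ^ 2 := le_self_pow₀ hA (by norm_num)
  have hX1 : 1 ≤ X := by
    have h1 : (1 : ℝ) ≤ 2 * K0 := by linarith
    have h2 : (1 : ℝ) ≤ A ^ 2 := by linarith
    exact one_le_mul_of_one_le_of_one_le (one_le_mul_of_one_le_of_one_le h1 h2) hY1
  have hX0 : K0 * (D.δ 0 * D.δ 1 + D.δ (d - 1)) ≤ X := by
    have h1 := thmC_two D.one_le D.mono hd hA hn0.le D.le_card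
    have h2 := thmC_last (by omega) hσ hA P P' hP' D
    have h3 : A * n ^ ((2 : ℝ) / d) ≤ A ^ 2 * n ^ ((2 : ℝ) / d) :=
      mul_le_mul_of_nonneg_right hA2 hY0
    have h4 : D.δ 0 * D.δ 1 + D.δ (d - 1) ≤ 2 * A ^ 2 * Y := by
      have h5 : 0 ≤ A ^ 2 * n ^ ((2 : ℝ) / d) := by positivity
      have h6 : 0 ≤ A ^ 2 := by positivity
      rw [hY]
      nlinarith
    calc K0 * (D.δ 0 * D.δ 1 + D.δ (d - 1)) ≤ K0 * (2 * A ^ 2 * Y) :=
          mul_le_mul_of_nonneg_left h4 (by linarith)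
      _ = X := by rw [hX]; ring
  have hcxinj : Function.Injective (cx : (σ → ℝ) → σ → ℂ) := fun a b hab =>
    funext fun k => Complex.ofReal_injective (congrFun hab k)
  have hneq : ∀ a b, (a, b) ∈ G0 → cx b i0 ≠ cx a i0 := by
    intro a b hab h0
    obtain ⟨ha, hb, hNT, _⟩ := hG0m _ hab
    have hab' : a ≠ b := by
      rintro rfl
      exact hNT.1 (by simp [dg])
    exact hi0 a (hP' ha) b (hP' hb) hab' (Complex.ofReal_injective h0).symm
  have hn8 : 0 ≤ n / 8 := by positivity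
  have hY2 : 0 ≤ Y := by linarith
  set m1 : ℝ := (n / (8 * (K0 + 1))) ^ (1 - ε0) / C2 with hm1
  have hm1pos : 0 < m1 := by positivity
  have hclass : ∀ a ∈ P', ∀ R : Finset (σ → ℝ), (∀ b ∈ R, (a, b) ∈ G0) → n / 8 ≤ (R.card : ℝ) →
      ∃ S : Finset (σ → ℝ), S ⊆ R ∧ HSep S (fun b => cx fun k => b k - a k) (C2 * X) ∧
        m1 ≤ (S.card : ℝ) := by
    intro a ha R hRG hRc
    have hdir : ∀ b : σ → ℝ, (fun k : Ne0 i0 => cx (fun k => b k - a k) k /
        cx (fun k => b k - a k) i0) =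
        fun k : Ne0 i0 => (cx b k - cx a k) / (cx b i0 - cx a i0) := by
      intro b
      funext k
      simp only [cx, Complex.ofReal_sub]
    have hpt : ∀ b ∈ R, (∀ i, i < d → aeval (cx b) (D.g i) = 0) ∧
        (∀ r, r ≤ d → aeval (cx b) (Jc D.g D.c r) ≠ 0) ∧ cx b i0 ≠ cx a i0 ∧
        NT (D.g 0) (cx a) (cx b) := fun b hb =>
      ⟨fun i hi => D.mem i hi b (hG0m _ (hRG b hb)).2.1,
        fun r hr => D.jac r hr b (hG0m _ (hRG b hb)).2.1, hneq a b (hRG b hb),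
        (hG0m _ (hRG b hb)).2.2.1⟩
    obtain ⟨R', hR', hinj, hRc'⟩ := thmC_reps R
      (fun b => fun k : Ne0 i0 => (cx b k - cx a k) / (cx b i0 - cx a i0)) (K0 + 1) (by
        intro b hb T hT hTb
        refine thmC_dir (d := d) (g := D.g) (J := Jc D.g D.c) i0 (cx a) cx T hcxinj.injOn (cx b)
          (hneq a b (hRG b hb)) (hG0m _ (hRG b hb)).2.2.2.1 fun b' hb' => ?_
        obtain ⟨h1, h2, h3, h4⟩ := hpt b' (hT hb')
        exact ⟨h1, h2, h3, h4, fun k hk => congrFun (hTb b' hb') ⟨k, hk⟩⟩)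
    have hR'c : n / (8 * (K0 + 1)) ≤ R'.card := by
      rw [div_le_iff₀ (by positivity)]
      linarith
    have hR'ne : R'.Nonempty := by
      rw [← Finset.card_pos]
      have : (0 : ℝ) < R'.card := lt_of_lt_of_le (by positivity) hR'c
      exact_mod_cast this
    obtain ⟨S, hS, hsep, hSc⟩ := hcl σ (σ → ℝ) i0 R' (fun b => cx fun k => b k - a k) X hσ hR'ne
      hX1 (fun b hb => by
        have := sub_ne_zero.mpr (hneq a b (hRG b (hR' hb)))
        simpa only [cx, Complex.ofReal_sub] using this)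
      (fun b hb b' hb' hbb => hinj hb hb' ((hdir b).symm.trans (hbb.trans (hdir b')))) (by
        intro S γ c φ hS h1 h2
        simp only [hdir] at h1 h2
        have hφ := h2.nonneg
        rcases S.eq_empty_or_nonempty with rfl | ⟨b0, hb0⟩
        · simp only [Finset.card_empty, Nat.cast_zero]
          positivity
        have hc : Function.Injective c := inj_of_jac (g := γ) fun h0 => (h1 b0 hb0).2 (by
          rw [h0, map_zero])
        have hcompl := compl_free hc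
        have hρ : Fintype.card {k // k ∉ Set.range c} = 1 := by
          have e1 := hcompl.card_add
          have e2 : Fintype.card (Ne0 i0) = d - 1 := by
            rw [Fintype.card_subtype_compl, hσ, Fintype.card_unique]
          rw [Fintype.card_fin, e2] at e1
          omega
        have key := hnc ℂ σ (σ → ℝ) (Fin (d - 2)) {k // k ∉ Set.range c} i0 D.g D.c
          (fun i => A * D.δ i) μ (cx a) S cx γ c Subtype.val φ X hσ hρ hcompl
          (fun i => one_le_mul_of_one_le_of_one_le hA (D.one_le i)) D.deg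
          (D.mem 0 (by omega) a ha) (by linarith)
          (fun t ht htd => ⟨(hμ t ht htd).1, (hμ t ht htd).2.trans hX0⟩) hcxinj.injOn
          (fun b hb => hpt b (hR' (hS hb)))
          (fun b hb t ht htd Ω _ _ q hq hgq =>
            (hG0m _ (hRG b (hR' (hS hb)))).2.2.2.2 t ht htd ℂ Ω (cx a) q
              (Br_full (c := D.c d) (fun i => D.mem i i.2 a ha) (D.jac d le_rfl a ha)
                (by rw [Fintype.card_fin, hσ])).symm hq hgq) h1 h2
        refine key.trans ?_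
        have := le_max_left Cn 1
        gcongr)
    refine ⟨S, hS.trans hR', hsep, ?_⟩
    rw [hm1, div_le_iff₀ (by linarith), mul_comm (S.card : ℝ)]
    exact (Real.rpow_le_rpow (by positivity) hR'c (by linarith)).trans hSc
  have hapex := fun a (ha : a ∈ P') => greedy_cover (P'.filter fun b => (a, b) ∈ G0)
    (fun S => HSep S (fun b => cx fun k => b k - a k) (C2 * X)) (n / 8) m1 hm1pos
    fun R hR hRc => hclass a ha R (fun b hb => (Finset.mem_filter.mp (hR hb)).2) hRc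
  choose! 𝓢 T' hT' hTc h𝓢c hsep hcov using hapex
  refine ⟨P', (P' ×ˢ P').filter fun x => x.2 ∈ T' x.1 ∧ x.1 ∈ T' x.2, hP',
    hcard.trans (mul_le_mul_of_nonneg_right hC0 hn0.le), ?_, ?_, ?_⟩
  · refine thmC_sym P' G0 T' (fun x hx => ⟨(hG0m x hx).1, (hG0m x hx).2.1⟩) hG0
      (fun a ha => (hT' a ha).trans (Finset.filter_subset _ _)) fun a ha => ?_
    have := hTc a ha
    rwa [max_eq_left hn8] at this
  · intro x hx
    obtain ⟨h1, h2, h3⟩ := Finset.mem_filter.mp hx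
    obtain ⟨h4, h5⟩ := Finset.mem_product.mp h1
    refine ⟨h4, h5, fun h0 => ?_, Finset.mem_filter.mpr ⟨Finset.mem_product.mpr ⟨h5, h4⟩, h3, h2⟩⟩
    exact hneq _ _ (Finset.mem_filter.mp (hT' _ h4 h2)).2 (by rw [h0])
  · intro a ha
    refine ⟨𝓢 a, (h𝓢c a ha).trans ?_, fun S hS => thmC_hsep_mono (hsep a ha S hS) ?_,
      fun b hb => hcov a ha b (Finset.mem_filter.mp (Finset.mem_filter.mp hb).2).2.1⟩
    · have e1 : ((P'.filter fun b => (a, b) ∈ G0).card : ℝ) ≤ n := by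
        rw [hn]
        exact_mod_cast Finset.card_filter_le _ _
      exact (div_le_div_of_nonneg_right e1 hm1pos.le).trans ((thmC_num hn0 hK0 hC2 hε).trans
        (mul_le_mul_of_nonneg_right hC1 (Real.rpow_nonneg hn0.le _)))
    · rw [hX, ← mul_assoc]
      exact mul_le_mul_of_nonneg_right hC3 hY2

end

end Vale.Agent.P054
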