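import Vale.Agent.P054.FinCore
import Vale.Agent.P054.ThmA
import Vale.Agent.P054.ThmC

namespace Vale.Agent.P054

open MvPolynomial Filter Topology

noncomputable section

theorem finstep_ev (C : ℝ) {a b : ℝ} (h : a < b) : ∀ᶠ x : ℝ in atTop, C * x ^ a < x ^ b := by
  filter_upwards [(tendsto_rpow_atTop (sub_pos.2 h)).eventually_gt_atTop C,
    eventually_gt_atTop 0] with x h1 h2
  have := mul_lt_mul_of_pos_right h1 (Real.rpow_pos_of_pos h2 a)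
  rwa [← Real.rpow_add h2, sub_add_cancel] at this

theorem finstep_num (m : ℕ) (hm : 4 ≤ m) {ε0 C1 C2 a C4 : ℝ} (h0 : 0 < ε0) (h1 : ε0 < 1)
    (hC1 : 0 ≤ C1) (hC2 : 0 ≤ C2) (ha : 0 ≤ a) (hC4 : 0 ≤ C4) : ∃ C8 : ℝ, 0 ≤ C8 ∧
      ∀ x E D D' : ℝ, 1 ≤ x → 0 ≤ E → E ≤ a * x ^ ((2 : ℝ) / m) → 0 ≤ D' → D' ≤ D →
      D ≤ C2 * x ^ ((2 : ℝ) / m) →
      C1 * x ^ ε0 * (C4 * ((E + C1 * (x ^ ((2 : ℝ) / m) + D + 1) + D') ^ (m - 1) + E * x)) ^
        (1 / (1 - ε0)) + C4 * ((D' + 1) ^ (m - 1) + x) ≤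
        C8 * x ^ (ε0 + (2 - 2 / m) / (1 - ε0)) := by
  have hm' : (4 : ℝ) ≤ m := by exact_mod_cast hm
  have hε : 0 < 1 - ε0 := by linarith
  have hq : (2 : ℝ) / m ≤ 1 / 2 := by
    rw [div_le_div_iff₀ (by linarith) (by norm_num)]
    linarith
  have hq0 : (0 : ℝ) ≤ 2 / m := by positivity
  set C5 := a + C1 * (C2 + 2) + C2 with hC5
  set C6 := C4 * (C5 ^ (m - 1) + a) with hC6
  set C7 := C4 * ((C2 + 1) ^ (m - 1) + 1) with hC7
  refine ⟨C1 * C6 ^ (1 / (1 - ε0)) + C7, by positivity, fun x E D D' hx hE hEa hD' hDD hD => ?_⟩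
  have hx0 : 0 < x := by linarith
  set u := x ^ ((2 : ℝ) / m) with hu
  set v := x ^ (2 - (2 : ℝ) / m) with hv
  have hu1 : 1 ≤ u := Real.one_le_rpow hx hq0
  have hv0 : 0 ≤ v := by positivity
  have e1 : u ^ (m - 1) = v := by
    rw [hu, hv, ← Real.rpow_natCast, ← Real.rpow_mul hx0.le, Nat.cast_sub (by omega)]
    refine congrArg (x ^ ·) ?_
    field_simp
    push_cast
    ring
  have e2 : u * x ≤ v := by
    rw [hu, hv, ← Real.rpow_add_one hx0.ne']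
    exact Real.rpow_le_rpow_of_exponent_le hx (by linarith)
  have e3 : x ≤ v := (le_mul_of_one_le_left hx0.le hu1).trans e2
  have a1 : E + C1 * (u + D + 1) + D' ≤ C5 * u := by
    have : C1 * (u + D + 1) ≤ C1 * ((C2 + 2) * u) := mul_le_mul_of_nonneg_left (by linarith) hC1
    rw [hC5]
    linarith
  have hD0 : 0 ≤ D := hD'.trans hDD
  have a2 : (E + C1 * (u + D + 1) + D') ^ (m - 1) ≤ C5 ^ (m - 1) * v := by
    rw [← e1, ← mul_pow]
    exact pow_le_pow_left₀ (by positivity) a1 _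
  have a3 : E * x ≤ a * v :=
    (mul_le_mul_of_nonneg_right hEa hx0.le).trans
      (by rw [mul_assoc]; exact mul_le_mul_of_nonneg_left e2 ha)
  have a4 : C4 * ((E + C1 * (u + D + 1) + D') ^ (m - 1) + E * x) ≤ C6 * v := by
    rw [hC6, mul_assoc]
    exact mul_le_mul_of_nonneg_left (by linarith) hC4
  have a5 : (D' + 1) ^ (m - 1) ≤ (C2 + 1) ^ (m - 1) * v := by
    rw [← e1, ← mul_pow]
    exact pow_le_pow_left₀ (by positivity) (by linarith) _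
  have a6 : C4 * ((D' + 1) ^ (m - 1) + x) ≤ C7 * v := by
    rw [hC7, mul_assoc]
    exact mul_le_mul_of_nonneg_left (by linarith) hC4
  have a7 := Real.rpow_le_rpow (by positivity) a4 (one_div_pos.2 hε).le
  rw [Real.mul_rpow (x := C6) (by positivity) hv0, hv, ← Real.rpow_mul hx0.le, mul_one_div] at a7
  have a8 : v ≤ x ^ (ε0 + (2 - 2 / m) / (1 - ε0)) := by
    refine Real.rpow_le_rpow_of_exponent_le hx ?_
    have : 2 - (2 : ℝ) / m ≤ (2 - 2 / m) / (1 - ε0) := by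
      rw [le_div_iff₀ hε]
      nlinarith
    linarith
  have a9 := mul_le_mul_of_nonneg_left a7 (by positivity : 0 ≤ C1 * x ^ ε0)
  have a10 := a6.trans (mul_le_mul_of_nonneg_left a8 (by positivity))
  rw [Real.rpow_add hx0] at a10 ⊢
  linarith

theorem finstep_deg {V : Type} (S : Finset V) (Γ : Finset (V × V)) (k : ℝ) (hk : 0 ≤ k)
    (hΓ : ∀ x ∈ Γ, x.1 ∈ S ∧ x.2 ∈ S ∧ (x.2, x.1) ∈ Γ) (h : 2 * k * S.card < Γ.card) :
    ∃ T : Finset V, T ⊆ S ∧ T.Nonempty ∧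
      ∀ v ∈ T, ∃ N : Finset V, N ⊆ T ∧ k < (N.card : ℝ) ∧ ∀ w ∈ N, (v, w) ∈ Γ := by
  classical
  obtain ⟨T, h1, h2, h3⟩ := exists_min_degree S Γ k hk hΓ h
  exact ⟨T, h1, h2, fun v hv =>
    ⟨_, Finset.filter_subset _ _, h3 v hv, fun w hw => (Finset.mem_filter.1 hw).2⟩⟩

/-- general position -/
def FinGen {m : ℕ} (P : Finset (Fin m → ℝ)) : Prop :=
  ∀ a ∈ P, ∀ p ∈ P, ∀ a' ∈ P, ∀ p' ∈ P, (fun j => p' j - a' j) ≠ (fun j => p j - a j) →
    ∀ j, p' j - a' j ≠ p j - a j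

open Classical in
theorem finstep_rot {m : ℕ} (hm : 2 ≤ m) (P : Finset (Fin m → ℝ)) :
    ∃ Q : Finset (Fin m → ℝ), FinGen Q ∧ nd Q = nd P ∧ Q.card = P.card := by
  obtain ⟨R, h1, h2⟩ := exists_rot (σ := Fin m) (by simpa using hm)
    ((((P ×ˢ P) ×ˢ (P ×ˢ P)).image fun z => z.2.2 - z.2.1 - (z.1.2 - z.1.1)).erase 0)
    (fun w hw => (Finset.mem_erase.1 hw).1)
  refine ⟨P.image R, ?_, nd_image P R fun a _ b _ => h1 a b⟩
  intro a ha p hp a' ha' p' hp' hne j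
  obtain ⟨a, k1, rfl⟩ := Finset.mem_image.1 ha
  obtain ⟨p, k2, rfl⟩ := Finset.mem_image.1 hp
  obtain ⟨a', k3, rfl⟩ := Finset.mem_image.1 ha'
  obtain ⟨p', k4, rfl⟩ := Finset.mem_image.1 hp'
  have e : ∀ j, R (p' - a' - (p - a)) j = R p' j - R a' j - (R p j - R a j) := fun j => by
    simp only [map_sub, Pi.sub_apply]
  rw [← sub_ne_zero, ← e]
  refine h2 _ (Finset.mem_erase.2 ⟨fun h0 => hne (funext fun j => ?_),
    Finset.mem_image.2 ⟨((a, p), (a', p')), by simp [k1, k2, k3, k4], rfl⟩⟩) j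
  rw [← sub_eq_zero, ← e, h0, map_zero, Pi.zero_apply]

open Classical in
theorem finstep_core (m : ℕ) (hm : 4 ≤ m) {ε0 γ C1 C2 : ℝ} (h0 : 0 < ε0) (h1 : ε0 < 1)
    (hC1 : 1 ≤ C1) (hC2 : 0 < C2) (hγ : ε0 + (2 - 2 / m) / (1 - ε0) + γ < 2) :
    ∃ N : ℝ, ∀ (P : Finset (Fin m → ℝ)) (G : Finset ((Fin m → ℝ) × (Fin m → ℝ))) (D : ℝ),
      N ≤ P.card → FinGen P → (nd P : ℝ) ≤ D → D ≤ C2 * (P.card : ℝ) ^ γ →
      (P.card : ℝ) ^ 2 ≤ 4 * G.card →
      (∀ x ∈ G, x.1 ∈ P ∧ x.2 ∈ P ∧ x.1 ≠ x.2 ∧ (x.2, x.1) ∈ G) →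
      (∀ a ∈ P, Cov (P.filter fun b => (a, b) ∈ G) (fun b => cx fun k => b k - a k)
        (C1 * (P.card : ℝ) ^ ε0) (C1 * ((P.card : ℝ) ^ ((2 : ℝ) / m) + D + 1))) → False := by
  have hm' : (4 : ℝ) ≤ m := by exact_mod_cast hm
  have hε : 0 < 1 - ε0 := by linarith
  have hq : (2 : ℝ) / m ≤ 1 / 2 := by
    rw [div_le_div_iff₀ (by linarith) (by norm_num)]
    linarith
  have hγ2 : γ ≤ 2 / m := by
    have : 2 - (2 : ℝ) / m ≤ (2 - 2 / m) / (1 - ε0) := by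
      rw [le_div_iff₀ hε]
      nlinarith
    linarith
  obtain ⟨C3, hC3, H3⟩ := interp_flats (m + 1) (by omega)
  obtain ⟨CA, HA⟩ := thmA (m + 1) (by omega)
  obtain ⟨C4, hC4, H4⟩ := core_of_nbrs m (by omega) ε0 h0 h1
  obtain ⟨C8, hC8, H8⟩ := finstep_num m hm h0 h1 (zero_le_one.trans hC1) hC2.le
    (a := CA * C3 + 1) (by positivity) hC4.le
  obtain ⟨N, hN⟩ := eventually_atTop.1 (((finstep_ev (32 * C2) (a := γ) (b := 1) (by linarith)).and
    (finstep_ev (64 * C2 * C8) hγ)).and (eventually_ge_atTop 1))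
  refine ⟨N, fun P G D hP hgen hD hD2 hG hGs hcov => ?_⟩
  obtain ⟨⟨n1, n2⟩, n3⟩ := hN _ hP
  set x : ℝ := (P.card : ℝ) with hx
  have hx0 : 0 < x := by linarith
  rw [Real.rpow_one] at n1
  rw [Real.rpow_add hx0, Real.rpow_two] at n2
  set y := x ^ γ with hy
  have hy0 : 0 < y := Real.rpow_pos_of_pos hx0 _
  have hq1 := quad_count P G fun z hz => ⟨(hGs z hz).1, (hGs z hz).2.1, (hGs z hz).2.2.1⟩
  set Γ := ((P ×ˢ P) ×ˢ (P ×ˢ P)).filter fun z =>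
      (z.1.1, z.2.1) ∈ G ∧ sqd z.1.1 z.2.1 = sqd z.1.2 z.2.2 ∧
        (fun k => z.2.2 k - z.2.1 k) ≠ fun k => z.1.2 k - z.1.1 k with hΓ
  set k := x ^ 2 / (64 * C2 * y) with hk
  have hk' : k * (64 * C2 * y) = x ^ 2 := div_mul_cancel₀ _ (by positivity)
  obtain ⟨T, hT1, hT2, hT3⟩ := finstep_deg (P ×ˢ P) Γ k (by positivity) (fun z hz => by
      obtain ⟨a1, a2, a3, a4⟩ := Finset.mem_filter.1 hz
      obtain ⟨a5, a6⟩ := Finset.mem_product.1 a1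
      refine ⟨a5, a6, Finset.mem_filter.2 ⟨Finset.mem_product.2 ⟨a6, a5⟩, (hGs _ a2).2.2.2, ?_,
        a4.symm⟩⟩
      rw [sqd_comm, a3, sqd_comm]) (by
      rw [Finset.card_product, Nat.cast_mul, ← hx]
      by_contra hc
      have b1 : (x ^ 2) ^ 2 ≤ (4 * (G.card : ℝ)) ^ 2 := pow_le_pow_left₀ (by positivity) hG 2
      have b2 : (nd P : ℝ) * (Γ.card + x ^ 3) ≤ C2 * y * (2 * k * (x * x) + x ^ 3) :=
        mul_le_mul (hD.trans hD2) (by linarith) (by positivity) (by positivity)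
      have b3 : C2 * y * (2 * k * (x * x)) = x ^ 4 / 32 := by
        linear_combination x ^ 2 / 32 * hk'
      have b4 := mul_lt_mul_of_pos_right n1 (pow_pos hx0 3)
      nlinarith)
  have hnrm : ∀ η ∈ T.image hat, Nrm 0 η := fun η hη => by
    obtain ⟨z, -, rfl⟩ := Finset.mem_image.1 hη
    exact nrm_hat z
  obtain ⟨f, f0, f1, f2⟩ := H3 ℂ (Fin (m + 1)) 0 (T.image hat) (Fintype.card_fin _)
    (hT2.image _) hnrm
  have hu1 : 1 ≤ x ^ ((2 : ℝ) / m) := Real.one_le_rpow n3 (by positivity)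
  have f3 : (f.totalDegree : ℝ) ≤ C3 * x ^ ((2 : ℝ) / m) := by
    refine f2.trans (mul_le_mul_of_nonneg_left ?_ hC3.le)
    have c1 : (((T.image hat).card : ℕ) : ℝ) ≤ x ^ (2 : ℝ) := by
      rw [Real.rpow_two, sq, hx, ← Nat.cast_mul, ← Finset.card_product]
      exact Nat.cast_le.2 (Finset.card_image_le.trans (Finset.card_le_card hT1))
    rw [Nat.cast_add_one, add_sub_cancel_right]
    refine (Real.rpow_le_rpow (Nat.cast_nonneg _) c1 (by positivity)).trans (le_of_eq ?_)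
    rw [← Real.rpow_mul hx0.le, mul_one_div]
  have hD0 : 0 ≤ D := (Nat.cast_nonneg _).trans hD
  refine HA ℂ (Fin (m + 1)) 0 (T.image hat) f.totalDegree (CA * f.totalDegree + 1) f
    (Fintype.card_fin _) (hT2.image _) hnrm f0 f1 le_rfl (Nat.le_succ _)
    (H4 P G T _ _ x k _ (Nat.le_add_left _ _) ?_ hx0.le (by positivity) hgen hcov
      (fun z hz => Finset.mem_product.1 (hT1 hz)) (fun z hz => ?_) ?_)
  · nlinarith
  · obtain ⟨N0, s1, s2, s3⟩ := hT3 z hz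
    refine ⟨N0, s1, s2, fun w hw => ?_, fun S hS hS' => ?_⟩
    · obtain ⟨-, a2, a3, a4⟩ := Finset.mem_filter.1 (s3 w hw)
      exact ⟨a2, (hGs _ a2).2.2.1, a3, a4⟩
    · refine Nat.cast_le.2 (Finset.card_le_card_of_injOn Prod.fst (fun w hw => ?_)
        fun w hw w' hw' e => Prod.ext e ?_)
      · exact (Finset.mem_product.1 (hT1 (s1 (hS hw)))).1
      · rw [← sqd_eq_zero, ← hS' w hw w' hw', sqd_eq_zero]
        exact e
  · refine (H8 x _ D _ n3 (Nat.cast_nonneg _) ?_ (Nat.cast_nonneg _) hD ?_).trans ?_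
    · have := mul_le_mul_of_nonneg_left f3 (Nat.cast_nonneg (α := ℝ) CA)
      push_cast
      linarith
    · exact hD2.trans (mul_le_mul_of_nonneg_left (Real.rpow_le_rpow_of_exponent_le n3 hγ2) hC2.le)
    · rw [hk, le_div_iff₀ (by positivity)]
      linarith

/-- the inductive step on the dimension. -/
theorem distB_step (d : ℕ) (hd : 3 ≤ d) {β β' : ℝ} (h : DistB d β) (h0 : 0 < β') (h1 : β' < β)
    (h2 : β' < 2 / ((d : ℝ) + 1)) : DistB (d + 1) β' := by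
  have hβ : 0 < β := h0.trans h1
  obtain ⟨CH, hCH, HH⟩ := hyp_bound hβ h
  obtain ⟨ε0, e0, e1, e2, e3⟩ : ∃ ε0 : ℝ, 0 < ε0 ∧ ε0 < 1 ∧ β' / β < 1 - ε0 ∧
      ε0 + (2 - 2 / ((d + 1 : ℕ) : ℝ)) / (1 - ε0) + β' / (1 - ε0) < 2 := by
    have c1 : ∀ᶠ ε : ℝ in 𝓝 0, ε < 1 := gt_mem_nhds one_pos
    have c2 : ∀ᶠ ε : ℝ in 𝓝 0, β' / β < 1 - ε :=
      ContinuousAt.eventually_lt continuousAt_const (by fun_prop)
        (by rw [sub_zero, div_lt_one hβ]; exact h1)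
    have c3 : ∀ᶠ ε : ℝ in 𝓝 0,
        ε + (2 - 2 / ((d + 1 : ℕ) : ℝ)) / (1 - ε) + β' / (1 - ε) < 2 := by
      refine ContinuousAt.eventually_lt (by fun_prop (disch := norm_num)) continuousAt_const ?_
      push_cast
      simp only [sub_zero, div_one]
      linarith
    obtain ⟨ε, a1, a2⟩ := ((((c1.and c2).and c3).filter_mono nhdsWithin_le_nhds).and
      (self_mem_nhdsWithin (s := Set.Ioi (0 : ℝ)))).exists
    exact ⟨ε, a2, a1.1.1, a1.1.2, a1.2⟩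
  have hε : 0 < 1 - ε0 := by linarith
  obtain ⟨C1, c0, hC1, hc0, HC⟩ := thmC (d + 1) (by omega) ε0 e0 e1
  obtain ⟨N', HN⟩ := finstep_core (d + 1) (by omega) e0 e1 hC1
    (C2 := C1 ^ (β' / (1 - ε0))) (by positivity) e3
  obtain ⟨N, hN⟩ := eventually_atTop.1 (((finstep_ev (CH * 2 ^ (1 / β) / c0) e2).and
    (finstep_ev (C1 * N') hε)).and (eventually_ge_atTop 1))
  obtain ⟨n0, hn0⟩ := exists_nat_ge N
  refine distB_of_large one_pos n0 fun P0 hP0 => ?_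
  obtain ⟨P, hgen, hnd, hcard⟩ := finstep_rot (m := d + 1) (by omega) P0
  rw [← hnd, ← hcard, one_mul]
  rw [← hcard] at hP0
  by_contra hc
  rw [not_le] at hc
  obtain ⟨⟨n1, n2⟩, n3⟩ := hN _ (hn0.trans (Nat.cast_le.2 hP0))
  set x : ℝ := (P.card : ℝ) with hx
  have hx0 : 0 < x := by linarith
  rw [Real.rpow_zero, mul_one] at n2
  obtain ⟨P', G, a1, a2, a3, a4, a5⟩ := HC (Fin (d + 1)) 0 P _ (Fintype.card_fin _)
    (Finset.card_pos.1 (Nat.cast_pos.1 hx0)) (fun a ha b hb hab e => by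
      refine hgen a ha a ha b hb a ha (fun h' => hab (funext fun j => ?_)) 0 (by rw [e])
      have := congrFun h' j
      linarith) (HH P) (by
      have b1 : (nd P : ℝ) + 1 ≤ 2 * x ^ β' := by
        have := Real.one_le_rpow n3 h0.le
        linarith
      have b2 := Real.rpow_le_rpow (by positivity) b1 (one_div_pos.2 hβ).le
      rw [Real.mul_rpow zero_le_two (by positivity), ← Real.rpow_mul hx0.le, mul_one_div] at b2
      rw [div_mul_eq_mul_div, div_lt_iff₀ hc0] at n1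
      have b3 := mul_le_mul_of_nonneg_left b2 (zero_le_one.trans hCH)
      linarith)
  refine HN P' G (nd P) ?_ (fun a ha p hp a' ha' p' hp' =>
    hgen a (a1 ha) p (a1 hp) a' (a1 ha') p' (a1 hp')) (Nat.cast_le.2 (nd_mono a1)) ?_ a3 a4 a5
  · exact le_of_mul_le_mul_left (n2.le.trans a2) (by linarith)
  · have b1 := Real.rpow_le_rpow (by positivity) a2 (div_pos h0 hε).le
    rw [← Real.rpow_mul hx0.le, mul_div_cancel₀ _ hε.ne',
      Real.mul_rpow (by linarith) (Nat.cast_nonneg _)] at b1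
    exact hc.le.trans b1

end

end Vale.Agent.P054
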