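import Vale.Agent.P054.Iso3
import Vale.Agent.P054.WB

namespace Vale.Agent.P054

open MvPolynomial

noncomputable section

/-- motions sending two points to a line and a third point to a given point. -/
theorem few_motions {p0 p1 q0 q1 : Pt} (hp : p0 ≠ p1) (hq : q0 ≠ q1) (y : Pt × Pt)
    (hy : ¬ Col p0 p1 y.1) (𝓖 : Finset Mo)
    (h : ∀ g ∈ 𝓖, Iso g ∧ app g y.1 = y.2 ∧ Col q0 q1 (app g p0) ∧ Col q0 q1 (app g p1)) :
    𝓖.card ≤ 8 := by
  classical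
  have key : ∀ p : Pt, (∀ g ∈ 𝓖, Col q0 q1 (app g p)) → (𝓖.image fun g => app g p).card ≤ 2 := by
    intro p hp'
    refine line_sphere hq y.2 (sqd p y.1) _ fun z hz => ?_
    obtain ⟨g, hg, rfl⟩ := Finset.mem_image.1 hz
    exact ⟨hp' g hg, by rw [← (h g hg).2.1, iso_sqd (h g hg).1]⟩
  have h0 := key p0 fun g hg => (h g hg).2.2.1
  have h1 := key p1 fun g hg => (h g hg).2.2.2
  have h2 : ({1, -1} : Finset ℝ).card ≤ 2 := Finset.card_le_two
  have h3 : 𝓖.card ≤ ((𝓖.image fun g => app g p0) ×ˢ (𝓖.image fun g => app g p1) ×ˢ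
      ({1, -1} : Finset ℝ)).card := by
    refine Finset.card_le_card_of_injOn (fun g => (app g p0, app g p1, g.1.det))
      (fun g hg => ?_) fun g hg g' hg' e => ?_
    · have hg' : g ∈ 𝓖 := hg
      simp only [Finset.coe_product, Set.mem_prod, Finset.mem_coe, Finset.mem_insert,
        Finset.mem_singleton]
      exact ⟨Finset.mem_image_of_mem _ hg', Finset.mem_image_of_mem _ hg', iso_det (h g hg').1⟩
    · simp only [Prod.mk.injEq] at e
      exact iso_eq (h g hg).1 (h g' hg').1 e.2.2 hp hy e.1 e.2.1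
        ((h g hg).2.1.trans (h g' hg').2.1.symm)
  rw [Finset.card_product, Finset.card_product] at h3
  exact h3.trans (Nat.mul_le_mul h0 (Nat.mul_le_mul h1 h2))

theorem richL_count {C n u N L : ℝ} {k : ℕ} (hC : 0 < C) (hN0 : 0 ≤ N) (hN : N ≤ n) (hu : 2 ≤ u)
    (hn : n ≤ u ^ 2) (hk : u ≤ k) (h : L ≤ C * (N ^ 2 / (k : ℝ) ^ 3 + N / k)) :
    L * u ≤ 2 * C * n := by
  have hu0 : 0 < u := by linarith
  have hn0 : 0 ≤ n := hN0.trans hN
  have h1 : N ^ 2 / (k : ℝ) ^ 3 ≤ n / u := by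
    calc N ^ 2 / (k : ℝ) ^ 3 ≤ n ^ 2 / u ^ 3 := by gcongr
      _ ≤ n * u ^ 2 / u ^ 3 := by
        rw [sq n]
        gcongr
      _ = n / u := by field_simp
  have h2 : N / k ≤ n / u := by gcongr
  have h3 : L ≤ C * (n / u + n / u) := h.trans (by gcongr)
  calc L * u ≤ C * (n / u + n / u) * u := by gcongr
    _ = 2 * C * n := by field_simp; ring

/-- motions whose graph has a rich line. -/
theorem rich_lines : ∃ C : ℝ, 1 ≤ C ∧ ∀ (n u : ℝ) (P : Finset Pt) (X : Finset (Pt × Pt))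
    (𝓖 : Finset Mo) (a b : Mo → Pt), (P.card : ℝ) ≤ n → X ⊆ P ×ˢ P → 2 ≤ u → n ≤ u ^ 2 →
    (∀ g ∈ 𝓖, Iso g ∧ a g ≠ b g ∧ u ≤ ((onL (gr X g) (a g) (b g)).card : ℝ)) →
    (∑ g ∈ 𝓖, ((offL (gr X g) (a g) (b g)).card : ℝ)) * u ^ 2 ≤ C * n ^ 2 * X.card := by
  classical
  obtain ⟨C, hC, hst⟩ := st_rich
  refine ⟨32 * C ^ 2 + 1, by nlinarith [sq_nonneg C], fun n u P X 𝓖 a b hP hX hu hn h => ?_⟩
  have hex : ∀ g : Mo, ∃ x : (Pt × Pt) × (Pt × Pt), g ∈ 𝓖 →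
      x.1 ∈ onL (gr X g) (a g) (b g) ∧ x.2 ∈ onL (gr X g) (a g) (b g) ∧ x.1 ≠ x.2 := by
    intro g
    by_cases hg : g ∈ 𝓖
    · have h1 : 1 < (onL (gr X g) (a g) (b g)).card := by
        have : (2 : ℝ) ≤ (onL (gr X g) (a g) (b g)).card := hu.trans (h g hg).2.2
        exact_mod_cast this
      obtain ⟨x, hx, x', hx', hne⟩ := Finset.one_lt_card.1 h1
      exact ⟨(x, x'), fun _ => ⟨hx, hx', hne⟩⟩
    · exact ⟨0, fun hg' => absurd hg' hg⟩
  choose x hx using hex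
  have hmem : ∀ g, ∀ y ∈ gr X g, y.1 ∈ P ∧ y.2 ∈ P := fun g y hy =>
    Finset.mem_product.1 (hX (mem_gr.1 hy).1)
  have g1 : ∀ g ∈ 𝓖, (x g).1 ∈ gr X g := fun g hg => (mem_onL.1 (hx g hg).1).1
  have g2 : ∀ g ∈ 𝓖, (x g).2 ∈ gr X g := fun g hg => (mem_onL.1 (hx g hg).2.1).1
  have n1 : ∀ g ∈ 𝓖, (x g).1.1 ≠ (x g).2.1 := fun g hg e =>
    (hx g hg).2.2 (gr_inj (g1 g hg) (g2 g hg) e)
  have n2 : ∀ g ∈ 𝓖, (x g).1.2 ≠ (x g).2.2 := fun g hg e => by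
    rw [← (mem_gr.1 (g1 g hg)).2, ← (mem_gr.1 (g2 g hg)).2] at e
    exact n1 g hg (iso_inj (h g hg).1 e)
  have c1 : ∀ g ∈ 𝓖, ∀ z, Col (a g) (b g) z ↔ Col (x g).1.1 (x g).2.1 z := fun g hg =>
    col_iff (mem_onL.1 (hx g hg).1).2 (mem_onL.1 (hx g hg).2.1).2 (n1 g hg)
  have c2 : ∀ g ∈ 𝓖, ∀ z, Col (x g).1.1 (x g).2.1 z → Col (x g).1.2 (x g).2.2 (app g z) := by
    intro g hg z hz
    rw [← (mem_gr.1 (g1 g hg)).2, ← (mem_gr.1 (g2 g hg)).2]
    exact col_app g hz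
  obtain ⟨l1, hl1⟩ : ∃ l1 : Mo → Finset Pt,
      ∀ g, l1 g = P.filter fun z => Col (x g).1.1 (x g).2.1 z := ⟨_, fun _ => rfl⟩
  obtain ⟨l2, hl2⟩ : ∃ l2 : Mo → Finset Pt,
      ∀ g, l2 g = P.filter fun z => Col (x g).1.2 (x g).2.2 z := ⟨_, fun _ => rfl⟩
  have hk2 : 2 ≤ ⌈u⌉₊ := by
    have : (2 : ℝ) ≤ (⌈u⌉₊ : ℝ) := hu.trans (Nat.le_ceil u)
    exact_mod_cast this
  have k1 : ((𝓖.image l1).card : ℝ) * u ≤ 2 * C * n := by
    refine richL_count hC (Nat.cast_nonneg _) hP hu hn (Nat.le_ceil u)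
      (hst (Fin 3) P _ ⌈u⌉₊ hk2 fun L hL => ?_)
    obtain ⟨g, hg, rfl⟩ := Finset.mem_image.1 hL
    refine ⟨Nat.ceil_le.2 ((h g hg).2.2.trans (Nat.cast_le.2 ?_)), _, (hmem g _ (g1 g hg)).1, _,
      (hmem g _ (g2 g hg)).1, n1 g hg, hl1 g⟩
    refine Finset.card_le_card_of_injOn Prod.fst (fun y hy => ?_) fun y hy y' hy' e =>
      gr_inj (mem_onL.1 hy).1 (mem_onL.1 hy').1 e
    have hy' := mem_onL.1 hy
    rw [hl1]
    exact Finset.mem_filter.2 ⟨(hmem g y hy'.1).1, (c1 g hg _).1 hy'.2⟩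
  have k2 : ((𝓖.image l2).card : ℝ) * u ≤ 2 * C * n := by
    refine richL_count hC (Nat.cast_nonneg _) hP hu hn (Nat.le_ceil u)
      (hst (Fin 3) P _ ⌈u⌉₊ hk2 fun L hL => ?_)
    obtain ⟨g, hg, rfl⟩ := Finset.mem_image.1 hL
    refine ⟨Nat.ceil_le.2 ((h g hg).2.2.trans (Nat.cast_le.2 ?_)), _, (hmem g _ (g1 g hg)).2, _,
      (hmem g _ (g2 g hg)).2, n2 g hg, hl2 g⟩
    refine Finset.card_le_card_of_injOn Prod.snd (fun y hy => ?_) fun y hy y' hy' e => ?_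
    · have hy' := mem_onL.1 hy
      rw [hl2]
      refine Finset.mem_filter.2 ⟨(hmem g y hy'.1).2, ?_⟩
      rw [← (mem_gr.1 hy'.1).2]
      exact c2 g hg _ ((c1 g hg _).1 hy'.2)
    · have a1 := (mem_onL.1 hy).1
      have a2 := (mem_onL.1 hy').1
      refine gr_inj a1 a2 (iso_inj (h g hg).1 ?_)
      rw [(mem_gr.1 a1).2, (mem_gr.1 a2).2]
      exact e
  have hfib : ∀ y ∈ X, (𝓖.filter fun g => y ∈ offL (gr X g) (a g) (b g)).card ≤
      8 * ((𝓖.image l1) ×ˢ (𝓖.image l2)).card := by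
    intro y _
    refine Finset.card_le_mul_card_image_of_maps_to (f := fun g => (l1 g, l2 g))
      (fun g hg => ?_) 8 fun L _ => ?_
    · have hg' := (Finset.mem_filter.1 hg).1
      exact Finset.mem_product.2 ⟨Finset.mem_image_of_mem _ hg', Finset.mem_image_of_mem _ hg'⟩
    · rcases Finset.eq_empty_or_nonempty ((𝓖.filter fun g => y ∈ offL (gr X g) (a g) (b g)).filter
        fun g => (l1 g, l2 g) = L) with he | ⟨g0, hg0⟩
      · rw [he]
        simp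
      · obtain ⟨hg0', e0⟩ := Finset.mem_filter.1 hg0
        obtain ⟨hg0'', hy0⟩ := Finset.mem_filter.1 hg0'
        refine few_motions (n1 g0 hg0'') (n2 g0 hg0'') y
          (fun hc => (mem_offL.1 hy0).2 ((c1 g0 hg0'' _).2 hc)) _ fun g hg => ?_
        obtain ⟨hg', e⟩ := Finset.mem_filter.1 hg
        obtain ⟨hg'', hy1⟩ := Finset.mem_filter.1 hg'
        have e12 := e0.trans e.symm
        simp only [Prod.mk.injEq] at e12
        have m1 : ∀ z ∈ P, Col (x g0).1.1 (x g0).2.1 z → Col (x g).1.1 (x g).2.1 z := by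
          intro z hz hc
          have : z ∈ l1 g0 := by rw [hl1]; exact Finset.mem_filter.2 ⟨hz, hc⟩
          rw [e12.1, hl1] at this
          exact (Finset.mem_filter.1 this).2
        have m2 : ∀ z ∈ P, Col (x g0).1.2 (x g0).2.2 z → Col (x g).1.2 (x g).2.2 z := by
          intro z hz hc
          have : z ∈ l2 g0 := by rw [hl2]; exact Finset.mem_filter.2 ⟨hz, hc⟩
          rw [e12.2, hl2] at this
          exact (Finset.mem_filter.1 this).2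
        have m3 := col_iff (m2 _ (hmem g0 _ (g1 g0 hg0'')).2 (col_left _ _))
          (m2 _ (hmem g0 _ (g2 g0 hg0'')).2 (col_right _ _)) (n2 g0 hg0'')
        exact ⟨(h g hg'').1, (mem_gr.1 (mem_offL.1 hy1).1).2,
          (m3 _).1 (c2 g hg'' _ (m1 _ (hmem g0 _ (g1 g0 hg0'')).1 (col_left _ _))),
          (m3 _).1 (c2 g hg'' _ (m1 _ (hmem g0 _ (g2 g0 hg0'')).1 (col_right _ _)))⟩
  have hsum : ∑ g ∈ 𝓖, (offL (gr X g) (a g) (b g)).card =
      ∑ y ∈ X, (𝓖.filter fun g => y ∈ offL (gr X g) (a g) (b g)).card := by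
    simp only [Finset.card_filter]
    rw [Finset.sum_comm]
    refine Finset.sum_congr rfl fun g _ => ?_
    rw [← Finset.card_filter]
    congr 1
    ext y
    exact ⟨fun hy => Finset.mem_filter.2 ⟨(mem_gr.1 (mem_offL.1 hy).1).1, hy⟩,
      fun hy => (Finset.mem_filter.1 hy).2⟩
  have htot : ∑ g ∈ 𝓖, (offL (gr X g) (a g) (b g)).card ≤
      X.card * (8 * ((𝓖.image l1).card * (𝓖.image l2).card)) := by
    rw [hsum, ← Finset.card_product, ← smul_eq_mul]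
    exact Finset.sum_le_card_nsmul _ _ _ hfib
  have htot' : (∑ g ∈ 𝓖, ((offL (gr X g) (a g) (b g)).card : ℝ)) ≤
      X.card * (8 * (((𝓖.image l1).card : ℝ) * (𝓖.image l2).card)) := by
    exact_mod_cast htot
  have hu0 : 0 ≤ u := by linarith
  have hn0 : 0 ≤ n := (Nat.cast_nonneg _).trans hP
  have hprod : ((𝓖.image l1).card : ℝ) * u * (((𝓖.image l2).card : ℝ) * u) ≤
      2 * C * n * (2 * C * n) := mul_le_mul k1 k2 (by positivity) (by positivity)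
  calc (∑ g ∈ 𝓖, ((offL (gr X g) (a g) (b g)).card : ℝ)) * u ^ 2
      ≤ X.card * (8 * (((𝓖.image l1).card : ℝ) * (𝓖.image l2).card)) * u ^ 2 :=
        mul_le_mul_of_nonneg_right htot' (sq_nonneg u)
    _ = 8 * X.card * (((𝓖.image l1).card : ℝ) * u * (((𝓖.image l2).card : ℝ) * u)) := by ring
    _ ≤ 8 * X.card * (2 * C * n * (2 * C * n)) :=
        mul_le_mul_of_nonneg_left hprod (by positivity)
    _ = 32 * C ^ 2 * n ^ 2 * X.card := by ring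
    _ ≤ (32 * C ^ 2 + 1) * n ^ 2 * X.card := by gcongr; linarith

/-- rich motions with a rich line. -/
theorem rich_lines' : ∃ C : ℝ, 1 ≤ C ∧ ∀ (n u t : ℝ) (P : Finset Pt) (X : Finset (Pt × Pt))
    (𝓖 : Finset Mo), (P.card : ℝ) ≤ n → X ⊆ P ×ˢ P → 2 ≤ u → n ≤ u ^ 2 →
    (∀ g ∈ 𝓖, Iso g ∧ Rich X g t ∧ ¬ LinB (gr X g) u) →
    (𝓖.card : ℝ) * t * u ^ 2 ≤ C * n ^ 2 * X.card := by
  obtain ⟨C, hC, hr⟩ := rich_lines
  refine ⟨C, hC, fun n u t P X 𝓖 hP hX hu hn h => ?_⟩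
  have hex : ∀ g : Mo, ∃ ab : Pt × Pt, g ∈ 𝓖 →
      ab.1 ≠ ab.2 ∧ u ≤ ((onL (gr X g) ab.1 ab.2).card : ℝ) := by
    intro g
    by_cases hg : g ∈ 𝓖
    · have h1 := (h g hg).2.2
      unfold LinB at h1
      push Not at h1
      obtain ⟨a, b, hab, h2⟩ := h1
      exact ⟨(a, b), fun _ => ⟨hab, h2.le⟩⟩
    · exact ⟨0, fun hg' => absurd hg' hg⟩
  choose ab hab using hex
  refine le_trans (mul_le_mul_of_nonneg_right ?_ (sq_nonneg u))
    (hr n u P X 𝓖 (fun g => (ab g).1) (fun g => (ab g).2) hP hX hu hn fun g hg =>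
      ⟨(h g hg).1, hab g hg⟩)
  rw [← nsmul_eq_mul]
  exact Finset.card_nsmul_le_sum _ _ _ fun g hg => (h g hg).2.1 _ _ (hab g hg).1

end

end Vale.Agent.P054
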