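import Vale.Agent.P054.Dyad
import Vale.Agent.P054.RichL

namespace Vale.Agent.P054

open MvPolynomial

noncomputable section

theorem hpairs_fam (X : Finset (Pt × Pt)) (ρ : ℝ) : ∃ 𝓜 : Finset Mo,
    (∀ g ∈ 𝓜, Iso g ∧ ρ ≤ ((gr X g).card : ℝ)) ∧
    ∀ g, Iso g → ρ ≤ ((gr X g).card : ℝ) → ∃ g' ∈ 𝓜, gr X g' = gr X g := by
  classical
  have h1 : ∀ Z : Finset (Pt × Pt), ∃ ζ : Mo, (∃ g, Iso g ∧ gr X g = Z) → Iso ζ ∧ gr X ζ = Z := by
    intro Z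
    by_cases h : ∃ g, Iso g ∧ gr X g = Z
    · obtain ⟨g, hg⟩ := h
      exact ⟨g, fun _ => hg⟩
    · exact ⟨0, fun h' => absurd h' h⟩
  choose ζ hζ using h1
  refine ⟨(X.powerset.filter fun Z => ρ ≤ (Z.card : ℝ) ∧ ∃ g, Iso g ∧ gr X g = Z).image ζ, ?_, ?_⟩
  · intro g hg
    obtain ⟨Z, hZ, rfl⟩ := Finset.mem_image.1 hg
    obtain ⟨h2, h3⟩ := (Finset.mem_filter.1 hZ).2
    refine ⟨(hζ Z h3).1, ?_⟩
    rw [(hζ Z h3).2]
    exact h2
  · intro g hg hρ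
    refine ⟨ζ (gr X g), Finset.mem_image_of_mem _ (Finset.mem_filter.2
      ⟨Finset.mem_powerset.2 fun y hy => (mem_gr.1 hy).1, hρ, g, hg, rfl⟩), ?_⟩
    exact (hζ _ ⟨g, hg, rfl⟩).2

theorem hpairs_R (X : Finset (Pt × Pt)) {ρ B : ℝ} (hρ : 0 < ρ) (hB : RB3 X (ρ / 3) B)
    (𝓜 : Finset Mo) (h : ∀ g ∈ 𝓜, Iso g ∧ ρ ≤ ((gr X g).card : ℝ) ∧
      Rich X g (((gr X g).card : ℝ) / 3)) :
    (∑ g ∈ 𝓜, ((gr X g).card : ℝ) ^ 2) * ρ ≤ 216 * B := by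
  have h1 := dyadic_sum 𝓜 (fun g => ((gr X g).card : ℝ)) (fun _ => 1) ρ (27 * B) 2 1 hρ le_rfl
    (fun _ _ => zero_le_one) (fun g hg => (h g hg).2.1) (by
      intro w hw
      rw [Finset.sum_const, nsmul_eq_mul, mul_one]
      refine le_trans (le_of_eq ?_) (mul_le_mul_of_nonneg_left (hB (w / 3)
        (𝓜.filter fun g => w ≤ ((gr X g).card : ℝ)) (by linarith) ?_)
        (by norm_num : (0 : ℝ) ≤ 27))
      · ring
      · intro g hg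
        obtain ⟨hg1, hg2⟩ := Finset.mem_filter.1 hg
        exact ⟨(h g hg1).1, (h g hg1).2.2.mono (Finset.Subset.refl _) (by linarith)⟩)
  simp only [one_mul, pow_one] at h1
  exact h1.trans (le_of_eq (by ring))

theorem hpairs_L : ∃ C : ℝ, 1 ≤ C ∧ ∀ (n ρ : ℝ) (P : Finset Pt) (X : Finset (Pt × Pt))
    (𝓜 : Finset Mo) (a b : Mo → Pt), (P.card : ℝ) ≤ n → X ⊆ P ×ˢ P → 3 ≤ ρ → 4 * n ≤ ρ ^ 2 →
    (∀ g ∈ 𝓜, Iso g ∧ ρ ≤ ((gr X g).card : ℝ) ∧ a g ≠ b g ∧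
      ((offL (gr X g) (a g) (b g)).card : ℝ) < ((gr X g).card : ℝ) / 3) →
    (∑ g ∈ 𝓜, ((offL (gr X g) (a g) (b g)).card : ℝ) * (gr X g).card) * ρ ≤
      9 * C * (n ^ 2 * X.card) := by
  obtain ⟨C, hC, hrich⟩ := rich_lines
  refine ⟨C, hC, ?_⟩
  intro n ρ P X 𝓜 a b hP hX hρ hn h
  have h1 := dyadic_sum 𝓜 (fun g => ((gr X g).card : ℝ))
    (fun g => ((offL (gr X g) (a g) (b g)).card : ℝ)) ρ (9 / 4 * (C * n ^ 2 * X.card)) 1 1
    (by linarith) le_rfl (fun _ _ => Nat.cast_nonneg _) (fun g hg => (h g hg).2.1) (by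
      intro w hw
      have h2 : ρ ^ 2 ≤ w ^ 2 := pow_le_pow_left₀ (by linarith) hw 2
      refine le_trans (le_of_eq ?_) (mul_le_mul_of_nonneg_left
        (hrich n (2 * w / 3) P X (𝓜.filter fun g => w ≤ ((gr X g).card : ℝ)) a b hP hX
          (by linarith) (by nlinarith [sq_nonneg w]) ?_)
        (by norm_num : (0 : ℝ) ≤ 9 / 4))
      · ring
      · intro g hg
        obtain ⟨hg1, hg2⟩ := Finset.mem_filter.1 hg
        obtain ⟨h3, _, h4, h5⟩ := h g hg1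
        refine ⟨h3, h4, ?_⟩
        have h6 : ((onL (gr X g) (a g) (b g)).card : ℝ) + (offL (gr X g) (a g) (b g)).card =
            (gr X g).card := by exact_mod_cast card_onL_add _ _ _
        linarith)
  simp only [pow_one] at h1
  linarith

/-- few pairs lie in large compatible sets. -/
theorem heavy_pairs : ∃ C : ℝ, 1 ≤ C ∧ ∀ (n ρ B : ℝ) (P : Finset Pt) (X : Finset (Pt × Pt)),
    (P.card : ℝ) ≤ n → X ⊆ P ×ˢ P → 3 ≤ ρ → 4 * n ≤ ρ ^ 2 → RB3 X (ρ / 3) B →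
    ∃ Hv : Finset ((Pt × Pt) × (Pt × Pt)), (Hv.card : ℝ) * ρ ≤ C * (B + n ^ 2 * X.card) ∧
      HvP X Hv ρ := by
  classical
  obtain ⟨C, hC, hL⟩ := hpairs_L
  refine ⟨216 + 18 * C, by linarith, ?_⟩
  intro n ρ B P X hP hX hρ hn hB
  have hB0 : 0 ≤ B := by simpa using hB (ρ / 3) ∅ le_rfl (by simp)
  obtain ⟨𝓜, h𝓜, h𝓜'⟩ := hpairs_fam X ρ
  have h1 : ∀ g : Mo, ∃ ab : Pt × Pt, ¬ Rich X g (((gr X g).card : ℝ) / 3) → ab.1 ≠ ab.2 ∧
      ((offL (gr X g) ab.1 ab.2).card : ℝ) < ((gr X g).card : ℝ) / 3 := by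
    intro g
    by_cases h : Rich X g (((gr X g).card : ℝ) / 3)
    · exact ⟨0, fun h' => absurd h h'⟩
    · have h2 := h
      unfold Rich at h2
      push Not at h2
      obtain ⟨a, b, hab⟩ := h2
      exact ⟨(a, b), fun _ => hab⟩
  choose ab hab using h1
  obtain ⟨𝓡, h𝓡⟩ : ∃ 𝓡 : Finset Mo, ∀ g, g ∈ 𝓡 ↔ g ∈ 𝓜 ∧ Rich X g (((gr X g).card : ℝ) / 3) :=
    ⟨𝓜.filter fun g => Rich X g (((gr X g).card : ℝ) / 3), fun g => Finset.mem_filter⟩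
  obtain ⟨𝓛, h𝓛⟩ : ∃ 𝓛 : Finset Mo, ∀ g, g ∈ 𝓛 ↔ g ∈ 𝓜 ∧ ¬ Rich X g (((gr X g).card : ℝ) / 3) :=
    ⟨𝓜.filter fun g => ¬ Rich X g (((gr X g).card : ℝ) / 3), fun g => Finset.mem_filter⟩
  have hR := hpairs_R X (by linarith) hB 𝓡 fun g hg =>
    ⟨(h𝓜 g ((h𝓡 g).1 hg).1).1, (h𝓜 g ((h𝓡 g).1 hg).1).2, ((h𝓡 g).1 hg).2⟩
  have hL' := hL n ρ P X 𝓛 (fun g => (ab g).1) (fun g => (ab g).2) hP hX hρ hn fun g hg =>
    ⟨(h𝓜 g ((h𝓛 g).1 hg).1).1, (h𝓜 g ((h𝓛 g).1 hg).1).2, hab g ((h𝓛 g).1 hg).2⟩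
  refine ⟨(𝓡.biUnion fun g => gr X g ×ˢ gr X g) ∪ 𝓛.biUnion fun g =>
    (offL (gr X g) (ab g).1 (ab g).2 ×ˢ gr X g) ∪ (gr X g ×ˢ offL (gr X g) (ab g).1 (ab g).2),
    ?_, ?_⟩
  · have h2 : ((𝓡.biUnion fun g => gr X g ×ˢ gr X g) ∪ 𝓛.biUnion fun g =>
        (offL (gr X g) (ab g).1 (ab g).2 ×ˢ gr X g) ∪
          (gr X g ×ˢ offL (gr X g) (ab g).1 (ab g).2)).card ≤
        ∑ g ∈ 𝓡, (gr X g).card ^ 2 +
          2 * ∑ g ∈ 𝓛, (offL (gr X g) (ab g).1 (ab g).2).card * (gr X g).card := by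
      refine (Finset.card_union_le _ _).trans (Nat.add_le_add ?_ ?_)
      · refine Finset.card_biUnion_le.trans (Finset.sum_le_sum fun g _ => ?_)
        rw [Finset.card_product, sq]
      · rw [Finset.mul_sum]
        refine Finset.card_biUnion_le.trans (Finset.sum_le_sum fun g _ => ?_)
        refine (Finset.card_union_le _ _).trans (le_of_eq ?_)
        rw [Finset.card_product, Finset.card_product]
        ring
    have h3 := (Nat.cast_le (α := ℝ)).2 h2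
    push_cast at h3
    have h4 := mul_le_mul_of_nonneg_right h3 (by linarith : 0 ≤ ρ)
    have h5 : 0 ≤ n ^ 2 * X.card := by positivity
    have h6 : 0 ≤ C * B := by positivity
    linarith
  · intro x hx S hS hSc hxS
    by_cases hc : (S.card : ℝ) ≤ ρ
    · exact Or.inl hc
    right
    push Not at hc
    obtain ⟨y0, hy0⟩ : S.Nonempty := by
      rw [← Finset.card_pos]
      have h2 : (0 : ℝ) < S.card := by linarith
      exact_mod_cast h2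
    obtain ⟨g, hg, hgS⟩ := exists_iso (insert x S) (by
      intro y hy z hz
      rcases Finset.mem_insert.1 hy with rfl | hy'
      · rcases Finset.mem_insert.1 hz with rfl | hz'
        · rw [sqd_eq_zero.2 rfl, sqd_eq_zero.2 rfl]
        · exact (hxS z hz').1
      · rcases Finset.mem_insert.1 hz with rfl | hz'
        · rw [sqd_comm y.1, sqd_comm y.2]
          exact (hxS y hy').1
        · exact hSc y hy' z hz')
    have hSg : S ⊆ gr X g := fun y hy => mem_gr.2 ⟨hS hy, hgS y (Finset.mem_insert_of_mem hy)⟩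
    have hxg : x ∈ gr X g := mem_gr.2 ⟨hx, hgS x (Finset.mem_insert_self _ _)⟩
    obtain ⟨g', hg', e⟩ := h𝓜' g hg (hc.le.trans (Nat.cast_le.2 (Finset.card_le_card hSg)))
    rw [← e] at hSg hxg
    by_cases hr : Rich X g' (((gr X g').card : ℝ) / 3)
    · exact absurd (Finset.mem_union_left _ (Finset.mem_biUnion.2 ⟨g', (h𝓡 g').2 ⟨hg', hr⟩,
        Finset.mem_product.2 ⟨hxg, hSg hy0⟩⟩)) (hxS y0 hy0).2
    refine ⟨(ab g').1, (ab g').2, (hab g' hr).1, ?_, fun y hy => ?_⟩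
    · by_contra h2
      exact (hxS y0 hy0).2 (Finset.mem_union_right _ (Finset.mem_biUnion.2
        ⟨g', (h𝓛 g').2 ⟨hg', hr⟩, Finset.mem_union_left _
          (Finset.mem_product.2 ⟨mem_offL.2 ⟨hxg, h2⟩, hSg hy0⟩)⟩))
    · by_contra h2
      exact (hxS y hy).2 (Finset.mem_union_right _ (Finset.mem_biUnion.2
        ⟨g', (h𝓛 g').2 ⟨hg', hr⟩, Finset.mem_union_right _
          (Finset.mem_product.2 ⟨hxg, mem_offL.2 ⟨hSg hy, h2⟩⟩)⟩))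

end

end Vale.Agent.P054
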