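import Vale.Agent.P054.D3L
import Vale.Agent.P054.HPairs

namespace Vale.Agent.P054

open MvPolynomial

noncomputable section

open Classical in
theorem hpl_step {ι : Type} (S : Finset ι) (f β : ι → ℝ) (j B s r : ℝ) (hj : 0 < j)
    (hs : 0 ≤ s) (hβ : ∀ i ∈ S, 0 ≤ β i)
    (h : ∀ w : ℝ, j ≤ w → (∑ i ∈ S.filter (fun i => w ≤ f i), β i) * w ^ (s + r) ≤ B) (M : ℕ) :
    (∑ i ∈ (S.filter (fun i => f i < 2 ^ (M + 1) * j)).filter (fun i => ¬ f i < 2 ^ M * j),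
      β i * f i ^ s) * j ^ r ≤ 2 ^ s * B * ((2 : ℝ) ^ (-r)) ^ M := by
  have hM : (1 : ℝ) ≤ 2 ^ M := one_le_pow₀ (by norm_num)
  have hM0 : (0 : ℝ) < 2 ^ M := by positivity
  set w : ℝ := 2 ^ M * j with hw
  have hw0 : 0 < w := by positivity
  have hjw : j ≤ w := by nlinarith
  have h1 : (∑ i ∈ (S.filter (fun i => f i < 2 ^ (M + 1) * j)).filter (fun i => ¬ f i < w),
      β i * f i ^ s) ≤ (∑ i ∈ S.filter (fun i => w ≤ f i), β i) * (2 * w) ^ s := by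
    rw [Finset.sum_mul]
    calc _ ≤ ∑ i ∈ (S.filter (fun i => f i < 2 ^ (M + 1) * j)).filter (fun i => ¬ f i < w),
          β i * (2 * w) ^ s := by
          refine Finset.sum_le_sum fun i hi => ?_
          obtain ⟨a, b⟩ := Finset.mem_filter.1 hi
          obtain ⟨a1, a2⟩ := Finset.mem_filter.1 a
          refine mul_le_mul_of_nonneg_left ?_ (hβ i a1)
          refine Real.rpow_le_rpow (hw0.le.trans (not_lt.1 b)) ?_ hs
          rw [hw, ← mul_assoc, ← pow_succ']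
          exact a2.le
      _ ≤ _ := by
          refine Finset.sum_le_sum_of_subset_of_nonneg (fun i hi => ?_) fun i hi _ => ?_
          · obtain ⟨a, b⟩ := Finset.mem_filter.1 hi
            exact Finset.mem_filter.2 ⟨(Finset.mem_filter.1 a).1, not_lt.1 b⟩
          · exact mul_nonneg (hβ i (Finset.mem_filter.1 hi).1) (by positivity)
  have h2 : j ^ r = w ^ r * ((2 : ℝ) ^ (-r)) ^ M := by
    rw [hw, Real.mul_rpow hM0.le hj.le, ← Real.rpow_pow_comm (by norm_num),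
      Real.rpow_neg (by norm_num), inv_pow]
    have : (0 : ℝ) < ((2 : ℝ) ^ r) ^ M := by positivity
    field_simp
  have h3 := h w hjw
  calc _ ≤ (∑ i ∈ S.filter (fun i => w ≤ f i), β i) * (2 * w) ^ s * j ^ r := by
        gcongr
    _ = 2 ^ s * ((∑ i ∈ S.filter (fun i => w ≤ f i), β i) * w ^ (s + r)) *
          ((2 : ℝ) ^ (-r)) ^ M := by
        rw [Real.mul_rpow (by norm_num) hw0.le, h2, Real.rpow_add hw0]; ring
    _ ≤ _ := by gcongr

open Classical in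
/-- summation of a power law with real exponents. -/
theorem dyadic_sumR (s r : ℝ) (hs : 0 ≤ s) (hr : 0 < r) : ∃ C : ℝ, 1 ≤ C ∧
    ∀ (ι : Type) (S : Finset ι) (f β : ι → ℝ) (j B : ℝ), 0 < j → (∀ i ∈ S, 0 ≤ β i) →
    (∀ i ∈ S, j ≤ f i) →
    (∀ w : ℝ, j ≤ w → (∑ i ∈ S.filter (fun i => w ≤ f i), β i) * w ^ (s + r) ≤ B) →
    (∑ i ∈ S, β i * f i ^ s) * j ^ r ≤ C * B := by
  have hq0 : (0 : ℝ) < 2 ^ (-r) := by positivity
  have hq1 : (2 : ℝ) ^ (-r) < 1 := Real.rpow_lt_one_of_one_lt_of_neg (by norm_num) (by linarith)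
  have h2s : (1 : ℝ) ≤ 2 ^ s := Real.one_le_rpow (by norm_num) hs
  set q : ℝ := 2 ^ (-r) with hq
  have hq2 : 0 < 1 - q := by linarith
  refine ⟨2 ^ s / (1 - q), by rw [le_div_iff₀ hq2]; linarith, ?_⟩
  intro ι S f β j B hj hβ hf h
  have hB : 0 ≤ B := le_trans (mul_nonneg
    (Finset.sum_nonneg fun i hi => hβ i (Finset.mem_filter.1 hi).1) (by positivity)) (h j le_rfl)
  have key : ∀ M : ℕ, (∑ i ∈ S.filter (fun i => f i < 2 ^ M * j), β i * f i ^ s) * j ^ r ≤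
      2 ^ s / (1 - q) * B * (1 - q ^ M) := by
    intro M
    induction M with
    | zero =>
      rw [Finset.filter_false_of_mem fun i hi => by simpa using hf i hi]
      simp
    | succ M ih =>
      have e1 : (S.filter (fun i => f i < 2 ^ (M + 1) * j)).filter (fun i => f i < 2 ^ M * j) =
          S.filter (fun i => f i < 2 ^ M * j) := by
        rw [Finset.filter_filter]
        refine Finset.filter_congr fun i _ => ⟨fun a => a.2, fun a => ⟨a.trans_le ?_, a⟩⟩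
        have : (0 : ℝ) < 2 ^ M * j := by positivity
        rw [pow_succ]
        linarith
      rw [← Finset.sum_filter_add_sum_filter_not (S.filter (fun i => f i < 2 ^ (M + 1) * j))
        (fun i => f i < 2 ^ M * j), e1, add_mul]
      have h1 := hpl_step S f β j B s r hj hs hβ h M
      rw [← hq] at h1
      have e2 : 2 ^ s / (1 - q) * B * (1 - q ^ (M + 1)) =
          2 ^ s / (1 - q) * B * (1 - q ^ M) + 2 ^ s * B * q ^ M := by
        field_simp; ring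
      rw [e2]
      exact add_le_add ih h1
  obtain ⟨M, hM⟩ := pow_unbounded_of_one_lt ((∑ i ∈ S, f i) / j) (by norm_num : (1 : ℝ) < 2)
  rw [div_lt_iff₀ hj] at hM
  have h1 := key M
  rw [Finset.filter_true_of_mem fun i hi => lt_of_le_of_lt
    (Finset.single_le_sum (fun k hk => hj.le.trans (hf k hk)) hi) hM] at h1
  refine h1.trans (mul_le_of_le_one_right (by positivity) ?_)
  linarith [pow_pos hq0 M]

theorem hpl_R : ∃ C : ℝ, 1 ≤ C ∧ ∀ (X : Finset (Pt × Pt)) (ρ B : ℝ), 0 < ρ → RB5 X (ρ / 3) B →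
    ∀ 𝓜 : Finset Mo, (∀ g ∈ 𝓜, Iso g ∧ ρ ≤ ((gr X g).card : ℝ) ∧
      Rich X g (((gr X g).card : ℝ) / 3)) →
    (∑ g ∈ 𝓜, ((gr X g).card : ℝ) ^ 2) ≤ C * (B / Real.sqrt ρ) := by
  classical
  obtain ⟨C, hC, hd⟩ := dyadic_sumR 2 (1 / 2) (by norm_num) (by norm_num)
  have h3 : (1 : ℝ) ≤ 3 ^ ((5 : ℝ) / 2) := Real.one_le_rpow (by norm_num) (by norm_num)
  refine ⟨C * 3 ^ ((5 : ℝ) / 2), one_le_mul_of_one_le_of_one_le hC h3, ?_⟩
  intro X ρ B hρ hB 𝓜 h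
  have h1 := hd _ 𝓜 (fun g => ((gr X g).card : ℝ)) (fun _ => 1) ρ (3 ^ ((5 : ℝ) / 2) * B) hρ
    (fun _ _ => zero_le_one) (fun g hg => (h g hg).2.1) (by
      intro w hw
      rw [Finset.sum_const, nsmul_eq_mul, mul_one]
      refine le_trans (le_of_eq ?_) (mul_le_mul_of_nonneg_left (hB (w / 3)
        (𝓜.filter fun g => w ≤ ((gr X g).card : ℝ)) (by linarith) ?_)
        (by positivity : (0 : ℝ) ≤ 3 ^ ((5 : ℝ) / 2)))
      · rw [Real.div_rpow (by linarith) (by norm_num), show (2 : ℝ) + 1 / 2 = 5 / 2 by norm_num]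
        field_simp
      · intro g hg
        obtain ⟨hg1, hg2⟩ := Finset.mem_filter.1 hg
        exact ⟨(h g hg1).1, (h g hg1).2.2.mono (Finset.Subset.refl _) (by linarith)⟩)
  simp only [one_mul, Real.rpow_two, ← Real.sqrt_eq_rpow] at h1
  rw [← mul_div_assoc, le_div_iff₀ (Real.sqrt_pos.2 hρ), mul_assoc]
  exact h1

/-- few pairs lie in large compatible sets. -/
theorem heavy_pairsL : ∃ C : ℝ, 1 ≤ C ∧ ∀ (n ρ B : ℝ) (P : Finset Pt) (X : Finset (Pt × Pt)),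
    (P.card : ℝ) ≤ n → X ⊆ P ×ˢ P → 3 ≤ ρ → 4 * n ≤ ρ ^ 2 → RB5 X (ρ / 3) B →
    ∃ Hv : Finset ((Pt × Pt) × (Pt × Pt)),
      (Hv.card : ℝ) ≤ C * (B / Real.sqrt ρ + n ^ 2 * X.card / ρ) ∧ HvP X Hv ρ := by
  classical
  obtain ⟨C, hC, hL⟩ := hpairs_L
  obtain ⟨C', hC', hR'⟩ := hpl_R
  refine ⟨C' + 18 * C, by linarith, ?_⟩
  intro n ρ B P X hP hX hρ hn hB
  have hB0 : 0 ≤ B := by simpa using hB (ρ / 3) ∅ le_rfl (by simp)
  obtain ⟨𝓜, h𝓜, h𝓜'⟩ := hpairs_fam X ρ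
  have h1 : ∀ g : Mo, ∃ ab : Pt × Pt, ¬ Rich X g (((gr X g).card : ℝ) / 3) → ab.1 ≠ ab.2 ∧
      ((offL (gr X g) ab.1 ab.2).card : ℝ) < ((gr X g).card : ℝ) / 3 := by
    intro g
    by_cases h : Rich X g (((gr X g).card : ℝ) / 3)
    · exact ⟨0, fun h' => absurd h h'⟩
    · have h2 := h
      unfold Rich at h2
      push Not at h2
      obtain ⟨a, b, hab⟩ := h2
      exact ⟨(a, b), fun _ => hab⟩
  choose ab hab using h1
  obtain ⟨𝓡, h𝓡⟩ : ∃ 𝓡 : Finset Mo, ∀ g, g ∈ 𝓡 ↔ g ∈ 𝓜 ∧ Rich X g (((gr X g).card : ℝ) / 3) :=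
    ⟨𝓜.filter fun g => Rich X g (((gr X g).card : ℝ) / 3), fun g => Finset.mem_filter⟩
  obtain ⟨𝓛, h𝓛⟩ : ∃ 𝓛 : Finset Mo, ∀ g, g ∈ 𝓛 ↔ g ∈ 𝓜 ∧ ¬ Rich X g (((gr X g).card : ℝ) / 3) :=
    ⟨𝓜.filter fun g => ¬ Rich X g (((gr X g).card : ℝ) / 3), fun g => Finset.mem_filter⟩
  have hR := hR' X ρ B (by linarith) hB 𝓡 fun g hg =>
    ⟨(h𝓜 g ((h𝓡 g).1 hg).1).1, (h𝓜 g ((h𝓡 g).1 hg).1).2, ((h𝓡 g).1 hg).2⟩
  have hL' := hL n ρ P X 𝓛 (fun g => (ab g).1) (fun g => (ab g).2) hP hX hρ hn fun g hg =>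
    ⟨(h𝓜 g ((h𝓛 g).1 hg).1).1, (h𝓜 g ((h𝓛 g).1 hg).1).2, hab g ((h𝓛 g).1 hg).2⟩
  refine ⟨(𝓡.biUnion fun g => gr X g ×ˢ gr X g) ∪ 𝓛.biUnion fun g =>
    (offL (gr X g) (ab g).1 (ab g).2 ×ˢ gr X g) ∪ (gr X g ×ˢ offL (gr X g) (ab g).1 (ab g).2),
    ?_, ?_⟩
  · have h2 : ((𝓡.biUnion fun g => gr X g ×ˢ gr X g) ∪ 𝓛.biUnion fun g =>
        (offL (gr X g) (ab g).1 (ab g).2 ×ˢ gr X g) ∪
          (gr X g ×ˢ offL (gr X g) (ab g).1 (ab g).2)).card ≤
        ∑ g ∈ 𝓡, (gr X g).card ^ 2 +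
          2 * ∑ g ∈ 𝓛, (offL (gr X g) (ab g).1 (ab g).2).card * (gr X g).card := by
      refine (Finset.card_union_le _ _).trans (Nat.add_le_add ?_ ?_)
      · refine Finset.card_biUnion_le.trans (Finset.sum_le_sum fun g _ => ?_)
        rw [Finset.card_product, sq]
      · rw [Finset.mul_sum]
        refine Finset.card_biUnion_le.trans (Finset.sum_le_sum fun g _ => ?_)
        refine (Finset.card_union_le _ _).trans (le_of_eq ?_)
        rw [Finset.card_product, Finset.card_product]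
        ring
    have h3 := (Nat.cast_le (α := ℝ)).2 h2
    push_cast at h3
    have hρ0 : 0 < ρ := by linarith
    rw [← le_div_iff₀ hρ0, mul_div_assoc] at hL'
    have h5 : 0 ≤ C' * (n ^ 2 * X.card / ρ) := by positivity
    have h6 : 0 ≤ C * (B / Real.sqrt ρ) := by positivity
    linarith
  · intro x hx S hS hSc hxS
    by_cases hc : (S.card : ℝ) ≤ ρ
    · exact Or.inl hc
    right
    push Not at hc
    obtain ⟨y0, hy0⟩ : S.Nonempty := by
      rw [← Finset.card_pos]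
      have h2 : (0 : ℝ) < S.card := by linarith
      exact_mod_cast h2
    obtain ⟨g, hg, hgS⟩ := exists_iso (insert x S) (by
      intro y hy z hz
      rcases Finset.mem_insert.1 hy with rfl | hy'
      · rcases Finset.mem_insert.1 hz with rfl | hz'
        · rw [sqd_eq_zero.2 rfl, sqd_eq_zero.2 rfl]
        · exact (hxS z hz').1
      · rcases Finset.mem_insert.1 hz with rfl | hz'
        · rw [sqd_comm y.1, sqd_comm y.2]
          exact (hxS y hy').1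
        · exact hSc y hy' z hz')
    have hSg : S ⊆ gr X g := fun y hy => mem_gr.2 ⟨hS hy, hgS y (Finset.mem_insert_of_mem hy)⟩
    have hxg : x ∈ gr X g := mem_gr.2 ⟨hx, hgS x (Finset.mem_insert_self _ _)⟩
    obtain ⟨g', hg', e⟩ := h𝓜' g hg (hc.le.trans (Nat.cast_le.2 (Finset.card_le_card hSg)))
    rw [← e] at hSg hxg
    by_cases hr : Rich X g' (((gr X g').card : ℝ) / 3)
    · exact absurd (Finset.mem_union_left _ (Finset.mem_biUnion.2 ⟨g', (h𝓡 g').2 ⟨hg', hr⟩,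
        Finset.mem_product.2 ⟨hxg, hSg hy0⟩⟩)) (hxS y0 hy0).2
    refine ⟨(ab g').1, (ab g').2, (hab g' hr).1, ?_, fun y hy => ?_⟩
    · by_contra h2
      exact (hxS y0 hy0).2 (Finset.mem_union_right _ (Finset.mem_biUnion.2
        ⟨g', (h𝓛 g').2 ⟨hg', hr⟩, Finset.mem_union_left _
          (Finset.mem_product.2 ⟨mem_offL.2 ⟨hxg, h2⟩, hSg hy0⟩)⟩))
    · by_contra h2
      exact (hxS y hy).2 (Finset.mem_union_right _ (Finset.mem_biUnion.2
        ⟨g', (h𝓛 g').2 ⟨hg', hr⟩, Finset.mem_union_right _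
          (Finset.mem_product.2 ⟨hxg, mem_offL.2 ⟨hSg hy, h2⟩⟩)⟩))

end

end Vale.Agent.P054
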