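import Vale.Agent.P054.D3Defs

namespace Vale.Agent.P054

open MvPolynomial

noncomputable section

theorem col_left {σ : Type} (a b : σ → ℝ) : Col a b a := ⟨0, by funext k; ring⟩

theorem col_right {σ : Type} (a b : σ → ℝ) : Col a b b := ⟨1, by funext k; ring⟩

theorem col_iff {σ : Type} {a b x y : σ → ℝ} (hx : Col a b x) (hy : Col a b y) (hxy : x ≠ y)
    (z : σ → ℝ) : Col a b z ↔ Col x y z := by
  obtain ⟨s, rfl⟩ := hx
  obtain ⟨s', rfl⟩ := hy
  have hs : s' - s ≠ 0 := by
    intro h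
    apply hxy
    rw [sub_eq_zero.1 h]
  constructor
  · rintro ⟨t, rfl⟩
    refine ⟨(t - s) / (s' - s), ?_⟩
    funext k
    field_simp
    ring
  · rintro ⟨t, rfl⟩
    refine ⟨s + t * (s' - s), ?_⟩
    funext k
    ring

theorem col_swap {σ : Type} {a b z : σ → ℝ} : Col a b z ↔ Col b a z := by
  constructor
  · rintro ⟨t, rfl⟩
    exact ⟨1 - t, by funext k; ring⟩
  · rintro ⟨t, rfl⟩
    exact ⟨1 - t, by funext k; ring⟩

theorem app_sub (g : Mo) (a b : Pt) :
    (fun k => app g b k - app g a k) = g.1.mulVec fun k => b k - a k := by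
  funext k
  simp only [app, Pi.add_apply, Matrix.mulVec, dotProduct, Fin.sum_univ_three]
  ring

theorem app_line (g : Mo) (a b : Pt) (s : ℝ) :
    app g (fun k => a k + s * (b k - a k)) = fun k => app g a k + s * (app g b k - app g a k) := by
  funext k
  simp only [app, Pi.add_apply, Matrix.mulVec, dotProduct, Fin.sum_univ_three]
  ring

theorem col_app (g : Mo) {a b z : Pt} (h : Col a b z) : Col (app g a) (app g b) (app g z) := by
  obtain ⟨s, rfl⟩ := h
  exact ⟨s, app_line g a b s⟩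

namespace Iso3Aux

theorem dot_orth {R : Matrix (Fin 3) (Fin 3) ℝ} (h : R.transpose * R = 1) (u : Pt) :
    R.mulVec u ⬝ᵥ R.mulVec u = u ⬝ᵥ u := by
  rw [Matrix.dotProduct_mulVec, ← Matrix.vecMul_transpose, Matrix.vecMul_vecMul, h,
    Matrix.vecMul_one]

theorem sqd_eq_dot (a b : Pt) : sqd a b = (fun k => a k - b k) ⬝ᵥ fun k => a k - b k := by
  simp only [sqd, dotProduct, sq]

end Iso3Aux

theorem iso_sqd {g : Mo} (h : Iso g) (a b : Pt) : sqd (app g a) (app g b) = sqd a b := by
  rw [Iso3Aux.sqd_eq_dot, Iso3Aux.sqd_eq_dot, app_sub, Iso3Aux.dot_orth h]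

theorem iso_inj {g : Mo} (h : Iso g) : Function.Injective (app g) := fun a b hab => by
  rw [← sqd_eq_zero, ← iso_sqd h, hab, sqd_eq_zero]

theorem iso_det {g : Mo} (h : Iso g) : g.1.det = 1 ∨ g.1.det = -1 := by
  have h1 := congrArg Matrix.det h
  rw [Matrix.det_mul, Matrix.det_transpose, Matrix.det_one] at h1
  exact mul_self_eq_one_iff.1 h1

theorem cmp_gr {g : Mo} (h : Iso g) (X : Finset (Pt × Pt)) : Cmp (gr X g) := by
  intro y hy z hz
  rw [← (mem_gr.1 hy).2, ← (mem_gr.1 hz).2, iso_sqd h]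

theorem col_compat {x y z : Pt × Pt} {s : ℝ} (h1 : sqd x.1 y.1 = sqd x.2 y.2)
    (h2 : sqd x.1 z.1 = sqd x.2 z.2) (h3 : sqd y.1 z.1 = sqd y.2 z.2)
    (hs : z.1 = fun k => x.1 k + s * (y.1 k - x.1 k)) :
    z.2 = fun k => x.2 k + s * (y.2 k - x.2 k) := by
  have stew : ∀ p q w : Pt, sqd w (fun k => p k + s * (q k - p k)) =
      (1 - s) * sqd p w + s * sqd q w - s * (1 - s) * sqd p q := by
    intro p q w
    simp only [sqd, Fin.sum_univ_three]
    ring
  rw [← sqd_eq_zero, stew, ← h1, ← h2, ← h3, ← stew, ← hs, sqd_eq_zero]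

namespace Iso3Aux

theorem exists_refl (c b : Pt) :
    ∃ h : Mo, Iso h ∧ app h c = b ∧ ∀ z : Pt, sqd z c = sqd z b → app h z = z := by
  by_cases hcb : c = b
  · refine ⟨(1, 0), by simp [Iso], by simp [app, hcb], fun z _ => by simp [app]⟩
  have hN : sqd c b ≠ 0 := fun h => hcb (sqd_eq_zero.1 h)
  set N := sqd c b with hNdef
  have hN' : N = (c 0 - b 0) ^ 2 + (c 1 - b 1) ^ 2 + (c 2 - b 2) ^ 2 := by
    simp only [hNdef, sqd, Fin.sum_univ_three]
  let v : Pt := fun k => c k - b k
  let H : Matrix (Fin 3) (Fin 3) ℝ := 1 - (2 / N) • Matrix.vecMulVec v v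
  let m : ℝ := (c 0 ^ 2 + c 1 ^ 2 + c 2 ^ 2 - (b 0 ^ 2 + b 1 ^ 2 + b 2 ^ 2)) / N
  have happ : ∀ z : Pt, ∀ k, app (H, fun k => m * v k) z k =
      z k - (2 * (v 0 * z 0 + v 1 * z 1 + v 2 * z 2) / N - m) * v k := by
    intro z k
    simp only [app, H, Pi.add_apply, Matrix.sub_mulVec, Matrix.one_mulVec, Matrix.smul_mulVec,
      Pi.sub_apply, Pi.smul_apply, smul_eq_mul]
    simp only [Matrix.mulVec, dotProduct, Fin.sum_univ_three, Matrix.vecMulVec_apply]
    ring
  refine ⟨(H, fun k => m * v k), ?_, ?_, ?_⟩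
  · have hsym : H.transpose = H := by
      simp only [H, Matrix.transpose_sub, Matrix.transpose_one, Matrix.transpose_smul,
        Matrix.transpose_vecMulVec]
    have hvv : Matrix.vecMulVec v v * Matrix.vecMulVec v v = N • Matrix.vecMulVec v v := by
      ext i j
      simp only [Matrix.mul_apply, Matrix.vecMulVec_apply, Fin.sum_univ_three, Matrix.smul_apply,
        smul_eq_mul, hN', v]
      ring
    change H.transpose * H = 1
    rw [hsym]
    simp only [H, Matrix.sub_mul, Matrix.mul_sub, Matrix.one_mul, Matrix.mul_one, Matrix.smul_mul,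
      Matrix.mul_smul, hvv, smul_smul, smul_sub]
    have h2 : 2 / N * (2 / N * N) = 2 / N + 2 / N := by field_simp; ring
    rw [h2, add_smul]
    abel
  · funext k
    rw [happ]
    have h1 : 2 * (v 0 * c 0 + v 1 * c 1 + v 2 * c 2) / N - m = 1 := by
      simp only [m, v]
      rw [← sub_div, div_eq_one_iff_eq hN, hN']
      ring
    rw [h1]
    simp only [v]
    ring
  · intro z hz
    funext k
    rw [happ]
    have h1 : 2 * (v 0 * z 0 + v 1 * z 1 + v 2 * z 2) / N - m = 0 := by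
      simp only [m, v]
      simp only [sqd, Fin.sum_univ_three] at hz
      rw [← sub_div, div_eq_zero_iff]
      left
      linarith
    rw [h1]
    ring

theorem app_comp (h g : Mo) (z : Pt) :
    app (h.1 * g.1, h.1.mulVec g.2 + h.2) z = app h (app g z) := by
  simp only [app, Matrix.mulVec_add, Matrix.mulVec_mulVec, add_assoc]

theorem iso_comp {h g : Mo} (hh : Iso h) (hg : Iso g) :
    Iso (h.1 * g.1, h.1.mulVec g.2 + h.2) := by
  change (h.1 * g.1).transpose * (h.1 * g.1) = 1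
  have h1 : h.1.transpose * h.1 = 1 := hh
  rw [Matrix.transpose_mul, Matrix.mul_assoc, ← Matrix.mul_assoc h.1.transpose, h1,
    Matrix.one_mul]
  exact hg

theorem cross_mulVec (R : Matrix (Fin 3) (Fin 3) ℝ) (u w : Pt) :
    R.transpose.mulVec (crossProduct (R.mulVec u) (R.mulVec w)) = R.det • crossProduct u w := by
  funext k
  fin_cases k <;>
    simp [cross_apply, Matrix.mulVec, dotProduct, Fin.sum_univ_three, Matrix.det_fin_three] <;>
    ring

theorem cross_orth {R : Matrix (Fin 3) (Fin 3) ℝ} (h : R.transpose * R = 1) (u w : Pt) :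
    crossProduct (R.mulVec u) (R.mulVec w) = R.det • R.mulVec (crossProduct u w) := by
  have h' : R * R.transpose = 1 := mul_eq_one_comm.1 h
  rw [← Matrix.mulVec_smul, ← cross_mulVec, Matrix.mulVec_mulVec, h', Matrix.one_mulVec]

theorem cross_ne_zero {u w : Pt} (hu : u ≠ 0) (hw : ¬ ∃ s : ℝ, w = fun k => s * u k) :
    crossProduct u w ≠ 0 := by
  intro h0
  apply hw
  have e0 := congrFun h0 0
  have e1 := congrFun h0 1
  have e2 := congrFun h0 2
  simp [cross_apply] at e0 e1 e2
  obtain ⟨k, hk⟩ := Function.ne_iff.1 hu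
  refine ⟨w k / u k, ?_⟩
  have hk' : u k ≠ 0 := hk
  funext j
  rw [div_mul_eq_mul_div, eq_div_iff hk']
  fin_cases k <;> fin_cases j <;> simp <;> linarith

theorem mat_eq {R R' : Matrix (Fin 3) (Fin 3) ℝ} {u w : Pt} (hn : crossProduct u w ≠ 0)
    (h1 : R.mulVec u = R'.mulVec u) (h2 : R.mulVec w = R'.mulVec w)
    (h3 : R.mulVec (crossProduct u w) = R'.mulVec (crossProduct u w)) : R = R' := by
  let M : Matrix (Fin 3) (Fin 3) ℝ := Matrix.of ![crossProduct u w, u, w]
  have hdet : M.det ≠ 0 := by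
    have : M.det = crossProduct u w ⬝ᵥ crossProduct u w := (triple_product_eq_det _ _ _).symm
    rw [this]
    exact fun h => hn (dotProduct_self_eq_zero.1 h)
  have hM : R * M.transpose = R' * M.transpose := by
    ext i j
    fin_cases j
    · exact congrFun h3 i
    · exact congrFun h1 i
    · exact congrFun h2 i
  have hu : IsUnit M.transpose := by
    rw [Matrix.isUnit_iff_isUnit_det, Matrix.det_transpose]
    exact hdet.isUnit
  exact hu.mul_right_cancel hM

end Iso3Aux

/-- a compatible set lies on the graph of a rigid motion. -/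
theorem exists_iso (S : Finset (Pt × Pt)) (h : Cmp S) :
    ∃ g : Mo, Iso g ∧ ∀ y ∈ S, app g y.1 = y.2 := by
  classical
  induction S using Finset.induction_on with
  | empty => exact ⟨(1, 0), by simp [Iso], by simp⟩
  | insert x S _ ih =>
    obtain ⟨g, hg, hS⟩ := ih fun y hy z hz =>
      h y (Finset.mem_insert_of_mem hy) z (Finset.mem_insert_of_mem hz)
    obtain ⟨r, hr, hr1, hr2⟩ := Iso3Aux.exists_refl (app g x.1) x.2
    refine ⟨_, Iso3Aux.iso_comp hr hg, fun y hy => ?_⟩
    rw [Iso3Aux.app_comp]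
    rcases Finset.mem_insert.1 hy with rfl | hy'
    · exact hr1
    · rw [hS y hy']
      apply hr2
      rw [← h y hy x (Finset.mem_insert_self _ _), ← iso_sqd hg y.1 x.1, hS y hy']

/-- motions with the same orientation agreeing on a triangle are equal. -/
theorem iso_eq {g g' : Mo} (hg : Iso g) (hg' : Iso g') (hd : g.1.det = g'.1.det) {a b c : Pt}
    (hab : a ≠ b) (hc : ¬ Col a b c) (h1 : app g a = app g' a) (h2 : app g b = app g' b)
    (h3 : app g c = app g' c) : g = g' := by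
  have hu : g.1.mulVec (fun k => b k - a k) = g'.1.mulVec fun k => b k - a k := by
    rw [← app_sub, ← app_sub, h1, h2]
  have hw : g.1.mulVec (fun k => c k - a k) = g'.1.mulVec fun k => c k - a k := by
    rw [← app_sub, ← app_sub, h1, h3]
  have hn : crossProduct (fun k => b k - a k) (fun k => c k - a k) ≠ (0 : Pt) := by
    refine Iso3Aux.cross_ne_zero (fun h0 => hab ?_) ?_
    · funext k
      exact (sub_eq_zero.1 (congrFun h0 k)).symm
    · rintro ⟨s, hs⟩
      refine hc ⟨s, ?_⟩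
      funext k
      have : c k - a k = s * (b k - a k) := congrFun hs k
      linarith
  have hdet : g'.1.det ≠ 0 := by
    rcases iso_det hg' with h | h <;> rw [h] <;> norm_num
  have hx := Iso3Aux.cross_orth hg (fun k => b k - a k) fun k => c k - a k
  rw [hu, hw, Iso3Aux.cross_orth hg', hd] at hx
  have hR : g.1 = g'.1 := Iso3Aux.mat_eq hn hu hw (smul_right_injective _ hdet hx).symm
  refine Prod.ext hR ?_
  have h4 : g.1.mulVec a + g.2 = g'.1.mulVec a + g'.2 := h1
  rw [hR] at h4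
  exact add_left_cancel h4

theorem line_sphere {a b : Pt} (hab : a ≠ b) (c : Pt) (r : ℝ) (S : Finset Pt)
    (h : ∀ z ∈ S, Col a b z ∧ sqd z c = r) : S.card ≤ 2 := by
  classical
  by_contra hcon
  obtain ⟨x, y, z, hx, hy, hz, hxy, hxz, hyz⟩ := Finset.two_lt_card_iff.1 (not_le.1 hcon)
  obtain ⟨⟨s1, rfl⟩, e1⟩ := h x hx
  obtain ⟨⟨s2, rfl⟩, e2⟩ := h y hy
  obtain ⟨⟨s3, rfl⟩, e3⟩ := h z hz
  have h12 : s1 - s2 ≠ 0 := fun e => hxy (by rw [sub_eq_zero.1 e])
  have h13 : s1 - s3 ≠ 0 := fun e => hxz (by rw [sub_eq_zero.1 e])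
  have h23 : s2 - s3 ≠ 0 := fun e => hyz (by rw [sub_eq_zero.1 e])
  have hN : sqd a b ≠ 0 := fun e => hab (sqd_eq_zero.1 e)
  have key : (s1 - s2) * (s1 - s3) * (s2 - s3) * sqd a b = 0 := by
    simp only [sqd, Fin.sum_univ_three] at e1 e2 e3 ⊢
    linear_combination (s2 - s3) * e1 - (s1 - s3) * e2 + (s1 - s2) * e3
  exact mul_ne_zero (mul_ne_zero (mul_ne_zero h12 h13) h23) hN key

theorem line_le_nd {P S : Finset Pt} {a b : Pt} (hab : a ≠ b) (hS : S ⊆ P)
    (h : ∀ z ∈ S, Col a b z) : S.card ≤ 2 * nd P + 1 := by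
  classical
  rcases S.eq_empty_or_nonempty with rfl | ⟨z0, hz0⟩
  · simp
  obtain ⟨R, hR, -, hR2⟩ := exists_dist_sep P
  have h1 : (S.erase z0).card ≤ 2 * R.card := by
    refine Finset.card_le_mul_card_image_of_maps_to (f := fun z => sqd z z0) (fun z hz => ?_) 2
      fun r _ => ?_
    · exact hR2 z (hS (Finset.mem_of_mem_erase hz)) z0 (hS hz0) (Finset.ne_of_mem_erase hz)
    · refine line_sphere hab z0 r _ fun z hz => ?_
      obtain ⟨hz1, hz2⟩ := Finset.mem_filter.1 hz
      exact ⟨h z (Finset.mem_of_mem_erase hz1), hz2⟩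
  rw [Finset.card_erase_of_mem hz0, hR] at h1
  omega

end

end Vale.Agent.P054
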