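import Vale.Agent.P054.SMainL
import Vale.Agent.P054.FinStep
import Vale.Agent.P054.HPairsL
import Vale.Agent.P054.Iso3

namespace Vale.Agent.P054

open MvPolynomial

noncomputable section

/-- after deleting few pairs of pairs the compatible neighbour sets are small. -/
def HvB {d : ℕ} (C : ℝ) (P : Finset (Fin d → ℝ)) : Prop :=
  ∃ Hv : Finset (((Fin d → ℝ) × (Fin d → ℝ)) × ((Fin d → ℝ) × (Fin d → ℝ))),
    (Hv.card : ℝ) ≤ C * (P.card : ℝ) ^ (4 - (2 : ℝ) / d) ∧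
    ∀ x ∈ P ×ˢ P, ∀ S : Finset ((Fin d → ℝ) × (Fin d → ℝ)), S ⊆ P ×ˢ P →
      (∀ y ∈ S, ∀ z ∈ S, sqd y.1 z.1 = sqd y.2 z.2) →
      (∀ y ∈ S, sqd x.1 y.1 = sqd x.2 y.2 ∧ (x, y) ∉ Hv) →
      (S.card : ℝ) ≤ C * (P.card : ℝ) ^ (2 - (4 : ℝ) / d) + 2 * nd P + 1

theorem topL_inj {d : ℕ} {S : Finset ((Fin d → ℝ) × (Fin d → ℝ))}
    (hc : ∀ y ∈ S, ∀ z ∈ S, sqd y.1 z.1 = sqd y.2 z.2) :
    Set.InjOn Prod.fst (S : Set ((Fin d → ℝ) × (Fin d → ℝ))) :=
  fun y hy y' hy' e => Prod.ext e (by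
    rw [← sqd_eq_zero, ← hc y hy y' hy', sqd_eq_zero]
    exact e)

theorem topL_three : ∃ C : ℝ, 1 ≤ C ∧ ∀ P : Finset Pt, Gen3 P → P.Nonempty → HvB C P := by
  classical
  obtain ⟨K, A, hK, hA, HS⟩ := exists_SBL
  obtain ⟨C, hC, HH⟩ := heavy_pairsL
  have hCK : 0 ≤ C * (K + 1) := by positivity
  refine ⟨C * (K + 1) + 6 * A, by linarith, fun P hgen hP => ?_⟩
  have h1 := HS P.card P (P ×ˢ P) hgen le_rfl Finset.Subset.rfl
  unfold HvB
  set x : ℝ := (P.card : ℝ) with hx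
  have hx1 : 1 ≤ x := by
    rw [hx]
    exact_mod_cast hP.card_pos
  have hx0 : 0 < x := by linarith
  have hX : (((P ×ˢ P).card : ℕ) : ℝ) = x ^ 2 := by
    rw [Finset.card_product, Nat.cast_mul, sq]
  obtain ⟨u, hu1, hu⟩ : ∃ u : ℝ, 1 ≤ u ∧ ∀ k : ℕ, x ^ ((k : ℝ) / 3) = u ^ k :=
    ⟨x ^ ((1 : ℝ) / 3), Real.one_le_rpow hx1 (by positivity), fun k => by
      rw [← Real.rpow_mul_natCast hx0.le, div_mul_eq_mul_div, one_mul]⟩
  have hu0 : 0 < u := by linarith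
  have e3 : x = u ^ 3 := by simpa using hu 3
  have e2 : x ^ ((2 : ℝ) / 3) = u ^ 2 := by simpa using hu 2
  have e2' : x ^ (2 - (4 : ℝ) / (3 : ℕ)) = u ^ 2 := by rw [← e2]; norm_num
  have e10 : x ^ (4 - (2 : ℝ) / (3 : ℕ)) = u ^ 10 := by rw [← hu]; norm_num
  have e11 : x ^ ((53 : ℝ) / 30) * (x ^ 2) ^ ((19 : ℝ) / 20) = u ^ 11 := by
    rw [← hu, ← Real.rpow_natCast_mul hx0.le, ← Real.rpow_add hx0]; norm_num
  rw [hX, div_self (by positivity), Real.one_rpow, e2, mul_assoc K, e11,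
    show A * u ^ 2 * (1 + 1) = 6 * A * u ^ 2 / 3 by ring] at h1
  have u2 : 1 ≤ u ^ 2 := one_le_pow₀ hu1
  have hρ : 12 * u ^ 2 ≤ 6 * A * u ^ 2 := mul_le_mul_of_nonneg_right (by linarith) (by positivity)
  have u4 : u ^ 3 ≤ u ^ 4 := pow_le_pow_right₀ hu1 (by norm_num)
  obtain ⟨Hv, h2, h3⟩ := HH x (6 * A * u ^ 2) _ P (P ×ˢ P) le_rfl Finset.Subset.rfl (by linarith)
    (by
      refine le_trans ?_ (pow_le_pow_left₀ (by positivity) hρ 2)
      rw [e3]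
      nlinarith [pow_pos hu0 4]) h1
  rw [e2', e10]
  refine ⟨Hv, ?_, fun z hz S hS hc hy => ?_⟩
  · have b1 : K * u ^ 11 / √(6 * A * u ^ 2) ≤ K * u ^ 10 := by
      have : u ≤ √(6 * A * u ^ 2) := Real.le_sqrt_of_sq_le (by linarith)
      refine (div_le_div_of_nonneg_left (by positivity) hu0 this).trans (le_of_eq ?_)
      field_simp
    have b2 : x ^ 2 * x ^ 2 / (6 * A * u ^ 2) ≤ u ^ 10 := by
      refine (div_le_div_of_nonneg_left (by positivity) (pow_pos hu0 2) (by linarith)).trans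
        (le_of_eq ?_)
      rw [e3]
      field_simp
    rw [hX] at h2
    have b3 := mul_le_mul_of_nonneg_left (add_le_add b1 b2) (zero_le_one.trans hC)
    have b4 : 0 ≤ 6 * A * u ^ 10 := by positivity
    linarith
  · have b0 : 0 ≤ C * (K + 1) * u ^ 2 := by positivity
    have b1 : (0 : ℝ) ≤ nd P := Nat.cast_nonneg _
    rcases h3 z hz S hS hc hy with h | ⟨a, a', haa, -, h⟩
    · linarith
    · have c2 := line_le_nd (P := P) (S := S.image Prod.fst) haa (fun p hp => by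
        obtain ⟨y, k1, rfl⟩ := Finset.mem_image.1 hp
        exact (Finset.mem_product.1 (hS k1)).1) (fun p hp => by
        obtain ⟨y, k1, rfl⟩ := Finset.mem_image.1 hp
        exact h y k1)
      rw [Finset.card_image_of_injOn (topL_inj hc)] at c2
      have c3 : (S.card : ℝ) ≤ 2 * nd P + 1 := by exact_mod_cast c2
      linarith

theorem exists_hvB (d : ℕ) (hd : 3 ≤ d) : ∃ C : ℝ, 1 ≤ C ∧
    ∀ P : Finset (Fin d → ℝ), FinGen P → P.Nonempty → HvB C P := by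
  rcases hd.eq_or_lt with rfl | hd
  · exact topL_three
  refine ⟨1, le_rfl, fun P _ hP => ⟨∅, by rw [Finset.card_empty, Nat.cast_zero]; positivity,
    fun z _ S hS hc _ => ?_⟩⟩
  have h1 : (S.card : ℝ) ≤ P.card := Nat.cast_le.2 (Finset.card_le_card_of_injOn Prod.fst
    (fun w hw => (Finset.mem_product.1 (hS hw)).1) (topL_inj hc))
  have h2 : (4 : ℝ) / d ≤ 1 := (div_le_one (by positivity)).2 (by exact_mod_cast hd)
  have h3 := Real.rpow_le_rpow_of_exponent_le (x := (P.card : ℝ))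
    (by exact_mod_cast hP.card_pos) (show 1 ≤ 2 - (4 : ℝ) / d by linarith)
  rw [Real.rpow_one] at h3
  have b1 : (0 : ℝ) ≤ nd P := Nat.cast_nonneg _
  linarith

end

end Vale.Agent.P054
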