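import Vale.Agent.P054.ThmCL
import Vale.Agent.P054.CoreL
import Vale.Agent.P054.TopL
import Vale.Agent.P054.Fin3

namespace Vale.Agent.P054

open MvPolynomial Filter

noncomputable section

theorem finL_pow {d : ℕ} (hd : 3 ≤ d) {x : ℝ} (hx : 1 ≤ x) :
    1 ≤ x ^ ((2 : ℝ) / d) ∧ x ^ ((2 : ℝ) / d) ≤ x ^ (2 - (4 : ℝ) / d) ∧
    x ^ ((2 : ℝ) / d) * x ^ (2 - (4 : ℝ) / d) = x ^ (2 - (2 : ℝ) / d) ∧
    (x ^ ((2 : ℝ) / d)) ^ (d - 1) = x ^ (2 - (2 : ℝ) / d) ∧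
    x ^ ((2 : ℝ) / d) * x ^ (2 - (2 : ℝ) / d) = x ^ 2 ∧
    x ^ (4 - (2 : ℝ) / d) = x ^ 2 * x ^ (2 - (2 : ℝ) / d) ∧ x ≤ x ^ (2 - (2 : ℝ) / d) := by
  have hd' : (3 : ℝ) ≤ d := by exact_mod_cast hd
  have hx0 : 0 < x := by linarith
  have h1 : (2 : ℝ) / d ≤ 2 / 3 := div_le_div_of_nonneg_left (by norm_num) (by norm_num) hd'
  have h2 : (4 : ℝ) / d = 2 * (2 / d) := by ring
  refine ⟨Real.one_le_rpow hx (by positivity),
    Real.rpow_le_rpow_of_exponent_le hx (by linarith), ?_, ?_, ?_, ?_, ?_⟩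
  · rw [← Real.rpow_add hx0]
    exact congrArg (x ^ ·) (by ring)
  · rw [← Real.rpow_natCast, ← Real.rpow_mul hx0.le, Nat.cast_sub (by omega)]
    refine congrArg (x ^ ·) ?_
    field_simp
    ring
  · rw [← Real.rpow_add hx0, ← Real.rpow_two]
    exact congrArg (x ^ ·) (by ring)
  · rw [← Real.rpow_two, ← Real.rpow_add hx0]
    exact congrArg (x ^ ·) (by ring)
  · nth_rewrite 1 [← Real.rpow_one x]
    exact Real.rpow_le_rpow_of_exponent_le hx (by linarith)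

open Classical in
/-- separated directions for many pairs force many distances. -/
theorem finL_core (d : ℕ) (hd : 3 ≤ d) {C1 c1 : ℝ} (hC1 : 1 ≤ C1) (hc1 : 0 < c1) :
    ∃ c : ℝ, 0 < c ∧ ∀ (P : Finset (Fin d → ℝ)) (G : Finset ((Fin d → ℝ) × (Fin d → ℝ))),
      P.Nonempty → FinGen P → c1 * (P.card : ℝ) ^ 2 ≤ G.card →
      (∀ x ∈ G, x.1 ∈ P ∧ x.2 ∈ P ∧ x.1 ≠ x.2) →
      (∀ a ∈ P, HSep (P.filter fun b => (a, b) ∈ G) (fun b => cx fun k => b k - a k)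
        (C1 * (P.card : ℝ) ^ ((2 : ℝ) / d))) → c * (P.card : ℝ) ^ ((2 : ℝ) / d) ≤ nd P := by
  obtain ⟨C3, hC3, H3⟩ := interp_flats (d + 1) (by omega)
  obtain ⟨CA, HA⟩ := thmA (d + 1) (by omega)
  obtain ⟨C4, hC4, H4⟩ := core_of_nbrsL d hd
  obtain ⟨CT, hCT, HT⟩ := exists_hvB d hd
  obtain ⟨a, ha⟩ : ∃ a : ℝ, a = CA * C3 + 1 := ⟨_, rfl⟩
  have ha0 : 0 < a := by rw [ha]; positivity
  obtain ⟨C8, hC8⟩ : ∃ C8 : ℝ, C8 = C4 * ((a + C1 + 1) ^ (d - 1) + a * (CT + 3)) := ⟨_, rfl⟩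
  have hC80 : 0 < C8 := by rw [hC8]; positivity
  obtain ⟨c, hc0, hc1', hc2⟩ : ∃ c : ℝ, 0 < c ∧ c ≤ 1 ∧ c * (2 * C8 + 2 * CT + 1) ≤ c1 ^ 2 / 2 := by
    refine ⟨min 1 (c1 ^ 2 / 2 / (2 * C8 + 2 * CT + 1)), lt_min one_pos (by positivity),
      min_le_left _ _, ?_⟩
    rw [← le_div_iff₀ (by positivity)]
    exact min_le_right _ _
  refine ⟨c, hc0, fun P G hP hgen hG hGs hsep => ?_⟩
  by_contra hc
  rw [not_le] at hc
  obtain ⟨Hv, hH1, hH2⟩ := HT P hgen hP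
  set x : ℝ := (P.card : ℝ) with hx
  have hx1 : 1 ≤ x := by
    rw [hx]
    exact_mod_cast hP.card_pos
  have hx0 : 0 < x := by linarith
  obtain ⟨p1, p2, p3, p4, p5, p6, p7⟩ := finL_pow hd hx1
  rw [p6] at hH1
  set u := x ^ ((2 : ℝ) / d) with hu
  set w := x ^ (2 - (4 : ℝ) / d) with hw
  set v := x ^ (2 - (2 : ℝ) / d) with hv
  have hv0 : 0 < v := by linarith
  have hn0 : (0 : ℝ) ≤ nd P := Nat.cast_nonneg _
  have hnu : (nd P : ℝ) ≤ u := hc.le.trans (mul_le_of_le_one_left (by linarith) hc1')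
  have hq1 := quad_countL P G hGs
  set Γ := ((P ×ˢ P) ×ˢ (P ×ˢ P)).filter fun z =>
      ((z.1.1, z.2.1) ∈ G ∨ (z.1.2, z.2.2) ∈ G) ∧ ((z.2.1, z.1.1) ∈ G ∨ (z.2.2, z.1.2) ∈ G) ∧
        sqd z.1.1 z.2.1 = sqd z.1.2 z.2.2 ∧
        (fun k => z.2.2 k - z.2.1 k) ≠ fun k => z.1.2 k - z.1.1 k with hΓ
  have hq2 : (G.card : ℝ) ^ 2 ≤ nd P * (Γ.card + x ^ 3) := by
    refine hq1.trans (mul_le_mul_of_nonneg_left (add_le_add_left (Nat.cast_le.2 ?_) _) hn0)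
    refine Finset.card_le_card fun z hz => ?_
    obtain ⟨a1, a2, a3, a4⟩ := Finset.mem_filter.1 hz
    exact Finset.mem_filter.2 ⟨a1, Or.inl a2, Or.inr a3, a4⟩
  obtain ⟨Γ', hΓ', hdel⟩ := finstep3_del Γ Hv
  obtain ⟨T, hT1, hT2, hT3⟩ := finstep_deg (P ×ˢ P) Γ' (C8 * v) (by positivity) (fun z hz => by
      obtain ⟨hz, k1, k2⟩ := (hΓ' z).1 hz
      obtain ⟨a1, a2, a3, a4, a7⟩ := Finset.mem_filter.1 hz
      obtain ⟨a5, a6⟩ := Finset.mem_product.1 a1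
      refine ⟨a5, a6, (hΓ' _).2 ⟨Finset.mem_filter.2 ⟨Finset.mem_product.2 ⟨a6, a5⟩,
        a3, a2, ?_, a7.symm⟩, k2, k1⟩⟩
      rw [sqd_comm, a4, sqd_comm]) (by
      rw [Finset.card_product, Nat.cast_mul, ← hx]
      by_contra hc'
      have b1 : (c1 * x ^ 2) ^ 2 ≤ (G.card : ℝ) ^ 2 := pow_le_pow_left₀ (by positivity) hG 2
      have b0 : x ^ 3 ≤ x ^ 2 * v := by
        rw [pow_succ]
        exact mul_le_mul_of_nonneg_left p7 (by positivity)
      have b2 : (nd P : ℝ) * (Γ.card + x ^ 3) ≤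
          c * u * ((2 * C8 + 2 * CT + 1) * (x ^ 2 * v)) :=
        mul_le_mul hc.le (by linarith) (by positivity) (by positivity)
      have b3 : c * u * ((2 * C8 + 2 * CT + 1) * (x ^ 2 * v)) =
          c * (2 * C8 + 2 * CT + 1) * x ^ 4 := by
        linear_combination c * (2 * C8 + 2 * CT + 1) * x ^ 2 * p5
      have b5 : 0 < x ^ 4 := pow_pos hx0 4
      have b4 := mul_le_mul_of_nonneg_right hc2 b5.le
      have b6 : 0 < c1 ^ 2 * x ^ 4 := by positivity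
      linarith)
  have hnrm : ∀ η ∈ T.image hat, Nrm 0 η := fun η hη => by
    obtain ⟨z, -, rfl⟩ := Finset.mem_image.1 hη
    exact nrm_hat z
  obtain ⟨f, f0, f1, f2⟩ := H3 ℂ (Fin (d + 1)) 0 (T.image hat) (Fintype.card_fin _)
    (hT2.image _) hnrm
  have f3 : (f.totalDegree : ℝ) ≤ C3 * u := by
    refine f2.trans (mul_le_mul_of_nonneg_left ?_ hC3.le)
    have c2 : (((T.image hat).card : ℕ) : ℝ) ≤ x ^ (2 : ℝ) := by
      rw [Real.rpow_two, sq, hx, ← Nat.cast_mul, ← Finset.card_product]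
      exact Nat.cast_le.2 (Finset.card_image_le.trans (Finset.card_le_card hT1))
    rw [Nat.cast_add_one, add_sub_cancel_right]
    refine (Real.rpow_le_rpow (Nat.cast_nonneg _) c2 (by positivity)).trans (le_of_eq ?_)
    rw [← Real.rpow_mul hx0.le, mul_one_div]
  refine HA ℂ (Fin (d + 1)) 0 (T.image hat) f.totalDegree (CA * f.totalDegree + 1) f
    (Fintype.card_fin _) (hT2.image _) hnrm f0 f1 le_rfl (Nat.le_succ _)
    (H4 P G T _ (CT * w + 2 * nd P + 1) (C8 * v) _ (Nat.le_add_left _ _) ?_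
      (by positivity) hgen hsep
      (fun z hz => Finset.mem_product.1 (hT1 hz)) (fun z hz => ?_) ?_)
  · nlinarith
  · obtain ⟨N0, s1, s2, s3⟩ := hT3 z hz
    refine ⟨N0, s1, s2, fun y hy => ?_, fun S hS hS' => ?_⟩
    · obtain ⟨-, a2, -, a3, a4⟩ := Finset.mem_filter.1 ((hΓ' _).1 (s3 y hy)).1
      refine ⟨a2, ?_, a3, a4⟩
      rcases a2 with a2 | a2
      · exact (hGs _ a2).2.2
      · intro e
        refine (hGs _ a2).2.2 (sqd_eq_zero.1 ?_)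
        exact a3.symm.trans (sqd_eq_zero.2 e)
    · refine hH2 z (hT1 hz) S (hS.trans (s1.trans hT1)) hS' fun y hy => ?_
      obtain ⟨k0, k1, -⟩ := (hΓ' _).1 (s3 y (hS hy))
      exact ⟨(Finset.mem_filter.1 k0).2.2.2.1, k1⟩
  · have e1 : ((CA * f.totalDegree + 1 : ℕ) : ℝ) ≤ a * u := by
      have := mul_le_mul_of_nonneg_left f3 (Nat.cast_nonneg (α := ℝ) CA)
      push_cast
      rw [ha]
      linarith
    have e2 : (((CA * f.totalDegree + 1 : ℕ) : ℝ) + C1 * u + nd P) ^ (d - 1) ≤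
        (a + C1 + 1) ^ (d - 1) * v := by
      rw [← p4, ← mul_pow]
      exact pow_le_pow_left₀ (by positivity) (by linarith) _
    have e3 : ((CA * f.totalDegree + 1 : ℕ) : ℝ) * (CT * w + 2 * nd P + 1) ≤
        a * (CT + 3) * v := by
      refine (mul_le_mul e1 (show _ ≤ (CT + 3) * w by linarith) (by positivity)
        (by positivity)).trans (le_of_eq ?_)
      rw [← p3]
      ring
    rw [hC8, mul_assoc C4]
    exact mul_le_mul_of_nonneg_left (by linarith) hC4.le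

theorem finL_lower (m : ℕ) (hm : 2 ≤ m) {β : ℝ} (hβ : β < 2 / (m : ℝ)) : DistB m β := by
  rcases hm.eq_or_lt with rfl | hm
  · exact distB_two (by norm_num at hβ; exact hβ)
  rcases (Nat.succ_le_of_lt hm).eq_or_lt with rfl | hm
  · exact distB_three (by norm_num at hβ ⊢; exact hβ)
  exact distB_main m hm β hβ

/-- the conjectured bound. -/
theorem distB_full (d : ℕ) (hd : 3 ≤ d) : DistB d (2 / (d : ℝ)) := by
  obtain ⟨m, rfl⟩ : ∃ m, d = m + 1 := ⟨d - 1, by omega⟩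
  have hm : (2 : ℝ) ≤ m := by exact_mod_cast (show 2 ≤ m by omega)
  obtain ⟨β, hβ1, hβ2⟩ : ∃ β : ℝ, 4 / (2 * (m : ℝ) + 1) < β ∧ β < 2 / (m : ℝ) := by
    refine exists_between ?_
    rw [div_lt_div_iff₀ (by positivity) (by positivity)]
    linarith
  have hβ : 0 < β := lt_trans (by positivity) hβ1
  obtain ⟨CH, hCH, HH⟩ := hyp_bound hβ (finL_lower m (by omega) hβ2)
  obtain ⟨C1, c1, N0, hC1, hc1, HC⟩ := thmCL (m + 1) hd
  obtain ⟨c, hc, HF⟩ := finL_core (m + 1) hd hC1 hc1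
  have e2 : 2 / ((m + 1 : ℕ) : ℝ) / β < 1 - 1 / (2 * ((m + 1 : ℕ) : ℝ)) := by
    push_cast
    rw [div_lt_iff₀ (by positivity)] at hβ1
    have e : 1 - 1 / (2 * ((m : ℝ) + 1)) = (2 * m + 1) / (2 * (m + 1)) := by
      field_simp
      ring
    rw [e, div_div, div_lt_div_iff₀ (by positivity) (by positivity)]
    nlinarith
  obtain ⟨N, hN⟩ := eventually_atTop.1 (((finstep_ev (CH * 2 ^ (1 / β)) e2).and
    (eventually_ge_atTop N0)).and (eventually_ge_atTop 1))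
  obtain ⟨n0, hn0⟩ := exists_nat_ge N
  refine distB_of_large (lt_min one_pos hc) n0 fun P0 hP0 => ?_
  obtain ⟨P, hgen, hnd, hcard⟩ := finstep_rot (m := m + 1) (by omega) P0
  rw [← hnd, ← hcard]
  rw [← hcard] at hP0
  obtain ⟨⟨n1, n2⟩, n3⟩ := hN _ (hn0.trans (Nat.cast_le.2 hP0))
  have hx0 : (0 : ℝ) < P.card := by linarith
  have hu1 : 1 ≤ (P.card : ℝ) ^ (2 / ((m + 1 : ℕ) : ℝ)) := Real.one_le_rpow n3 (by positivity)
  rcases le_total (nd P : ℝ) ((P.card : ℝ) ^ (2 / ((m + 1 : ℕ) : ℝ))) with h | h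
  · obtain ⟨G, a1, a2, a3⟩ := HC (Fin (m + 1)) 0 P _ (Fintype.card_fin _) n2
      (fun a ha b hb hab e => by
        refine hgen a ha a ha b hb a ha (fun h' => hab (funext fun j => ?_)) 0 (by rw [e])
        have := congrFun h' j
        linarith) (HH P) (by
        have b1 : (nd P : ℝ) + 1 ≤ 2 * (P.card : ℝ) ^ (2 / ((m + 1 : ℕ) : ℝ)) := by linarith
        have b2 := Real.rpow_le_rpow (by positivity) b1 (one_div_pos.2 hβ).le
        rw [Real.mul_rpow zero_le_two (by positivity), ← Real.rpow_mul hx0.le, mul_one_div] at b2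
        have b3 := mul_le_mul_of_nonneg_left b2 (zero_le_one.trans hCH)
        linarith) h
    refine le_trans ?_ (HF P G (Finset.card_pos.1 (Nat.cast_pos.1 hx0)) hgen a1 a2 a3)
    exact mul_le_mul_of_nonneg_right (min_le_right _ _) (by linarith)
  · exact (mul_le_of_le_one_left (by linarith) (min_le_left _ _)).trans h

end

end Vale.Agent.P054
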