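import Vale.Agent.P054.Defs

namespace Vale.Agent.P054

open MvPolynomial

noncomputable section

variable {K : Type} [Field K] {σ : Type} [Fintype σ]

omit [Fintype σ] in
theorem hf_mem {m : ℕ} {f : MvPolynomial σ K} :
    f ∈ restrictTotalDegree σ K m ↔ f.totalDegree ≤ m := mem_restrictTotalDegree σ m f

section Gen

variable {V Q : Type} [AddCommGroup V] [Module K V] [AddCommGroup Q] [Module K Q]

theorem hf_gcard (q : V →ₗ[K] Q) {W : Submodule K V} [Module.Finite K W] {ι : Type} [Fintype ι]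
    (v : ι → V) (hd : ∀ i, v i ∈ W) (hv : ∀ a : ι → K, q (∑ i, a i • v i) = 0 → ∀ i, a i = 0) :
    Fintype.card ι ≤ Module.finrank K (W.map q) :=
  (LinearIndependent.of_comp (v := fun i => ⟨_, Submodule.mem_map_of_mem (hd i)⟩) (W.map q).subtype
    (Fintype.linearIndependent_iff.2 fun a ha => hv a (by simpa using ha))).fintype_card_le_finrank

theorem hf_gbasis (q : V →ₗ[K] Q) (W : Submodule K V) [Module.Finite K W] :
    ∃ v : Fin (Module.finrank K (W.map q)) → V, (∀ i, v i ∈ W) ∧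
      (∀ a : _ → K, q (∑ i, a i • v i) = 0 → ∀ i, a i = 0) ∧
      ∀ f ∈ W, ∃ a : _ → K, q (f - ∑ i, a i • v i) = 0 := by
  let b := Module.finBasis K (W.map q)
  choose v h1 h2 using fun i => (b i).2
  refine ⟨v, h1, fun a ha => Fintype.linearIndependent_iff.1 b.linearIndependent a
    (Subtype.ext (by simpa [h2] using ha)),
    fun f hf => ⟨b.repr ⟨_, Submodule.mem_map_of_mem hf⟩, ?_⟩⟩
  have := congrArg Subtype.val (b.sum_repr ⟨_, Submodule.mem_map_of_mem hf⟩)
  simp only [Submodule.coe_sum, Submodule.coe_smul] at this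
  simp only [map_sub, map_sum, map_smul, h2, this, sub_self]

theorem hf_ginf {Λ : Type} [Fintype Λ] {Q : Λ → Type} [∀ l, AddCommGroup (Q l)]
    [∀ l, Module K (Q l)] (q : ∀ l, V →ₗ[K] Q l) {W : Submodule K V} [Module.Finite K W]
    {ι : Type} [Fintype ι] (v : ι → V) (hd : ∀ i, v i ∈ W)
    (hv : ∀ a : ι → K, (∀ l, q l (∑ i, a i • v i) = 0) → ∀ i, a i = 0) :
    Fintype.card ι ≤ ∑ l, Module.finrank K (W.map (q l)) := by
  have h : LinearIndependent K fun i l => (⟨_, Submodule.mem_map_of_mem (hd i)⟩ : W.map (q l)) :=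
    Fintype.linearIndependent_iff.2 fun c hc => hv c fun l => by
      simpa using congrArg Subtype.val (congrFun hc l)
  exact h.fintype_card_le_finrank.trans_eq (Module.finrank_pi_fintype K)

end Gen

omit [Fintype σ] in
theorem hf_q {I : Ideal (MvPolynomial σ K)} {f : MvPolynomial σ K} :
    (Ideal.Quotient.mkₐ K I).toLinearMap f = 0 ↔ f ∈ I := Ideal.Quotient.eq_zero_iff_mem

omit [Fintype σ] in
theorem hf_card {I : Ideal (MvPolynomial σ K)} {W : Submodule K (MvPolynomial σ K)}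
    [Module.Finite K W] {ι : Type} [Fintype ι] (v : ι → MvPolynomial σ K) (hd : ∀ i, v i ∈ W)
    (hv : IndM I v) :
    Fintype.card ι ≤ Module.finrank K (W.map (Ideal.Quotient.mkₐ K I).toLinearMap) :=
  hf_gcard _ v hd fun a ha => hv a (hf_q.1 ha)

omit [Fintype σ] in
theorem hf_basis (I : Ideal (MvPolynomial σ K)) (W : Submodule K (MvPolynomial σ K))
    [Module.Finite K W] :
    ∃ v : Fin (Module.finrank K (W.map (Ideal.Quotient.mkₐ K I).toLinearMap)) → MvPolynomial σ K,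
      (∀ i, v i ∈ W) ∧ IndM I v ∧ ∀ f ∈ W, ∃ a : _ → K, f - ∑ i, a i • v i ∈ I := by
  simpa only [hf_q, IndM] using hf_gbasis (Ideal.Quotient.mkₐ K I).toLinearMap W

omit [Fintype σ] in
theorem hf_low {I I' : Ideal (MvPolynomial σ K)} {W : Submodule K (MvPolynomial σ K)}
    [Module.Finite K W] (h : ∀ f ∈ I, f ∈ W → f ∈ I') :
    Module.finrank K (W.map (Ideal.Quotient.mkₐ K I').toLinearMap) ≤
      Module.finrank K (W.map (Ideal.Quotient.mkₐ K I).toLinearMap) := by
  obtain ⟨v, h1, h2, -⟩ := hf_basis I' W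
  simpa using hf_card (I := I) v h1 fun a ha =>
    h2 a (h _ ha (W.sum_mem fun i _ => W.smul_mem _ (h1 i)))

omit [Fintype σ] in
theorem hf_span {I : Ideal (MvPolynomial σ K)} {ι κ : Type} [Fintype ι] [Fintype κ]
    (v : ι → MvPolynomial σ K) (w : κ → MvPolynomial σ K) (hv : IndM I v)
    (h : ∀ i, ∃ a : κ → K, v i - ∑ k, a k • w k ∈ I) : Fintype.card ι ≤ Fintype.card κ := by
  choose a ha using h
  refine (Fintype.linearIndependent_iff.2 fun c hc => hv c ?_ : LinearIndependent K a)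
    |>.fintype_card_le_finrank.trans_eq (Module.finrank_fintype_fun_eq_card K)
  have e : ∑ i, c i • ∑ k, a i k • w k = 0 := by
    simp only [Finset.smul_sum, ← smul_assoc]
    rw [Finset.sum_comm]
    refine Finset.sum_eq_zero fun k _ => ?_
    rw [← Finset.sum_smul, show ∑ i, c i • a i k = 0 by simpa using congrFun hc k, zero_smul]
  have := I.sum_mem fun i (_ : i ∈ Finset.univ) => Submodule.smul_of_tower_mem I (c i) (ha i)
  simpa only [smul_sub, Finset.sum_sub_distrib, e, sub_zero] using this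

omit [Fintype σ] in
theorem hf_inf {Λ : Type} (S : Finset Λ) (p : Λ → Ideal (MvPolynomial σ K))
    (W : Submodule K (MvPolynomial σ K)) [Module.Finite K W] :
    Module.finrank K (W.map (Ideal.Quotient.mkₐ K (⨅ l ∈ S, p l)).toLinearMap) ≤
      ∑ l ∈ S, Module.finrank K (W.map (Ideal.Quotient.mkₐ K (p l)).toLinearMap) := by
  obtain ⟨v, h1, h2, -⟩ := hf_basis (⨅ l ∈ S, p l) W
  have h3 := hf_ginf (fun l : S => (Ideal.Quotient.mkₐ K (p l)).toLinearMap) v h1 fun c hc =>
    h2 c (Ideal.mem_iInf.2 fun l => Ideal.mem_iInf.2 fun hl => hf_q.1 (hc ⟨l, hl⟩))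
  rwa [Fintype.card_fin, Finset.sum_coe_sort S fun l =>
    Module.finrank K (W.map (Ideal.Quotient.mkₐ K (p l)).toLinearMap)] at h3

omit [Fintype σ] in
theorem hf_deg {τ : Type} (ψ : MvPolynomial σ K →ₐ[K] MvPolynomial τ K) {e : ℕ}
    (hψ : ∀ k, (ψ (X k)).totalDegree ≤ e) (f : MvPolynomial σ K) :
    (ψ f).totalDegree ≤ e * f.totalDegree := by
  conv_lhs => rw [f.as_sum, map_sum]
  refine totalDegree_finsetSum_le fun u hu => ?_
  rw [monomial_eq, map_mul, algHom_C, algebraMap_eq, Finsupp.prod, map_prod]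
  refine (totalDegree_mul _ _).trans ?_
  rw [totalDegree_C, zero_add]
  refine (totalDegree_finsetProd _ _).trans (le_trans ?_ (Nat.mul_le_mul_left e (le_totalDegree hu)))
  rw [Finsupp.sum, Finset.mul_sum]
  refine Finset.sum_le_sum fun k _ => ?_
  rw [map_pow, mul_comm]
  exact (totalDegree_pow _ _).trans (Nat.mul_le_mul_left _ (hψ k))

omit [Fintype σ] in
theorem hf_ev {K' : Type} [Field K'] [Algebra K K'] (x : σ → K) (f : MvPolynomial σ K) :
    aeval (fun k => algebraMap K K' (x k)) (map (algebraMap K K') f) =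
      algebraMap K K' (aeval x f) := by
  rw [aeval_map_algebraMap]
  exact aeval_algebraMap_apply K' x f

omit [Fintype σ] in
theorem hf_base {K' : Type} [Field K'] [Algebra K K'] {I : Ideal (MvPolynomial σ K)}
    {I' : Ideal (MvPolynomial σ K')} (hI : ∀ g ∈ I, map (algebraMap K K') g ∈ I') {ι : Type}
    [Fintype ι] {v : ι → MvPolynomial σ K} {m : ℕ}
    (h : ∀ f : MvPolynomial σ K, f.totalDegree ≤ m → ∃ a : ι → K, f - ∑ i, a i • v i ∈ I)
    (f : MvPolynomial σ K') (hf : f.totalDegree ≤ m) :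
    ∃ a : ι → K', f - ∑ i, a i • map (algebraMap K K') (v i) ∈ I' := by
  have h3 (u : f.support) : (monomial u.1 (1 : K)).totalDegree ≤ m := by
    rw [totalDegree_monomial _ one_ne_zero]
    exact (le_totalDegree u.2).trans hf
  choose c hc using fun u => h _ (h3 u)
  refine ⟨fun i => ∑ u : f.support, coeff u f * algebraMap K K' (c u i), ?_⟩
  have e : f - ∑ i, (∑ u : f.support, coeff u f * algebraMap K K' (c u i)) •
      map (algebraMap K K') (v i) = ∑ u : f.support, C (coeff u f) *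
        map (algebraMap K K') (monomial u 1 - ∑ i, c u i • v i) := by
    simp only [map_sub, mul_sub, Finset.sum_sub_distrib, map_monomial, map_one, C_mul_monomial,
      mul_one, map_sum, Finset.mul_sum, Finset.sum_mul, smul_eq_C_mul, map_mul, map_C, mul_assoc]
    rw [Finset.sum_comm, Finset.sum_coe_sort f.support fun u => monomial u (coeff u f), ← f.as_sum]
  rw [e]
  exact Ideal.sum_mem _ fun u _ => I'.mul_mem_left _ (hI _ (hc u))

theorem hf_anti {I I' : Ideal (MvPolynomial σ K)} (h : I ≤ I') (m : ℕ) : hf I' m ≤ hf I m := by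
  exact hf_low fun f hf _ => h hf

theorem hf_mono (I : Ideal (MvPolynomial σ K)) {m m' : ℕ} (h : m ≤ m') : hf I m ≤ hf I m' := by
  obtain ⟨v, h1, h2, -⟩ := hf_basis I (restrictTotalDegree σ K m)
  exact (Fintype.card_fin _).symm.trans_le (hf_card v (W := restrictTotalDegree σ K m')
    (fun i => hf_mem.2 ((hf_mem.1 (h1 i)).trans h)) h2)

theorem hf_le_of_low {I I' : Ideal (MvPolynomial σ K)} {m : ℕ}
    (h : ∀ f ∈ I, f.totalDegree ≤ m → f ∈ I') : hf I' m ≤ hf I m := by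
  exact hf_low fun f hf hd => h f hf (hf_mem.1 hd)

theorem card_le_hf {I : Ideal (MvPolynomial σ K)} {ι : Type} [Fintype ι]
    (v : ι → MvPolynomial σ K) {m : ℕ} (hd : ∀ i, (v i).totalDegree ≤ m) (hv : IndM I v) :
    Fintype.card ι ≤ hf I m := by
  exact hf_card v (fun i => hf_mem.2 (hd i)) hv

theorem exists_indM (I : Ideal (MvPolynomial σ K)) (m : ℕ) :
    ∃ v : Fin (hf I m) → MvPolynomial σ K, (∀ i, (v i).totalDegree ≤ m) ∧ IndM I v := by
  obtain ⟨v, h1, h2, -⟩ := hf_basis I (restrictTotalDegree σ K m)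
  exact ⟨v, fun i => hf_mem.1 (h1 i), h2⟩

theorem hf_le_of_span (I : Ideal (MvPolynomial σ K)) (m : ℕ) {ι : Type} [Fintype ι]
    (v : ι → MvPolynomial σ K)
    (h : ∀ f : MvPolynomial σ K, f.totalDegree ≤ m → ∃ a : ι → K, f - ∑ i, a i • v i ∈ I) :
    hf I m ≤ Fintype.card ι := by
  obtain ⟨w, h1, h2⟩ := exists_indM I m
  simpa using hf_span w v h2 fun i => h _ (h1 i)

/-- an independent family inside the span (modulo `I`) of a finite family is not larger. -/
theorem card_le_of_span {I : Ideal (MvPolynomial σ K)} {ι κ : Type} [Fintype ι] [Fintype κ]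
    (v : ι → MvPolynomial σ K) (w : κ → MvPolynomial σ K) (hv : IndM I v)
    (h : ∀ i, ∃ a : κ → K, v i - ∑ k, a k • w k ∈ I) : Fintype.card ι ≤ Fintype.card κ := by
  exact hf_span v w hv h

theorem exists_span_hf (I : Ideal (MvPolynomial σ K)) (m : ℕ) :
    ∃ v : Fin (hf I m) → MvPolynomial σ K, (∀ i, (v i).totalDegree ≤ m) ∧
      ∀ f : MvPolynomial σ K, f.totalDegree ≤ m → ∃ a : Fin (hf I m) → K, f - ∑ i, a i • v i ∈ I := by
  obtain ⟨v, h1, -, h2⟩ := hf_basis I (restrictTotalDegree σ K m)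
  exact ⟨v, fun i => hf_mem.1 (h1 i), fun f hf => h2 f (hf_mem.2 hf)⟩

theorem card_le_hh {I : Ideal (MvPolynomial σ K)} {ι : Type} [Fintype ι]
    (v : ι → MvPolynomial σ K) {m : ℕ} (hd : ∀ i, (v i).IsHomogeneous m) (hv : IndM I v) :
    Fintype.card ι ≤ hh I m := by
  have := Module.Finite.iff_fg.2 (homogeneousSubmodule_fg σ K m)
  exact hf_card v hd hv

theorem exists_indM_hh (I : Ideal (MvPolynomial σ K)) (m : ℕ) :
    ∃ v : Fin (hh I m) → MvPolynomial σ K, (∀ i, (v i).IsHomogeneous m) ∧ IndM I v := by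
  have := Module.Finite.iff_fg.2 (homogeneousSubmodule_fg σ K m)
  obtain ⟨v, h1, h2, -⟩ := hf_basis I (homogeneousSubmodule σ K m)
  exact ⟨v, h1, h2⟩

theorem hf_iInf_le {Λ : Type} (S : Finset Λ) (p : Λ → Ideal (MvPolynomial σ K)) (m : ℕ) :
    hf (⨅ l ∈ S, p l) m ≤ ∑ l ∈ S, hf (p l) m := by
  exact hf_inf S p _

theorem hh_iInf_le {Λ : Type} (S : Finset Λ) (p : Λ → Ideal (MvPolynomial σ K)) (m : ℕ) :
    hh (⨅ l ∈ S, p l) m ≤ ∑ l ∈ S, hh (p l) m := by
  have := Module.Finite.iff_fg.2 (homogeneousSubmodule_fg σ K m)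
  exact hf_inf S p _

theorem hf_bot (m : ℕ) :
    hf (⊥ : Ideal (MvPolynomial σ K)) m = (m + Fintype.card σ).choose (Fintype.card σ) := by
  classical
  have e : {n : σ →₀ ℕ | (n.sum fun _ e => e) ≤ m} =
      ((Finset.range (m + 1)).biUnion (Finset.finsuppAntidiag Finset.univ) : Finset (σ →₀ ℕ)) := by
    ext n
    simp [Finsupp.sum_fintype]
  rw [hf, ← (Submodule.equivMapOfInjective (Ideal.Quotient.mkₐ K ⊥).toLinearMap
    (RingEquiv.quotientBot _).symm.injective _).finrank_eq, restrictTotalDegree,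
    Module.finrank_eq_nat_card_basis (basisRestrictSupport K _), e, Nat.card_coe_set_eq,
    Set.ncard_coe_finset, Finset.card_biUnion, ← Nat.sum_range_multichoose]
  · simp only [Finset.card_finsuppAntidiag_nat_eq_multichoose, Finset.card_univ]
  · intro i _ j _ hij
    refine Finset.disjoint_left.2 fun n h1 h2 => hij ?_
    rw [Finset.mem_finsuppAntidiag] at h1 h2
    exact h1.1.symm.trans h2.1

theorem hf_le_pow (I : Ideal (MvPolynomial σ K)) (m : ℕ) : hf I m ≤ (m + 1) ^ Fintype.card σ := by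
  exact (hf_anti bot_le m).trans ((hf_bot m).trans_le (Nat.choose_add_le_add_one_pow _ _))

theorem one_le_hf {I : Ideal (MvPolynomial σ K)} (h : I ≠ ⊤) (m : ℕ) : 1 ≤ hf I m := by
  refine card_le_hf (ι := Unit) (fun _ => 1) (by simp) fun a ha i => ?_
  by_contra h0
  rw [Fintype.sum_unique, ← Algebra.algebraMap_eq_smul_one] at ha
  exact h (I.eq_top_of_isUnit_mem ha ((Ne.isUnit h0).map _))

theorem hf_kr_le (π : σ → K) (m : ℕ) : hf (kr K π) m ≤ 1 := by
  refine hf_le_of_span (ι := Unit) _ m (fun _ => 1) fun f _ => ⟨fun _ => aeval π f, ?_⟩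
  simp [mem_kr]

theorem hb_card (I : Ideal (MvPolynomial σ K)) :
    HB I ((2 : ℝ) ^ Fintype.card σ) (Fintype.card σ) := by
  intro m hm
  rw [← mul_pow]
  exact_mod_cast (hf_le_pow I m).trans (Nat.pow_le_pow_left (by omega) _)

theorem HB.mono {I I' : Ideal (MvPolynomial σ K)} {φ φ' : ℝ} {j : ℕ} (h : HB I φ j) (hI : I ≤ I')
    (hφ : φ ≤ φ') : HB I' φ' j := by
  exact fun m hm => (Nat.cast_le.2 (hf_anti hI m)).trans ((h m hm).trans (by gcongr))

theorem HB.nonneg {I : Ideal (MvPolynomial σ K)} {φ : ℝ} {j : ℕ} (h : HB I φ j) : 0 ≤ φ := by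
  simpa using (Nat.cast_nonneg _).trans (h 1 le_rfl)

theorem HB.one_le {I : Ideal (MvPolynomial σ K)} {φ : ℝ} {j : ℕ} (h : HB I φ j) (hI : I ≠ ⊤) :
    1 ≤ φ := by
  simpa using (Nat.one_le_cast.2 (one_le_hf hI 1)).trans (h 1 le_rfl)

theorem HB.of_le {I : Ideal (MvPolynomial σ K)} {φ : ℝ} {j j' : ℕ} (h : HB I φ j) (hj : j ≤ j') :
    HB I φ j' := by
  exact fun m hm => (h m hm).trans (mul_le_mul_of_nonneg_left
    (pow_le_pow_right₀ (Nat.one_le_cast.2 hm) hj) h.nonneg)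

theorem hb_iInf {Λ : Type} (S : Finset Λ) (p : Λ → Ideal (MvPolynomial σ K)) (φ : Λ → ℝ) {j : ℕ}
    (h : ∀ l ∈ S, HB (p l) (φ l) j) : HB (⨅ l ∈ S, p l) (∑ l ∈ S, φ l) j := by
  intro m hm
  refine (Nat.cast_le.2 (hf_iInf_le S p m)).trans ?_
  rw [Nat.cast_sum, Finset.sum_mul]
  exact Finset.sum_le_sum fun l hl => h l hl m hm

theorem hb_inf {I I' : Ideal (MvPolynomial σ K)} {φ φ' : ℝ} {j : ℕ} (h : HB I φ j)
    (h' : HB I' φ' j) : HB (I ⊓ I') (φ + φ') j := by
  have := hb_iInf Finset.univ (fun b => bif b then I else I') (fun b => bif b then φ else φ')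
    (j := j) (by rintro (_ | _) - <;> assumption)
  simpa [iInf_bool_eq] using this

theorem hf_comap {τ : Type} [Fintype τ] (ψ : MvPolynomial σ K →ₐ[K] MvPolynomial τ K) {e : ℕ}
    (hψ : ∀ k, (ψ (X k)).totalDegree ≤ e) (I' : Ideal (MvPolynomial τ K)) (m : ℕ) :
    hf (I'.comap ψ) m ≤ hf I' (e * m) := by
  obtain ⟨v, h1, h2⟩ := exists_indM (I'.comap ψ) m
  simpa using card_le_hf (I := I') (fun i => ψ (v i))
    (fun i => (hf_deg ψ hψ _).trans (Nat.mul_le_mul_left e (h1 i))) fun a ha => h2 a (by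
      simpa only [Ideal.mem_comap, map_sum, map_smul] using ha)

theorem totalDegree_algHom_le {τ : Type} (ψ : MvPolynomial σ K →ₐ[K] MvPolynomial τ K) {e : ℕ}
    (hψ : ∀ k, (ψ (X k)).totalDegree ≤ e) (f : MvPolynomial σ K) :
    (ψ f).totalDegree ≤ e * f.totalDegree := by
  exact hf_deg ψ hψ f

theorem choose_le_hf {I : Ideal (MvPolynomial σ K)} {ρ : Type} [Fintype ρ]
    (t : ρ → MvPolynomial σ K) (ht : Ind I t) {e : ℕ} (hd : ∀ k, (t k).totalDegree ≤ e) (m : ℕ) :
    (m + Fintype.card ρ).choose (Fintype.card ρ) ≤ hf I (e * m) := by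
  have h : I.comap (aeval t : MvPolynomial ρ K →ₐ[K] _) = ⊥ := eq_bot_iff.2 fun P hP => ht P hP
  rw [← hf_bot (K := K), ← h]
  exact hf_comap _ (by simpa using hd) I m

theorem pow_le_factorial_mul_choose (m j : ℕ) : m ^ j ≤ j.factorial * (m + j).choose j := by
  rw [← Nat.ascFactorial_eq_factorial_mul_choose]
  exact (Nat.pow_le_pow_left m.le_succ j).trans (Nat.pow_succ_le_ascFactorial _ j)

theorem exists_mem_notMem {I I' : Ideal (MvPolynomial σ K)} {m : ℕ} (h : hf I' m < hf I m) :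
    ∃ f ∈ I', f.totalDegree ≤ m ∧ f ∉ I := by
  by_contra! h1
  exact (hf_le_of_low h1).not_gt h

theorem exists_ne_zero_of_lt {I : Ideal (MvPolynomial σ K)} {m : ℕ}
    (h : ((Fintype.card σ).factorial : ℝ) * hf I m < (m : ℝ) ^ Fintype.card σ) :
    ∃ f ∈ I, f ≠ 0 ∧ f.totalDegree ≤ m := by
  have h1 : (Fintype.card σ).factorial * hf I m < m ^ Fintype.card σ := by exact_mod_cast h
  obtain ⟨f, h2, h3, h4⟩ := exists_mem_notMem (I := ⊥) (I' := I) (m := m) (by
    rw [hf_bot]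
    exact lt_of_mul_lt_mul_left (h1.trans_le (pow_le_factorial_mul_choose _ _)) (Nat.zero_le _))
  exact ⟨f, h2, h4, h3⟩

theorem card_le_hf_of_sep {Λ : Type} (S : Finset Λ) (x : Λ → σ → K) (m : ℕ)
    (h : ∀ a ∈ S, ∃ F : MvPolynomial σ K, F.totalDegree ≤ m ∧ aeval (x a) F ≠ 0 ∧
      ∀ b ∈ S, b ≠ a → aeval (x b) F = 0) :
    S.card ≤ hf (⨅ a ∈ S, kr K (x a)) m := by
  choose F h1 h2 h3 using h
  rw [← Fintype.card_coe]
  refine card_le_hf (fun a : S => F a a.2) (fun a => h1 a a.2) fun c hc a => ?_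
  have := Ideal.mem_iInf.1 (Ideal.mem_iInf.1 hc a) a.2
  rw [mem_kr, map_sum, Finset.sum_eq_single a (fun b _ hb => by
    rw [map_smul, h3 b b.2 a a.2 fun e => hb (Subtype.ext e.symm), smul_zero]) (by simp),
    map_smul, smul_eq_zero] at this
  exact this.resolve_right (h2 a a.2)

theorem hf_points_baseChange {K' : Type} [Field K'] [Algebra K K'] {Λ : Type} (S : Finset Λ)
    (x : Λ → σ → K) (m : ℕ) :
    hf (⨅ a ∈ S, kr K (x a)) m ≤ hf (⨅ a ∈ S, kr K' (fun k => algebraMap K K' (x a k))) m := by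
  obtain ⟨v, h1, h2⟩ := exists_indM (⨅ a ∈ S, kr K (x a)) m
  refine le_of_eq_of_le (Fintype.card_fin _).symm (card_le_hf (fun i => map (algebraMap K K') (v i))
    (fun i => le_trans (Finset.sup_mono (support_map_subset _ _)) (h1 i)) fun c hc i => ?_)
  refine (Module.forall_dual_apply_eq_zero_iff K _).1 fun φ => h2 (fun i => φ (c i)) ?_ i
  simp only [Ideal.mem_iInf, mem_kr, map_sum, map_smul, hf_ev] at hc ⊢
  intro a ha
  have := congrArg φ (hc a ha)
  rw [map_sum, map_zero] at this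
  refine Eq.trans (Finset.sum_congr rfl fun i _ => ?_) this
  rw [smul_eq_mul, smul_eq_mul, mul_comm (c i), ← Algebra.smul_def, map_smul, smul_eq_mul, mul_comm]

theorem hf_points_baseChange_ge {K' : Type} [Field K'] [Algebra K K'] {Λ : Type} (S : Finset Λ)
    (x : Λ → σ → K) (m : ℕ) :
    hf (⨅ a ∈ S, kr K' (fun k => algebraMap K K' (x a k))) m ≤ hf (⨅ a ∈ S, kr K (x a)) m := by
  obtain ⟨v, -, h2⟩ := exists_span_hf (⨅ a ∈ S, kr K (x a)) m
  refine le_of_le_of_eq (hf_le_of_span _ m _ (hf_base (fun g hg => ?_) h2)) (Fintype.card_fin _)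
  simp only [Ideal.mem_iInf, mem_kr, hf_ev] at hg ⊢
  exact fun a ha => by rw [hg a ha, map_zero]

/-- cutting with a non zero divisor. -/
theorem hb_cut {I I' : Ideal (MvPolynomial σ K)} {G : MvPolynomial σ K} {φ δ : ℝ} {j : ℕ}
    (hI : I ≤ I') (hG : G ∈ I') (hnz : ∀ f, G * f ∈ I → f ∈ I) (hd : (G.totalDegree : ℝ) ≤ δ)
    (hδ : 1 ≤ δ) (h : HB I φ (j + 1)) : HB I' (2 ^ (j + 1) * φ * δ) j := by
  intro m hm
  obtain ⟨v, h1, h2⟩ := exists_indM I' m
  have key : ∀ n, IndM I fun p : Fin n × Fin (hf I' m) => G ^ (p.1 : ℕ) * v p.2 := by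
    intro n
    induction n with
    | zero => exact fun _ _ p => p.1.elim0
    | succ n ih =>
      intro a ha
      have e : ∑ p : Fin (n + 1) × Fin (hf I' m), a p • (G ^ (p.1 : ℕ) * v p.2) =
          ∑ i, a (0, i) • v i +
            G * ∑ p : Fin n × Fin (hf I' m), a (p.1.succ, p.2) • (G ^ (p.1 : ℕ) * v p.2) := by
        simp [Fintype.sum_prod_type, Fin.sum_univ_succ, Finset.mul_sum, pow_succ', mul_assoc]
      rw [e] at ha
      have h3 := h2 _ ((I'.add_mem_iff_left (I'.mul_mem_right _ hG)).1 (hI ha))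
      simp only [h3, zero_smul, Finset.sum_const_zero, zero_add] at ha
      rintro ⟨b, i⟩
      cases b using Fin.cases with
      | zero => exact h3 i
      | succ b => exact ih _ (hnz _ ha) (b, i)
  obtain ⟨d, d1, d2, d3⟩ : ∃ d : ℕ, 0 < d ∧ G.totalDegree ≤ d ∧ (d : ℝ) ≤ δ :=
    ⟨max G.totalDegree 1, by omega, by omega, by rw [Nat.cast_max, Nat.cast_one]; exact max_le hd hδ⟩
  have h3 := card_le_hf _ (m := 2 * m) (fun p => (totalDegree_mul _ _).trans (by
    have := (totalDegree_pow G p.1).trans (Nat.mul_le_mul (Nat.le_of_lt_succ p.1.2) d2)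
    have := Nat.div_mul_le_self m d
    have := h1 p.2
    omega)) (key (m / d + 1))
  rw [Fintype.card_prod, Fintype.card_fin, Fintype.card_fin] at h3
  have h4 : m * hf I' m ≤ d * hf I (2 * m) := (Nat.mul_le_mul_right _
    (Nat.lt_mul_div_succ m d1).le).trans (by rw [mul_assoc]; exact Nat.mul_le_mul_left _ h3)
  have h5 : (m : ℝ) * hf I' m ≤ δ * (φ * ((2 * m : ℕ) : ℝ) ^ (j + 1)) :=
    le_trans (by exact_mod_cast h4) (mul_le_mul d3 (h _ (by omega)) (Nat.cast_nonneg _)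
      (zero_le_one.trans hδ))
  refine le_of_mul_le_mul_left (h5.trans_eq ?_) (Nat.cast_pos.2 hm)
  push_cast
  ring

end

end Vale.Agent.P054
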