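import Vale.Agent.P054.Geo
import Vale.Agent.P054.Hf

namespace Vale.Agent.P054

open MvPolynomial

noncomputable section

variable {K : Type} [Field K] {ε : Type} [Fintype ε] [LinearOrder ε]

omit [Fintype ε] in
theorem sk_self {A : Type} [Neg A] [Zero A] (M : Pr ε → A) (i : ε) : sk M i i = 0 := by
  rw [sk, dif_neg (lt_irrefl i), dif_neg (lt_irrefl i)]

omit [Fintype ε] in
theorem sk_of_lt {A : Type} [Neg A] [Zero A] (M : Pr ε → A) (p : Pr ε) :
    sk M p.1.1 p.1.2 = M p := by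
  rw [sk, dif_pos p.2]

omit [Fintype ε] in
theorem sk_swap {A : Type} [AddCommGroup A] (M : Pr ε → A) (i j : ε) : sk M j i = - sk M i j := by
  rcases lt_trichotomy i j with h | rfl | h
  · rw [sk, sk, dif_neg h.not_gt, dif_pos h, dif_pos h]
  · rw [sk_self, neg_zero]
  · rw [sk, sk, dif_pos h, dif_neg h.not_gt, dif_pos h, neg_neg]

omit [Fintype ε] in
theorem map_sk {A B F : Type} [AddCommGroup A] [AddCommGroup B] [FunLike F A B]
    [AddMonoidHomClass F A B] (φ : F) (M : Pr ε → A) (i j : ε) :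
    φ (sk M i j) = sk (fun p => φ (M p)) i j := by
  unfold sk
  split_ifs
  · rfl
  · exact map_neg φ _
  · exact map_zero φ

omit [Fintype ε] in
theorem Dd_apply (i j : ε) (f : MvPolynomial (Pr ε) K) :
    Dd i j f = sk (fun p => pderiv p f) i j := by
  unfold Dd sk
  split_ifs <;> rfl

omit [Fintype ε] in
theorem Dh_apply (i j : ε) (f : MvPolynomial (Option (Pr ε)) K) :
    Dh i j f = sk (fun p => pderiv (some p) f) i j := by
  unfold Dh sk
  split_ifs <;> rfl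

omit [Fintype ε] in
theorem Dh_rename (i j : ε) (f : MvPolynomial (Pr ε) K) :
    Dh i j (rename some f) = rename some (Dd i j f) := by
  rw [Dh_apply, Dd_apply, map_sk]
  simp only [pderiv_rename (Option.some_injective _)]

omit [Fintype ε] in
theorem Dh_Mh (j k a b : ε) : (Dh j k (Mh a b) : MvPolynomial (Option (Pr ε)) K) =
    (if j = a ∧ k = b then 1 else 0) - (if j = b ∧ k = a then 1 else 0) := by
  rw [Dh_apply]
  simp only [Mh, map_sk]
  unfold sk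
  simp only [pderiv_X, Pi.single_apply, Option.some.injEq, Subtype.mk.injEq, Prod.mk.injEq]
  split_ifs <;> first | (simp; done) | (exfalso; grind)

theorem flat_sum {A : Type} [AddCommMonoid A] (f : ε → ε → A) :
    ∑ j, ∑ k, f j k = ∑ i, f i i + ∑ p : Pr ε, (f p.1.1 p.1.2 + f p.1.2 p.1.1) := by
  have h1 : ∀ g : ε × ε → A, ∑ p : Pr ε, g p.1 = ∑ x : ε × ε, if x.1 < x.2 then g x else 0 :=
    fun g => by
    rw [← Finset.sum_filter]
    exact (Finset.sum_subtype _ (by simp) g).symm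
  have h2 : ∑ i, f i i = ∑ x : ε × ε, if x.1 = x.2 then f x.1 x.2 else 0 := by
    rw [Fintype.sum_prod_type]
    simp
  rw [Finset.sum_add_distrib, h1 fun x => f x.1 x.2, h1 fun x => f x.2 x.1, h2,
    ← (Equiv.prodComm ε ε).sum_comp fun x => if x.1 < x.2 then f x.2 x.1 else 0,
    ← Finset.sum_add_distrib, ← Finset.sum_add_distrib, ← Fintype.sum_prod_type']
  refine Finset.sum_congr rfl fun x _ => ?_
  rcases lt_trichotomy x.1 x.2 with h | h | h
  · simp [h, h.ne, h.not_gt]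
  · simp [h]
  · simp [h, h.ne', h.not_gt]

theorem sum_sk_mul_sk {A : Type} [CommRing A] (a b : Pr ε → A) :
    ∑ j, ∑ k, sk a j k * sk b j k = 2 * ∑ p, a p * b p := by
  rw [flat_sum, Finset.mul_sum]
  simp only [sk_self, mul_zero, Finset.sum_const_zero, zero_add]
  refine Finset.sum_congr rfl fun p _ => ?_
  rw [sk_swap a p.1.1 p.1.2, sk_swap b p.1.1 p.1.2, sk_of_lt, sk_of_lt]
  ring

theorem sum_sk_quad {A : Type} [CommRing A] (M : Pr ε → A) (y y' : ε → A) :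
    ∑ i, y i * ∑ j, sk M i j * y' j = - ∑ i, y' i * ∑ j, sk M i j * y j := by
  simp only [Finset.mul_sum, ← Finset.sum_neg_distrib]
  rw [Finset.sum_comm]
  refine Finset.sum_congr rfl fun i _ => Finset.sum_congr rfl fun j _ => ?_
  rw [sk_swap M i j]
  ring

theorem sum_sk_self {A : Type} [CommRing A] (M : Pr ε → A) (y : ε → A) :
    ∑ i, y i * ∑ j, sk M i j * y j = 0 := by
  simp only [Finset.mul_sum]
  rw [flat_sum]
  simp only [sk_self, mul_zero, zero_mul, Finset.sum_const_zero, zero_add]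
  refine Finset.sum_eq_zero fun p _ => ?_
  rw [sk_swap M p.1.1 p.1.2]
  ring

theorem bil_comm {A : Type} [CommRing A] (η η' : ε ⊕ ε → A) : bil η η' = bil η' η := by
  exact Finset.sum_congr rfl fun i _ => add_comm _ _

theorem bil_of_mem {η η' : ε ⊕ ε → K} {M : Pr ε → K} (h : M ∈ Fl η) (h' : M ∈ Fl η') :
    bil η η' = 0 := by
  have h1 := sum_sk_quad M (fun i => η (Sum.inl i)) fun i => η' (Sum.inl i)
  simp only [h _, h' _] at h1
  rw [bil, Finset.sum_add_distrib, h1, neg_add_cancel]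

omit [LinearOrder ε] in
theorem flat_card_Ne0 [DecidableEq ε] (i0 : ε) : Fintype.card (Ne0 i0) + 1 = Fintype.card ε := by
  have h := Fintype.sum_eq_add_sum_subtype_ne (fun _ : ε => (1 : ℕ)) i0
  rw [← Fintype.card_eq_sum_ones, ← Fintype.card_eq_sum_ones] at h
  exact (add_comm _ _).trans h.symm

theorem flat_card (ε : Type) [Fintype ε] [LinearOrder ε] :
    Fintype.card ε * Fintype.card ε = Fintype.card ε + 2 * Fintype.card (Pr ε) := by
  simpa [mul_comm] using flat_sum fun _ _ : ε => (1 : ℕ)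

theorem card_Pr (i0 : ε) :
    Fintype.card (Pr ε) = Fintype.card (Pr (Ne0 i0)) + (Fintype.card ε - 1) := by
  have h1 := flat_card ε
  have h2 := flat_card (Ne0 i0)
  have h3 : Fintype.card (Ne0 i0) + 1 = Fintype.card ε := flat_card_Ne0 i0
  rw [← h3] at h1 ⊢
  rw [Nat.add_sub_cancel]
  nlinarith

theorem card_Pr_eq : 2 * Fintype.card (Pr ε) = Fintype.card ε * (Fintype.card ε - 1) := by
  rw [Nat.mul_sub_one, flat_card, Nat.add_sub_cancel_left]

omit [LinearOrder ε] in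
theorem card_Ne0 [DecidableEq ε] (i0 : ε) : Fintype.card (Ne0 i0) + 1 = Fintype.card ε := by
  exact flat_card_Ne0 i0

omit [Fintype ε] in
theorem flat_skew {A : Type} [AddCommGroup A] {m : ε → ε → A} (h0 : ∀ a, m a a = 0)
    (h : ∀ a b, m b a = - m a b) (a b : ε) : sk (fun p : Pr ε => m p.1.1 p.1.2) a b = m a b := by
  rcases lt_trichotomy a b with h1 | rfl | h1
  · rw [sk, dif_pos h1]
  · rw [sk_self, h0]
  · rw [sk, dif_neg h1.not_gt, dif_pos h1, h b a]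

theorem flat_mem {i0 : ε} {η : ε ⊕ ε → K} (h : Nrm i0 η) {M : Pr ε → K}
    (hM : ∀ a : Ne0 i0, ∑ j, sk M a.1 j * η (Sum.inl j) = η (Sum.inr a.1)) : M ∈ Fl η := by
  intro i
  by_cases hi : i = i0
  · have h1 := sum_sk_self M fun i => η (Sum.inl i)
    have h2 : ∑ i, η (Sum.inl i) * η (Sum.inr i) = 0 := h.2
    rw [Fintype.sum_eq_add_sum_subtype_ne _ i0, h.1, one_mul] at h1 h2
    simp only [hM] at h1
    rw [hi]
    exact add_right_cancel (h1.trans h2.symm)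
  · exact hM ⟨i, hi⟩

/-- parametrisation of a flat by the smaller skew matrices. -/
theorem exists_par {i0 : ε} {η : ε ⊕ ε → K} (h : Nrm i0 η) :
    ∃ ψ : Pr ε → MvPolynomial (Pr (Ne0 i0)) K, (∀ p, (ψ p).totalDegree ≤ 1) ∧
      (∀ a b : Ne0 i0, sk ψ a.1 b.1 = sk X a b) ∧
      (∀ M' : Pr (Ne0 i0) → K, (fun p => aeval M' (ψ p)) ∈ Fl η) ∧
      (∀ M ∈ Fl η, ∃ M' : Pr (Ne0 i0) → K, M = fun p => aeval M' (ψ p)) ∧
      ∀ η' : ε ⊕ ε → K, Nrm i0 η' → bil η η' = 0 → ∀ M' : Pr (Ne0 i0) → K,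
        ((fun p => aeval M' (ψ p)) ∈ Fl η' ↔
          M' ∈ Fl (fun s : Ne0 i0 ⊕ Ne0 i0 =>
            η' (Sum.map Subtype.val Subtype.val s) - η (Sum.map Subtype.val Subtype.val s))) := by
  obtain ⟨w, hw⟩ : ∃ w : Ne0 i0 → MvPolynomial (Pr (Ne0 i0)) K,
      ∀ a, w a = C (η (Sum.inr a.1)) - ∑ k : Ne0 i0, sk X a k * C (η (Sum.inl k.1)) :=
    ⟨_, fun _ => rfl⟩
  obtain ⟨m, hm⟩ : ∃ m : ε → ε → MvPolynomial (Pr (Ne0 i0)) K, ∀ a b, m a b =
      if ha : a = i0 then (if hb : b = i0 then 0 else - w ⟨b, hb⟩)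
      else if hb : b = i0 then w ⟨a, ha⟩ else sk X ⟨a, ha⟩ ⟨b, hb⟩ := ⟨_, fun _ _ => rfl⟩
  have hd : ∀ a b : Ne0 i0, (sk X a b : MvPolynomial (Pr (Ne0 i0)) K).totalDegree ≤ 1 :=
    fun a b => by
    unfold sk
    split_ifs <;> simp
  have hwd : ∀ a, (w a).totalDegree ≤ 1 := fun a => by
    rw [hw]
    refine (totalDegree_sub _ _).trans (max_le (by simp) (totalDegree_finsetSum_le fun k _ => ?_))
    exact (totalDegree_mul _ _).trans (by simpa using hd a k)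
  have hs : ∀ a b, sk (fun p : Pr ε => m p.1.1 p.1.2) a b = m a b := by
    refine flat_skew (fun a => ?_) fun a b => ?_
    · rw [hm]
      split_ifs
      · rfl
      · exact sk_self _ _
    · rw [hm, hm]
      split_ifs
      · exact neg_zero.symm
      · rfl
      · exact (neg_neg _).symm
      · exact sk_swap _ _ _
  have h1 : ∀ a b : Ne0 i0, sk (fun p : Pr ε => m p.1.1 p.1.2) a.1 b.1 = sk X a b := fun a b => by
    rw [hs, hm, dif_neg a.2, dif_neg b.2]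
  have h2 : ∀ (M' : Pr (Ne0 i0) → K) (a b : Ne0 i0),
      sk (fun p : Pr ε => aeval M' (m p.1.1 p.1.2)) a.1 b.1 = sk M' a b := fun M' a b => by
    rw [← map_sk, h1, map_sk]
    simp only [aeval_X]
  have h3 : ∀ (M' : Pr (Ne0 i0) → K) (a : Ne0 i0),
      sk (fun p : Pr ε => aeval M' (m p.1.1 p.1.2)) a.1 i0 =
        η (Sum.inr a.1) - ∑ k : Ne0 i0, sk M' a k * η (Sum.inl k.1) := fun M' a => by
    rw [← map_sk, hs, hm, dif_neg a.2, dif_pos rfl, hw]
    simp only [map_sub, map_sum, map_mul, map_sk, aeval_X, aeval_C, Algebra.algebraMap_self_apply]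
  have h4 : ∀ M' : Pr (Ne0 i0) → K, (fun p : Pr ε => aeval M' (m p.1.1 p.1.2)) ∈ Fl η :=
    fun M' => flat_mem h fun a => by
      rw [Fintype.sum_eq_add_sum_subtype_ne _ i0, h3, h.1]
      simp only [h2]
      ring
  refine ⟨fun p => m p.1.1 p.1.2, fun p => ?_, h1, h4, fun M hM => ?_, fun η' h' _ M' => ?_⟩
  · simp only [hm]
    split_ifs
    · simp
    · rw [totalDegree_neg]
      exact hwd _
    · exact hwd _
    · exact hd _ _
  · obtain ⟨M', hM'⟩ : ∃ M' : Pr (Ne0 i0) → K, ∀ a b : Ne0 i0, sk M' a b = sk M a.1 b.1 :=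
      ⟨_, flat_skew (m := fun a b : Ne0 i0 => sk M a.1 b.1) (fun a => sk_self _ _)
        fun a b => sk_swap _ _ _⟩
    have k1 : ∀ a : Ne0 i0,
        sk M a.1 i0 = sk (fun p : Pr ε => aeval M' (m p.1.1 p.1.2)) a.1 i0 := fun a => by
      rw [h3, ← hM a.1, Fintype.sum_eq_add_sum_subtype_ne _ i0, h.1]
      simp only [hM']
      ring
    have k2 : ∀ a b, sk M a b = sk (fun p : Pr ε => aeval M' (m p.1.1 p.1.2)) a b := fun a b => by
      by_cases ha : a = i0 <;> by_cases hb : b = i0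
      · rw [ha, hb, sk_self, sk_self]
      · rw [ha, sk_swap, k1 ⟨b, hb⟩, ← sk_swap]
      · rw [hb, k1 ⟨a, ha⟩]
      · exact ((h2 M' ⟨a, ha⟩ ⟨b, hb⟩).trans (hM' _ _)).symm
    exact ⟨M', funext fun p => by rw [← sk_of_lt M p, k2, sk_of_lt]⟩
  · have k : ∀ a : Ne0 i0,
        ∑ j, sk (fun p : Pr ε => aeval M' (m p.1.1 p.1.2)) a.1 j * η' (Sum.inl j) -
          η' (Sum.inr a.1) = ∑ j : Ne0 i0, sk M' a j * (η' (Sum.inl j.1) - η (Sum.inl j.1)) -
          (η' (Sum.inr a.1) - η (Sum.inr a.1)) := fun a => by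
      rw [Fintype.sum_eq_add_sum_subtype_ne _ i0, h3, h'.1]
      simp only [h2, mul_sub, Finset.sum_sub_distrib]
      ring
    exact ⟨fun hM a => sub_eq_zero.1 ((k a).symm.trans (sub_eq_zero.2 (hM a.1))),
      fun hM => flat_mem h' fun a => sub_eq_zero.1 ((k a).trans (sub_eq_zero.2 (hM a)))⟩

theorem Fl_smul {η : ε ⊕ ε → K} {s : K} (hs : s ≠ 0) : Fl (fun b => s * η b) = Fl η := by
  ext M
  refine forall_congr' fun i => ?_
  simp only [mul_left_comm _ s, ← Finset.mul_sum]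
  exact mul_right_inj' hs

theorem IL_le_IL2 (η η' : ε ⊕ ε → K) : IL η ≤ IL2 η η' := by
  exact fun f hf => mem_vI.2 fun x hx => mem_vI.1 hf x hx.1

theorem IL_le_IL2' (η η' : ε ⊕ ε → K) : IL η' ≤ IL2 η η' := by
  exact fun f hf => mem_vI.2 fun x hx => mem_vI.1 hf x hx.2

theorem IL_le_kr {η : ε ⊕ ε → K} {M : Pr ε → K} (h : M ∈ Fl η) : IL η ≤ kr K M := by
  exact fun f hf => mem_vI.1 hf M h

theorem mem_Fl_of_le {η : ε ⊕ ε → K} {M : Pr ε → K} (h : IL η ≤ kr K M) : M ∈ Fl η := by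
  have e : ∀ (i : ε) (N : Pr ε → K), aeval N (∑ j, sk X i j * C (η (Sum.inl j)) -
      C (η (Sum.inr i)) : MvPolynomial (Pr ε) K) =
      ∑ j, sk N i j * η (Sum.inl j) - η (Sum.inr i) := fun i N => by
    simp only [map_sub, map_sum, map_mul, map_sk, aeval_X, aeval_C, Algebra.algebraMap_self_apply]
  exact fun i => sub_eq_zero.1 ((e i M).symm.trans
    (h (mem_vI.2 fun N hN => (e i N).trans (sub_eq_zero.2 (hN i)))))

theorem flat_dn {σ : Type} (S : Set (σ → K)) : Dn (vI S) := by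
  intro f hf
  rw [mem_vI] at hf
  push Not at hf
  obtain ⟨x, hx, h⟩ := hf
  exact ⟨x, fun g hg => mem_vI.1 hg x hx, h⟩

theorem dn_IL (η : ε ⊕ ε → K) : Dn (IL η) := by
  exact flat_dn _

theorem dn_IH (i1 : ε) (η : ε ⊕ ε → K) : Dn (IH i1 η) := by
  exact flat_dn _

theorem IH_le_kr {i1 : ε} {η : ε ⊕ ε → K} {M : Pr ε → K} (h : M ∈ Fl η) :
    IH i1 η ≤ kr K (fun o : Option (Pr ε) => o.elim (η (Sum.inl i1)) M) := by
  exact fun f hf => mem_vI.1 hf _ ⟨h, rfl⟩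

theorem mem_IH {i1 : ε} {η : ε ⊕ ε → K} {Φ : MvPolynomial (Option (Pr ε)) K} :
    Φ ∈ IH i1 η ↔ ∀ M ∈ Fl η, aeval (fun o : Option (Pr ε) => o.elim (η (Sum.inl i1)) M) Φ = 0 := by
  refine ⟨fun h M hM => IH_le_kr hM h, fun h => mem_vI.2 fun x hx => ?_⟩
  have e : x = fun o : Option (Pr ε) => o.elim (η (Sum.inl i1)) fun p => x (some p) :=
    funext fun o => by
      cases o
      · exact hx.2
      · rfl
  rw [e]
  exact h _ hx.1

theorem mem_IH_iff_subst {i1 : ε} {η : ε ⊕ ε → K} {Φ : MvPolynomial (Option (Pr ε)) K} :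
    Φ ∈ IH i1 η ↔
      aeval (fun o : Option (Pr ε) => o.elim (C (η (Sum.inl i1)) : MvPolynomial (Pr ε) K) X) Φ
        ∈ IL η := by
  rw [mem_IH, IL, mem_vI]
  refine forall₂_congr fun M _ => ?_
  have e : (fun o : Option (Pr ε) => o.elim (η (Sum.inl i1)) M) = fun o : Option (Pr ε) =>
      aeval M (o.elim (C (η (Sum.inl i1)) : MvPolynomial (Pr ε) K) X) :=
    funext fun o => by cases o <;> simp
  rw [comp_aeval_apply, e]

theorem rename_mem_IH {i1 : ε} {η : ε ⊕ ε → K} {f : MvPolynomial (Pr ε) K} :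
    rename some f ∈ IH i1 η ↔ f ∈ IL η := by
  rw [mem_IH, IL, mem_vI]
  refine forall₂_congr fun M _ => ?_
  rw [aeval_rename]
  rfl

theorem two_root {i1 : ε} {η η' : ε ⊕ ε → K} (hne : η (Sum.inl i1) ≠ η' (Sum.inl i1))
    {r1 r0 : MvPolynomial (Pr ε) K} (h : rename some r1 * X none + rename some r0 ∈ IH i1 η)
    (h' : rename some r1 * X none + rename some r0 ∈ IH i1 η') :
    r1 ∈ IL2 η η' ∧ r0 ∈ IL2 η η' := by
  have k : ∀ M ∈ Fl η ∩ Fl η', aeval M r1 = 0 ∧ aeval M r0 = 0 := fun M hM => by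
    have a1 : aeval M r1 * η (Sum.inl i1) + aeval M r0 = 0 := by
      simpa only [map_add, map_mul, aeval_rename, aeval_X] using! mem_IH.1 h M hM.1
    have a2 : aeval M r1 * η' (Sum.inl i1) + aeval M r0 = 0 := by
      simpa only [map_add, map_mul, aeval_rename, aeval_X] using! mem_IH.1 h' M hM.2
    have a3 : aeval M r1 = 0 := (mul_eq_zero.1 (by linear_combination a1 - a2)).resolve_right
      (sub_ne_zero.2 hne)
    rw [a3, zero_mul, zero_add] at a1
    exact ⟨a3, a1⟩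
  exact ⟨mem_vI.2 fun M hM => (k M hM).1, mem_vI.2 fun M hM => (k M hM).2⟩

variable [Infinite K]

theorem flat_ker {i0 : ε} {η : ε ⊕ ε → K} (h : Nrm i0 η) :
    ∃ ψ : Pr ε → MvPolynomial (Pr (Ne0 i0)) K, (∀ p, (ψ p).totalDegree ≤ 1) ∧
      (∀ a b : Ne0 i0, sk ψ a.1 b.1 = sk X a b) ∧ IL η = kr K ψ := by
  obtain ⟨ψ, h1, h2, h3, h4, -⟩ := exists_par h
  refine ⟨ψ, h1, h2, Ideal.ext fun f => ⟨fun hf => MvPolynomial.funext fun M' => ?_,
    fun hf => mem_vI.2 fun M hM => ?_⟩⟩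
  · rw [map_zero, ← coe_aeval_eq_eval, RingHom.coe_coe, comp_aeval_apply]
    exact mem_vI.1 hf _ (h3 M')
  · obtain ⟨M', rfl⟩ := h4 M hM
    rw [← comp_aeval_apply, mem_kr.1 hf, map_zero]

theorem IL_isPrime {i0 : ε} {η : ε ⊕ ε → K} (h : Nrm i0 η) : (IL η).IsPrime := by
  obtain ⟨ψ, -, -, h1⟩ := flat_ker h
  rw [h1]
  exact kr_isPrime _

theorem IH_isPrime {i0 : ε} (i1 : ε) {η : ε ⊕ ε → K} (h : Nrm i0 η) : (IH i1 η).IsPrime := by
  have h1 := IL_isPrime h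
  have e : IH i1 η = (IL η).comap (aeval (R := K) fun o : Option (Pr ε) =>
      o.elim (C (η (Sum.inl i1)) : MvPolynomial (Pr ε) K) X) :=
    Ideal.ext fun _ => mem_IH_iff_subst
  rw [e]
  exact Ideal.comap_isPrime _ _

theorem hf_IL_le {i0 : ε} {η : ε ⊕ ε → K} (h : Nrm i0 η) (m : ℕ) :
    hf (IL η) m ≤ (m + 1) ^ Fintype.card (Pr (Ne0 i0)) := by
  obtain ⟨ψ, h1, -, h2⟩ := flat_ker h
  rw [h2]
  exact (hf_comap (aeval ψ) (e := 1) (fun k => by rw [aeval_X]; exact h1 k) ⊥ m).trans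
    (by rw [one_mul]; exact hf_le_pow _ _)

theorem hb_IL {i0 : ε} {η : ε ⊕ ε → K} (h : Nrm i0 η) :
    HB (IL η) (2 ^ Fintype.card (Pr (Ne0 i0))) (Fintype.card (Pr (Ne0 i0))) := by
  intro m hm
  rw [← mul_pow]
  exact_mod_cast (hf_IL_le h m).trans (Nat.pow_le_pow_left (by omega) _)

theorem ind_IL {i0 : ε} {η : ε ⊕ ε → K} (h : Nrm i0 η) :
    ∃ t : Pr (Ne0 i0) → MvPolynomial (Pr ε) K, Ind (IL η) t ∧ ∀ k, (t k).totalDegree ≤ 1 := by
  obtain ⟨ψ, -, h1, h2⟩ := flat_ker h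
  refine ⟨fun p => X ⟨(p.1.1.1, p.1.2.1), p.2⟩, fun P hP => ?_, fun k => by simp⟩
  have e : (fun p : Pr (Ne0 i0) =>
      aeval ψ (X ⟨(p.1.1.1, p.1.2.1), p.2⟩ : MvPolynomial (Pr ε) K)) = X := funext fun p => by
    rw [aeval_X, ← sk_of_lt ψ, ← sk_of_lt X p]
    exact h1 _ _
  rwa [h2, mem_kr, comp_aeval_apply, e, aeval_X_left_apply] at hP

theorem IL_inj (h3 : 3 ≤ Fintype.card ε) {i0 : ε} {η η' : ε ⊕ ε → K} (h : Nrm i0 η)
    (h' : Nrm i0 η') (he : IL η = IL η') : η = η' := by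
  obtain ⟨ψ, -, -, h1, -, h2⟩ := exists_par h
  have h4 : ∀ M ∈ Fl η, M ∈ Fl η' := fun M hM => mem_Fl_of_le (he ▸ IL_le_kr hM)
  have h5 := fun M' => (h2 η' h' (bil_of_mem (h1 0) (h4 _ (h1 0))) M').1 (h4 _ (h1 M'))
  have h6 : ∀ j, η (Sum.inl j) = η' (Sum.inl j) := fun j => by
    by_cases hj : j = i0
    · rw [hj, h.1, h'.1]
    have : Nontrivial (Ne0 i0) := Fintype.one_lt_card_iff_nontrivial.1 (by
      have := card_Ne0 i0
      omega)
    obtain ⟨a, ha⟩ := exists_ne (⟨j, hj⟩ : Ne0 i0)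
    have s := flat_skew (m := fun u v : Ne0 i0 => (if u = a ∧ v = ⟨j, hj⟩ then (1 : K) else 0) -
      if v = a ∧ u = ⟨j, hj⟩ then 1 else 0) (fun _ => sub_self _) fun _ _ => (neg_sub _ _).symm
    have a1 := h5 0 a
    have a2 := h5 (fun p => (if p.1.1 = a ∧ p.1.2 = ⟨j, hj⟩ then (1 : K) else 0) -
      if p.1.2 = a ∧ p.1.1 = ⟨j, hj⟩ then 1 else 0) a
    simp only [s] at a2
    have a3 : ∀ u v : Ne0 i0, sk (0 : Pr (Ne0 i0) → K) u v = 0 := fun u v => by
      unfold sk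
      split_ifs <;> simp
    simp only [a3, zero_mul, Finset.sum_const_zero] at a1
    rw [← a1] at a2
    have a4 : η' (Sum.inl j) - η (Sum.inl j) = 0 := by simpa [ha] using a2
    exact (sub_eq_zero.1 a4).symm
  funext b
  cases b with
  | inl j => exact h6 j
  | inr j =>
    rw [← h1 0 j, ← h4 _ (h1 0) j]
    simp only [h6]

omit [Infinite K] in
theorem eq_sum_tc {σ : Type} (Φ : MvPolynomial (Option σ) K) {s : ℕ} (hs : degreeOf none Φ ≤ s) :
    Φ = ∑ n ∈ Finset.range (s + 1), rename some (tc n Φ) * X none ^ n := by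
  have e : ∀ f : MvPolynomial σ K, optionEquivLeft K σ (rename some f) = Polynomial.C f :=
    fun f => by
    induction f using MvPolynomial.induction_on with
    | C a => simp
    | add p q hp hq => simp only [map_add, hp, hq]
    | mul_X p i hp => simp only [map_mul, hp, optionEquivLeft_X_some, rename_X]
  refine (optionEquivLeft K σ).injective ?_
  simp only [map_sum, map_mul, map_pow, e, optionEquivLeft_X_none,
    Polynomial.C_mul_X_pow_eq_monomial]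
  exact Polynomial.as_sum_range' _ _ (by rw [natDegree_optionEquivLeft]; omega)

omit [Infinite K] in
theorem totalDegree_tc {σ : Type} (n : ℕ) (Φ : MvPolynomial (Option σ) K) :
    (tc n Φ).totalDegree ≤ Φ.totalDegree := by
  exact totalDegree_coeff_optionEquivLeft_le K σ Φ n

omit [Infinite K] in
/-- pseudo division by a polynomial of degree two in the variable `none`. -/
theorem pseudo_div {σ : Type} (Φ Ψ : MvPolynomial (Option σ) K) (hΦ : degreeOf none Φ ≤ 2)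
    (hΨ : degreeOf none Ψ ≤ 3) :
    ∃ (Q : MvPolynomial (Option σ) K) (r1 r0 : MvPolynomial σ K),
      rename some (tc 2 Φ ^ 2) * Ψ = Q * Φ + (rename some r1 * X none + rename some r0) ∧
      r1.totalDegree ≤ Ψ.totalDegree + 2 * Φ.totalDegree ∧
      r0.totalDegree ≤ Ψ.totalDegree + 2 * Φ.totalDegree := by
  have e1 := eq_sum_tc Φ hΦ
  have e2 := eq_sum_tc Ψ hΨ
  simp only [Finset.sum_range_succ, Finset.sum_range_zero] at e1 e2
  have d : ∀ i j k, (tc i Ψ * (tc j Φ * tc k Φ)).totalDegree ≤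
      Ψ.totalDegree + 2 * Φ.totalDegree := fun i j k =>
    (totalDegree_mul _ _).trans (add_le_add (totalDegree_tc _ _) ((totalDegree_mul _ _).trans
      ((add_le_add (totalDegree_tc _ _) (totalDegree_tc _ _)).trans (two_mul _).ge)))
  refine ⟨rename some (tc 2 Φ * tc 3 Ψ) * X none + rename some (tc 2 Φ * tc 2 Ψ - tc 3 Ψ * tc 1 Φ),
    tc 1 Ψ * (tc 2 Φ * tc 2 Φ) - tc 3 Ψ * (tc 2 Φ * tc 0 Φ) - tc 2 Ψ * (tc 2 Φ * tc 1 Φ) +
      tc 3 Ψ * (tc 1 Φ * tc 1 Φ),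
    tc 0 Ψ * (tc 2 Φ * tc 2 Φ) - tc 2 Ψ * (tc 2 Φ * tc 0 Φ) + tc 3 Ψ * (tc 1 Φ * tc 0 Φ),
    ?_, ?_, ?_⟩
  · simp only [map_add, map_sub, map_mul, map_pow]
    linear_combination rename some (tc 2 Φ) ^ 2 * e2 - (rename some (tc 2 Φ) * rename some (tc 3 Ψ) *
      X none + (rename some (tc 2 Φ) * rename some (tc 2 Ψ) -
        rename some (tc 3 Ψ) * rename some (tc 1 Φ))) * e1
  · exact (totalDegree_add _ _).trans (max_le ((totalDegree_sub _ _).trans (max_le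
      ((totalDegree_sub _ _).trans (max_le (d _ _ _) (d _ _ _))) (d _ _ _))) (d _ _ _))
  · exact (totalDegree_add _ _).trans (max_le ((totalDegree_sub _ _).trans
      (max_le (d _ _ _) (d _ _ _))) (d _ _ _))

/-- interpolation: a polynomial of small degree through all flats. -/
theorem interp_flats (e : ℕ) (he : 2 ≤ e) : ∃ C : ℝ, 0 < C ∧ ∀ (K : Type) [Field K] [Infinite K]
    (ε : Type) [Fintype ε] [LinearOrder ε] (i0 : ε) (𝓒 : Finset (ε ⊕ ε → K)),
    Fintype.card ε = e → 𝓒.Nonempty → (∀ η ∈ 𝓒, Nrm i0 η) →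
    ∃ f : MvPolynomial (Pr ε) K, f ≠ 0 ∧ (∀ η ∈ 𝓒, f ∈ IL η) ∧
      (f.totalDegree : ℝ) ≤ C * (𝓒.card : ℝ) ^ (1 / ((e : ℝ) - 1)) := by
  obtain ⟨A, hA⟩ : ∃ A : ℝ, A = (e * e).factorial * 2 ^ (e * e) := ⟨_, rfl⟩
  have hA1 : 1 ≤ A := by
    rw [hA]
    exact one_le_mul_of_one_le_of_one_le (Nat.one_le_cast.2 (Nat.factorial_pos _))
      (one_le_pow₀ one_le_two)
  refine ⟨A + 1 + 1, by linarith, fun K _ _ ε _ _ i0 𝓒 hc hne hN => ?_⟩
  obtain ⟨k, rfl⟩ : ∃ k, e = k + 1 := ⟨e - 1, by omega⟩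
  have hN1 : (1 : ℝ) ≤ 𝓒.card := Nat.one_le_cast.2 hne.card_pos
  obtain ⟨x, hx⟩ : ∃ x : ℝ, x = (𝓒.card : ℝ) ^ (1 / (((k + 1 : ℕ) : ℝ) - 1)) := ⟨_, rfl⟩
  have hxk : x ^ k = 𝓒.card := by
    rw [hx, Nat.cast_succ, add_sub_cancel_right, one_div]
    exact Real.rpow_inv_natCast_pow (by linarith) (by omega)
  have hx1 : 1 ≤ x := by
    rw [hx, Nat.cast_succ, add_sub_cancel_right]
    exact Real.one_le_rpow hN1 (by positivity)
  rw [← hx]
  obtain ⟨m, hm⟩ : ∃ m : ℕ, m = ⌈A * x⌉₊ + 1 := ⟨_, rfl⟩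
  have hAx : 0 < A * x := by positivity
  have m1 : A * x < m := by
    rw [hm, Nat.cast_succ]
    linarith [Nat.le_ceil (A * x)]
  have m2 : (m : ℝ) ≤ (A + 1 + 1) * x := by
    rw [hm, Nat.cast_succ]
    linarith [Nat.ceil_lt_add_one hAx.le]
  have c1 := card_Pr i0
  have c2 := flat_card ε
  rw [hc] at c1 c2
  rw [Nat.add_sub_cancel] at c1
  obtain ⟨f, f1, f2, f3⟩ := exists_ne_zero_of_lt (I := ⨅ η ∈ 𝓒, IL η) (m := m) (by
    have b1 := hb_iInf 𝓒 IL (fun _ => (2 : ℝ) ^ Fintype.card (Pr (Ne0 i0)))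
      (fun η hη => hb_IL (hN η hη)) m (by omega)
    rw [Finset.sum_const, nsmul_eq_mul] at b1
    have b2 : ((Fintype.card (Pr ε)).factorial : ℝ) * 2 ^ Fintype.card (Pr (Ne0 i0)) ≤ A := by
      rw [hA]
      exact mul_le_mul (Nat.cast_le.2 (Nat.factorial_le (by omega)))
        (pow_le_pow_right₀ one_le_two (by omega)) (by positivity) (by positivity)
    have b3 : A * 𝓒.card < (m : ℝ) ^ k := by
      refine lt_of_le_of_lt ?_ (pow_lt_pow_left₀ m1 hAx.le (by omega))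
      rw [mul_pow, hxk]
      exact mul_le_mul_of_nonneg_right (le_self_pow₀ hA1 (by omega)) (by linarith)
    have b4 : 0 < (m : ℝ) ^ Fintype.card (Pr (Ne0 i0)) := pow_pos (hAx.trans m1) _
    calc _ ≤ ((Fintype.card (Pr ε)).factorial : ℝ) * (𝓒.card * 2 ^ Fintype.card (Pr (Ne0 i0)) *
          (m : ℝ) ^ Fintype.card (Pr (Ne0 i0))) := mul_le_mul_of_nonneg_left b1 (by positivity)
      _ = ((Fintype.card (Pr ε)).factorial : ℝ) * 2 ^ Fintype.card (Pr (Ne0 i0)) * 𝓒.card *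
          (m : ℝ) ^ Fintype.card (Pr (Ne0 i0)) := by ring
      _ ≤ A * 𝓒.card * (m : ℝ) ^ Fintype.card (Pr (Ne0 i0)) := by gcongr
      _ < (m : ℝ) ^ k * (m : ℝ) ^ Fintype.card (Pr (Ne0 i0)) := by gcongr
      _ = _ := by rw [c1, pow_add, mul_comm])
  exact ⟨f, f2, by simpa only [Ideal.mem_iInf] using f1, (Nat.cast_le.2 f3).trans m2⟩

end

end Vale.Agent.P054
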