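import Vale.Agent.P054.Dyad

namespace Vale.Agent.P054

open MvPolynomial

noncomputable section

theorem goodP_onL_swap (S : Finset (Pt × Pt)) (a b : Pt) : onL S a b = onL S b a := by
  ext y
  rw [mem_onL, mem_onL, col_swap]

open Classical in
/-- the pairs which lie on another motion through the first point. -/
def goodPBad (𝓖 : Finset Mo) (V : Mo → Finset (Pt × Pt)) (C0 : ℕ) (g : Mo) :
    Finset ((Pt × Pt) × (Pt × Pt)) :=
  (V g ×ˢ V g).filter fun z => z.1 ≠ z.2 ∧ (onL (V g) z.1.1 z.2.1).card ≤ C0 ∧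
    ∃ g' ∈ 𝓖, z.1 ∈ V g' ∧ app g' z.2.1 = z.2.2 ∧ g' ≠ g

open Classical in
theorem goodP_fib {X : Finset (Pt × Pt)} {𝓖 : Finset Mo} {V : Mo → Finset (Pt × Pt)} {t θ : ℝ}
    {C0 : ℕ} (hF : Fam X 𝓖 V t θ) {g g' : Mo} (hg : g ∈ 𝓖) (hg' : g' ∈ 𝓖) (hne : g' ≠ g)
    {x : Pt × Pt} (hx : x ∈ V g) (hx' : x ∈ V g') :
    ((V g).filter fun y => x ≠ y ∧ (onL (V g) x.1 y.1).card ≤ C0 ∧ app g' y.1 = y.2).card ≤ C0 := by
  set Y := (V g).filter fun y => x ≠ y ∧ (onL (V g) x.1 y.1).card ≤ C0 ∧ app g' y.1 = y.2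
  rcases Y.eq_empty_or_nonempty with h | ⟨y0, hy0⟩
  · rw [h]; exact Nat.zero_le _
  obtain ⟨h1, h2, h3, h4⟩ := Finset.mem_filter.1 hy0
  refine le_trans (Finset.card_le_card fun y hy => ?_) h3
  obtain ⟨k1, -, -, k4⟩ := Finset.mem_filter.1 hy
  refine mem_onL.2 ⟨k1, ?_⟩
  by_contra hc
  have hxy : x.1 ≠ y0.1 := fun e => h2 (gr_inj (hF.sub g hg hx) (hF.sub g hg h1) e)
  refine hne (iso_eq (hF.iso g' hg') (hF.iso g hg) (hF.det g' hg' g hg) hxy hc ?_ ?_ ?_)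
  · rw [(mem_gr.1 (hF.sub g' hg' hx')).2, (mem_gr.1 (hF.sub g hg hx)).2]
  · rw [h4, (mem_gr.1 (hF.sub g hg h1)).2]
  · rw [k4, (mem_gr.1 (hF.sub g hg k1)).2]

open Classical in
theorem goodP_bad_le {X : Finset (Pt × Pt)} {𝓖 : Finset Mo} {V : Mo → Finset (Pt × Pt)} {t θ : ℝ}
    {C0 : ℕ} (hF : Fam X 𝓖 V t θ) {g : Mo} (hg : g ∈ 𝓖) :
    ((goodPBad 𝓖 V C0 g).card : ℝ) ≤ (V g).card * (θ * t * C0) := by
  have hsub : goodPBad 𝓖 V C0 g ⊆ (V g).biUnion fun x =>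
      (𝓖.filter fun g' => x ∈ V g' ∧ g' ≠ g).biUnion fun g' =>
        ((V g).filter fun y => x ≠ y ∧ (onL (V g) x.1 y.1).card ≤ C0 ∧ app g' y.1 = y.2).image
          fun y => (x, y) := by
    intro z hz
    obtain ⟨h1, h2, h3, g', hg', h4, h5, h6⟩ := Finset.mem_filter.1 hz
    obtain ⟨k1, k2⟩ := Finset.mem_product.1 h1
    refine Finset.mem_biUnion.2 ⟨z.1, k1, Finset.mem_biUnion.2 ⟨g', Finset.mem_filter.2
      ⟨hg', h4, h6⟩, Finset.mem_image.2 ⟨z.2, Finset.mem_filter.2 ⟨k2, h2, h3, h5⟩, rfl⟩⟩⟩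
  have h1 : ∀ x ∈ V g, (((𝓖.filter fun g' => x ∈ V g' ∧ g' ≠ g).biUnion fun g' =>
        ((V g).filter fun y => x ≠ y ∧ (onL (V g) x.1 y.1).card ≤ C0 ∧ app g' y.1 = y.2).image
          fun y => (x, y)).card : ℝ) ≤ θ * t * C0 := by
    intro x hx
    have h2 := Finset.card_biUnion_le_card_mul (𝓖.filter fun g' => x ∈ V g' ∧ g' ≠ g)
      (fun g' => ((V g).filter fun y => x ≠ y ∧ (onL (V g) x.1 y.1).card ≤ C0 ∧
        app g' y.1 = y.2).image fun y => (x, y)) C0 fun g' hg' => by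
        obtain ⟨a1, a2, a3⟩ := Finset.mem_filter.1 hg'
        exact Finset.card_image_le.trans (goodP_fib hF hg a1 a3 hx a2)
    have h3 := hF.deg x (𝓖.filter fun g' => x ∈ V g' ∧ g' ≠ g) (Finset.filter_subset _ _)
      fun g' hg' => (Finset.mem_filter.1 hg').2.1
    calc _ ≤ (((𝓖.filter fun g' => x ∈ V g' ∧ g' ≠ g).card * C0 : ℕ) : ℝ) := Nat.cast_le.2 h2
      _ ≤ θ * t * C0 := by
        push_cast
        exact mul_le_mul_of_nonneg_right h3 (Nat.cast_nonneg _)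
  calc ((goodPBad 𝓖 V C0 g).card : ℝ) ≤ _ := Nat.cast_le.2 (Finset.card_le_card hsub)
    _ ≤ ((∑ x ∈ V g, _ : ℕ) : ℝ) := Nat.cast_le.2 Finset.card_biUnion_le
    _ ≤ ∑ x ∈ V g, θ * t * C0 := by
      push_cast
      exact Finset.sum_le_sum h1
    _ = _ := by rw [Finset.sum_const, nsmul_eq_mul]

open Classical in
/-- every motion of a family carries many good pairs. -/
theorem good_count : ∃ (C0 : ℕ) (θ0 : ℝ), 1 ≤ C0 ∧ 0 < θ0 ∧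
    ∀ (X : Finset (Pt × Pt)) (𝓖 : Finset Mo) (V : Mo → Finset (Pt × Pt)) (t θ : ℝ),
      0 < θ → θ ≤ θ0 → Fam X 𝓖 V t θ → 1 ≤ θ * t → ∀ g ∈ 𝓖,
      t ^ 2 ≤ 8 * (((V g ×ˢ V g).filter fun z => GoodP 𝓖 V C0 g z.1 z.2).card : ℝ) := by
  obtain ⟨C0, c, hC0, hc, hb⟩ := beck_ord
  have hC : (1 : ℝ) ≤ C0 := by exact_mod_cast hC0
  refine ⟨C0, min (c / 2) (1 / (16 * C0)), hC0, lt_min (by positivity) (by positivity),
    fun X 𝓖 V t θ hθ hθ0 hF ht g hg => ?_⟩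
  have h1 : θ ≤ c / 2 := hθ0.trans (min_le_left _ _)
  have h2 : θ * (16 * C0) ≤ 1 := (le_div_iff₀ (by positivity)).1 (hθ0.trans (min_le_right _ _))
  have ht0 : 0 < t := by
    by_contra h
    nlinarith [not_lt.1 h]
  have ht16 : 16 ≤ t := by nlinarith
  have hlow := hF.low g hg
  set f : ℝ := ((V g).card : ℝ) with hf
  have hB2 := hb X (V g) g (hF.sub g hg) ((hF.lin g hg).mono (hF.sub g hg) (by nlinarith))
  have hB2' : 8 * ((((V g ×ˢ V g).filter fun z => z.1 ≠ z.2 ∧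
      C0 < (onL (V g) z.1.1 z.2.1).card).card : ℕ) : ℝ) ≤ f ^ 2 := by
    rw [hf]; exact_mod_cast hB2
  have hB3 := goodP_bad_le (C0 := C0) hF hg
  have hsub : V g ×ˢ V g ⊆ ((V g ×ˢ V g).filter fun z => GoodP 𝓖 V C0 g z.1 z.2) ∪
      ((V g).image fun x => (x, x)) ∪
      ((V g ×ˢ V g).filter fun z => z.1 ≠ z.2 ∧ C0 < (onL (V g) z.1.1 z.2.1).card) ∪
      goodPBad 𝓖 V C0 g ∪ (goodPBad 𝓖 V C0 g).image Prod.swap := by
    intro z hz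
    obtain ⟨k1, k2⟩ := Finset.mem_product.1 hz
    simp only [Finset.mem_union]
    by_cases e1 : z.1 = z.2
    · exact Or.inl (Or.inl (Or.inl (Or.inr (Finset.mem_image.2 ⟨z.1, k1, Prod.ext rfl e1⟩))))
    by_cases e2 : C0 < (onL (V g) z.1.1 z.2.1).card
    · exact Or.inl (Or.inl (Or.inr (Finset.mem_filter.2 ⟨hz, e1, e2⟩)))
    by_cases e3 : ∃ g' ∈ 𝓖, z.1 ∈ V g' ∧ app g' z.2.1 = z.2.2 ∧ g' ≠ g
    · exact Or.inl (Or.inr (Finset.mem_filter.2 ⟨hz, e1, not_lt.1 e2, e3⟩))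
    by_cases e4 : ∃ g' ∈ 𝓖, z.2 ∈ V g' ∧ app g' z.1.1 = z.1.2 ∧ g' ≠ g
    · refine Or.inr (Finset.mem_image.2 ⟨z.swap, Finset.mem_filter.2
        ⟨Finset.mem_product.2 ⟨k2, k1⟩, fun e => e1 e.symm, ?_, e4⟩, rfl⟩)
      rw [goodP_onL_swap]
      exact not_lt.1 e2
    refine Or.inl (Or.inl (Or.inl (Or.inl (Finset.mem_filter.2
      ⟨hz, k1, k2, e1, not_lt.1 e2, fun g' hg' a b => ?_, fun g' hg' a b => ?_⟩))))
    · by_contra h
      exact e3 ⟨g', hg', a, b, h⟩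
    · by_contra h
      exact e4 ⟨g', hg', a, b, h⟩
  have hc1 := Finset.card_le_card hsub
  have hc2 := hc1.trans ((Finset.card_union_le _ _).trans (Nat.add_le_add
    ((Finset.card_union_le _ _).trans (Nat.add_le_add_right ((Finset.card_union_le _ _).trans
      (Nat.add_le_add_right ((Finset.card_union_le _ _).trans
        (Nat.add_le_add_left Finset.card_image_le _)) _)) _)) Finset.card_image_le))
  rw [Finset.card_product] at hc2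
  have hc3 := (Nat.cast_le (α := ℝ)).2 hc2
  push_cast at hc3
  rw [← hf] at hc3 hB3
  have h5 : θ * t * C0 ≤ f / 8 := by nlinarith
  have h6 : f * (θ * t * C0) ≤ f * (f / 8) := mul_le_mul_of_nonneg_left h5 (by linarith)
  nlinarith

theorem GoodP.symm {𝓖 : Finset Mo} {V : Mo → Finset (Pt × Pt)} {C0 : ℕ} {g : Mo} {x y : Pt × Pt}
    (h : GoodP 𝓖 V C0 g x y) : GoodP 𝓖 V C0 g y x := by
  obtain ⟨h1, h2, h3, h4, h5, h6⟩ := h
  exact ⟨h2, h1, h3.symm, by rwa [goodP_onL_swap], h6, h5⟩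

theorem GoodP.uniq {X : Finset (Pt × Pt)} {𝓖 : Finset Mo} {V : Mo → Finset (Pt × Pt)} {t θ : ℝ}
    {C0 : ℕ} (hF : Fam X 𝓖 V t θ) {g g' : Mo} (hg : g ∈ 𝓖) (hg' : g' ∈ 𝓖) {x y : Pt × Pt}
    (h : GoodP 𝓖 V C0 g x y) (h' : GoodP 𝓖 V C0 g' x y) : g = g' :=
  h'.2.2.2.2.1 g hg h.1 (mem_gr.1 (hF.sub g hg h.2.1)).2

open Classical in
/-- good pairs give organised neighbour sets. -/
theorem nb_of_good {P : Finset Pt} {X : Finset (Pt × Pt)} {Hv : Finset ((Pt × Pt) × (Pt × Pt))}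
    {𝓖 : Finset Mo} {V : Mo → Finset (Pt × Pt)} {t θ ρ : ℝ} {C0 : ℕ} (hP : Gen3 P)
    (hX : X ⊆ P ×ˢ P) (hH : HvP X Hv ρ) (hρ : 0 ≤ ρ) (hF : Fam X 𝓖 V t θ) {x : Pt × Pt}
    (hx : x ∈ X) {N : Finset (Pt × Pt)}
    (hN : ∀ y ∈ N, (∃ g ∈ 𝓖, GoodP 𝓖 V C0 g x y) ∧
      ((fun j => y.2 j - y.1 j) ≠ fun j => x.2 j - x.1 j) ∧ (x, y) ∉ Hv) :
    Nb x N (𝓖.filter fun g => x ∈ V g) (2 * t) (θ * t) (ρ + C0) C0 := by
  have hNX : N ⊆ X := fun y hy => by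
    obtain ⟨g, hg, h⟩ := (hN y hy).1
    exact (mem_gr.1 (hF.sub g hg h.2.1)).1
  have key : ∀ g ∈ 𝓖, x ∈ V g → ∀ y ∈ N, app g y.1 = y.2 → GoodP 𝓖 V C0 g x y := by
    intro g hg hxg y hy e
    obtain ⟨g0, -, h⟩ := (hN y hy).1
    rw [h.2.2.2.2.1 g hg hxg e]
    exact h
  have hgr : ∀ g ∈ 𝓖, x ∈ V g → gr N g ⊆ V g := fun g hg hxg y hy =>
    (key g hg hxg y (mem_gr.1 hy).1 (mem_gr.1 hy).2).2.1
  have hne : ∀ y ∈ N, x.1 ≠ y.1 := fun y hy e => by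
    obtain ⟨g, hg, h⟩ := (hN y hy).1
    exact h.2.2.1 (gr_inj (hF.sub g hg h.1) (hF.sub g hg h.2.1) e)
  refine ⟨fun g hg => ?_, fun y hy => ⟨hne y hy, ?_⟩, fun y hy => ?_, fun y hy g hg g' hg' e e' => ?_,
    fun g hg => ?_, fun g hg y hy => ?_, fun g hg => ?_, fun S hS hc => ?_⟩
  · obtain ⟨h1, h2⟩ := Finset.mem_filter.1 hg
    exact ⟨hF.iso g h1, (mem_gr.1 (hF.sub g h1 h2)).2⟩
  · obtain ⟨a1, a2⟩ := Finset.mem_product.1 (hX hx)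
    obtain ⟨b1, b2⟩ := Finset.mem_product.1 (hX (hNX hy))
    exact hP x.1 a1 x.2 a2 y.1 b1 y.2 b2 (hN y hy).2.1
  · obtain ⟨g, hg, h⟩ := (hN y hy).1
    exact ⟨g, Finset.mem_filter.2 ⟨hg, h.1⟩, (mem_gr.1 (hF.sub g hg h.2.1)).2⟩
  · obtain ⟨h1, h2⟩ := Finset.mem_filter.1 hg
    obtain ⟨h3, h4⟩ := Finset.mem_filter.1 hg'
    exact (key g' h3 h4 y hy e').2.2.2.2.1 g h1 h2 e
  · obtain ⟨h1, h2⟩ := Finset.mem_filter.1 hg
    exact (Nat.cast_le.2 (Finset.card_le_card (hgr g h1 h2))).trans (hF.up g h1)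
  · obtain ⟨h1, h2⟩ := Finset.mem_filter.1 hg
    exact (Finset.card_le_card (onL_mono (hgr g h1 h2) _ _)).trans
      (key g h1 h2 y (mem_gr.1 hy).1 (mem_gr.1 hy).2).2.2.2.1
  · exact (hF.lin g (Finset.mem_filter.1 hg).1).mono (gr_mono hNX g) le_rfl
  · have hd : ∀ y ∈ S, sqd x.1 y.1 = sqd x.2 y.2 := fun y hy => by
      obtain ⟨g, hg, h⟩ := (hN y (hS hy)).1
      rw [← (mem_gr.1 (hF.sub g hg h.1)).2, ← (mem_gr.1 (hF.sub g hg h.2.1)).2,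
        iso_sqd (hF.iso g hg)]
    have hC : (0 : ℝ) ≤ C0 := Nat.cast_nonneg _
    rcases hH x hx S (hS.trans hNX) hc (fun y hy => ⟨hd y hy, (hN y (hS hy)).2.2⟩) with
      h | ⟨a, b, -, hxa, hS'⟩
    · linarith
    rcases S.eq_empty_or_nonempty with h | ⟨y0, hy0⟩
    · rw [h, Finset.card_empty]; push_cast; linarith
    obtain ⟨g, hg, h⟩ := (hN y0 (hS hy0)).1
    have hsub : S ⊆ onL (V g) x.1 y0.1 := fun y hy => by
      have hcol : Col x.1 y0.1 y.1 :=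
        (col_iff hxa (hS' y0 hy0) (hne y0 (hS hy0)) y.1).1 (hS' y hy)
      obtain ⟨s, hs⟩ := hcol
      have e2 := col_compat (hd y0 hy0) (hd y hy) (hc y0 hy0 y hy) hs
      have e3 : app g y.1 = y.2 := by
        rw [hs, app_line, e2, (mem_gr.1 (hF.sub g hg h.1)).2, (mem_gr.1 (hF.sub g hg h.2.1)).2]
      exact mem_onL.2 ⟨(key g hg h.1 y (hS hy) e3).2.1, s, hs⟩
    have := (Nat.cast_le (α := ℝ)).2 ((Finset.card_le_card hsub).trans h.2.2.2.1)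
    linarith

end

end Vale.Agent.P054
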