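import Vale.Agent.P054.LocStep
import Vale.Agent.P054.RichL

namespace Vale.Agent.P054

open MvPolynomial

noncomputable section

theorem heavy_sigma {b C : ℝ} (hb : 0 < b) (hC : 1 ≤ C) :
    ∃ σ : ℝ, 0 < σ ∧ σ < 1 ∧ 324 * C * σ ^ (30 * b) = 1 / 2 := by
  have h1 : 0 < 1 / (648 * C) := by positivity
  have h2 : 1 / (648 * C) < 1 := by
    rw [div_lt_one (by positivity)]
    linarith
  refine ⟨(1 / (648 * C)) ^ (30 * b)⁻¹, by positivity,
    Real.rpow_lt_one h1.le h2 (by positivity), ?_⟩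
  rw [Real.rpow_inv_rpow h1.le (by positivity)]
  field_simp
  norm_num

theorem heavy_thr {b A N m L : ℝ} (hb : 0 < b) (hA : 0 ≤ A) (hN : 0 < N) (hm0 : 0 ≤ m) (hm : m ≤ N)
    (hL0 : 0 ≤ L) (hL : L ≤ N ^ 2) :
    A * m ^ (2 / 3 + 10 * b) * L ^ b ≤ A * N ^ (2 / 3 + 12 * b) := by
  have h1 : m ^ (2 / 3 + 10 * b) ≤ N ^ (2 / 3 + 10 * b) :=
    Real.rpow_le_rpow hm0 hm (by positivity)
  have h2 : L ^ b ≤ N ^ (2 * b) := by
    refine (Real.rpow_le_rpow hL0 hL hb.le).trans (le_of_eq ?_)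
    rw [Real.rpow_mul hN.le, Real.rpow_two]
  have h3 : N ^ (2 / 3 + 12 * b) = N ^ (2 / 3 + 10 * b) * N ^ (2 * b) := by
    rw [← Real.rpow_add hN]
    congr 1
    ring
  rw [h3, mul_assoc]
  exact mul_le_mul_of_nonneg_left (mul_le_mul h1 h2 (by positivity) (by positivity)) hA

theorem heavy_loc {b C σ K L N k : ℝ} (hb : 0 < b) (hC : 1 ≤ C) (hσ : 0 < σ)
    (hσC : 324 * C * σ ^ (30 * b) = 1 / 2) (hK : 0 ≤ K) (hL : 0 ≤ L) (hN : 0 < N) (hk : 0 < k)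
    (hkN : 18 * k ≤ σ * N) :
    C * (K * (18 * k) ^ (2 + 30 * b)) * L * (N / k) ^ 2 ≤ K * L * N ^ (2 + 30 * b) / 2 := by
  have h1 : (18 * k) ^ (30 * b) ≤ σ ^ (30 * b) * N ^ (30 * b) := by
    rw [← Real.mul_rpow hσ.le hN.le]
    exact Real.rpow_le_rpow (by positivity) hkN (by positivity)
  rw [Real.rpow_add (by positivity), Real.rpow_add hN, Real.rpow_two, Real.rpow_two]
  have h2 : C * (K * ((18 * k) ^ 2 * (18 * k) ^ (30 * b))) * L * (N / k) ^ 2 =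
      (324 * C * K * L * N ^ 2) * (18 * k) ^ (30 * b) := by
    field_simp
    ring
  rw [h2]
  refine (mul_le_mul_of_nonneg_left h1 (by positivity)).trans (le_of_eq ?_)
  linear_combination (K * L * N ^ 2 * N ^ (30 * b)) * hσC

theorem heavy_fin {A1 C' K L N Np G1 G2 G w lam : ℝ} (hC' : 1 ≤ C') (hK : 2 * C' * A1 ^ 2 ≤ K)
    (hL : 0 ≤ L) (hp3 : N ^ 2 ≤ Np) (hG1 : 0 ≤ G1) (hw : 0 < w) (hlam : w ≤ A1 * lam)
    (h1 : G1 * w * lam ^ 2 ≤ C' * N ^ 2 * L) (h2 : G2 * w ^ 3 ≤ K * L * Np / 2)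
    (h4 : G2 + G1 = G) : G * w ^ 3 ≤ K * L * Np := by
  have h5 : G1 * w ^ 3 ≤ A1 ^ 2 * (G1 * w * lam ^ 2) := by
    have h6 : w ^ 2 ≤ (A1 * lam) ^ 2 := pow_le_pow_left₀ hw.le hlam 2
    have h7 := mul_le_mul_of_nonneg_left h6 (mul_nonneg hG1 hw.le)
    linarith
  have h6 : A1 ^ 2 * (G1 * w * lam ^ 2) ≤ K * L * Np / 2 := by
    refine (mul_le_mul_of_nonneg_left h1 (sq_nonneg _)).trans ?_
    have h7 : 0 ≤ 2 * C' * A1 ^ 2 := by positivity
    have h8 := mul_le_mul hK (mul_le_mul_of_nonneg_left hp3 hL) (by positivity) (h7.trans hK)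
    linarith
  rw [← h4]
  linarith

theorem heavy_k {A1 C σ w w0 : ℝ} {n : ℕ} (hC : 1 ≤ C) (hσ : 0 < σ) (hσ1 : σ < 1)
    (hA1 : A1 * σ = 36 * C) (hA11 : 1 ≤ A1) (hw02 : 2 ≤ w0) (hw : A1 * w0 ≤ w) (hwn : w ≤ n) :
    ∃ k : ℕ, 1 ≤ k ∧ 18 * (k : ℝ) ≤ σ * n ∧ 18 * k < n ∧ (k : ℝ) ≤ n ∧
      w ≤ A1 * (w * k / (C * n)) := by
  have hwpos : 0 < w := lt_of_lt_of_le (by positivity) hw
  have hN : (0 : ℝ) < n := hwpos.trans_le hwn
  have hx1 : 1 ≤ σ * n / 18 := by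
    rw [le_div_iff₀ (by norm_num)]
    have h1 : A1 * 2 ≤ n :=
      le_trans (mul_le_mul_of_nonneg_left hw02 (by positivity)) (hw.trans hwn)
    have h2 := mul_le_mul_of_nonneg_left h1 hσ.le
    linarith
  obtain ⟨k, hk1, hk2, hk3⟩ : ∃ k : ℕ, 1 ≤ k ∧ 18 * (k : ℝ) ≤ σ * n ∧ σ * n ≤ 36 * k := by
    refine ⟨⌊σ * n / 18⌋₊, Nat.le_floor (by simpa using hx1), ?_, ?_⟩
    · linarith [Nat.floor_le (le_trans zero_le_one hx1)]
    · have h1 := Nat.lt_floor_add_one (σ * n / 18)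
      have h2 : (1 : ℝ) ≤ ⌊σ * n / 18⌋₊ := by
        exact_mod_cast Nat.le_floor (by simpa using hx1)
      linarith
  have hk0 : (0 : ℝ) < k := by exact_mod_cast hk1
  have hσn : σ * n < n := mul_lt_of_lt_one_left hN hσ1
  have h1 : (18 : ℝ) * k < n := lt_of_le_of_lt hk2 hσn
  refine ⟨k, hk1, hk2, by exact_mod_cast h1, by linarith, ?_⟩
  rw [← mul_div_assoc, le_div_iff₀ (by positivity)]
  have h2 : C * n ≤ A1 * k := by
    have h3 := mul_le_mul_of_nonneg_left hk3 (le_trans zero_le_one hA11)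
    have h4 : A1 * (σ * n) = 36 * (C * n) := by linear_combination (n : ℝ) * hA1
    linarith
  have h3 := mul_le_mul_of_nonneg_left h2 hwpos.le
  linarith

/-- the range of large richness follows from smaller point sets. -/
theorem heavy_range (b : ℝ) (hb : 0 < b) : ∃ A1 K1 : ℝ, 1 ≤ A1 ∧ 1 ≤ K1 ∧
    ∀ (K A : ℝ) (n : ℕ), K1 ≤ K → 2 ≤ A → (∀ m, m < n → SB K A b m) →
    ∀ (P : Finset Pt) (X : Finset (Pt × Pt)), Gen3 P → P.card ≤ n → X ⊆ P ×ˢ P →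
      RB3 X (A1 * A * (n : ℝ) ^ (2 / 3 + 12 * b)) (K * X.card * (n : ℝ) ^ (2 + 30 * b)) := by
  classical
  obtain ⟨C, hC, hloc⟩ := loc_step
  obtain ⟨C', hC', hrich⟩ := rich_lines'
  obtain ⟨σ, hσ, hσ1, hσC⟩ := heavy_sigma hb hC
  obtain ⟨A1, hA1⟩ : ∃ A1 : ℝ, A1 * σ = 36 * C := ⟨36 * C / σ, by field_simp⟩
  have hA11 : 1 ≤ A1 := by
    by_contra h
    push Not at h
    nlinarith
  refine ⟨A1, max 1 (2 * C' * A1 ^ 2), hA11, le_max_left _ _, ?_⟩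
  intro K A n hK hA hSB P X hP hPn hX w 𝓖 hw h𝓖
  have hK1 : 1 ≤ K := (le_max_left _ _).trans hK
  have hK2 : 2 * C' * A1 ^ 2 ≤ K := (le_max_right _ _).trans hK
  rcases 𝓖.eq_empty_or_nonempty with rfl | ⟨g0, hg0⟩
  · simp only [Finset.card_empty, Nat.cast_zero, zero_mul]
    positivity
  have hPN : (P.card : ℝ) ≤ n := by exact_mod_cast hPn
  have hwn : w ≤ n :=
    ((h𝓖 g0 hg0).2.le_card.trans (Nat.cast_le.2 (card_gr_le hX g0))).trans hPN
  rcases Nat.eq_zero_or_pos n with rfl | hn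
  · have h1 : 0 ≤ w := le_trans (by positivity) hw
    have h2 : w = 0 := le_antisymm (by simpa using hwn) h1
    rw [h2]
    simp only [ne_eq, OfNat.ofNat_ne_zero, not_false_eq_true, zero_pow, mul_zero]
    positivity
  have hN1 : (1 : ℝ) ≤ n := by exact_mod_cast hn
  have hN : (0 : ℝ) < n := by positivity
  have hp1 : 1 ≤ (n : ℝ) ^ (2 / 3 + 12 * b) := Real.one_le_rpow hN1 (by positivity)
  have hp2 : (n : ℝ) ≤ ((n : ℝ) ^ (2 / 3 + 12 * b)) ^ 2 := by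
    rw [← Real.rpow_two, ← Real.rpow_mul hN.le]
    conv_lhs => rw [← Real.rpow_one (n : ℝ)]
    exact Real.rpow_le_rpow_of_exponent_le hN1 (by linarith)
  have hp3 : (n : ℝ) ^ 2 ≤ (n : ℝ) ^ (2 + 30 * b) := by
    rw [← Real.rpow_two]
    exact Real.rpow_le_rpow_of_exponent_le hN1 (by linarith)
  generalize hw0 : A * (n : ℝ) ^ (2 / 3 + 12 * b) = w0
  have hw02 : 2 ≤ w0 := by
    rw [← hw0]
    exact le_trans (by norm_num) (mul_le_mul hA hp1 zero_le_one (by positivity))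
  have hw0N : (n : ℝ) ≤ w0 ^ 2 := by
    rw [← hw0, mul_pow]
    exact hp2.trans (le_mul_of_one_le_left (sq_nonneg _) (one_le_pow₀ (by linarith)))
  rw [mul_assoc, hw0] at hw
  have hwpos : 0 < w := lt_of_lt_of_le (by positivity) hw
  obtain ⟨k, hk1, hk2, hmn, hkn, hlam⟩ := heavy_k hC hσ hσ1 hA1 hA11 hw02 hw hwn
  have hk0 : (0 : ℝ) < k := by exact_mod_cast hk1
  have hlam0 : w0 ≤ w * k / (C * n) :=
    le_of_mul_le_mul_left (hw.trans hlam) (by positivity)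
  have h1 := hrich n (w * k / (C * n)) w P X
    (𝓖.filter fun g => ¬ LinB (gr X g) (w * k / (C * n))) hPN hX (hw02.trans hlam0)
    (hw0N.trans (pow_le_pow_left₀ (by positivity) hlam0 2)) (fun g hg =>
      ⟨(h𝓖 g (Finset.mem_filter.1 hg).1).1, (h𝓖 g (Finset.mem_filter.1 hg).1).2,
        (Finset.mem_filter.1 hg).2⟩)
  have h2 := hloc n k P X (K * (18 * (k : ℝ)) ^ (2 + 30 * b)) w0 w
    (𝓖.filter fun g => LinB (gr X g) (w * k / (C * n))) hk1 hkn hPN hX hwpos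
    (by positivity) (by
      intro P' X' hP' hP'k hX' hX'P
      refine (hSB (18 * k) hmn P' X' (hP.mono hP') hP'k hX'P).mono ?_ (le_of_eq ?_)
      · rw [← hw0]
        refine heavy_thr hb (by positivity) hN (by positivity) (by exact_mod_cast hmn.le)
          (by positivity) ?_
        have h3 : X'.card ≤ n ^ 2 := by
          refine (Finset.card_le_card (hX'.trans hX)).trans ?_
          rw [Finset.card_product, sq]
          exact Nat.mul_le_mul hPn hPn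
        exact_mod_cast h3
      · push_cast
        ring) hlam0 (fun g hg =>
      ⟨(h𝓖 g (Finset.mem_filter.1 hg).1).1, (h𝓖 g (Finset.mem_filter.1 hg).1).2.le_card,
        (Finset.mem_filter.1 hg).2⟩)
  have h3 := heavy_loc hb hC hσ hσC (le_trans zero_le_one hK1) (Nat.cast_nonneg X.card) hN hk0 hk2
  have h4 : ((𝓖.filter fun g => LinB (gr X g) (w * k / (C * n))).card : ℝ) +
      (𝓖.filter fun g => ¬ LinB (gr X g) (w * k / (C * n))).card = 𝓖.card := by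
    exact_mod_cast Finset.card_filter_add_card_filter_not (s := 𝓖) _
  exact heavy_fin hC' hK2 (Nat.cast_nonneg _) hp3 (Nat.cast_nonneg _) hwpos hlam h1 (h2.trans h3) h4

end

end Vale.Agent.P054
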