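import Vale.Agent.P054.LocL
import Vale.Agent.P054.Heavy

namespace Vale.Agent.P054

open MvPolynomial

noncomputable section

theorem heavyL_thr {A N m L : ℝ} (hA : 0 ≤ A) (hm0 : 0 < m) (hm : m ≤ N)
    (hL0 : 0 ≤ L) (hL : L ≤ m ^ 2) :
    A * m ^ ((2 : ℝ) / 3) * (1 + (L / m ^ 2) ^ ((1 : ℝ) / 40)) ≤ 2 * A * N ^ ((2 : ℝ) / 3) := by
  have h1 : m ^ ((2 : ℝ) / 3) ≤ N ^ ((2 : ℝ) / 3) := Real.rpow_le_rpow hm0.le hm (by positivity)
  have h2 : (L / m ^ 2) ^ ((1 : ℝ) / 40) ≤ 1 :=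
    Real.rpow_le_one (by positivity) ((div_le_one (by positivity)).2 hL) (by positivity)
  have h3 : A * m ^ ((2 : ℝ) / 3) ≤ A * N ^ ((2 : ℝ) / 3) := mul_le_mul_of_nonneg_left h1 hA
  have h4 : 0 ≤ A * m ^ ((2 : ℝ) / 3) := by positivity
  nlinarith

theorem heavyL_loc {C σ K Lp N k : ℝ} (hC : 1 ≤ C) (hσ : 0 < σ)
    (hσC : 324 * C * σ ^ ((1 : ℝ) / 6) = 1 / 2) (hK : 0 ≤ K) (hL : 0 ≤ Lp) (hN : 0 < N)
    (hk : 0 < k) (hkN : 18 * k ≤ σ * N) :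
    C * (K * (18 * k) ^ ((53 : ℝ) / 30)) * Lp * (N / k) ^ ((8 : ℝ) / 5) ≤
      K * N ^ ((53 : ℝ) / 30) * Lp / 2 := by
  have h1 : (18 * k) ^ ((1 : ℝ) / 6) ≤ σ ^ ((1 : ℝ) / 6) * N ^ ((1 : ℝ) / 6) := by
    rw [← Real.mul_rpow hσ.le hN.le]
    exact Real.rpow_le_rpow (by positivity) hkN (by positivity)
  have h2 : (18 * k) ^ ((8 : ℝ) / 5) * (N / k) ^ ((8 : ℝ) / 5) ≤ 324 * N ^ ((8 : ℝ) / 5) := by
    rw [← Real.mul_rpow (by positivity) (by positivity),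
      show 18 * k * (N / k) = 18 * N by field_simp, Real.mul_rpow (by positivity) hN.le]
    refine mul_le_mul_of_nonneg_right ?_ (by positivity)
    rw [show (324 : ℝ) = 18 ^ (2 : ℝ) by rw [Real.rpow_two]; norm_num]
    exact Real.rpow_le_rpow_of_exponent_le (by norm_num) (by norm_num)
  have he : (53 : ℝ) / 30 = 8 / 5 + 1 / 6 := by norm_num
  rw [he, Real.rpow_add (by positivity), Real.rpow_add hN]
  have h3 := mul_le_mul h2 h1 (by positivity) (by positivity)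
  have h4 := mul_le_mul_of_nonneg_left h3 (show 0 ≤ C * K * Lp by positivity)
  refine le_trans (le_of_eq (by ring)) (h4.trans (le_of_eq ?_))
  linear_combination (K * Lp * N ^ ((8 : ℝ) / 5) * N ^ ((1 : ℝ) / 6)) * hσC

theorem heavyL_pow {N L : ℝ} (hN : 0 < N) (hL0 : 0 ≤ L) (hL : L ≤ N ^ 2) :
    N ^ 2 * L ≤ N ^ ((53 : ℝ) / 30) * L ^ ((19 : ℝ) / 20) * N ^ ((1 : ℝ) / 3) := by
  have h1 : L = L ^ ((19 : ℝ) / 20) * L ^ ((1 : ℝ) / 20) := by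
    rw [← Real.rpow_add' hL0 (by norm_num)]
    norm_num
  have h2 : L ^ ((1 : ℝ) / 20) ≤ N ^ ((1 : ℝ) / 10) := by
    refine (Real.rpow_le_rpow hL0 hL (by norm_num)).trans (le_of_eq ?_)
    rw [← Real.rpow_two, ← Real.rpow_mul hN.le]
    norm_num
  have h3 : N ^ 2 * N ^ ((1 : ℝ) / 10) = N ^ ((53 : ℝ) / 30) * N ^ ((1 : ℝ) / 3) := by
    rw [← Real.rpow_two, ← Real.rpow_add hN, ← Real.rpow_add hN]
    norm_num
  have h4 := mul_le_mul_of_nonneg_left h2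
    (show 0 ≤ N ^ 2 * L ^ ((19 : ℝ) / 20) by positivity)
  calc N ^ 2 * L = N ^ 2 * L ^ ((19 : ℝ) / 20) * L ^ ((1 : ℝ) / 20) := by
        rw [mul_assoc, ← h1]
    _ ≤ N ^ 2 * L ^ ((19 : ℝ) / 20) * N ^ ((1 : ℝ) / 10) := h4
    _ = _ := by linear_combination L ^ ((19 : ℝ) / 20) * h3

theorem heavyL_fin {A1 C' K L N G1 w lam : ℝ} (hC' : 1 ≤ C') (hK : 2 * C' * A1 ^ 2 ≤ K)
    (hN : 0 < N) (hL0 : 0 ≤ L) (hL : L ≤ N ^ 2) (hG1 : 0 ≤ G1) (hw : N ^ ((2 : ℝ) / 3) ≤ w)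
    (hlam : w ≤ A1 * lam) (h1 : G1 * w * lam ^ 2 ≤ C' * N ^ 2 * L) :
    G1 * w ^ ((5 : ℝ) / 2) ≤ K * N ^ ((53 : ℝ) / 30) * L ^ ((19 : ℝ) / 20) / 2 := by
  have hw0 : 0 < w := lt_of_lt_of_le (by positivity) hw
  have h2 : N ^ ((1 : ℝ) / 3) ≤ w ^ ((1 : ℝ) / 2) := by
    refine le_trans (le_of_eq ?_) (Real.rpow_le_rpow (by positivity) hw (by norm_num))
    rw [← Real.rpow_mul hN.le]
    norm_num
  have h3 : w ^ ((5 : ℝ) / 2) * w ^ ((1 : ℝ) / 2) = w ^ 3 := by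
    rw [← Real.rpow_add hw0, ← Real.rpow_natCast]
    norm_num
  have h5 : G1 * w ^ 3 ≤ A1 ^ 2 * (G1 * w * lam ^ 2) := by
    have h6 : w ^ 2 ≤ (A1 * lam) ^ 2 := pow_le_pow_left₀ hw0.le hlam 2
    have h7 := mul_le_mul_of_nonneg_left h6 (mul_nonneg hG1 hw0.le)
    linarith
  have h6 : A1 ^ 2 * (G1 * w * lam ^ 2) ≤
      K * (N ^ ((53 : ℝ) / 30) * L ^ ((19 : ℝ) / 20) * N ^ ((1 : ℝ) / 3)) / 2 := by
    refine (mul_le_mul_of_nonneg_left h1 (sq_nonneg _)).trans ?_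
    have h7 : 0 ≤ 2 * C' * A1 ^ 2 := by positivity
    have h8 := mul_le_mul hK (heavyL_pow hN hL0 hL) (by positivity) (h7.trans hK)
    linarith
  have h7 := mul_le_mul_of_nonneg_left h2 (show 0 ≤ G1 * w ^ ((5 : ℝ) / 2) by positivity)
  refine le_of_mul_le_mul_right ?_ (show 0 < N ^ ((1 : ℝ) / 3) by positivity)
  calc G1 * w ^ ((5 : ℝ) / 2) * N ^ ((1 : ℝ) / 3)
      ≤ G1 * w ^ ((5 : ℝ) / 2) * w ^ ((1 : ℝ) / 2) := h7
    _ = G1 * w ^ 3 := by rw [mul_assoc, h3]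
    _ ≤ _ := h5.trans (h6.trans (le_of_eq (by ring)))

/-- the range of large richness follows from smaller point sets. -/
theorem heavy_rangeL : ∃ A1 K1 : ℝ, 1 ≤ A1 ∧ 1 ≤ K1 ∧
    ∀ (K A : ℝ) (n : ℕ), K1 ≤ K → 2 ≤ A → (∀ m, m < n → SBL K A m) →
    ∀ (P : Finset Pt) (X : Finset (Pt × Pt)), Gen3 P → P.card ≤ n → X ⊆ P ×ˢ P →
      RB5 X (A1 * A * (n : ℝ) ^ ((2 : ℝ) / 3))
        (K * (n : ℝ) ^ ((53 : ℝ) / 30) * (X.card : ℝ) ^ ((19 : ℝ) / 20)) := by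
  classical
  obtain ⟨C, hC, hloc⟩ := loc_stepL
  obtain ⟨C', hC', hrich⟩ := rich_lines'
  obtain ⟨σ, hσ, hσ1, hσC⟩ := heavy_sigma (b := 1 / 180) (by norm_num) hC
  rw [show (30 : ℝ) * (1 / 180) = 1 / 6 by norm_num] at hσC
  obtain ⟨A1, hA1⟩ : ∃ A1 : ℝ, A1 * σ = 36 * C := ⟨36 * C / σ, by field_simp⟩
  have hA11 : 1 ≤ A1 := by
    by_contra h
    push Not at h
    nlinarith
  refine ⟨2 * A1, max 1 (2 * C' * A1 ^ 2), by linarith, le_max_left _ _, ?_⟩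
  intro K A n hK hA hSB P X hP hPn hX w 𝓖 hw h𝓖
  have hK1 : 1 ≤ K := (le_max_left _ _).trans hK
  have hK2 : 2 * C' * A1 ^ 2 ≤ K := (le_max_right _ _).trans hK
  rcases 𝓖.eq_empty_or_nonempty with rfl | ⟨g0, hg0⟩
  · simp only [Finset.card_empty, Nat.cast_zero, zero_mul]
    positivity
  have hPN : (P.card : ℝ) ≤ n := by exact_mod_cast hPn
  have hwn : w ≤ n :=
    ((h𝓖 g0 hg0).2.le_card.trans (Nat.cast_le.2 (card_gr_le hX g0))).trans hPN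
  rcases Nat.eq_zero_or_pos n with rfl | hn
  · have h1 : 0 ≤ w := le_trans (by positivity) hw
    have h2 : w = 0 := le_antisymm (by simpa using hwn) h1
    rw [h2, Real.zero_rpow (by norm_num), mul_zero]
    positivity
  have hN1 : (1 : ℝ) ≤ n := by exact_mod_cast hn
  have hN : (0 : ℝ) < n := by positivity
  have hp1 : 1 ≤ (n : ℝ) ^ ((2 : ℝ) / 3) := Real.one_le_rpow hN1 (by positivity)
  have hp2 : (n : ℝ) ≤ ((n : ℝ) ^ ((2 : ℝ) / 3)) ^ 2 := by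
    rw [← Real.rpow_two, ← Real.rpow_mul hN.le]
    conv_lhs => rw [← Real.rpow_one (n : ℝ)]
    exact Real.rpow_le_rpow_of_exponent_le hN1 (by norm_num)
  have hXn : (X.card : ℝ) ≤ (n : ℝ) ^ 2 := by
    have h3 : X.card ≤ n ^ 2 := by
      refine (Finset.card_le_card hX).trans ?_
      rw [Finset.card_product, sq]
      exact Nat.mul_le_mul hPn hPn
    exact_mod_cast h3
  generalize hw0 : 2 * A * (n : ℝ) ^ ((2 : ℝ) / 3) = w0
  have hw03 : (n : ℝ) ^ ((2 : ℝ) / 3) * 2 ≤ w0 := by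
    rw [← hw0]
    nlinarith
  have hw02 : 2 ≤ w0 := by linarith
  have hw0N : (n : ℝ) ≤ w0 ^ 2 :=
    hp2.trans (pow_le_pow_left₀ (by positivity) (by linarith) 2)
  have hw' : A1 * w0 ≤ w := by
    rw [← hw0]
    exact le_trans (le_of_eq (by ring)) hw
  have hw04 : w0 ≤ w := le_trans (le_mul_of_one_le_left (by linarith) hA11) hw'
  have hwpos : 0 < w := by linarith
  obtain ⟨k, hk1, hk2, hmn, hkn, hlam⟩ := heavy_k hC hσ hσ1 hA1 hA11 hw02 hw' hwn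
  have hk0 : (0 : ℝ) < k := by exact_mod_cast hk1
  have hlam0 : w0 ≤ w * k / (C * n) :=
    le_of_mul_le_mul_left (hw'.trans hlam) (by positivity)
  have h1 := hrich n (w * k / (C * n)) w P X
    (𝓖.filter fun g => ¬ LinB (gr X g) (w * k / (C * n))) hPN hX (hw02.trans hlam0)
    (hw0N.trans (pow_le_pow_left₀ (by positivity) hlam0 2)) (fun g hg =>
      ⟨(h𝓖 g (Finset.mem_filter.1 hg).1).1, (h𝓖 g (Finset.mem_filter.1 hg).1).2,
        (Finset.mem_filter.1 hg).2⟩)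
  have h2 := hloc n k P X (K * (18 * (k : ℝ)) ^ ((53 : ℝ) / 30)) w0 w
    (𝓖.filter fun g => LinB (gr X g) (w * k / (C * n))) hk1 hkn hPN hX hwpos
    (by positivity) (by
      intro P' X' hP' hP'k hX' hX'P
      refine (hSB (18 * k) hmn P' X' (hP.mono hP') hP'k hX'P).mono ?_ (le_of_eq ?_)
      · rw [← hw0]
        refine heavyL_thr (by positivity) (by positivity) (by exact_mod_cast hmn.le)
          (by positivity) ?_
        have h3 : X'.card ≤ (18 * k) ^ 2 := by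
          refine (Finset.card_le_card hX'P).trans ?_
          rw [Finset.card_product, sq]
          exact Nat.mul_le_mul hP'k hP'k
        exact_mod_cast h3
      · push_cast
        ring) hlam0 (fun g hg =>
      ⟨(h𝓖 g (Finset.mem_filter.1 hg).1).1, (h𝓖 g (Finset.mem_filter.1 hg).1).2.le_card,
        (Finset.mem_filter.1 hg).2⟩)
  have h3 := heavyL_loc hC hσ hσC (le_trans zero_le_one hK1)
    (show 0 ≤ (X.card : ℝ) ^ ((19 : ℝ) / 20) by positivity) hN hk0 hk2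
  have h4 : ((𝓖.filter fun g => LinB (gr X g) (w * k / (C * n))).card : ℝ) +
      (𝓖.filter fun g => ¬ LinB (gr X g) (w * k / (C * n))).card = 𝓖.card := by
    exact_mod_cast Finset.card_filter_add_card_filter_not (s := 𝓖) _
  have h5 := heavyL_fin hC' hK2 hN (Nat.cast_nonneg _) hXn (Nat.cast_nonneg _) (by linarith) hlam h1
  have h6 := h2.trans h3
  rw [← h4, add_mul]
  linarith

end

end Vale.Agent.P054
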