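import Vale.Agent.P054.RootB
import Vale.Agent.P054.T1

namespace Vale.Agent.P054

open MvPolynomial

noncomputable section

theorem persist_aeval {K : Type} [Field K] {σ ρ Ω : Type} [Field Ω] [Algebra K Ω]
    (θ : MvPolynomial σ Ω →ₐ[Ω] MvPowerSeries ρ Ω) (f : MvPolynomial σ K) :
    aeval (fun k => algebraMap _ (FractionRing (MvPowerSeries ρ Ω)) (θ (X k))) f =
      algebraMap _ (FractionRing (MvPowerSeries ρ Ω)) (θ (map (algebraMap K Ω) f)) := by
  induction f using MvPolynomial.induction_on with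
  | C a =>
    rw [aeval_C, map_C, ← algebraMap_eq, AlgHom.commutes, ← IsScalarTower.algebraMap_apply K Ω,
      ← IsScalarTower.algebraMap_apply]
  | add p q hp hq => simp only [map_add, hp, hq]
  | mul_X p i hp => simp only [map_mul, hp, aeval_X, map_X]

/-- the Taylor expansion over an extension field is a generic point of the branch. -/
theorem persist_generic {K : Type} [Field K] [IsAlgClosed K] {σ ι ρ : Type} [Fintype σ]
    [Fintype ι] [DecidableEq ι] [Fintype ρ] {γ : ι → MvPolynomial σ K} {c : ι → σ} {e : ρ → σ}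
    (hc : Compl c e) {Ω : Type} [Field Ω] [Algebra K Ω] {x : σ → Ω}
    (hJ : aeval x (Jac γ c) ≠ 0) {γ' : ι → MvPolynomial σ Ω}
    (hγ' : ∀ i, γ' i = map (algebraMap K Ω) (γ i))
    {θ : MvPolynomial σ Ω →ₐ[Ω] MvPowerSeries ρ Ω} (hθ : Tay γ' e x θ) :
    kr K (fun k => algebraMap _ (FractionRing (MvPowerSeries ρ Ω)) (θ (X k))) =
      Br (Set.range γ) (kr K x) := by
  have hm : ∀ f : MvPolynomial σ K,
      f ∈ kr K (fun k => algebraMap _ (FractionRing (MvPowerSeries ρ Ω)) (θ (X k))) ↔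
        θ (map (algebraMap K Ω) f) = 0 := fun f => by
    rw [mem_kr, persist_aeval, FaithfulSMul.algebraMap_eq_zero_iff]
  refine eq_Br_of_ind hc (kr_isPrime x) (dn_of_isAlgClosed (kr_isPrime x)) (kr_isPrime _)
    (fun i => ?_) (fun f hf => ?_) hJ (fun k => X (e k)) rfl fun P hP => ?_
  · rw [hm, ← hγ', hθ.kill]
  · rw [mem_kr, ← aeval_map_algebraMap Ω, ← hθ.const, (hm f).1 hf, map_zero]
  · refine map_injective (algebraMap K Ω) (algebraMap K Ω).injective ?_
    rw [map_zero]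
    refine ind_ker_of_free θ (fun k => X (e k)) _ hθ.free _ ?_
    rw [RingHom.mem_ker, ← (hm _).1 hP]
    clear hP
    refine congrArg θ ?_
    induction P using MvPolynomial.induction_on with
    | C a => simp
    | add p q hp hq => simp only [map_add, hp, hq]
    | mul_X p i hp => simp only [map_mul, hp, aeval_X, map_X]

/-- distinct persistent roots lift to distinct roots over the generic point. -/
theorem persist_count {K : Type} [Field K] [CharZero K] [IsAlgClosed K] {σ τ ι ρ : Type}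
    [Fintype σ] [Fintype τ] [Fintype ι] [DecidableEq ι] [Fintype ρ]
    {g J : ℕ → MvPolynomial σ K} {l : ℕ} (hl : 1 ≤ l) {p : σ → K} (hp : aeval p (g 0) = 0)
    {u : σ → MvPolynomial τ K} (hu : ∀ k, (u k).totalDegree ≤ 1) {γ : ι → MvPolynomial τ K}
    {c : ι → τ} {e : ρ → τ} (hc : Compl c e) {Ω : Type} [Field Ω] [Algebra K Ω] {x : τ → Ω}
    (hf : aeval x (fone (g 0) p u) ≠ 0) (hγ : ∀ i, aeval x (γ i) = 0)
    (hJ : aeval x (Jac γ c) ≠ 0) (T : Finset Ω)
    (hT : ∀ s ∈ T, s ∈ Rt g J l (am Ω p) (fun k => aeval x (u k)) ∧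
      Pers g J l p u (Br (Set.range γ) (kr K x)) (kr K (wpt (fone (g 0) p u) x s))) :
    ∃ (Ω' : Type) (_ : Field Ω') (_ : Algebra K Ω') (x' : τ → Ω') (T' : Finset Ω'),
      kr K x' = Br (Set.range γ) (kr K x) ∧ T'.card = T.card ∧
      ∀ s ∈ T', s ∈ Rt g J l (am Ω' p) (fun k => aeval x' (u k)) := by
  classical
  obtain ⟨n, b, -, hF⟩ := exists_monic (g 0) p hp u hu
  obtain ⟨F, hFe⟩ : ∃ F : MvPolynomial (Option τ) K,
    F = X none ^ n + ∑ i ∈ Finset.range n, rename some (b i) * X none ^ i := ⟨_, rfl⟩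
  rw [← hFe] at hF
  obtain ⟨θ, hθ⟩ := exists_tay (g := fun i => map (algebraMap K Ω) (γ i)) hc (π := x)
    (fun i => by rw [aeval_map_algebraMap, hγ]) (by rwa [jac_map, aeval_map_algebraMap])
  have hx' := persist_generic hc hJ (fun _ => rfl) hθ
  obtain ⟨x', hx'e⟩ : ∃ x' : τ → FractionRing (MvPowerSeries ρ Ω),
    x' = fun k => algebraMap _ _ (θ (X k)) := ⟨_, rfl⟩
  rw [← hx'e] at hx'
  have hBr : Br (Set.range γ) (kr K x) ≤ kr K x :=
    Br_le (kr_isPrime x) (by rintro _ ⟨i, rfl⟩; exact hγ i) le_rfl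
  have hf' : aeval x' (fone (g 0) p u) ≠ 0 := fun h => hf (hBr (hx' ▸ h))
  have key : ∀ s ∈ T, ∃ (s' : FractionRing (MvPowerSeries ρ Ω)) (W : MvPowerSeries ρ Ω),
      MvPowerSeries.constantCoeff W = aeval x (fone (g 0) p u) / s ∧
      algebraMap _ _ W = aeval x' (fone (g 0) p u) / s' ∧
      s' ∈ Rt g J l (am _ p) (fun k => aeval x' (u k)) := by
    intro s hs
    obtain ⟨⟨s0, hg0, -, hd⟩, Ω₂, _, _, x₂, s₂, hx₂, hs₂, hle⟩ := hT s hs
    obtain ⟨h1, h2⟩ := hF Ω x s s0 hf
    have h3 := h1.2 (hg0 0 hl)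
    have h4 := h2 (hg0 0 hl) hd
    obtain ⟨W, hW, hWF⟩ := extend_root θ hθ.const (map (algebraMap K Ω) F)
      (aeval x (fone (g 0) p u) / s) (by rw [aeval_map_algebraMap]; exact h3)
      (by rw [pderiv_map, aeval_map_algebraMap]; exact h4)
    have hJ' : aeval (wpt (fone (g 0) p u) x s) (Jac (lift1 γ F) (Option.map c)) ≠ 0 := by
      rw [jac_lift1, map_mul, aeval_rename]
      exact mul_ne_zero h4 hJ
    have e1 := persist_generic (x := wpt (fone (g 0) p u) x s) hc.lift hJ'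
      (by rintro (_ | i) <;> simp [lift1, map_rename]) (hθ.lift _ _ W hW hWF)
    simp only [aeval_X] at e1
    have hW0 : W ≠ 0 := fun h => by
      rw [h, map_zero] at hW
      exact div_ne_zero hf s0 hW.symm
    obtain ⟨s', s0', hs'⟩ := exists_wpt (fone (g 0) p u) (fun o : Option τ => algebraMap _
      (FractionRing (MvPowerSeries ρ Ω)) (o.elim W fun k => θ (X k)))
      (fun h => hW0 ((FaithfulSMul.algebraMap_eq_zero_iff _ _).1 h)) (hx'e ▸ hf')
    have e2 : (fun k => algebraMap _ (FractionRing (MvPowerSeries ρ Ω))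
      ((some k : Option τ).elim W fun k => θ (X k))) = x' := hx'e.symm
    rw [e2] at hs'
    rw [hs'] at e1
    have hf₂ : aeval x₂ (fone (g 0) p u) ≠ 0 := fun h => hf (hBr (hx₂ ▸ h))
    have e3 : kr K (wpt (fone (g 0) p u) x₂ s₂) =
        Br (Set.range (lift1 γ F)) (kr K (wpt (fone (g 0) p u) x s)) := by
      refine eq_Br_of_ind hc.lift (kr_isPrime _) (dn_of_isAlgClosed (kr_isPrime _)) (kr_isPrime _)
        ?_ hle hJ' (fun k => X (some (e k))) rfl fun P hP => ?_
      · rintro (_ | i)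
        · exact (hF Ω₂ x₂ s₂ hs₂.1 hf₂).1.2 (hs₂.2.1 0 hl)
        · have : γ i ∈ kr K x₂ := hx₂ ▸ mem_Br_of_mem (kr_isPrime x) ⟨i, rfl⟩
          exact (aeval_rename _ _ _).trans this
      · refine Br_ind hc (kr_isPrime x) (dn_of_isAlgClosed (kr_isPrime x)) hγ hJ P ?_
        rw [← hx₂, mem_kr, ← AlgHom.comp_apply, comp_aeval]
        rw [mem_kr, ← AlgHom.comp_apply, comp_aeval] at hP
        simpa only [aeval_X, wpt, Option.elim_some] using hP
    refine ⟨s', W, hW, congrFun hs' none, mem_Rt_of_spec p u _ le_rfl s0' hf₂ (e1.trans e3.symm).le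
      hs₂ fun i hi => ?_⟩
    have e4 := spec_kr p u _ hs₂.1 s0' hf' (e3.trans e1.symm).le
    have e5 := @e4 (rename Sum.inl (g i))
    rw [mem_kr, mem_kr, aeval_rename, aeval_rename, Sum.elim_comp_inl, Sum.elim_comp_inl] at e5
    exact e5 (hs₂.2.1 i hi)
  choose! s' W h1 h2 h3 using key
  refine ⟨_, inferInstance, inferInstance, x', T.image s', hx',
    Finset.card_image_of_injOn fun s hs t ht hst => ?_, fun s hs => ?_⟩
  · have e1 : W s = W t := FaithfulSMul.algebraMap_injective _ (FractionRing (MvPowerSeries ρ Ω))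
      (by rw [h2 s hs, h2 t ht, hst])
    have e2 := h1 s hs
    rw [e1, h1 t ht, div_eq_mul_inv, div_eq_mul_inv] at e2
    exact (inv_injective (mul_left_cancel₀ hf e2)).symm
  · obtain ⟨t, ht, rfl⟩ := Finset.mem_image.1 hs
    exact h3 t ht

end

end Vale.Agent.P054
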