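import Vale.Agent.P054.Cover
import Vale.Agent.P054.Persist

namespace Vale.Agent.P054

open MvPolynomial

noncomputable section

section Aux

variable {K : Type} [Field K] {σ : Type}

theorem step1_comap {τ : Type} (f1 : MvPolynomial τ K) {Ω : Type} [Field Ω] [Algebra K Ω]
    (x : τ → Ω) (s : Ω) :
    (kr K (wpt f1 x s)).comap (rename some : MvPolynomial τ K →ₐ[K] _) = kr K x := by
  ext f
  rw [Ideal.mem_comap, mem_kr, mem_kr, aeval_rename]
  rfl

theorem step1_u (p : σ → K) {Ω : Type} [Field Ω] [Algebra K Ω] (x : σ → Ω) :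
    (fun k => aeval x (X k - C (p k) : MvPolynomial σ K)) = fun k => x k - am Ω p k := by
  funext k
  rw [map_sub, aeval_X, aeval_C]

theorem step1_gs {g : ℕ → MvPolynomial σ K} {l : ℕ} {Ω : Type} [Field Ω] [Algebra K Ω]
    {q : σ → Ω} (h : ∀ i, i < l → aeval q (g i) = 0) : ∀ f ∈ Set.range (gs g l), f ∈ kr K q := by
  rintro _ ⟨i, rfl⟩
  exact h i i.2

/-- Lagrange interpolation in the extra variable. -/
theorem step1_lagrange [Fintype σ] {Λ : Type} (S : Finset Λ) (P : Λ → Ideal (MvPolynomial σ K))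
    {n : ℕ} (r : Λ → Fin n → Ideal (MvPolynomial (Option σ) K))
    (h : ∀ s ∈ S, ∃ (Ω : Type) (_ : Field Ω) (_ : Algebra K Ω) (q : σ → Ω) (w : Fin n → Ω),
      Function.Injective w ∧ kr K q ≤ P s ∧
        ∀ i, r s i = kr K fun o : Option σ => o.elim (w i) q) (m : ℕ) :
    n * hf (⨅ s ∈ S, P s) m ≤
      hf (⨅ z ∈ S ×ˢ (Finset.univ : Finset (Fin n)), r z.1 z.2) (m + n) := by
  obtain ⟨v, hv, hind⟩ := exists_indM (⨅ s ∈ S, P s) m
  have key := card_le_hf (I := ⨅ z ∈ S ×ˢ (Finset.univ : Finset (Fin n)), r z.1 z.2)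
    (fun z : Fin n × Fin (hf (⨅ s ∈ S, P s) m) => rename some (v z.2) * X none ^ (z.1 : ℕ))
    (m := m + n) (fun z => ?_) (fun α hα => ?_)
  · rwa [Fintype.card_prod, Fintype.card_fin, Fintype.card_fin] at key
  · refine (totalDegree_mul _ _).trans (add_le_add ((totalDegree_rename_le _ _).trans (hv _)) ?_)
    rw [totalDegree_X_pow]
    exact z.1.2.le
  · have h1 : ∀ i : Fin n, ∑ b, α (i, b) • v b ∈ ⨅ s ∈ S, P s := by
      intro i
      simp only [Ideal.mem_iInf]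
      intro s hs
      obtain ⟨Ω, _, _, q, w, hw, hq, hr⟩ := h s hs
      refine hq (mem_kr.2 ?_)
      have h2 := Matrix.eq_zero_of_forall_index_sum_mul_pow_eq_zero
        (v := fun i : Fin n => aeval q (∑ b, α (i, b) • v b)) hw fun j => ?_
      · exact congrFun h2 i
      · simp only [Ideal.mem_iInf] at hα
        have h3 := hα (s, j) (Finset.mem_product.2 ⟨hs, Finset.mem_univ _⟩)
        rw [hr, mem_kr, Fintype.sum_prod_type, map_sum] at h3
        rw [← h3]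
        refine Finset.sum_congr rfl fun i _ => ?_
        rw [map_sum, map_sum, Finset.sum_mul]
        refine Finset.sum_congr rfl fun b _ => ?_
        rw [map_smul, map_smul, map_mul, map_pow, aeval_X, aeval_rename, smul_mul_assoc]
        rfl
    rintro ⟨i, b⟩
    exact hind _ (h1 i) b

/-- many roots on the arc do not persist. -/
theorem step1_roots [CharZero K] [IsAlgClosed K] [Fintype σ] {g J : ℕ → MvPolynomial σ K} {l : ℕ}
    (hl : 1 ≤ l) {c : Fin l → σ} {p a : σ → K} (hp : aeval p (g 0) = 0) {μ : ℝ} (hμ : 4 ≤ μ)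
    (hg : ∀ i, i < l → aeval a (g i) = 0) (hJ : aeval a (Jac (gs g l) c) ≠ 0)
    (hd : dg (g 0) p (fun k => a k - p k) ≠ 0)
    (hgen : ∀ (Ω : Type) [Field Ω] [Algebra K Ω] (q : σ → Ω),
      kr K q = Br (Set.range (gs g l)) (kr K a) → RB g J l (am Ω p) q (μ / 2))
    {Ω : Type} [Field Ω] [Algebra K Ω] {q : σ → Ω} (hq : kr K q ≤ kr K a)
    (hgq : ∀ i, i < l → aeval q (g i) = 0) (hn : ¬ RB g J l (am Ω p) q μ) :
    aeval q (fone (g 0) p fun k => X k - C (p k)) ≠ 0 ∧ aeval q (Jac (gs g l) c) ≠ 0 ∧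
      Br (Set.range (gs g l)) (kr K q) = Br (Set.range (gs g l)) (kr K a) ∧
      ∃ t : Fin ⌈μ / 4⌉₊ → Ω, Function.Injective t ∧ ∀ i,
        t i ∈ Rt g J l (am Ω p) (fun k => aeval q (X k - C (p k) : MvPolynomial σ K)) ∧
        ¬ Pers g J l p (fun k => X k - C (p k)) (Br (Set.range (gs g l)) (kr K q))
          (kr K (wpt (fone (g 0) p fun k => X k - C (p k)) q (t i))) := by
  classical
  have hf : aeval q (fone (g 0) p fun k => X k - C (p k)) ≠ 0 := by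
    intro h0
    have h1 : aeval a (fone (g 0) p fun k => X k - C (p k)) = 0 := mem_kr.1 (hq (mem_kr.2 h0))
    rw [aeval_fone, step1_u] at h1
    exact hd h1
  have hJq : aeval q (Jac (gs g l) c) ≠ 0 := fun h0 => hJ (mem_kr.1 (hq (mem_kr.2 h0)))
  have hB : Br (Set.range (gs g l)) (kr K q) = Br (Set.range (gs g l)) (kr K a) :=
    Br_eq_of_le (kr_isPrime q) (Br_kr_isPrime (g := gs g l) (fun i => hg i i.2) hJ)
      (kr_isPrime a) (step1_gs hgq) hq
  refine ⟨hf, hJq, hB, ?_⟩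
  have hc : Function.Injective c := inj_of_jac (g := gs g l) fun h0 => hJ (by rw [h0, map_zero])
  unfold RB at hn
  push Not at hn
  obtain ⟨T, hT, hcard⟩ := hn
  obtain ⟨Q, hQ⟩ : ∃ Q : Ω → Prop, ∀ s, Q s ↔ Pers g J l p (fun k => X k - C (p k))
      (Br (Set.range (gs g l)) (kr K q))
      (kr K (wpt (fone (g 0) p fun k => X k - C (p k)) q s)) := ⟨_, fun _ => Iff.rfl⟩
  obtain ⟨Ω', _, _, x', T', hx', hc', hT'⟩ := persist_count (J := J) hl hp
    (u := fun k => X k - C (p k)) (fun k => (totalDegree_sub_C_le _ _).trans (totalDegree_X k).le)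
    (compl_free hc) hf (γ := gs g l) (fun i => hgq i i.2) hJq (T.filter Q) fun s hs => by
      rw [step1_u]
      exact ⟨(hT s (Finset.mem_filter.1 hs).1).2, (hQ s).1 (Finset.mem_filter.1 hs).2⟩
  rw [step1_u] at hT'
  have h1 := (hgen Ω' x' (hx'.trans hB)).rtB' T' hT'
  have h2 : ((T.filter Q).card : ℝ) + (T.filter fun s => ¬ Q s).card = T.card := by
    exact_mod_cast Finset.card_filter_add_card_filter_not (s := T) Q
  have h3 : ⌈μ / 4⌉₊ ≤ (T.filter fun s => ¬ Q s).card := by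
    rw [Nat.ceil_le]
    rw [hc'] at h1
    linarith
  obtain ⟨T2, hT2, hc2⟩ := Finset.exists_subset_card_eq h3
  refine ⟨fun i => (T2.equivFinOfCardEq hc2).symm i, fun i j hij => ?_, fun i => ?_⟩
  · exact (T2.equivFinOfCardEq hc2).symm.injective (Subtype.ext hij)
  · have h4 := Finset.mem_filter.1 (hT2 ((T2.equivFinOfCardEq hc2).symm i).2)
    rw [step1_u]
    exact ⟨(hT _ h4.1).2, fun h5 => h4.2 ((hQ _).2 h5)⟩

end Aux

/-- points with an arc carrying many more roots than the generic point have small degree. -/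
theorem step1 (d l : ℕ) (hl : 1 ≤ l) (hld : l < d) : ∃ C : ℝ, 0 < C ∧ ∀ (K : Type) [Field K]
    [CharZero K] [IsAlgClosed K] (σ Λ : Type) [Fintype σ] (g J : ℕ → MvPolynomial σ K)
    (c : Fin l → σ) (δ ν : ℕ → ℝ) (p : σ → K) (S : Finset Λ) (a : Λ → σ → K) (φ X μ : ℝ),
    Fintype.card σ = d → (∀ i, 1 ≤ δ i) → (∀ i, i < l → ((g i).totalDegree : ℝ) ≤ δ i) →
    aeval p (g 0) = 0 → δ 0 ^ 2 ≤ X → 4 ≤ μ →
    (∀ t, 1 ≤ t → t < l → 0 ≤ ν t ∧ (ν t + 1) * δ t ≤ X) →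
    (∀ s ∈ S, (∀ i, i < l → aeval (a s) (g i) = 0) ∧ aeval (a s) (Jac (gs g l) c) ≠ 0 ∧
      dg (g 0) p (fun k => a s k - p k) ≠ 0) →
    HB (⨅ s ∈ S, Br (Set.range (gs g l)) (kr K (a s))) φ (d - l) →
    (∀ s ∈ S, ∀ (Ω : Type) [Field Ω] [Algebra K Ω] (q : σ → Ω),
      kr K q = Br (Set.range (gs g l)) (kr K (a s)) →
      (∀ t, 1 ≤ t → t < l → RB g J t (am Ω p) q (ν t)) ∧ RB g J l (am Ω p) q (μ / 2)) →
    (∀ s ∈ S, ∃ (Ω : Type) (_ : Field Ω) (_ : Algebra K Ω) (q : σ → Ω), kr K q ≤ kr K (a s) ∧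
      (∀ i, i < l → aeval q (g i) = 0) ∧ ¬ RB g J l (am Ω p) q μ) →
    HB (⨅ s ∈ S, kr K (a s)) (C * φ * X / μ) (d - l - 1) := by
  classical
  obtain ⟨C0, hC0, hcov⟩ := cover_cut (d - l - 1) l hl
  refine ⟨1 + 4 * 2 ^ (d - l - 1) * C0, by positivity, ?_⟩
  intro K _ _ _ σ Λ _ g J c δ ν p S a φ X' μ hσ hδ hdeg hp hX hμ hν ha hb hgen harc
  have hφ : 0 ≤ φ := hb.nonneg
  have hX0 : 0 ≤ X' := (sq_nonneg _).trans hX
  have hμ0 : 0 < μ := by linarith
  rcases S.eq_empty_or_nonempty with rfl | ⟨s0, hs0⟩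
  · intro m _
    have h := hf_iInf_le (∅ : Finset Λ) (fun s => kr K (a s)) m
    rw [Finset.sum_empty, Nat.le_zero] at h
    rw [h, Nat.cast_zero]
    positivity
  have hc : Function.Injective c :=
    inj_of_jac (g := gs g l) fun h0 => (ha s0 hs0).2.1 (by rw [h0, map_zero])
  have hρ : Fintype.card {k // k ∉ Set.range c} = d - l - 1 + 1 := by
    have h := (compl_free hc).card_add
    rw [Fintype.card_fin, hσ] at h
    omega
  have hμδ : μ ≤ δ 0 := by
    obtain ⟨Ω, _, _, q, -, -, hn⟩ := harc s0 hs0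
    refine le_trans (not_lt.1 fun h => hn ((rB_deg hl _ _).mono le_rfl h.le)) (hdeg 0 hl)
  have hex : ∀ s ∈ S, ∃ r : Fin ⌈μ / 4⌉₊ → Ideal (MvPolynomial (Option σ) K),
      ∃ (Ω : Type) (_ : Field Ω) (_ : Algebra K Ω) (q : σ → Ω) (t : Fin ⌈μ / 4⌉₊ → Ω),
        kr K q ≤ kr K (a s) ∧ (∀ i, i < l → aeval q (g i) = 0) ∧
        aeval q (fone (g 0) p fun k => X k - C (p k)) ≠ 0 ∧ aeval q (Jac (gs g l) c) ≠ 0 ∧
        Br (Set.range (gs g l)) (kr K q) = Br (Set.range (gs g l)) (kr K (a s)) ∧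
        Function.Injective t ∧ ∀ i,
          r i = kr K (wpt (fone (g 0) p fun k => X k - C (p k)) q (t i)) ∧
          t i ∈ Rt g J l (am Ω p) (fun k => aeval q (X k - C (p k) : MvPolynomial σ K)) ∧
          ¬ Pers g J l p (fun k => X k - C (p k)) (Br (Set.range (gs g l)) (kr K q))
            (kr K (wpt (fone (g 0) p fun k => X k - C (p k)) q (t i))) := by
    intro s hs
    obtain ⟨Ω, _, _, q, hq, hgq, hn⟩ := harc s hs
    obtain ⟨h1, h2, h3, t, ht, h4⟩ := step1_roots hl hp hμ (ha s hs).1 (ha s hs).2.1 (ha s hs).2.2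
      (fun Ω _ _ q hq => (hgen s hs Ω q hq).2) hq hgq hn
    exact ⟨_, Ω, _, _, q, t, hq, hgq, h1, h2, h3, ht, fun i => ⟨rfl, h4 i⟩⟩
  choose! r hr using hex
  have hBr : ∀ s ∈ S, ∀ i, Br (Set.range (gs g l))
      ((r s i).comap (rename some : MvPolynomial σ K →ₐ[K] _)) =
        Br (Set.range (gs g l)) (kr K (a s)) := by
    intro s hs i
    obtain ⟨Ω, _, _, q, t, -, -, -, -, h3, -, h4⟩ := hr s hs
    rw [(h4 i).1, step1_comap, h3]
  have hj : d - l = d - l - 1 + 1 := by omega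
  have hmain := hcov K σ σ (Fin l) {k // k ∉ Set.range c} (Λ × Fin ⌈μ / 4⌉₊) g J δ
    (fun t => ν t + 1) p (fun k => X k - C (p k)) (gs g l) c Subtype.val (S ×ˢ Finset.univ)
    (fun z => r z.1 z.2) φ X' hρ (compl_free hc) hδ hdeg hp
    (fun k => (totalDegree_sub_C_le _ _).trans (totalDegree_X k).le) hX0
    (fun t h1 h2 => ⟨by linarith [(hν t h1 h2).1], (hν t h1 h2).2⟩)
    (fun z hz => by
      obtain ⟨Ω, _, _, q, t, -, hgq, h1, h2, -, -, h4⟩ := hr z.1 (Finset.mem_product.1 hz).1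
      exact ⟨Ω, _, _, q, t z.2, (h4 z.2).1, h1, (h4 z.2).2.1, fun i => hgq i i.2, h2⟩)
    (fun z hz => by
      obtain ⟨Ω, _, _, q, t, -, -, -, -, -, -, h4⟩ := hr z.1 (Finset.mem_product.1 hz).1
      rw [(h4 z.2).1, step1_comap]
      exact (h4 z.2).2.2)
    (by
      rw [← hj]
      refine hb.mono (le_iInf₂ fun z hz => ?_) le_rfl
      rw [hBr z.1 (Finset.mem_product.1 hz).1]
      exact iInf₂_le z.1 (Finset.mem_product.1 hz).1)
    (fun z hz t h1 h2 Ω _ _ x s hx _ _ => by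
      rw [hBr z.1 (Finset.mem_product.1 hz).1] at hx
      rw [step1_u]
      exact ((hgen z.1 (Finset.mem_product.1 hz).1 Ω x hx).1 t h1 h2).rtB')
  have hlag := step1_lagrange S (fun s => kr K (a s)) r fun s hs => by
    obtain ⟨Ω, _, _, q, t, hq, -, h1, -, -, ht, h4⟩ := hr s hs
    refine ⟨Ω, _, _, q, fun i => aeval q (fone (g 0) p fun k => X k - C (p k)) / t i,
      fun i j hij => ht ?_, hq, fun i => (h4 i).1⟩
    have h5 : aeval q (fone (g 0) p fun k => X k - C (p k)) * (t i)⁻¹ =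
        aeval q (fone (g 0) p fun k => X k - C (p k)) * (t j)⁻¹ := by
      rw [← div_eq_mul_inv, ← div_eq_mul_inv]
      exact hij
    exact inv_injective (mul_left_cancel₀ h1 h5)
  intro m hm
  obtain ⟨j, hjd⟩ : ∃ j, j = d - l - 1 := ⟨_, rfl⟩
  rw [← hjd] at hj hmain ⊢
  have hmj : (0 : ℝ) ≤ (m : ℝ) ^ j := by positivity
  rw [div_mul_eq_mul_div, le_div_iff₀ hμ0]
  rcases lt_or_ge m ⌈μ / 4⌉₊ with hlt | hge
  · have h1 : (m : ℝ) < μ / 4 := Nat.lt_ceil.1 hlt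
    have h2 : (hf (⨅ s ∈ S, kr K (a s)) m : ℝ) ≤ φ * (m : ℝ) ^ (j + 1) := by
      rw [← hj]
      refine (hb.mono (iInf₂_mono fun s hs => ?_) le_rfl) m hm
      exact Br_le (kr_isPrime _) (step1_gs (ha s hs).1) le_rfl
    have h3 : (m : ℝ) * μ ≤ X' := by nlinarith
    have h4 : 0 ≤ 4 * 2 ^ j * C0 * φ * X' * (m : ℝ) ^ j := by positivity
    calc (hf (⨅ s ∈ S, kr K (a s)) m : ℝ) * μ ≤ φ * (m : ℝ) ^ (j + 1) * μ :=
          mul_le_mul_of_nonneg_right h2 hμ0.le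
      _ = φ * (m : ℝ) ^ j * (m * μ) := by ring
      _ ≤ φ * (m : ℝ) ^ j * X' := mul_le_mul_of_nonneg_left h3 (mul_nonneg hφ hmj)
      _ ≤ (1 + 4 * 2 ^ j * C0) * φ * X' * (m : ℝ) ^ j := by linarith
  · have h1 : μ / 4 ≤ (⌈μ / 4⌉₊ : ℝ) := Nat.le_ceil _
    have h2 : (⌈μ / 4⌉₊ : ℝ) * hf (⨅ s ∈ S, kr K (a s)) m ≤
        C0 * φ * X' * ((m + ⌈μ / 4⌉₊ : ℕ) : ℝ) ^ j :=
      le_trans (by exact_mod_cast hlag m) (hmain _ (by omega))
    have h3 : ((m + ⌈μ / 4⌉₊ : ℕ) : ℝ) ^ j ≤ 2 ^ j * (m : ℝ) ^ j := by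
      rw [← mul_pow]
      refine pow_le_pow_left₀ (Nat.cast_nonneg _) ?_ j
      have h4 : (⌈μ / 4⌉₊ : ℝ) ≤ m := by exact_mod_cast hge
      push_cast
      linarith
    have h5 : (0 : ℝ) ≤ hf (⨅ s ∈ S, kr K (a s)) m := Nat.cast_nonneg _
    have h6 : 0 ≤ φ * X' * (m : ℝ) ^ j := by positivity
    calc (hf (⨅ s ∈ S, kr K (a s)) m : ℝ) * μ
        ≤ 4 * ((⌈μ / 4⌉₊ : ℝ) * hf (⨅ s ∈ S, kr K (a s)) m) := by nlinarith
      _ ≤ 4 * (C0 * φ * X' * (2 ^ j * (m : ℝ) ^ j)) :=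
          mul_le_mul_of_nonneg_left
            (h2.trans (mul_le_mul_of_nonneg_left h3 (by positivity))) (by norm_num)
      _ ≤ (1 + 4 * 2 ^ j * C0) * φ * X' * (m : ℝ) ^ j := by linarith

section Aux

variable {K : Type} [Field K] {σ : Type}

/-- directions normalised by the coordinate `i0`. -/
def step1U [DecidableEq σ] (K : Type) [Field K] (i0 : σ) (k : σ) : MvPolynomial (Ne0 i0) K :=
  if h : k = i0 then 1 else X ⟨k, h⟩

theorem step1U_deg [DecidableEq σ] (i0 k : σ) : (step1U K i0 k).totalDegree ≤ 1 := by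
  unfold step1U
  split_ifs
  · rw [totalDegree_one]
    exact zero_le_one
  · exact (totalDegree_X _).le

theorem step1U_dir [DecidableEq σ] {i0 : σ} {p a : σ → K} (h : a i0 ≠ p i0) (k : σ) :
    aeval (fun k : Ne0 i0 => (a k - p k) / (a i0 - p i0)) (step1U K i0 k) =
      (a i0 - p i0)⁻¹ * (a k - p k) := by
  unfold step1U
  split_ifs with hk
  · rw [map_one, hk, inv_mul_cancel₀ (sub_ne_zero.2 h)]
  · rw [aeval_X, div_eq_inv_mul]

theorem step1U_lp [DecidableEq σ] {i0 : σ} {p a : σ → K} (h : a i0 ≠ p i0) :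
    lp (am K p) (fun k => aeval (fun k : Ne0 i0 => (a k - p k) / (a i0 - p i0)) (step1U K i0 k))
      (a i0 - p i0) = a := by
  funext k
  unfold lp
  beta_reduce
  rw [step1U_dir h, mul_inv_cancel_left₀ (sub_ne_zero.2 h)]
  exact add_sub_cancel _ _

theorem step1U_dg [Fintype σ] [DecidableEq σ] {i0 : σ} {p a : σ → K} (h : a i0 ≠ p i0)
    (f : MvPolynomial σ K) {y : σ → K} (hd : dg f y (fun k => a k - p k) ≠ 0) :
    dg f y (fun k => aeval (fun k : Ne0 i0 => (a k - p k) / (a i0 - p i0)) (step1U K i0 k))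
      ≠ 0 := by
  have e : dg f y (fun k => aeval (fun k : Ne0 i0 => (a k - p k) / (a i0 - p i0))
      (step1U K i0 k)) = (a i0 - p i0)⁻¹ * dg f y fun k => a k - p k := by
    unfold dg
    rw [Finset.mul_sum]
    refine Finset.sum_congr rfl fun k _ => ?_
    beta_reduce
    rw [step1U_dir h, mul_left_comm]
  rw [e]
  exact mul_ne_zero (inv_ne_zero (sub_ne_zero.2 h)) hd

theorem step1_left {Ω Ω' : Type} [Field Ω] [Algebra K Ω] [Field Ω'] [Algebra K Ω']
    {y v : σ → Ω} {y' v' : σ → Ω'} (h : kr K (Sum.elim y v) ≤ kr K (Sum.elim y' v')) :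
    kr K y ≤ kr K y' := by
  intro f hf
  have h1 : rename Sum.inl f ∈ kr K (Sum.elim y v) := by
    rw [mem_kr, aeval_rename]
    exact hf
  have h2 := h h1
  rw [mem_kr, aeval_rename] at h2
  exact h2

/-- a root that specialises to the point `a` is a specialising arc. -/
theorem step1_spec [Fintype σ] [DecidableEq σ] {i0 : σ} {p a : σ → K} (h : a i0 ≠ p i0)
    {f1 : MvPolynomial (Ne0 i0) K}
    (hf : aeval (fun k : Ne0 i0 => (a k - p k) / (a i0 - p i0)) f1 ≠ 0) {Ω : Type} [Field Ω]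
    [Algebra K Ω] {x : Ne0 i0 → Ω} {s : Ω} (hs : s ≠ 0) (hle : kr K (wpt f1 x s) ≤
      kr K (wpt f1 (fun k : Ne0 i0 => (a k - p k) / (a i0 - p i0)) (a i0 - p i0))) :
    kr K (lp (am Ω p) (fun k => aeval x (step1U K i0 k)) s) ≤ kr K a := by
  have h1 := step1_left (spec_kr p (step1U K i0) f1 hs (sub_ne_zero.2 h) hf hle)
  rwa [step1U_lp h] at h1

theorem step1_const [DecidableEq σ] {i0 : σ} {p a : σ → K} (h : a i0 ≠ p i0) {Ω : Type} [Field Ω]
    [Algebra K Ω] {x : Ne0 i0 → Ω} {s : Ω}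
    (hle : kr K a ≤ kr K (lp (am Ω p) (fun k => aeval x (step1U K i0 k)) s)) :
    kr K (fun k : Ne0 i0 => (a k - p k) / (a i0 - p i0)) ≤ kr K x := by
  have h1 : ∀ k, algebraMap K Ω (p k) + s * aeval x (step1U K i0 k) = algebraMap K Ω (a k) := by
    intro k
    have h2 : (X k - C (a k) : MvPolynomial σ K) ∈ kr K a := by
      rw [mem_kr, map_sub, aeval_X, aeval_C]
      exact sub_self _
    have h3 := hle h2
    rw [mem_kr, map_sub, aeval_X, aeval_C] at h3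
    exact sub_eq_zero.1 h3
  have h4 : s = algebraMap K Ω (a i0 - p i0) := by
    have h5 := h1 i0
    rw [step1U, dif_pos rfl, map_one, mul_one] at h5
    rw [map_sub, ← h5, add_sub_cancel_left]
  have h6 : x = algebraMap K Ω ∘ fun k : Ne0 i0 => (a k - p k) / (a i0 - p i0) := by
    funext k
    have h5 := h1 k
    rw [step1U, dif_neg k.2, aeval_X] at h5
    have h7 : s ≠ 0 := by
      rw [h4]
      exact (map_ne_zero _).2 (sub_ne_zero.2 h)
    rw [Function.comp_apply, map_div₀, ← h4, eq_div_iff h7, map_sub, ← h5, add_sub_cancel_left,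
      mul_comm]
  intro f hf
  rw [mem_kr] at hf
  rw [mem_kr, h6, aeval_algebraMap_apply, hf, map_zero]

end Aux

/-- good points whose directions lie on a curve of degree `φ` are at most `C φ X`. -/
theorem nc_bound (d : ℕ) (hd : 1 ≤ d) : ∃ C : ℝ, 0 < C ∧ ∀ (K : Type) [Field K] [CharZero K]
    [IsAlgClosed K] (σ Λ ι ρ : Type) [Fintype σ] [DecidableEq σ] [Fintype ι] [DecidableEq ι]
    [Fintype ρ] (i0 : σ) (g : ℕ → MvPolynomial σ K) (c : (r : ℕ) → Fin r → σ) (δ μ : ℕ → ℝ)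
    (p : σ → K) (S : Finset Λ) (a : Λ → σ → K) (γ : ι → MvPolynomial (Ne0 i0) K)
    (c' : ι → Ne0 i0) (e' : ρ → Ne0 i0) (φ X : ℝ),
    Fintype.card σ = d → Fintype.card ρ = 1 → Compl c' e' → (∀ i, 1 ≤ δ i) →
    (∀ i, i < d → ((g i).totalDegree : ℝ) ≤ δ i) → aeval p (g 0) = 0 → 0 ≤ X →
    (∀ t, 1 ≤ t → t < d → 0 ≤ μ t ∧ (μ t + 1) * δ t ≤ X) → Set.InjOn a S →
    (∀ s ∈ S, (∀ i, i < d → aeval (a s) (g i) = 0) ∧ (∀ r, r ≤ d → aeval (a s) (Jc g c r) ≠ 0) ∧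
      a s i0 ≠ p i0 ∧ NT (g 0) p (a s)) →
    (∀ s ∈ S, ∀ t, 1 ≤ t → t < d → ∀ (Ω : Type) [Field Ω] [Algebra K Ω] (q : σ → Ω),
      kr K q ≤ kr K (a s) → (∀ i, i < t → aeval q (g i) = 0) →
      RB g (Jc g c) t (am Ω p) q (μ t)) →
    (∀ s ∈ S, (∀ i, aeval (fun k : Ne0 i0 => (a s k - p k) / (a s i0 - p i0)) (γ i) = 0) ∧
      aeval (fun k : Ne0 i0 => (a s k - p k) / (a s i0 - p i0)) (Jac γ c') ≠ 0) →
    HB (⨅ s ∈ S, Br (Set.range γ) (kr K fun k : Ne0 i0 => (a s k - p k) / (a s i0 - p i0))) φ 1 →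
    (S.card : ℝ) ≤ C * φ * X := by
  classical
  obtain ⟨C0, hC0, hcov⟩ := cover_cut 0 d hd
  refine ⟨C0, hC0, ?_⟩
  intro K _ _ _ σ Λ ι ρ _ _ _ _ _ i0 g c δ μ p S a γ c' e' φ X' hσ hρ hce hδ hdeg hp hX hμ hinj
    ha harc hγ hb
  have hf : ∀ s ∈ S, aeval (fun k : Ne0 i0 => (a s k - p k) / (a s i0 - p i0))
      (fone (g 0) p (step1U K i0)) ≠ 0 := by
    intro s hs
    rw [aeval_fone]
    exact step1U_dg (ha s hs).2.2.1 _ (ha s hs).2.2.2.1
  have hmain := hcov K σ (Ne0 i0) ι ρ Λ g (Jc g c) δ (fun t => μ t + 1) p (step1U K i0) γ c' e' S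
    (fun s => kr K (wpt (fone (g 0) p (step1U K i0))
      (fun k : Ne0 i0 => (a s k - p k) / (a s i0 - p i0)) (a s i0 - p i0))) φ X' hρ hce hδ hdeg
    hp (step1U_deg i0) hX (fun t h1 h2 => ⟨by linarith [(hμ t h1 h2).1], (hμ t h1 h2).2⟩)
    (fun s hs => by
      obtain ⟨h1, h2, h3, h4⟩ := ha s hs
      refine ⟨K, _, _, _, _, rfl, hf s hs, ⟨sub_ne_zero.2 h3, ?_⟩, (hγ s hs).1, (hγ s hs).2⟩
      rw [step1U_lp h3]
      exact ⟨h1, h2, step1U_dg h3 _ h4.2⟩)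
    (fun s hs => by
      obtain ⟨h1, h2, h3, h4⟩ := ha s hs
      rintro ⟨Ω, _, _, x, t, hx, ht, hle⟩
      rw [step1_comap] at hx
      have h5 := step1_spec h3 (hf s hs) ht.1 hle
      have h6 := Br_le (kr_isPrime _) (step1_gs ht.2.1) h5
      rw [Br_full (g := gs g d) (c := c d) (fun i => h1 i i.2) (h2 d le_rfl)
        (by rw [Fintype.card_fin, hσ])] at h6
      have h7 := step1_const h3 h6
      have h8 : HB (kr K x) 1 0 := fun m _ => by
        rw [pow_zero, mul_one]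
        exact_mod_cast (hf_anti h7 m).trans (hf_kr_le _ m)
      refine not_ind_of_HB h8 (fun k => X (e' k)) (by omega) ?_
      rw [hx]
      exact Br_ind hce (kr_isPrime _) (dn_kr _) (hγ s hs).1 (hγ s hs).2)
    (by
      simp only [step1_comap]
      exact hb)
    (fun s hs t h1 h2 Ω _ _ x w _ hw hle =>
      (harc s hs t h1 h2 Ω _ (step1_spec (ha s hs).2.2.1 (hf s hs) hw.1 hle) hw.2.1).rtB hw.1)
  refine count_points S _ (fun s hs s' hs' hss => hinj hs hs' ?_) hmain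
  have h1 : (fun k : Ne0 i0 => (a s k - p k) / (a s i0 - p i0)) =
      fun k : Ne0 i0 => (a s' k - p k) / (a s' i0 - p i0) :=
    funext fun k => congrFun hss (some k)
  have h2 : aeval (fun k : Ne0 i0 => (a s k - p k) / (a s i0 - p i0))
        (fone (g 0) p (step1U K i0)) / (a s i0 - p i0) =
      aeval (fun k : Ne0 i0 => (a s' k - p k) / (a s' i0 - p i0))
        (fone (g 0) p (step1U K i0)) / (a s' i0 - p i0) := congrFun hss none
  rw [← h1, div_eq_mul_inv, div_eq_mul_inv] at h2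
  have h3 : a s i0 - p i0 = a s' i0 - p i0 := inv_injective (mul_left_cancel₀ (hf s hs) h2)
  rw [← step1U_lp (ha s hs).2.2.1, ← step1U_lp (ha s' hs').2.2.1, h1, h3]

end

end Vale.Agent.P054
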