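import Vale.Agent.P054.Linear
import Vale.Agent.P054.Step1
import Vale.Agent.P054.BrBase

namespace Vale.Agent.P054

open MvPolynomial

noncomputable section

section alg

variable {K : Type} [Field K] {σ : Type} [Fintype σ]

/-- root bound for a generic apex of level `s` and a generic point of level `t`. -/
def IndGen (g J : ℕ → MvPolynomial σ K) (t s : ℕ) (μ : ℝ) (a a' : σ → K) : Prop :=
  ∀ (K' Ω : Type) [Field K'] [IsAlgClosed K'] [Field Ω] [Algebra K K'] [Algebra K Ω]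
    [Algebra K' Ω] [IsScalarTower K K' Ω] (p : σ → K') (q : σ → Ω),
    kr K p = Br (Set.range (gs g s)) (kr K a) →
    kr K' q = Br (Set.range fun i => map (algebraMap K K') (gs g t i)) (kr K' (am K' a')) →
    RB g J t (am Ω p) q μ

theorem IndGen.mono {g J : ℕ → MvPolynomial σ K} {t s : ℕ} {μ μ' : ℝ} {a a' : σ → K}
    (h : IndGen g J t s μ a a') (hμ : μ ≤ μ') : IndGen g J t s μ' a a' :=
  fun K' Ω _ _ _ _ _ _ _ p q hp hq => (h K' Ω p q hp hq).mono le_rfl hμ

omit [Fintype σ] in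
theorem ind_zero_of_Br {g : ℕ → MvPolynomial σ K} {s : ℕ} {π : σ → K} {L : Type} [CommRing L]
    [Algebra K L] {p : σ → L} (hp : kr K p = Br (Set.range (gs g s)) (kr K π)) {i : ℕ}
    (hi : i < s) : aeval p (g i) = 0 := by
  rw [← mem_kr, hp]
  exact mem_Br_of_mem (kr_isPrime _) ⟨⟨i, hi⟩, rfl⟩

omit [Fintype σ] in
theorem ind_Br_le {g : ℕ → MvPolynomial σ K} {s : ℕ} {π : σ → K}
    (hg : ∀ i, i < s → aeval π (g i) = 0) : Br (Set.range (gs g s)) (kr K π) ≤ kr K π :=
  Br_le (kr_isPrime _) (by rintro _ ⟨i, rfl⟩; exact hg i i.2) le_rfl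

theorem ind_gen_of_bd [CharZero K] {g J : ℕ → MvPolynomial σ K} {t s : ℕ} {μ : ℝ} {a a' : σ → K}
    {cs : Fin s → σ} {ct : Fin t → σ} (hg : ∀ i, i < s → aeval a (g i) = 0)
    (hJ : aeval a (Jac (gs g s) cs) ≠ 0) (hg' : ∀ i, i < t → aeval a' (g i) = 0)
    (hJ' : aeval a' (Jac (gs g t) ct) ≠ 0) (hts : t ≤ s) (h : Bd g J t t μ a' a) :
    IndGen g J t s μ a a' := by
  intro K' Ω _ _ _ _ _ _ _ p q hp hq
  have h1 := brb_kr_comp (IsScalarTower.toAlgHom K' Ω (AlgebraicClosure Ω))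
    (algebraMap Ω (AlgebraicClosure Ω)).injective q
  obtain ⟨F, hF, q', e1, e2, e3⟩ := pair_swap (fun i : Fin s => hg i i.2) hJ
    (fun i : Fin t => hg' i i.2) hJ' hp (h1.trans hq)
  have h2 := h F (AlgebraicClosure Ω) q' (fun k => algebraMap K' _ (p k)) e2
    (e3.le.trans (ind_Br_le (g := fun i => map (algebraMap K F) (g i)) fun i hi => by
      rw [brb_aeval_pt, hg i hi, map_zero]))
    (fun i hi => by
      have := aeval_algebraMap_apply (AlgebraicClosure Ω) p (g i)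
      rw [ind_zero_of_Br hp (hi.trans_le hts), map_zero] at this
      exact this)
  refine RB.of_algHom (IsScalarTower.toAlgHom K Ω (AlgebraicClosure Ω)) ?_
  have e4 : (fun k => IsScalarTower.toAlgHom K Ω (AlgebraicClosure Ω) (q k)) =
      am (AlgebraicClosure Ω) q' := funext fun k => (e1 k).symm
  have e5 : (fun k => IsScalarTower.toAlgHom K Ω (AlgebraicClosure Ω) (am Ω p k)) =
      fun k => algebraMap K' (AlgebraicClosure Ω) (p k) :=
    funext fun k => (IsScalarTower.algebraMap_apply K' Ω (AlgebraicClosure Ω) (p k)).symm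
  rw [e4, e5]
  exact h2.swap

theorem ind_arc {g J : ℕ → MvPolynomial σ K} {l s : ℕ} {μ : ℝ} {a a' : σ → K} {F : Type} [Field F]
    [Algebra K F] {p : σ → F}
    (hu : ∀ (L : Type) [Field L] [Algebra K L] [IsAlgClosed L] (p' : σ → L),
      kr K p' = Br (Set.range (gs g s)) (kr K a) → ∃ f : F →ₐ[K] L, ∀ k, f (p k) = p' k)
    (h : ¬ Bd g J l s μ a a') :
    ∃ (Ω : Type) (_ : Field Ω) (_ : Algebra F Ω) (q : σ → Ω), kr F q ≤ kr F (am F a') ∧
      (∀ i, i < l → aeval q (map (algebraMap K F) (g i)) = 0) ∧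
      ¬ RB (fun i => map (algebraMap K F) (g i)) (fun i => map (algebraMap K F) (J i)) l
        (am Ω p) q μ := by
  by_contra hne
  apply h
  intro K' Ω _ _ _ _ _ _ _ p' q hp' hq hz
  obtain ⟨f, hf⟩ := hu K' p' hp'
  letI : Algebra F K' := f.toRingHom.toAlgebra
  letI : Algebra F Ω := ((algebraMap K' Ω).comp f.toRingHom).toAlgebra
  haveI : IsScalarTower F K' Ω := IsScalarTower.of_algebraMap_eq fun _ => rfl
  haveI : IsScalarTower K F K' := IsScalarTower.of_algebraMap_eq fun x => (f.commutes x).symm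
  haveI : IsScalarTower K F Ω := IsScalarTower.of_algebraMap_eq fun x => by
    rw [IsScalarTower.algebraMap_apply K K' Ω, ← f.commutes x]; rfl
  by_contra hRB
  refine hne ⟨Ω, inferInstance, inferInstance, q, fun h hh => ?_, fun i hi => ?_, fun h' => ?_⟩
  · have h1 : map (algebraMap F K') h ∈ kr K' q := by
      rw [mem_kr, brb_aeval_map]; exact hh
    have h2 := hq h1
    have e : am K' a' = fun k => algebraMap F K' (am F a' k) :=
      funext fun k => IsScalarTower.algebraMap_apply K F K' _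
    rw [mem_kr, e, brb_aeval_pt] at h2
    exact (algebraMap F K').injective (h2.trans (map_zero _).symm)
  · rw [brb_aeval_map]; exact hz i hi
  · have e : am Ω p = am Ω p' := funext fun k => congrArg (algebraMap K' Ω) (hf k)
    rw [RB_map, e] at h'
    exact hRB h'

theorem ind_dg {f : MvPolynomial σ K} {a a' : σ → K} {F : Type} [Field F] [Algebra K F]
    {p : σ → F} (hp : kr K p ≤ kr K a) (h : dg f a (fun k => a' k - a k) ≠ 0) :
    dg (map (algebraMap K F) f) p (fun k => am F a' k - p k) ≠ 0 := by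
  intro h0
  apply h
  have h1 : (∑ k, pderiv k f * (C (a' k) - X k) : MvPolynomial σ K) ∈ kr K p := by
    rw [mem_kr, ← h0]
    simp only [dg, map_sum, map_mul, map_sub, aeval_C, aeval_X, pderiv_map, brb_aeval_map]
  have h2 := hp h1
  rw [mem_kr] at h2
  simpa only [dg, map_sum, map_mul, map_sub, aeval_C, aeval_X, Algebra.algebraMap_self,
    RingHom.id_apply] using h2

end alg

/-- one application of the first step for a fixed apex. -/
theorem ind_key (d l : ℕ) (hl : 1 ≤ l) (hld : l < d) (A α θ : ℝ) (hA : 1 ≤ A) (hα : 0 < α)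
    (hθ : 0 < θ) : ∃ L0 : ℝ, 0 < L0 ∧ ∀ (σ : Type) [Fintype σ] (P : Finset (σ → ℝ))
    (D : Cel A α d (fun a : σ → ℝ => kr ℂ (cx a)) P) (X μ : ℝ) (ν : ℕ → ℝ) (s : ℕ) (a : σ → ℝ)
    (S : Finset (σ → ℝ)), Fintype.card σ = d → a ∈ P → l ≤ s → s ≤ d → (A * D.δ 0) ^ 2 ≤ X →
    4 ≤ μ → (∀ t, 1 ≤ t → t < l → 0 ≤ ν t ∧ (ν t + 1) * (A * D.δ t) ≤ X) →
    L0 * X ≤ μ * D.δ l → S ⊆ P →
    (∀ a' ∈ S, NT (D.g 0) (cx a) (cx a') ∧
      (∀ t, 1 ≤ t → t < l → Bd D.g (Jc D.g D.c) t s (ν t) (cx a) (cx a')) ∧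
      IndGen D.g (Jc D.g D.c) l s (μ / 2) (cx a) (cx a') ∧
      ¬ Bd D.g (Jc D.g D.c) l s μ (cx a) (cx a')) →
    (S.card : ℝ) ≤ θ * P.card := by
  obtain ⟨C, hC, H1⟩ := step1 d l hl hld
  obtain ⟨κ, hκ, -, H2⟩ := cel_small A α θ hA hα hθ
  refine ⟨C * (2 ^ d * (2 ^ d * A) ^ l) / κ, by positivity, ?_⟩
  intro σ _ P D X μ ν s a S hσ ha hls hsd hX hμ hν hL hS hh
  classical
  have hg : ∀ b ∈ P, ∀ i, i < d → aeval (cx b) (D.g i) = 0 := fun b hb i hi => D.mem i hi b hb
  have hJ : ∀ b ∈ P, ∀ r, r ≤ d → aeval (cx b) (Jac (gs D.g r) (D.c r)) ≠ 0 :=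
    fun b hb r hr => D.jac r hr b hb
  obtain ⟨F, _, _, _, p, hp, hu⟩ := exists_generic (Br (Set.range (gs D.g s)) (kr ℂ (cx a)))
    (Br_kr_isPrime (fun i : Fin s => hg a ha i (i.2.trans_le hsd)) (hJ a ha s hsd))
  haveI : CharZero F := charZero_of_injective_algebraMap (algebraMap ℂ F).injective
  have hpa : kr ℂ p ≤ kr ℂ (cx a) := hp.le.trans (ind_Br_le fun i hi => hg a ha i (hi.trans_le hsd))
  have hδ : ∀ i, 1 ≤ A * D.δ i := fun i => one_le_mul_of_one_le_of_one_le hA (D.one_le i)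
  have hdeg : ∀ i, i < l → ((map (algebraMap ℂ F) (D.g i)).totalDegree : ℝ) ≤ A * D.δ i :=
    fun i hi => le_trans (Nat.cast_le.2 (Finset.sup_mono (support_map_subset _ (D.g i))))
      (D.deg i (hi.trans hld))
  have hgF : ∀ b ∈ S, ∀ i, i < l → aeval (am F (cx b)) (map (algebraMap ℂ F) (D.g i)) = 0 :=
    fun b hb i hi => by rw [brb_aeval_pt, hg b (hS hb) i (hi.trans hld), map_zero]
  have hJF : ∀ b ∈ S, aeval (am F (cx b))
      (Jac (gs (fun i => map (algebraMap ℂ F) (D.g i)) l) (D.c l)) ≠ 0 :=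
    fun b hb => brb_hJ (hJ b (hS hb) l hld.le)
  have h1 := t1_gen S (fun b => kr F (am F (cx b))) (gs (fun i => map (algebraMap ℂ F) (D.g i)) l)
    (fun i => A * D.δ i) (fun _ _ => kr_isPrime _) (fun _ _ => dn_kr _)
    (fun b hb i => hgF b hb i i.2) (fun b hb => sm_of_jac (kr_isPrime _) (hJF b hb))
    (fun i => hdeg i i.2) fun i => hδ i
  rw [hσ, Fintype.card_fin] at h1
  have h2 := H1 F σ (σ → ℝ) (fun i => map (algebraMap ℂ F) (D.g i))
    (fun i => map (algebraMap ℂ F) (Jc D.g D.c i)) (D.c l) (fun i => A * D.δ i) ν p S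
    (fun b => am F (cx b)) _ X μ hσ hδ hdeg
    (by rw [brb_aeval_map]; exact ind_zero_of_Br hp (by omega)) hX hμ hν
    (fun b hb => ⟨hgF b hb, hJF b hb, ind_dg hpa (hh b hb).1.1⟩) h1
    (fun b hb Ω _ _ q hq => by
      letI : Algebra ℂ Ω := ((algebraMap F Ω).comp (algebraMap ℂ F)).toAlgebra
      haveI : IsScalarTower ℂ F Ω := IsScalarTower.of_algebraMap_eq fun _ => rfl
      refine ⟨fun t h3 h4 => ?_, ?_⟩
      · rw [RB_map]
        refine (hh b hb).2.1 t h3 h4 F Ω p q hp (hq.le.trans (ind_Br_le (hgF b hb))) fun i hi => ?_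
        rw [← brb_aeval_map (K' := F)]
        exact ind_zero_of_Br hq (hi.trans h4)
      · rw [RB_map]
        exact (hh b hb).2.2.1 F Ω p q hp hq)
    fun b hb => ind_arc hu (hh b hb).2.2.2
  refine H2 ℂ σ (σ → ℝ) d _ P D (l + 1) hld S hS
    (C * (2 ^ d * ∏ i : Fin l, 2 ^ d * (A * D.δ i)) * X / μ) ?_ ?_
  · have e : ∏ i : Fin l, 2 ^ d * (A * D.δ i) = (2 ^ d * A) ^ l * fp D.δ l := by
      simp only [← mul_assoc]
      rw [Finset.prod_mul_distrib, Finset.prod_const, Finset.card_univ, Fintype.card_fin, fp,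
        Finset.prod_range]
    have h3 := fp_pos D.one_le l
    rw [e, fp_succ, div_le_iff₀ (by linarith)]
    rw [div_mul_eq_mul_div, div_le_iff₀ hκ] at hL
    calc _ = fp D.δ l * (C * (2 ^ d * (2 ^ d * A) ^ l) * X) := by ring
      _ ≤ fp D.δ l * (μ * D.δ l * κ) := by gcongr
      _ = _ := by ring
  · intro m hm
    rw [hσ, ← Nat.sub_sub]
    exact le_trans (by exact_mod_cast hf_points_baseChange (K' := F) S cx m) (h2 m hm)

/-! ### counting pairs -/

open Classical in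
/-- the number of pairs of points with a property. -/
def indCnt {β : Type} (P : Finset β) (R : β × β → Prop) : ℝ := ((P ×ˢ P).filter R).card

section cnt

variable {β : Type} {P : Finset β} {R R₁ R₂ : β × β → Prop}

theorem indCnt_or (h : ∀ x : β × β, x.1 ∈ P → x.2 ∈ P → R x → R₁ x ∨ R₂ x) :
    indCnt P R ≤ indCnt P R₁ + indCnt P R₂ := by
  classical
  unfold indCnt
  rw [← Nat.cast_add, Nat.cast_le]
  refine le_trans (Finset.card_le_card fun x hx => ?_) (Finset.card_union_le _ _)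
  simp only [Finset.mem_filter, Finset.mem_product, Finset.mem_union] at hx ⊢
  exact (h x hx.1.1 hx.1.2 hx.2).imp (fun a => ⟨hx.1, a⟩) fun a => ⟨hx.1, a⟩

theorem indCnt_swap (P : Finset β) (R : β × β → Prop) :
    indCnt P (fun x => R x.swap) ≤ indCnt P R := by
  classical
  unfold indCnt
  rw [Nat.cast_le]
  refine Finset.card_le_card_of_injOn Prod.swap (fun x hx => ?_) Prod.swap_injective.injOn
  simp only [Finset.coe_filter, Finset.mem_product, Set.mem_ofPred_eq] at hx ⊢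
  exact ⟨⟨hx.1.2, hx.1.1⟩, hx.2⟩

theorem indCnt_fib {b : ℝ}
    (h : ∀ a ∈ P, ∀ S : Finset β, S ⊆ P → (∀ a' ∈ S, R (a, a')) → (S.card : ℝ) ≤ b) :
    indCnt P R ≤ P.card * b := by
  classical
  unfold indCnt
  rw [Finset.card_filter, Finset.sum_product, Nat.cast_sum, ← nsmul_eq_mul]
  refine Finset.sum_le_card_nsmul _ _ _ fun a ha => ?_
  rw [← Finset.card_filter]
  exact h a ha _ (Finset.filter_subset _ _) fun a' ha' => (Finset.mem_filter.1 ha').2

theorem indCnt_ex {T : Finset ℕ} {Q : ℕ → β × β → Prop} {b : ℝ} (h : ∀ s ∈ T, indCnt P (Q s) ≤ b) :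
    indCnt P (fun x => ∃ s ∈ T, Q s x) ≤ T.card * b := by
  induction T using Finset.induction_on with
  | empty => simp [indCnt]
  | insert s T hs ih =>
    have h1 := ih fun t ht => h t (Finset.mem_insert_of_mem ht)
    have h2 := h s (Finset.mem_insert_self _ _)
    have h3 : indCnt P (fun x => ∃ t ∈ insert s T, Q t x) ≤
        indCnt P (Q s) + indCnt P fun x => ∃ t ∈ T, Q t x :=
      indCnt_or fun x _ _ hx => by simpa using hx
    rw [Finset.card_insert_of_notMem hs]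
    push_cast
    linarith

theorem indCnt_compl (P : Finset β) (R : β × β → Prop) : ∃ G : Finset (β × β),
    (P.card : ℝ) ^ 2 - indCnt P (fun x => ¬ R x) ≤ G.card ∧ ∀ x ∈ G, x.1 ∈ P ∧ x.2 ∈ P ∧ R x := by
  classical
  refine ⟨(P ×ˢ P).filter R, ?_, fun x hx => ?_⟩
  · have h := Finset.card_filter_add_card_filter_not (s := P ×ˢ P) R
    rw [Finset.card_product] at h
    have h' : (((P ×ˢ P).filter R).card : ℝ) + ((P ×ˢ P).filter fun x => ¬ R x).card =
        P.card * P.card := by exact_mod_cast h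
    have h2 : (((P ×ˢ P).filter fun x => ¬ R x).card : ℝ) ≤ indCnt P fun x => ¬ R x := by
      unfold indCnt
      exact Nat.cast_le.2 (Finset.card_le_card fun x hx => by simpa using hx)
    linarith
  · simp only [Finset.mem_filter, Finset.mem_product] at hx
    exact ⟨hx.1.1, hx.1.2, hx.2⟩

end cnt

end

end Vale.Agent.P054
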