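import Vale.Agent.P054.Linear
import Vale.Agent.P054.Step1
import Vale.Agent.P054.InductAux

namespace Vale.Agent.P054

open MvPolynomial

noncomputable section

/-- few pairs are tangent to the first hypersurface. -/
theorem ind_nt {σ : Type} [Fintype σ] {P : Finset (σ → ℝ)} {A α H : ℝ} {d : ℕ}
    (D : Cel A α d (fun a : σ → ℝ => kr ℂ (cx a)) P) (hd : 1 ≤ d) (hH : HypB P H) :
    indCnt P (fun x => ¬ NT (D.g 0) (cx x.1) (cx x.2)) ≤ 2 * (P.card * H) := by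
  obtain ⟨R, hR⟩ : ∃ R : (σ → ℝ) × (σ → ℝ) → Prop,
      R = fun x => dg (D.g 0) (cx x.1) (fun k => cx x.2 k - cx x.1 k) = 0 := ⟨_, rfl⟩
  have h1 : indCnt P R ≤ P.card * H := by
    refine indCnt_fib fun a ha S hS hh => ?_
    refine hH.complex (fun k => aeval (cx a) (pderiv k (D.g 0)))
      (∑ k, aeval (cx a) (pderiv k (D.g 0)) * a k) (fun h0 => ?_) S hS fun b hb => ?_
    · apply D.jac 1 hd a ha
      rw [jac_unique, mem_kr]
      exact congrFun h0 _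
    · have := hh b hb
      simp only [hR, dg, mul_sub, Finset.sum_sub_distrib] at this
      exact sub_eq_zero.1 this
  have h2 := indCnt_swap P R
  have h3 : indCnt P (fun x => ¬ NT (D.g 0) (cx x.1) (cx x.2)) ≤
      indCnt P R + indCnt P fun x => R x.swap := by
    refine indCnt_or fun x _ _ hx => ?_
    by_contra hne
    rw [not_or] at hne
    refine hx ⟨by simpa only [hR] using hne.1, fun h0 => hne.2 ?_⟩
    simp only [hR, dg, mul_sub, Finset.sum_sub_distrib, Prod.fst_swap, Prod.snd_swap,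
      sub_eq_zero] at h0 ⊢
    exact h0.symm
  linarith

/-- few transverse pairs have many generic roots. -/
theorem ind_lin (d : ℕ) (A θ : ℝ) (hA : 1 ≤ A) (hθ : 0 < θ) :
    ∃ μ0 c0 : ℝ, 1 ≤ μ0 ∧ 0 < c0 ∧ ∀ (α : ℝ) (σ : Type) [Fintype σ] (P : Finset (σ → ℝ))
    (D : Cel A α d (fun a : σ → ℝ => kr ℂ (cx a)) P) (H : ℝ) (t : ℕ), Fintype.card σ = d →
    (∀ i, ∃ g0 : MvPolynomial σ ℝ, D.g i = map (algebraMap ℝ ℂ) g0) → HypB P H →
    H ≤ c0 * P.card → 2 ≤ t → t ≤ d →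
    indCnt P (fun x => NT (D.g 0) (cx x.1) (cx x.2) ∧
      ¬ Gen D.g (Jc D.g D.c) t μ0 (cx x.1) (cx x.2)) ≤ θ * (P.card : ℝ) ^ 2 := by
  obtain ⟨C, hC, h⟩ := linear_count d A hA
  obtain ⟨η, hη⟩ : ∃ η : ℝ, η = θ / (3 * C + θ) := ⟨_, rfl⟩
  have h0 : 0 < η := by rw [hη]; positivity
  have h1 : η ≤ 1 := by rw [hη, div_le_one (by positivity)]; linarith
  have h2 : C * (3 * η) ≤ θ := by
    have : η * (3 * C + θ) = θ := by rw [hη]; field_simp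
    nlinarith
  have h3 : 0 < 1 / η + 1 / η ^ 2 := by positivity
  refine ⟨1 / η, η / (1 / η + 1 / η ^ 2), by rwa [le_div_iff₀ h0, one_mul], by positivity, ?_⟩
  intro α σ _ P D H t hσ hr hH hc ht htd
  unfold indCnt
  refine (h α σ P D H (1 / η) η t _ hσ hr hH ht htd (by rwa [le_div_iff₀ h0, one_mul]) h0 h1
    fun x hx => ?_).trans ?_
  · simp only [Finset.mem_filter, Finset.mem_product] at hx
    exact ⟨hx.1.1, hx.1.2, hx.2⟩
  · have h4 : (1 / η + 1 / η ^ 2) * H ≤ η * P.card := by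
      rwa [div_mul_eq_mul_div, le_div_iff₀' h3] at hc
    have h5 : (0 : ℝ) ≤ P.card := Nat.cast_nonneg _
    rw [one_div_one_div]
    calc _ ≤ C * ((η + η) * (P.card : ℝ) ^ 2 + η * P.card * P.card) := by gcongr
      _ = C * (3 * η) * (P.card : ℝ) ^ 2 := by ring
      _ ≤ _ := by gcongr

/-- the pair is transverse and satisfies the root bounds up to level `t`. -/
def IndGood {σ : Type} [Fintype σ] (g J : ℕ → MvPolynomial σ ℂ) (d t : ℕ) (μ : ℕ → ℝ)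
    (x : (σ → ℝ) × (σ → ℝ)) : Prop :=
  NT (g 0) (cx x.1) (cx x.2) ∧
    ∀ r s, 1 ≤ r → r ≤ t → r ≤ s → s ≤ d → Bd g J r s (μ r) (cx x.1) (cx x.2)

/-- the statement proved by induction on the level. -/
def IndSt (d t : ℕ) (A α θ K c0 : ℝ) : Prop :=
  ∀ (σ : Type) [Fintype σ] (P : Finset (σ → ℝ))
    (D : Cel A α d (fun a : σ → ℝ => kr ℂ (cx a)) P) (H : ℝ), Fintype.card σ = d →
    (∀ i, ∃ g0 : MvPolynomial σ ℝ, D.g i = map (algebraMap ℝ ℂ) g0) → HypB P H →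
    H ≤ c0 * P.card → ∃ μ : ℕ → ℝ,
      (∀ r, 1 ≤ r → r ≤ t →
        0 ≤ μ r ∧ (μ r + 1) * (A * D.δ r) ≤ K * (D.δ 0 * D.δ 1 + D.δ (d - 1))) ∧
      indCnt P (fun x => ¬ IndGood D.g (Jc D.g D.c) d t μ x) ≤ θ * (P.card : ℝ) ^ 2

theorem ind_base {d : ℕ} (hd : 1 ≤ d) {A : ℝ} (α θ : ℝ) (hA : 1 ≤ A) :
    IndSt d 1 A α θ (2 * A ^ 2) (θ / 2) := by
  intro σ _ P D H _ _ hH hc
  have h0 := D.one_le 0
  have h1 := D.one_le 1
  have h2 := D.one_le (d - 1)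
  refine ⟨fun _ => A * D.δ 0, fun r h3 h4 => ⟨by positivity, ?_⟩, ?_⟩
  · obtain rfl : r = 1 := le_antisymm h4 h3
    have h5 : 1 ≤ A * D.δ 0 := one_le_mul_of_one_le_of_one_le hA h0
    calc _ ≤ (A * D.δ 0 + A * D.δ 0) * (A * D.δ 1) := by gcongr
      _ = 2 * A ^ 2 * (D.δ 0 * D.δ 1 + 0) := by ring
      _ ≤ _ := by gcongr; linarith
  · have h3 : indCnt P (fun x => ¬ IndGood D.g (Jc D.g D.c) d 1 (fun _ => A * D.δ 0) x) ≤
        indCnt P (fun x => ¬ NT (D.g 0) (cx x.1) (cx x.2)) + indCnt P fun _ => False :=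
      indCnt_or fun x _ _ hx => Or.inl fun h => hx ⟨h, fun r s hr _ _ _ _ _ _ _ _ _ _ _ _ _ _ _ _ _ =>
        (rB_deg hr _ _).mono le_rfl (D.deg 0 hd)⟩
    have h4 : indCnt P (fun _ => False) = 0 := by simp [indCnt]
    have h5 := ind_nt D hd hH
    have h6 : (0 : ℝ) ≤ P.card := Nat.cast_nonneg _
    nlinarith [mul_le_mul_of_nonneg_left hc h6]

theorem ind_step {d t : ℕ} (ht : 1 ≤ t) (htd : t + 1 < d) {A α θ K c : ℝ} (hA : 1 ≤ A)
    (hα : 0 < α) (hθ : 0 < θ) (hK : A ^ 2 ≤ K) (hc : 0 < c) (ih : IndSt d t A α θ K c) :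
    ∃ K' c' : ℝ, A ^ 2 ≤ K' ∧ 0 < c' ∧ IndSt d (t + 1) A α ((d + 5) * θ) K' c' := by
  obtain ⟨μ0, c0, hμ0, hc0, hlin⟩ := ind_lin d A θ hA hθ
  obtain ⟨L0, hL0, key⟩ := ind_key d (t + 1) (by omega) htd A α θ hA hα hθ
  obtain ⟨L, hL⟩ : ∃ L, L = L0 + 4 + 2 * μ0 := ⟨_, rfl⟩
  have hK1 : 1 ≤ K := (one_le_pow₀ hA).trans hK
  have hL1 : 1 ≤ 3 * A * L := by nlinarith
  have hKK : K ≤ 3 * A * L * K := le_mul_of_one_le_left (by linarith) hL1
  refine ⟨3 * A * L * K, min c c0, hK.trans hKK, lt_min hc hc0, ?_⟩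
  intro σ _ P D H hσ hr hH hHc
  have hn : (0 : ℝ) ≤ P.card := Nat.cast_nonneg _
  obtain ⟨μ, hμ, hbad⟩ := ih σ P D H hσ hr hH (hHc.trans (by gcongr; exact min_le_left _ _))
  have hl := hlin α σ P D H (t + 1) hσ hr hH (hHc.trans (by gcongr; exact min_le_right _ _))
    (by omega) htd.le
  have h0 := D.one_le 0
  have h1 : D.δ 0 ≤ D.δ 1 := D.mono zero_le_one
  have h2 := D.one_le (t + 1)
  have h3 : D.δ (t + 1) ≤ D.δ (d - 1) := D.mono (by omega)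
  generalize hX0 : D.δ 0 * D.δ 1 + D.δ (d - 1) = X0 at hμ ⊢
  have h4 : D.δ 0 ^ 2 ≤ X0 := by nlinarith
  have h5 : D.δ (t + 1) ≤ X0 := by nlinarith
  have hX : (A * D.δ 0) ^ 2 ≤ K * X0 := by rw [mul_pow]; gcongr
  obtain ⟨m, hm⟩ : ∃ m, m * D.δ (t + 1) = L * (K * X0) :=
    ⟨L * (K * X0) / D.δ (t + 1), div_mul_cancel₀ _ (by linarith)⟩
  have h6 : D.δ (t + 1) ≤ K * X0 := h5.trans (le_mul_of_one_le_left (by linarith) hK1)
  have hLm : L ≤ m := by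
    refine le_of_mul_le_mul_right ?_ (lt_of_lt_of_le one_pos h2)
    rw [hm]
    exact mul_le_mul_of_nonneg_left h6 (by linarith)
  have h7 : L0 * (K * X0) ≤ m * D.δ (t + 1) := by
    rw [hm]
    exact mul_le_mul_of_nonneg_right (by linarith) (by linarith)
  have hν : ∀ r, 1 ≤ r → r < t + 1 → 0 ≤ μ r ∧ (μ r + 1) * (A * D.δ r) ≤ K * X0 :=
    fun r a b => hμ r a (by omega)
  have hg : ∀ b ∈ P, ∀ i, i < d → aeval (cx b) (D.g i) = 0 := fun b hb i hi => D.mem i hi b hb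
  have hJ : ∀ b ∈ P, ∀ r, r ≤ d → aeval (cx b) (Jac (gs D.g r) (D.c r)) ≠ 0 :=
    fun b hb r hr => D.jac r hr b hb
  have kf : ∀ (m' : ℝ) (s : ℕ) (R : (σ → ℝ) × (σ → ℝ) → Prop), m ≤ m' → t + 1 ≤ s → s ≤ d →
      (∀ x : (σ → ℝ) × (σ → ℝ), x.1 ∈ P → x.2 ∈ P → R x →
        IndGen D.g (Jc D.g D.c) (t + 1) s (m' / 2) (cx x.1) (cx x.2)) →
      indCnt P (fun x => IndGood D.g (Jc D.g D.c) d t μ x ∧ R x ∧
        ¬ Bd D.g (Jc D.g D.c) (t + 1) s m' (cx x.1) (cx x.2)) ≤ θ * (P.card : ℝ) ^ 2 := by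
    intro m' s R hm' hs hsd hR
    refine (indCnt_fib (b := θ * P.card) fun a ha S hS hh => ?_).trans (le_of_eq (by ring))
    refine key σ P D (K * X0) m' μ s a S hσ ha hs hsd hX (by linarith) hν
      (h7.trans (by gcongr)) hS fun b hb => ?_
    obtain ⟨e1, e2, e3⟩ := hh b hb
    exact ⟨e1.1, fun r a1 a2 => e1.2 r s a1 (by omega) (by omega) hsd, hR (a, b) ha (hS hb) e2, e3⟩
  have hA1 := kf m (t + 1) (fun x => Gen D.g (Jc D.g D.c) (t + 1) μ0 (cx x.1) (cx x.2)) le_rfl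
    le_rfl htd.le fun x _ _ hx => IndGen.mono hx (by linarith)
  have hA2 : indCnt P (fun x => IndGood D.g (Jc D.g D.c) d t μ x ∧
      ¬ Bd D.g (Jc D.g D.c) (t + 1) (t + 1) m (cx x.1) (cx x.2)) ≤ _ + _ :=
    (indCnt_or fun x _ _ hx => ?_).trans (add_le_add hl hA1)
  swap
  · by_cases h : Gen D.g (Jc D.g D.c) (t + 1) μ0 (cx x.1) (cx x.2)
    · exact Or.inr ⟨hx.1, h, hx.2⟩
    · exact Or.inl ⟨hx.1.1, h⟩
  have hA3 : indCnt P (fun x => ¬ Bd D.g (Jc D.g D.c) (t + 1) (t + 1) m (cx x.1) (cx x.2)) ≤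
      _ + _ := (indCnt_or fun x _ _ hx => ?_).trans (add_le_add hbad hA2)
  swap
  · by_cases h : IndGood D.g (Jc D.g D.c) d t μ x
    · exact Or.inr ⟨h, hx⟩
    · exact Or.inl h
  have hA4 := (indCnt_swap _ _).trans hA3
  have hB1 := indCnt_ex (T := Finset.Icc (t + 1) d) fun s hs => kf (2 * m) s
    (fun x => Bd D.g (Jc D.g D.c) (t + 1) (t + 1) m (cx x.2) (cx x.1)) (by linarith)
    (Finset.mem_Icc.1 hs).1 (Finset.mem_Icc.1 hs).2 fun x a1 a2 hx =>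
      (ind_gen_of_bd (fun i hi => hg _ a1 i (hi.trans_le (Finset.mem_Icc.1 hs).2))
        (hJ _ a1 s (Finset.mem_Icc.1 hs).2) (fun i hi => hg _ a2 i (hi.trans htd))
        (hJ _ a2 _ htd.le) (Finset.mem_Icc.1 hs).1 hx).mono (by linarith)
  have hB2 : ((Finset.Icc (t + 1) d).card : ℝ) ≤ d := by
    rw [Nat.card_Icc]
    exact_mod_cast (by omega)
  have hB3 := hB1.trans (mul_le_mul_of_nonneg_right hB2 (by positivity))
  have hB4 := (indCnt_or (R := fun x => _ ∨ _) fun x _ _ hx => hx).trans (add_le_add hA4 hB3)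
  refine ⟨fun r => if r = t + 1 then 2 * m else μ r, fun r a1 a2 => ?_, ?_⟩
  · beta_reduce
    split_ifs with h
    · refine ⟨by linarith, ?_⟩
      rw [h]
      calc _ ≤ (3 * m) * (A * D.δ (t + 1)) := by gcongr; linarith
        _ = 3 * A * (m * D.δ (t + 1)) := by ring
        _ = _ := by rw [hm]; ring
    · obtain ⟨e1, e2⟩ := hμ r a1 (by omega)
      exact ⟨e1, e2.trans (mul_le_mul_of_nonneg_right hKK (by linarith))⟩
  · refine ((indCnt_or fun x _ _ hx => ?_).trans (add_le_add hbad hB4)).trans ?_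
    · by_contra hne
      simp only [not_or, not_not, not_exists, not_and, Finset.mem_Icc, Prod.fst_swap,
        Prod.snd_swap, and_imp] at hne
      obtain ⟨e1, e2, e3⟩ := hne
      refine hx ⟨e1.1, fun r s a1 a2 a3 a4 => ?_⟩
      beta_reduce
      split_ifs with h
      · subst h
        exact e3 s a3 a4 e1 e2
      · exact e1.2 r s a1 (by omega) a3 a4
    · nlinarith [mul_nonneg hθ.le (sq_nonneg (P.card : ℝ))]

theorem ind_main {d : ℕ} {A α : ℝ} (hA : 1 ≤ A) (hα : 0 < α) (t : ℕ) (ht : 1 ≤ t) :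
    t < d → ∀ θ : ℝ, 0 < θ → ∃ K c : ℝ, A ^ 2 ≤ K ∧ 0 < c ∧ IndSt d t A α θ K c := by
  induction t, ht using Nat.le_induction with
  | base =>
    exact fun hd θ hθ => ⟨_, _, by nlinarith [sq_nonneg A], half_pos hθ, ind_base hd.le α θ hA⟩
  | succ t ht ih =>
    intro htd θ hθ
    have h1 : 0 < θ / (d + 5) := by positivity
    obtain ⟨K, c, hK, hc, h⟩ := ih (by omega) _ h1
    have h2 := ind_step ht htd hA hα h1 hK hc h
    rwa [mul_div_cancel₀ _ (by positivity)] at h2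

/-- most pairs satisfy the root bounds at all levels. -/
theorem good_pairs (d : ℕ) (hd : 2 ≤ d) (A α θ : ℝ) (hA : 1 ≤ A) (hα : 0 < α) (hθ : 0 < θ) :
    ∃ K0 c0 : ℝ, 1 ≤ K0 ∧ 0 < c0 ∧ ∀ (σ : Type) [Fintype σ] (P : Finset (σ → ℝ))
    (D : Cel A α d (fun a : σ → ℝ => kr ℂ (cx a)) P) (H : ℝ), Fintype.card σ = d →
    (∀ i, ∃ g0 : MvPolynomial σ ℝ, D.g i = map (algebraMap ℝ ℂ) g0) → HypB P H →
    H ≤ c0 * P.card →
    ∃ (μ : ℕ → ℝ) (G : Finset ((σ → ℝ) × (σ → ℝ))),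
      (1 - θ) * (P.card : ℝ) ^ 2 ≤ G.card ∧
      (∀ t, 1 ≤ t → t < d →
        0 ≤ μ t ∧ (μ t + 1) * (A * D.δ t) ≤ K0 * (D.δ 0 * D.δ 1 + D.δ (d - 1))) ∧
      ∀ x ∈ G, x.1 ∈ P ∧ x.2 ∈ P ∧ NT (D.g 0) (cx x.1) (cx x.2) ∧
        RB D.g (Jc D.g D.c) d (cx x.1) (cx x.2) K0 ∧
        ∀ t, 1 ≤ t → t < d → Bd D.g (Jc D.g D.c) t d (μ t) (cx x.1) (cx x.2) := by
  obtain ⟨K, c, hK, hc, h⟩ := ind_main hA hα (d - 1) (by omega) (by omega : d - 1 < d) _ (half_pos hθ)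
  obtain ⟨μ0, c0, hμ0, hc0, hlin⟩ := ind_lin d A _ hA (half_pos hθ)
  have hK1 : 1 ≤ K := (one_le_pow₀ hA).trans hK
  refine ⟨K + μ0, min c c0, by linarith, lt_min hc hc0, ?_⟩
  intro σ _ P D H hσ hr hH hHc
  have hn : (0 : ℝ) ≤ P.card := Nat.cast_nonneg _
  obtain ⟨μ, hμ, hbad⟩ := h σ P D H hσ hr hH (hHc.trans (by gcongr; exact min_le_left _ _))
  have hl := hlin α σ P D H d hσ hr hH (hHc.trans (by gcongr; exact min_le_right _ _)) hd le_rfl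
  obtain ⟨G, hG, hG'⟩ := indCnt_compl P fun x => IndGood D.g (Jc D.g D.c) d (d - 1) μ x ∧
    Gen D.g (Jc D.g D.c) d μ0 (cx x.1) (cx x.2)
  have h1 : indCnt P (fun x => ¬ (IndGood D.g (Jc D.g D.c) d (d - 1) μ x ∧
      Gen D.g (Jc D.g D.c) d μ0 (cx x.1) (cx x.2))) ≤ _ + _ :=
    (indCnt_or fun x _ _ hx => ?_).trans (add_le_add hbad hl)
  swap
  · by_contra hne
    rw [not_or, not_not, not_and, not_not] at hne
    exact hx ⟨hne.1, hne.2 hne.1.1⟩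
  refine ⟨μ, G, by linarith, fun t h2 h3 => ?_, fun x hx => ?_⟩
  · obtain ⟨h4, h5⟩ := hμ t h2 (by omega)
    have h6 := D.one_le 0
    have h7 := D.one_le 1
    have h8 := D.one_le (d - 1)
    exact ⟨h4, h5.trans (by gcongr; linarith)⟩
  · obtain ⟨h2, h3, h4, h5⟩ := hG' x hx
    have hB : ∀ b ∈ P, Br (Set.range (gs D.g d)) (kr ℂ (cx b)) = kr ℂ (cx b) := fun b hb =>
      Br_full (fun i => D.mem i i.2 b hb) (D.jac d le_rfl b hb) (by rw [Fintype.card_fin, hσ])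
    refine ⟨h2, h3, h4.1, ?_, fun t h6 h7 => h4.2 t d h6 (by omega) h7.le le_rfl⟩
    refine (h5 ℂ ℂ (cx x.1) (cx x.2) (hB _ h2).symm ?_).mono le_rfl (by linarith)
    simp only [Algebra.algebraMap_self, map_id]
    exact (hB _ h3).symm

end

end Vale.Agent.P054
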