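import Vale.Agent.P054.Defs

namespace Vale.Agent.P054

open MvPolynomial

noncomputable section

variable {K : Type} [Field K] {σ : Type} {ι : Type} [Fintype ι] [DecidableEq ι]

theorem jac_sum {α : Type} (s : Finset α)
    (D : α → Derivation K (MvPolynomial σ K) (MvPolynomial σ K)) (f : MvPolynomial σ K) :
    (∑ i ∈ s, D i) f = ∑ i ∈ s, D i f := by
  induction s using Finset.cons_induction with
  | empty => rfl
  | cons a s h ih => rw [Finset.sum_cons, Finset.sum_cons, Derivation.add_apply, ih]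

theorem jac_Xv (g : ι → MvPolynomial σ K) (c : ι → σ) (k : σ) (f : MvPolynomial σ K) :
    Xv g c k f = Jac g c * pderiv k f - ∑ i, pderiv k (g i) * Nv g c i f := by
  rw [Xv, Derivation.sub_apply, jac_sum]
  rfl

theorem jac_Nv (g : ι → MvPolynomial σ K) (c : ι → σ) (i : ι) (f : MvPolynomial σ K) :
    Nv g c i f = ∑ i', (Jm g c).adjugate i' i * pderiv (c i') f := jac_sum _ _ f

theorem jac_det (M : Matrix ι ι (MvPolynomial σ K)) (d : ι → ℕ)
    (h : ∀ i j, (M i j).totalDegree ≤ d i) : M.det.totalDegree ≤ ∑ i, d i := by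
  rw [Matrix.det_apply']
  refine totalDegree_finsetSum_le fun s _ => (totalDegree_mul _ _).trans ?_
  rw [← map_intCast (C : K →+* MvPolynomial σ K), totalDegree_C, zero_add, ← Equiv.sum_comp s]
  exact (totalDegree_finsetProd _ _).trans (Finset.sum_le_sum fun i _ => h _ _)

theorem jac_minor [Fintype σ] {A : Type} [CommRing A] [IsDomain A] (M : Matrix ι σ A)
    (h : ∀ a : ι → A, (∀ k, ∑ i, a i * M i k = 0) → a = 0) :
    ∃ c : ι → σ, (M.submatrix id c).det ≠ 0 := by
  let N := M.map (algebraMap A (FractionRing A))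
  have h1 : LinearIndependent (FractionRing A) N.row := by
    refine (LinearIndependent.iff_fractionRing A _).1 (Fintype.linearIndependent_iff.2
      fun a ha => congrFun (h a fun k => IsFractionRing.injective A (FractionRing A) ?_))
    simpa [N, Algebra.smul_def] using congrFun ha k
  obtain ⟨κ, a, h2, h3, h4⟩ := exists_linearIndependent' (FractionRing A) N.col
  have := Fintype.ofInjective a h2
  let u : ι ≃ κ := Fintype.equivOfCardEq (by
    rw [← h1.rank_matrix, Matrix.rank_eq_finrank_span_cols, ← h3, finrank_span_eq_card h4])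
  refine ⟨a ∘ u, fun e => ?_⟩
  have h5 := (Matrix.isUnit_iff_isUnit_det _).1 ((Matrix.linearIndependent_cols_iff_isUnit
    (A := (algebraMap A (FractionRing A)).mapMatrix (M.submatrix id (a ∘ u)))).1
      (h4.comp u u.injective))
  rw [← RingHom.map_det, e, map_zero] at h5
  exact not_isUnit_zero h5

theorem jac_inj [Fintype σ] {ρ : Type} {g : ι → MvPolynomial σ K} {c : ι → σ} {e : ρ → σ}
    (h : Compl c e) {A : Type} [CommRing A] [IsDomain A] (θ : MvPolynomial σ K →+* A)
    (hJ : θ (Jac g c) ≠ 0) (a : σ → A) (ha : ∀ k, a (e k) = 0)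
    (hg : ∀ i, ∑ k, θ (pderiv k (g i)) * a k = 0) (k : σ) : a k = 0 := by
  have h1 (k) (hk : k ∉ Set.range c) : a k = 0 := by
    obtain ⟨j, rfl⟩ := not_not.1 (mt (h.2.2 k).2 hk)
    exact ha j
  by_cases hk : k ∈ Set.range c
  · obtain ⟨i, rfl⟩ := hk
    rw [Jac, RingHom.map_det] at hJ
    refine congrFun (Matrix.eq_zero_of_mulVec_eq_zero hJ (v := a ∘ c) (funext fun j =>
      (Fintype.sum_of_injective c h.1 _ _ (fun k hk => ?_) fun _ => rfl).trans (hg j))) i
    rw [h1 k hk, mul_zero]
  · exact h1 k hk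

theorem jac_Jm {K' : Type} [Field K'] (φ : K →+* K')
    (g : ι → MvPolynomial σ K) (c : ι → σ) :
    Jm (fun i => map φ (g i)) c = (map φ).mapMatrix (Jm g c) :=
  Matrix.ext fun _ _ => pderiv_map

theorem Nv_g (g : ι → MvPolynomial σ K) (c : ι → σ) (i i' : ι) :
    Nv g c i (g i') = if i = i' then Jac g c else 0 := by
  have := congrFun (congrFun (Matrix.mul_adjugate (Jm g c)) i') i
  rw [Matrix.mul_apply, Matrix.smul_apply, Matrix.one_apply, smul_eq_mul, mul_ite, mul_one,
    mul_zero] at this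
  rw [jac_Nv, if_congr eq_comm rfl rfl]
  exact (Finset.sum_congr rfl fun _ _ => mul_comm _ _).trans this

theorem Xv_g (g : ι → MvPolynomial σ K) (c : ι → σ) (k : σ) (i : ι) : Xv g c k (g i) = 0 := by
  simp [jac_Xv, Nv_g, mul_comm]

theorem Xv_c (g : ι → MvPolynomial σ K) (c : ι → σ) (i : ι) (f : MvPolynomial σ K) :
    Xv g c (c i) f = 0 := by
  have h (i') : ∑ j, (Jm g c).adjugate i' j * pderiv (c i) (g j) =
      if i' = i then Jac g c else 0 := by
    have := congrFun (congrFun (Matrix.adjugate_mul (Jm g c)) i') i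
    rwa [Matrix.mul_apply, Matrix.smul_apply, Matrix.one_apply, smul_eq_mul, mul_ite, mul_one,
      mul_zero] at this
  simp only [jac_Xv, jac_Nv, Finset.mul_sum, ← mul_assoc]
  simp only [mul_comm (pderiv (c i) (g _))]
  rw [Finset.sum_comm]
  simp [← Finset.sum_mul, h]

theorem Xv_apply (g : ι → MvPolynomial σ K) (c : ι → σ) (k : σ) (f : MvPolynomial σ K) :
    Xv g c k f = Jac g c * pderiv k f - ∑ i, pderiv k (g i) * Nv g c i f := by
  exact jac_Xv g c k f

theorem Nv_apply (g : ι → MvPolynomial σ K) (c : ι → σ) (i : ι) (f : MvPolynomial σ K) :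
    Nv g c i f = ∑ i', (Jm g c).adjugate i' i * pderiv (c i') f := by
  exact jac_Nv g c i f

theorem Xv_X [DecidableEq σ] (g : ι → MvPolynomial σ K) (c : ι → σ) (k k' : σ)
    (hk' : k' ∉ Set.range c) : Xv g c k (X k') = if k = k' then Jac g c else 0 := by
  have h (i) : pderiv (c i) (X k' : MvPolynomial σ K) = 0 :=
    pderiv_X_of_ne fun e => hk' ⟨i, e.symm⟩
  simp only [jac_Xv, jac_Nv, h, mul_zero, Finset.sum_const_zero, sub_zero]
  simp [pderiv_X, Pi.single_apply, eq_comm]

theorem jac_unique [Unique ι] (g : ι → MvPolynomial σ K) (c : ι → σ) :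
    Jac g c = pderiv (c default) (g default) := by
  exact Matrix.det_unique _

theorem Xv_unique [Unique ι] (g : ι → MvPolynomial σ K) (c : ι → σ) (k : σ)
    (f : MvPolynomial σ K) :
    Xv g c k f = pderiv (c default) (g default) * pderiv k f
      - pderiv k (g default) * pderiv (c default) f := by
  simp [jac_Xv, jac_Nv, jac_unique, Matrix.adjugate_subsingleton]

theorem totalDegree_pderiv_le (k : σ) (f : MvPolynomial σ K) :
    (pderiv k f).totalDegree ≤ f.totalDegree := by
  conv_lhs => rw [f.as_sum, map_sum]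
  refine totalDegree_finsetSum_le fun u hu => ?_
  rw [pderiv_monomial]
  refine (totalDegree_monomial_le _ _).trans (le_trans ?_ (le_totalDegree hu))
  exact Finsupp.degree_mono (tsub_le_self (a := u))

theorem totalDegree_jac (g : ι → MvPolynomial σ K) (c : ι → σ) :
    (Jac g c).totalDegree ≤ ∑ i, (g i).totalDegree := by
  exact jac_det _ _ fun i _ => totalDegree_pderiv_le _ _

theorem totalDegree_Xv (g : ι → MvPolynomial σ K) (c : ι → σ) (k : σ) (f : MvPolynomial σ K) :
    (Xv g c k f).totalDegree ≤ f.totalDegree + ∑ i, (g i).totalDegree := by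
  rw [jac_Xv, add_comm]
  refine (totalDegree_sub _ _).trans (max_le ((totalDegree_mul _ _).trans
    (add_le_add (totalDegree_jac g c) (totalDegree_pderiv_le _ _)))
    (totalDegree_finsetSum_le fun i _ => ?_))
  rw [jac_Nv, Finset.mul_sum]
  refine totalDegree_finsetSum_le fun i' _ => ?_
  rw [← mul_assoc, Matrix.adjugate_apply, ← Matrix.det_updateRow_smul]
  refine (totalDegree_mul _ _).trans (add_le_add (jac_det _ _ fun j j' => ?_)
    (totalDegree_pderiv_le _ _))
  rw [Matrix.updateRow_apply, Pi.smul_apply, Pi.single_apply]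
  split_ifs with h
  · rw [h, smul_eq_mul, mul_one]
    exact totalDegree_pderiv_le _ _
  · simp
  all_goals exact totalDegree_pderiv_le _ _

theorem totalDegree_wd (g : ι → MvPolynomial σ K) (c : ι → σ) (w : List σ)
    (f : MvPolynomial σ K) :
    (wd g c w f).totalDegree ≤ f.totalDegree + w.length * ∑ i, (g i).totalDegree := by
  induction w with
  | nil => exact Nat.le_add_right _ _
  | cons k w ih =>
    refine (totalDegree_Xv g c k _).trans ((Nat.add_le_add_right ih _).trans_eq ?_)
    rw [List.length_cons, add_mul, one_mul, add_assoc]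

theorem inj_of_jac {g : ι → MvPolynomial σ K} {c : ι → σ} (h : Jac g c ≠ 0) :
    Function.Injective c := by
  intro i j e
  by_contra hij
  exact h (Matrix.det_zero_of_column_eq hij fun k => by simp only [Jm, Matrix.of_apply, e])

theorem sm_of_jac {g : ι → MvPolynomial σ K} {c : ι → σ} {p : Ideal (MvPolynomial σ K)}
    (hp : p.IsPrime) (h : Jac g c ∉ p) : Sm g p := by
  intro a ha i
  refine Ideal.Quotient.eq_zero_iff_mem.1 (congrFun (Matrix.eq_zero_of_vecMul_eq_zero
    (M := (Ideal.Quotient.mk p).mapMatrix (Jm g c)) (v := fun i => Ideal.Quotient.mk p (a i))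
    (fun e => h ?_) (funext fun j => ?_)) i)
  · rwa [← RingHom.map_det, Ideal.Quotient.eq_zero_iff_mem] at e
  · have := Ideal.Quotient.eq_zero_iff_mem.2 (ha (c j))
    rwa [map_sum] at this

theorem exists_jac_of_sm [Fintype σ] {g : ι → MvPolynomial σ K} {p : Ideal (MvPolynomial σ K)}
    (hp : p.IsPrime) (h : Sm g p) : ∃ c : ι → σ, Jac g c ∉ p := by
  obtain ⟨c, hc⟩ := jac_minor (Matrix.of fun i k => Ideal.Quotient.mk p (pderiv k (g i)))
    fun a ha => by
      choose b hb using fun i => Ideal.Quotient.mk_surjective (a i)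
      refine funext fun i => (hb i).symm.trans (Ideal.Quotient.eq_zero_iff_mem.2
        (h b (fun k => Ideal.Quotient.eq_zero_iff_mem.1 ?_) i))
      simpa only [map_sum, map_mul, hb, Matrix.of_apply] using ha k
  refine ⟨c, fun e => hc ?_⟩
  rwa [← Ideal.Quotient.eq_zero_iff_mem, Jac, RingHom.map_det] at e

omit [DecidableEq ι] in
theorem Sm.comp {g : ι → MvPolynomial σ K} {p : Ideal (MvPolynomial σ K)} (h : Sm g p)
    {ι' : Type} [Fintype ι'] (f : ι' → ι) (hf : Function.Injective f) : Sm (g ∘ f) p := by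
  intro a ha i
  rw [← hf.extend_apply a 0 i]
  refine h _ (fun k => ?_) _
  rw [← Fintype.sum_of_injective f hf (fun i => a i * pderiv k ((g ∘ f) i)) _ (fun j hj => by
    rw [Function.extend_apply' _ _ _ hj, Pi.zero_apply, zero_mul]) fun j => by
    rw [hf.extend_apply, Function.comp_apply]]
  exact ha k

theorem Sm.gs_le {g : ℕ → MvPolynomial σ K} {p : Ideal (MvPolynomial σ K)} {r t : ℕ}
    (h : Sm (gs g r) p) (htr : t ≤ r) : Sm (gs g t) p := by
  exact h.comp (Fin.castLE htr) (Fin.castLE_injective htr)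

theorem sm_snoc [Fintype σ] {g : ℕ → MvPolynomial σ K} {r : ℕ} {c : Fin r → σ}
    {p : Ideal (MvPolynomial σ K)} (hp : p.IsPrime) (hJ : Jac (gs g r) c ∉ p) {k : σ}
    (hX : Xv (gs g r) c k (g r) ∉ p) : Sm (gs g (r + 1)) p := by
  intro a ha
  have h1 : ∑ i, a i * Xv (gs g r) c k (gs g (r + 1) i) ∈ p := by
    have e : ∑ i, a i * Xv (gs g r) c k (gs g (r + 1) i) =
        Jac (gs g r) c * ∑ i, a i * pderiv k (gs g (r + 1) i) - ∑ j, ∑ j', pderiv k (gs g r j) *
          (Jm (gs g r) c).adjugate j' j * ∑ i, a i * pderiv (c j') (gs g (r + 1) i) := by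
      simp only [jac_Xv, jac_Nv, mul_sub, Finset.sum_sub_distrib, Finset.mul_sum, mul_assoc,
        mul_left_comm (a _)]
      rw [Finset.sum_comm, Finset.sum_congr rfl fun _ _ => Finset.sum_comm]
    exact e ▸ p.sub_mem (p.mul_mem_left _ (ha k)) (p.sum_mem fun j _ => p.sum_mem fun j' _ =>
      p.mul_mem_left _ (ha _))
  have h2 (i : Fin r) : gs g (r + 1) i.castSucc = gs g r i := rfl
  simp only [Fin.sum_univ_castSucc, h2, Xv_g, mul_zero, Finset.sum_const_zero, zero_add] at h1 ha
  have h3 := (hp.mem_or_mem h1).resolve_right hX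
  intro i
  cases i using Fin.lastCases with
  | last => exact h3
  | cast i =>
    exact sm_of_jac hp hJ (fun i => a i.castSucc)
      (fun k => (p.add_mem_iff_left (p.mul_mem_right _ h3)).1 (ha k)) i

omit [Fintype ι] [DecidableEq ι] in
theorem compl_free {c : ι → σ} (hc : Function.Injective c) :
    Compl c (Subtype.val : {k // k ∉ Set.range c} → σ) := by
  exact ⟨hc, Subtype.val_injective, fun k => by simp⟩

omit [DecidableEq ι] in
theorem Compl.card_add [Fintype σ] {ρ : Type} [Fintype ρ] {c : ι → σ} {e : ρ → σ}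
    (h : Compl c e) : Fintype.card ι + Fintype.card ρ = Fintype.card σ := by
  rw [← Fintype.card_sum]
  refine Fintype.card_of_bijective (f := Sum.elim c e) ⟨h.1.sumElim h.2.1 fun i j hij =>
    (h.2.2 _).1 ⟨i, rfl⟩ ⟨j, hij.symm⟩, fun k => ?_⟩
  by_cases hk : k ∈ Set.range e
  · obtain ⟨j, rfl⟩ := hk
    exact ⟨.inr j, rfl⟩
  · obtain ⟨i, rfl⟩ := (h.2.2 k).2 hk
    exact ⟨.inl i, rfl⟩

omit [DecidableEq ι] in
theorem exists_compl [Fintype σ] {ρ : Type} [Fintype ρ] {e : ρ → σ} (he : Function.Injective e)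
    (hcard : Fintype.card ι + Fintype.card ρ = Fintype.card σ) : ∃ c : ι → σ, Compl c e := by
  classical
  have := (compl_free he).card_add
  let u : ι ≃ {k // k ∉ Set.range e} := Fintype.equivOfCardEq (by omega)
  exact ⟨Subtype.val ∘ u, Subtype.val_injective.comp u.injective, he, fun k => by
    rw [u.surjective.range_comp, Subtype.range_coe_subtype, Set.mem_ofPred_eq]⟩

omit [Fintype ι] [DecidableEq ι] in
theorem Compl.lift {ρ : Type} {c : ι → σ} {e : ρ → σ} (h : Compl c e) :
    Compl (Option.map c) (fun k => some (e k)) := by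
  refine ⟨Option.map_injective h.1, (Option.some_injective _).comp h.2.1, ?_⟩
  rintro (_ | k)
  · simp
  · simpa [Option.exists] using h.2.2 k

theorem jac_iff_trP [Fintype σ] {ρ : Type} {g : ι → MvPolynomial σ K} {c : ι → σ} {e : ρ → σ}
    (h : Compl c e) {p : Ideal (MvPolynomial σ K)} (hp : p.IsPrime) :
    Jac g c ∉ p ↔ TrP g e p := by
  refine ⟨fun hJ a ha hg k => Ideal.Quotient.eq_zero_iff_mem.1 (jac_inj h (Ideal.Quotient.mk p)
    (fun e => hJ (Ideal.Quotient.eq_zero_iff_mem.1 e)) (fun k => Ideal.Quotient.mk p (a k))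
    (fun k => Ideal.Quotient.eq_zero_iff_mem.2 (ha k)) (fun i => ?_) k), fun hT hJ => ?_⟩
  · simpa only [map_sum, map_mul] using Ideal.Quotient.eq_zero_iff_mem.2 (hg i)
  rw [← Ideal.Quotient.eq_zero_iff_mem, Jac, RingHom.map_det] at hJ
  obtain ⟨v, h1, h2⟩ := Matrix.exists_mulVec_eq_zero_iff.2 hJ
  choose b hb using fun i => Ideal.Quotient.mk_surjective (v i)
  refine h1 (funext fun i => (hb i).symm.trans (Ideal.Quotient.eq_zero_iff_mem.2 ?_))
  rw [← h.1.extend_apply b 0 i]
  refine hT _ (fun k => ?_) (fun j => ?_) _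
  · rw [Function.extend_apply' _ _ _ fun hk => (h.2.2 _).1 hk ⟨k, rfl⟩]
    exact p.zero_mem
  · rw [← Fintype.sum_of_injective c h.1 (fun i => pderiv (c i) (g j) * b i) _ (fun k hk => by
      rw [Function.extend_apply' _ _ _ hk, Pi.zero_apply, mul_zero]) fun k => by
      rw [h.1.extend_apply], ← Ideal.Quotient.eq_zero_iff_mem]
    simp only [map_sum, map_mul, hb]
    exact congrFun h2 j

theorem jac_lift1 (g : ι → MvPolynomial σ K) (c : ι → σ) (Φ : MvPolynomial (Option σ) K) :
    Jac (lift1 g Φ) (Option.map c) = pderiv none Φ * rename some (Jac g c) := by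
  have e : Jm (lift1 g Φ) (Option.map c) = (Matrix.fromBlocks
      ((rename some).toRingHom.mapMatrix (Jm g c)) 0 (Matrix.of fun _ i => pderiv (some (c i)) Φ)
      (Matrix.of fun _ _ : Unit => pderiv none Φ)).submatrix (Equiv.optionEquivSumPUnit ι)
      (Equiv.optionEquivSumPUnit ι) := by
    ext1 (_ | i) (_ | j)
    · rfl
    · rfl
    · exact pderiv_eq_zero_of_notMem_vars fun h => by simpa using mem_vars_rename _ _ h
    · exact pderiv_rename (Option.some_injective σ) _ _
  rw [Jac, e, Matrix.det_submatrix_equiv_self, Matrix.det_fromBlocks_zero₁₂,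
    ← RingHom.map_det, Matrix.det_unique (n := Unit), mul_comm]
  rfl

theorem jac_map {K' : Type} [Field K'] (φ : K →+* K') (g : ι → MvPolynomial σ K) (c : ι → σ) :
    Jac (fun i => map φ (g i)) c = map φ (Jac g c) := by
  rw [Jac, jac_Jm, ← RingHom.map_det, Jac]

theorem Xv_map {K' : Type} [Field K'] (φ : K →+* K') (g : ι → MvPolynomial σ K) (c : ι → σ)
    (k : σ) (f : MvPolynomial σ K) :
    Xv (fun i => map φ (g i)) c k (map φ f) = map φ (Xv g c k f) := by
  simp only [jac_Xv, jac_Nv, jac_map, jac_Jm, ← RingHom.map_adjugate, pderiv_map, map_sub, map_mul,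
    map_sum]
  rfl

/-- linear algebra form of the Jacobian condition over any domain. -/
theorem taninj_of_jac [Fintype σ] {ρ : Type} {g : ι → MvPolynomial σ K} {c : ι → σ} {e : ρ → σ}
    (h : Compl c e) {A : Type} [CommRing A] [IsDomain A] [Algebra K A]
    (θ : MvPolynomial σ K →ₐ[K] A) (hJ : θ (Jac g c) ≠ 0) (a : σ → A) (ha : ∀ k, a (e k) = 0)
    (hg : ∀ i, ∑ k, θ (pderiv k (g i)) * a k = 0) : ∀ k, a k = 0 := by
  exact jac_inj h θ.toRingHom hJ a ha hg

end

end Vale.Agent.P054
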