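import Vale.Agent.P054.T1

namespace Vale.Agent.P054

open MvPolynomial

noncomputable section

variable {K : Type} [Field K] [CharZero K] {σ : Type} [Fintype σ] {Λ : Type}

omit [CharZero K] in
/-- dual points for a separating family of evaluation vectors. -/
theorem lemA_dual {Y : Type} {h : ℕ} (ev : Y → Fin h → K)
    (hsp : ∀ a : Fin h → K, (∀ y, ∑ i, a i * ev y i = 0) → ∀ i, a i = 0) :
    ∃ (z : Fin h → Y) (a : Fin h → Fin h → K),
      ∀ s t, ∑ i, a s i * ev (z t) i = if s = t then 1 else 0 := by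
  classical
  have hrep : ∀ (ψ : (Fin h → K) →ₗ[K] K) (w : Fin h → K),
      ψ w = ∑ i, ψ (fun j => if i = j then 1 else 0) * w i := fun ψ w => by
    rw [LinearMap.pi_apply_eq_sum_univ]
    simp only [smul_eq_mul, mul_comm]
  have htop : Submodule.span K (Set.range ev) = ⊤ := by
    by_contra hne
    obtain ⟨ψ, hψ, hle⟩ := Submodule.exists_le_ker_of_lt_top _ (lt_top_iff_ne_top.2 hne)
    have h0 := hsp (fun i => ψ fun j => if i = j then 1 else 0) fun y => by
      rw [← hrep]
      exact hle (Submodule.subset_span ⟨y, rfl⟩)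
    refine hψ (LinearMap.ext fun w => ?_)
    rw [hrep]
    simp [h0]
  obtain ⟨κ, b, -, hs, hli⟩ := exists_linearIndependent' K ev
  let B : Module.Basis κ K (Fin h → K) := Module.Basis.mk hli (by rw [hs, htop])
  let ε : κ ≃ Fin h := B.indexEquiv (Pi.basisFun K (Fin h))
  refine ⟨fun s => b (ε.symm s), fun s i => B.coord (ε.symm s) fun j => if i = j then 1 else 0,
    fun s t => ?_⟩
  rw [← hrep]
  have h1 : ev (b (ε.symm t)) = B (ε.symm t) := by simp [B]
  rw [h1, Module.Basis.coord_apply, B.repr_self, Finsupp.single_apply]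
  simp only [EmbeddingLike.apply_eq_iff_eq, eq_comm]

/-- power series of order at least `T`. -/
def lemA_N (K : Type) [Field K] (ρ : Type) (T : ℕ) : Ideal (MvPowerSeries ρ K) where
  carrier := {F | (T : ℕ∞) ≤ F.order}
  zero_mem' := by simp
  add_mem' ha hb := (le_min ha hb).trans MvPowerSeries.min_order_le_add
  smul_mem' a F hF := by
    refine le_trans ?_ (MvPowerSeries.le_order_mul (f := a) (g := F))
    exact le_add_left hF

omit [CharZero K] in
theorem lemA_mem_N {ρ : Type} {T : ℕ} {F : MvPowerSeries ρ K} :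
    F ∈ lemA_N K ρ T ↔ (T : ℕ∞) ≤ F.order := Iff.rfl

omit [CharZero K] in
theorem lemA_poly {ρ : Type} {T : ℕ} {q : MvPolynomial ρ K} (hq : q.totalDegree < T)
    (h : (q : MvPowerSeries ρ K) ∈ lemA_N K ρ T) : q = 0 := by
  ext d
  by_cases hd : d.degree < T
  · rw [← coeff_coe, coeff_zero]
    exact MvPowerSeries.coeff_of_lt_order (lt_of_lt_of_le (by exact_mod_cast hd) h)
  · rw [coeff_zero]
    refine coeff_eq_zero_of_totalDegree_lt ?_
    rw [← Finsupp.degree_apply]
    omega

omit [CharZero K] [Fintype σ] in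
theorem lemA_theta {ι ρ : Type} {g : ι → MvPolynomial σ K} {e : ρ → σ} {π : σ → K}
    {θ : MvPolynomial σ K →ₐ[K] MvPowerSeries ρ K} (hθ : Tay g e π θ) (q : MvPolynomial ρ K) :
    θ (aeval (fun k => X (e k) - C (π (e k))) q) = q := by
  have hC : ∀ a : K, θ (C a) = MvPowerSeries.C a := fun a => θ.commutes a
  induction q using MvPolynomial.induction_on with
  | C a => rw [aeval_C, coe_C, θ.commutes]; rfl
  | add p q hp hq => rw [map_add, map_add, hp, hq, coe_add]
  | mul_X p k hp =>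
    rw [map_mul, map_mul, hp, aeval_X, map_sub, hθ.free, hC, coe_mul, coe_X, add_sub_cancel_left]

/-- points of high multiplicity of a hypersurface section have small degree. -/
theorem lemA {ι ρ : Type} [Fintype ι] [DecidableEq ι] [Fintype ρ] (S : Finset Λ)
    (p : Λ → Ideal (MvPolynomial σ K)) {g : ι → MvPolynomial σ K} {c : ι → σ} {e : ρ → σ}
    (h : Compl c e) (hp : ∀ l ∈ S, (p l).IsPrime) (hd : ∀ l ∈ S, Dn (p l))
    (hg : ∀ l ∈ S, ∀ i, g i ∈ p l) (hJ : ∀ l ∈ S, Jac g c ∉ p l) {j : ℕ}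
    (hj : Fintype.card ρ = j + 1) {φ Δ : ℝ}
    (hb : HB (⨅ l ∈ S, Br (Set.range g) (p l)) φ (j + 1)) {f : MvPolynomial σ K}
    (hf : ∀ l ∈ S, f ∉ Br (Set.range g) (p l)) (hΔ : (f.totalDegree : ℝ) ≤ Δ) (h1 : 1 ≤ Δ)
    {T : ℕ} (hT : 1 ≤ T) (hw : ∀ l ∈ S, ∀ w : List σ, w.length < T → wd g c w f ∈ p l) :
    HB (⨅ l ∈ S, p l) (((j + 1).factorial : ℝ) * 2 ^ (2 * j + 1) * φ * Δ / T) j := by
  intro m hm
  classical
  obtain ⟨v, hvd, hv⟩ := exists_indM (⨅ l ∈ S, p l) m
  obtain ⟨z, a, hza⟩ := lemA_dual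
    (Y := {y : Λ × (σ → K) // y.1 ∈ S ∧ p y.1 ≤ kr K y.2 ∧ aeval y.2 (Jac g c) ≠ 0})
    (fun y i => aeval y.1.2 (v i)) fun a ha => hv a (by
      refine (Submodule.mem_iInf _).2 fun l => (Submodule.mem_iInf _).2 fun hl => ?_
      by_contra hne
      obtain ⟨π, h1, h2⟩ := hd l hl ((∑ i, a i • v i) * Jac g c) fun hm =>
        ((hp l hl).mem_or_mem hm).elim hne (hJ l hl)
      rw [map_mul] at h2
      refine left_ne_zero_of_mul h2 ?_
      rw [map_sum]
      simpa only [map_smul, smul_eq_mul] using ha ⟨(l, π), hl, h1, right_ne_zero_of_mul h2⟩)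
  obtain ⟨P, hP⟩ : ∃ P : Fin (Vale.Agent.P054.hf (⨅ l ∈ S, p l) m) → MvPolynomial σ K,
    ∀ s, P s = ∑ i, a s i • v i := ⟨_, fun _ => rfl⟩
  have hPd : ∀ s, (P s).totalDegree ≤ m := fun s => by
    rw [hP]
    exact totalDegree_finsetSum_le fun i _ => (totalDegree_smul_le _ _).trans (hvd i)
  have hPz : ∀ s t, aeval (z t).1.2 (P s) = if s = t then 1 else 0 := fun s t => by
    rw [hP, map_sum, ← hza]
    simp only [map_smul, smul_eq_mul]
  choose θ hθ using fun s => exists_tay (g := g) h (π := (z s).1.2)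
    (fun i => (z s).2.2.1 (hg _ (z s).2.1 i)) (z s).2.2.2
  obtain ⟨I, hI⟩ : ∃ I : Ideal (MvPolynomial σ K),
    I = ⨅ s, (lemA_N K ρ T).comap (θ s) := ⟨_, rfl⟩
  have hmem : ∀ F, F ∈ I ↔ ∀ s, θ s F ∈ lemA_N K ρ T := fun F => by
    rw [hI, Submodule.mem_iInf]
    rfl
  have hcut : HB I (2 ^ (j + 1) * φ * Δ) j := by
    refine hb_cut (G := f) (fun F hF => (hmem F).2 fun s => ?_) ((hmem f).2 fun s => ?_)
      (fun F hF => ?_) hΔ h1 hb
    · have h2 : F ∈ Br (Set.range g) (p (z s).1.1) :=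
        (Submodule.mem_iInf _).1 ((Submodule.mem_iInf _).1 hF _) (z s).2.1
      rw [Br_eq_pt (hp _ (z s).2.1) (hg _ (z s).2.1) (z s).2.2.1 (z s).2.2.2,
        ← (hθ s).ker_eq h (z s).2.2.2, RingHom.mem_ker] at h2
      rw [h2]
      exact Submodule.zero_mem _
    · exact MvPowerSeries.nat_le_order fun d hd => (hθ s).coeff_eq_zero h (z s).2.2.2 T f
        (fun w hw' => (z s).2.2.1 (hw _ (z s).2.1 w hw')) d hd
    · refine (Submodule.mem_iInf _).2 fun l => (Submodule.mem_iInf _).2 fun hl => ?_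
      have h2 : f * F ∈ Br (Set.range g) (p l) :=
        (Submodule.mem_iInf _).1 ((Submodule.mem_iInf _).1 hF _) hl
      exact ((Br_isPrime (hp l hl) (hd l hl) (hg l hl)
        (sm_of_jac (hp l hl) (hJ l hl))).mem_or_mem h2).resolve_left (hf l hl)
  obtain ⟨u, hud, hu⟩ := exists_indM (⊥ : Ideal (MvPolynomial ρ K)) (T - 1)
  have hcard := card_le_hf (I := I) (m := 2 * T * m)
    (fun x : Fin (Vale.Agent.P054.hf (⨅ l ∈ S, p l) m) ×
        Fin (Vale.Agent.P054.hf (⊥ : Ideal (MvPolynomial ρ K)) (T - 1)) =>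
      P x.1 ^ T * aeval (fun k => X (e k) - C ((z x.1).1.2 (e k))) (u x.2))
    (fun x => by
      refine (totalDegree_mul _ _).trans ?_
      have h2 := (totalDegree_pow (P x.1) T).trans (Nat.mul_le_mul_left T (hPd x.1))
      have h3 := totalDegree_algHom_le (e := 1)
        (aeval (fun k => X (e k) - C ((z x.1).1.2 (e k))) :
          MvPolynomial ρ K →ₐ[K] MvPolynomial σ K) (fun k => by
            rw [aeval_X]
            refine (totalDegree_sub _ _).trans (max_le ?_ ?_)
            · exact (totalDegree_X _).le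
            · rw [totalDegree_C]
              exact Nat.zero_le _) (u x.2)
      have h4 := hud x.2
      have h5 : T ≤ T * m := Nat.le_mul_of_pos_right T hm
      have h6 : 2 * T * m = T * m + T * m := by ring
      omega)
    (fun b hb' x => by
      obtain ⟨t, i⟩ := x
      have h2 := (hmem _).1 hb' t
      rw [Fintype.sum_prod_type, map_sum, ← Finset.add_sum_erase _ _ (Finset.mem_univ t)] at h2
      have h3 := (Submodule.add_mem_iff_left _ (Submodule.sum_mem _ fun s hs => by
        rw [map_sum]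
        refine Submodule.sum_mem _ fun i _ => ?_
        rw [map_smul, map_mul, map_pow]
        refine Submodule.smul_of_tower_mem _ _ (Ideal.mul_mem_right _ _ ?_)
        refine MvPowerSeries.le_order_pow_of_constantCoeff_eq_zero T ?_
        rw [(hθ t).const, hPz, if_neg (Finset.ne_of_mem_erase hs)])).1 h2
      have h4 : θ t (∑ i, b (t, i) • (P t ^ T *
          aeval (fun k => X (e k) - C ((z t).1.2 (e k))) (u i))) =
          θ t (P t) ^ T * ((∑ i, b (t, i) • u i : MvPolynomial ρ K) : MvPowerSeries ρ K) := by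
        rw [← lemA_theta (hθ t), ← map_pow, ← map_mul, map_sum (aeval _), Finset.mul_sum]
        simp only [map_smul, mul_smul_comm]
      rw [h4] at h3
      have h5 : IsUnit (θ t (P t) ^ T) := by
        refine IsUnit.pow _ (MvPowerSeries.isUnit_iff_constantCoeff.2 ?_)
        rw [(hθ t).const, hPz, if_pos rfl]
        exact isUnit_one
      rw [Ideal.unit_mul_mem_iff_mem _ h5] at h3
      refine hu (fun i => b (t, i)) (Ideal.mem_bot.2 (lemA_poly ?_ h3)) i
      refine lt_of_le_of_lt (totalDegree_finsetSum_le fun i _ =>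
        (totalDegree_smul_le _ _).trans (hud i)) (by omega))
  rw [Fintype.card_prod, Fintype.card_fin, Fintype.card_fin, hf_bot, hj] at hcard
  have h2 : T ^ (j + 1) ≤ (j + 1).factorial * (T - 1 + (j + 1)).choose (j + 1) := by
    rw [← Nat.descFactorial_eq_factorial_mul_choose]
    refine le_trans (le_of_eq ?_) (Nat.pow_sub_le_descFactorial _ _)
    congr 1
    omega
  have h3 := hcut (2 * T * m) (Nat.mul_pos (by omega) hm)
  have h4 : (Vale.Agent.P054.hf (⨅ l ∈ S, p l) m : ℝ) * T ^ (j + 1) ≤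
      (j + 1).factorial * (Vale.Agent.P054.hf I (2 * T * m) : ℝ) := by
    have h5 := (Nat.mul_le_mul_left (Vale.Agent.P054.hf (⨅ l ∈ S, p l) m) h2).trans
      (le_of_eq (mul_left_comm _ _ _)) |>.trans (Nat.mul_le_mul_left _ hcard)
    exact_mod_cast h5
  have hT' : (0 : ℝ) < T := by exact_mod_cast hT
  rw [div_mul_eq_mul_div, le_div_iff₀ hT']
  refine le_of_mul_le_mul_right ?_ (pow_pos hT' j)
  calc _ = (Vale.Agent.P054.hf (⨅ l ∈ S, p l) m : ℝ) * T ^ (j + 1) := by ring
    _ ≤ (j + 1).factorial * (2 ^ (j + 1) * φ * Δ * ((2 * T * m : ℕ) : ℝ) ^ j) :=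
        h4.trans (by gcongr)
    _ = _ := by push_cast; ring

end

end Vale.Agent.P054
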