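import Vale.Agent.P054.Flat
import Vale.Agent.P054.Chain

namespace Vale.Agent.P054

open MvPolynomial

set_option linter.unusedSectionVars false
set_option linter.unusedVariables false

noncomputable section

variable {K : Type} [Field K] {ε : Type} [Fintype ε] [LinearOrder ε]

omit [Fintype ε] in
theorem pencil_sk {A : Type} [Neg A] [Zero A] {P : A → Prop} {M : Pr ε → A} (h0 : P 0)
    (h1 : ∀ p, P (M p)) (h2 : ∀ p, P (-M p)) (i j : ε) : P (sk M i j) := by
  unfold sk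
  split_ifs
  exacts [h1 _, h2 _, h0]

omit [Fintype ε] in
theorem pencil_Dh_none (j k : ε) : (Dh j k (X none) : MvPolynomial (Option (Pr ε)) K) = 0 := by
  rw [Dh_apply]
  exact pencil_sk (P := fun x : MvPolynomial (Option (Pr ε)) K => x = 0) rfl (fun p => by simp)
    (fun p => by simp) j k

theorem pencil_sum_Dh (Y : ε → MvPolynomial (Option (Pr ε)) K) (j k a : ε) :
    ∑ b, Dh j k (Mh a b) * Y b = (if j = a then Y k else 0) - (if k = a then Y j else 0) := by
  by_cases h1 : j = a <;> by_cases h2 : k = a <;> simp [Dh_Mh, h1, h2]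

theorem pencil_sum_W (i0 : ε) (Y : ε → MvPolynomial (Option (Pr ε)) K) (j k a : ε) :
    ∑ b, (Y i0 * Dh j k (Mh a b) - Y k * Dh j i0 (Mh a b) + Y j * Dh k i0 (Mh a b)) * Y b = 0 := by
  simp only [add_mul, sub_mul, mul_assoc, Finset.sum_add_distrib, Finset.sum_sub_distrib,
    ← Finset.mul_sum, pencil_sum_Dh]
  split_ifs <;> ring

theorem pencil_sum_X {A : Type} [CommRing A] [Algebra K A]
    (θ : MvPolynomial (Option (Pr ε)) K →ₐ[K] A) (j k : ε) (w : Pr ε → A) :
    ∑ p, θ (Dh j k (X (some p))) * w p = sk w j k := by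
  simp only [Dh_apply, sk]
  split_ifs <;> simp [Pi.single_apply, apply_ite θ]

theorem pencil_supp {σ : Type} {a : σ} {f : MvPolynomial σ K} {m : σ →₀ ℕ}
    (h : m ∈ (pderiv a f).support) : m + Finsupp.single a 1 ∈ f.support := by
  rw [mem_support_iff] at h ⊢
  rw [coeff_pderiv] at h
  exact left_ne_zero_of_mul h

theorem Yv_i0 (i0 i1 : ε) (f : MvPolynomial (Pr ε) K) : Yv i0 i1 f i0 = om f i1 i0 := by
  simp only [Yv, om, Dd_apply, sk_self, map_zero, mul_zero, add_zero]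

theorem Yv_i1 (i0 i1 : ε) (f : MvPolynomial (Pr ε) K) :
    Yv i0 i1 f i1 = X none * om f i1 i0 := by
  simp only [Yv, om, Dd_apply, sk_self, map_zero, zero_add]

theorem nul_xi (i0 i1 : ε) (f : MvPolynomial (Pr ε) K) : Nul (xi i0 i1 f) := by
  exact sum_sk_self (fun p => X (some p)) (Yv i0 i1 f)

theorem Vv_apply (i0 i1 : ε) (f : MvPolynomial (Pr ε) K) (j k : ε)
    (h : MvPolynomial (Option (Pr ε)) K) :
    Vv i0 i1 f j k h =
      om f i1 i0 * Dh j k h - Yv i0 i1 f k * Dh j i0 h + Yv i0 i1 f j * Dh k i0 h := by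
  rfl

theorem Vv_none (i0 i1 : ε) (f : MvPolynomial (Pr ε) K) (j k : ε) :
    Vv i0 i1 f j k (X none) = 0 := by
  simp only [Vv_apply, pencil_Dh_none, mul_zero, sub_zero, add_zero]

theorem Vv_self (i0 i1 : ε) (f : MvPolynomial (Pr ε) K) (j k : ε) :
    Vv i0 i1 f j k (rename some f) = rename some (Pl i0 i1 f j k) := by
  simp only [Vv_apply, Dh_rename, Yv, om, Pl, map_add, map_sub, map_mul]
  ring

theorem Vv_Mh_mul (i0 i1 : ε) (f : MvPolynomial (Pr ε) K) (j k a : ε) :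
    ∑ b, Vv i0 i1 f j k (Mh a b) * Yv i0 i1 f b = 0 := by
  simp only [Vv_apply, ← Yv_i0]
  exact pencil_sum_W i0 _ j k a

theorem Vv_Mh_of_ne (i0 i1 : ε) (f : MvPolynomial (Pr ε) K) (j k : ε) {a b : ε} (ha : a ≠ i0)
    (hb : b ≠ i0) (hj : j ≠ i0) (hk : k ≠ i0) : Vv i0 i1 f j k (Mh a b) =
      om f i1 i0 * ((if j = a ∧ k = b then 1 else 0) - (if j = b ∧ k = a then 1 else 0)) := by
  simp [Vv_apply, Dh_Mh, ha.symm, hb.symm]

/-- contraction of the vector fields with a skew form. -/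
theorem sum_Vv_X {A : Type} [CommRing A] [Algebra K A]
    (θ : MvPolynomial (Option (Pr ε)) K →ₐ[K] A) (i0 i1 : ε) (f : MvPolynomial (Pr ε) K)
    (j k : ε) (w : Pr ε → A) :
    ∑ p, θ (Vv i0 i1 f j k (X (some p))) * w p =
      θ (om f i1 i0) * sk w j k - θ (Yv i0 i1 f k) * sk w j i0 + θ (Yv i0 i1 f j) * sk w k i0 := by
  simp only [Vv_apply, map_add, map_sub, map_mul, add_mul, sub_mul, mul_assoc,
    Finset.sum_add_distrib, Finset.sum_sub_distrib, ← Finset.mul_sum, pencil_sum_X]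

theorem totalDegree_Dd (j k : ε) (f : MvPolynomial (Pr ε) K) :
    (Dd j k f).totalDegree ≤ f.totalDegree := by
  rw [Dd_apply]
  exact pencil_sk (P := fun x : MvPolynomial (Pr ε) K => x.totalDegree ≤ f.totalDegree) (by simp)
    (fun p => totalDegree_pderiv_le p f)
    (fun p => (totalDegree_neg _).trans_le (totalDegree_pderiv_le p f)) j k

theorem totalDegree_Dd_lt (j k : ε) (f : MvPolynomial (Pr ε) K) (h : Dd j k f ≠ 0) :
    (Dd j k f).totalDegree < f.totalDegree := by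
  have key : ∀ p : Pr ε, pderiv p f ≠ 0 → (pderiv p f).totalDegree < f.totalDegree := by
    intro p hp
    obtain ⟨m, hm, he⟩ := Finset.exists_mem_eq_sup _ (support_nonempty.2 hp)
      fun s : Pr ε →₀ ℕ => s.sum fun _ e => e
    have h1 := le_totalDegree (pencil_supp hm)
    rw [Finsupp.sum_add_index' (fun _ => rfl) (fun _ _ _ => rfl), Finsupp.sum_single_index rfl] at h1
    rw [totalDegree, he]
    omega
  rw [Dd_apply] at h ⊢
  exact pencil_sk (P := fun x : MvPolynomial (Pr ε) K => x ≠ 0 → x.totalDegree < f.totalDegree)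
    (fun h => absurd rfl h) key (fun p hp => (totalDegree_neg _).trans_lt (key p (neg_ne_zero.1 hp)))
    j k h

theorem pencil_deg_om (f : MvPolynomial (Pr ε) K) (j k : ε) :
    (om f j k).totalDegree ≤ f.totalDegree :=
  (totalDegree_rename_le _ _).trans (totalDegree_Dd j k f)

theorem pencil_deg_Yv (i0 i1 : ε) (f : MvPolynomial (Pr ε) K) (k : ε) :
    (Yv i0 i1 f k).totalDegree ≤ f.totalDegree + 1 := by
  refine (totalDegree_add _ _).trans (max_le ((pencil_deg_om f i1 k).trans (by omega))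
    ((totalDegree_mul _ _).trans ?_))
  have := pencil_deg_om f k i0
  rw [totalDegree_X]
  omega

omit [Fintype ε] in
theorem pencil_deg_Dh (j k : ε) (h : MvPolynomial (Option (Pr ε)) K) :
    (Dh j k h).totalDegree ≤ h.totalDegree := by
  rw [Dh_apply]
  exact pencil_sk (P := fun x : MvPolynomial (Option (Pr ε)) K => x.totalDegree ≤ h.totalDegree)
    (by simp) (fun p => totalDegree_pderiv_le _ h)
    (fun p => (totalDegree_neg _).trans_le (totalDegree_pderiv_le _ h)) j k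

omit [Fintype ε] in
theorem pencil_dof_Dh (j k : ε) (h : MvPolynomial (Option (Pr ε)) K) :
    degreeOf none (Dh j k h) ≤ degreeOf none h := by
  have key : ∀ p : Pr ε, degreeOf none (pderiv (some p) h) ≤ degreeOf none h := fun p =>
    degreeOf_le_iff.2 fun m hm => by simpa using monomial_le_degreeOf none (pencil_supp hm)
  rw [Dh_apply]
  exact pencil_sk (P := fun x : MvPolynomial (Option (Pr ε)) K => degreeOf none x ≤ degreeOf none h)
    (by simp) key (fun p => (degreeOf_neg _ _).trans_le (key p)) j k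

theorem pencil_dof_rename {σ : Type} (f : MvPolynomial σ K) :
    degreeOf none (rename some f : MvPolynomial (Option σ) K) = 0 := by
  refine Nat.le_zero.1 (degreeOf_le_iff.2 fun m hm => ?_)
  obtain ⟨u, rfl, -⟩ := coeff_rename_ne_zero _ _ _ (mem_support_iff.1 hm)
  rw [Finsupp.mapDomain_of_notMem_range _ _ (by simp)]

omit [Fintype ε] in
theorem pencil_dof_om (f : MvPolynomial (Pr ε) K) (j k : ε) : degreeOf none (om f j k) = 0 :=
  pencil_dof_rename _

omit [Fintype ε] in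
theorem pencil_dof_Yv (i0 i1 : ε) (f : MvPolynomial (Pr ε) K) (k : ε) :
    degreeOf none (Yv i0 i1 f k) ≤ 1 := by
  refine (degreeOf_add_le _ _ _).trans (max_le ?_ ((degreeOf_mul_le _ _ _).trans ?_)) <;>
    simp [pencil_dof_om]

theorem totalDegree_xi (i0 i1 : ε) (f : MvPolynomial (Pr ε) K) (s : ε ⊕ ε) :
    (xi i0 i1 f s).totalDegree ≤ f.totalDegree + 2 := by
  rcases s with k | i
  · exact (pencil_deg_Yv i0 i1 f k).trans (by omega)
  · refine totalDegree_finsetSum_le fun k _ => (totalDegree_mul _ _).trans ?_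
    have h1 : (Mh i k : MvPolynomial (Option (Pr ε)) K).totalDegree ≤ 1 :=
      pencil_sk (P := fun x : MvPolynomial (Option (Pr ε)) K => x.totalDegree ≤ 1) (by simp)
        (fun p => by simp) (fun p => by simp) i k
    have h2 := pencil_deg_Yv i0 i1 f k
    omega

theorem totalDegree_Vv (i0 i1 : ε) (f : MvPolynomial (Pr ε) K) (j k : ε)
    (h : MvPolynomial (Option (Pr ε)) K) :
    (Vv i0 i1 f j k h).totalDegree ≤ h.totalDegree + f.totalDegree + 1 := by
  have h1 := pencil_deg_om f i1 i0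
  have h2 := pencil_deg_Yv i0 i1 f k
  have h3 := pencil_deg_Yv i0 i1 f j
  have h4 := pencil_deg_Dh j k h
  have h5 := pencil_deg_Dh j i0 h
  have h6 := pencil_deg_Dh k i0 h
  rw [Vv_apply]
  refine (totalDegree_add _ _).trans (max_le ((totalDegree_sub _ _).trans (max_le ?_ ?_)) ?_) <;>
    refine (totalDegree_mul _ _).trans ?_ <;> omega

theorem degreeOf_Vv (i0 i1 : ε) (f : MvPolynomial (Pr ε) K) (j k : ε)
    (h : MvPolynomial (Option (Pr ε)) K) :
    degreeOf none (Vv i0 i1 f j k h) ≤ degreeOf none h + 1 := by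
  have h1 := pencil_dof_om f i1 i0
  have h2 := pencil_dof_Yv i0 i1 f k
  have h3 := pencil_dof_Yv i0 i1 f j
  have h4 := pencil_dof_Dh j k h
  have h5 := pencil_dof_Dh j i0 h
  have h6 := pencil_dof_Dh k i0 h
  rw [Vv_apply]
  refine (degreeOf_add_le _ _ _).trans
    (max_le ((degreeOf_sub_le _ _ _).trans (max_le ?_ ?_)) ?_) <;>
    refine (degreeOf_mul_le _ _ _).trans ?_ <;> omega

theorem degreeOf_rename_some {σ : Type} (f : MvPolynomial σ K) :
    degreeOf none (rename some f : MvPolynomial (Option σ) K) = 0 := by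
  exact pencil_dof_rename f

theorem degreeOf_pderiv_none {σ : Type} (h : MvPolynomial (Option σ) K) :
    degreeOf none (pderiv none h) ≤ degreeOf none h - 1 := by
  refine degreeOf_le_iff.2 fun m hm => Nat.le_sub_one_of_lt ?_
  simpa [Nat.succ_le_iff] using monomial_le_degreeOf none (pencil_supp hm)

theorem totalDegree_Th (i0 i1 : ε) (f : MvPolynomial (Pr ε) K) (j k r : ε) :
    (Th i0 i1 f j k r).totalDegree ≤ 3 * f.totalDegree + 2 := by
  have h1 := pencil_deg_om f i1 i0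
  have h2 := pencil_deg_Yv i0 i1 f r
  have h3 := totalDegree_Vv i0 i1 f j k (Yv i0 i1 f r)
  have h4 := totalDegree_Vv i0 i1 f j k (om f i1 i0)
  refine (totalDegree_sub _ _).trans (max_le ?_ ?_) <;>
    refine (totalDegree_mul _ _).trans ?_ <;> omega

theorem degreeOf_Th (i0 i1 : ε) (f : MvPolynomial (Pr ε) K) (j k r : ε) :
    degreeOf none (Th i0 i1 f j k r) ≤ 2 := by
  have h1 := pencil_dof_om f i1 i0
  have h2 := pencil_dof_Yv i0 i1 f r
  have h3 := degreeOf_Vv i0 i1 f j k (Yv i0 i1 f r)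
  have h4 := degreeOf_Vv i0 i1 f j k (om f i1 i0)
  refine (degreeOf_sub_le _ _ _).trans (max_le ?_ ?_) <;>
    refine (degreeOf_mul_le _ _ _).trans ?_ <;> omega

theorem totalDegree_Pl (i0 i1 : ε) (f : MvPolynomial (Pr ε) K) (j k : ε) :
    (Pl i0 i1 f j k).totalDegree ≤ 2 * f.totalDegree := by
  have h1 := fun j k : ε => totalDegree_Dd j k f
  refine (totalDegree_add _ _).trans (max_le ((totalDegree_sub _ _).trans (max_le ?_ ?_)) ?_) <;>
    exact (totalDegree_mul _ _).trans ((add_le_add (h1 _ _) (h1 _ _)).trans_eq (two_mul _).symm)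

variable [Infinite K]

theorem pencil_line {σ : Type} [Fintype σ] {S : Set (σ → K)} {x v : σ → K}
    (hx : ∀ t : K, (fun a => x a + t * v a) ∈ S) {f : MvPolynomial σ K} (hf : f ∈ vI S) :
    ∑ a, aeval x (pderiv a f) * v a = 0 := by
  set θ : MvPolynomial σ K →ₐ[K] Polynomial K :=
    aeval fun a => Polynomial.C (x a) + Polynomial.X * Polynomial.C (v a) with hθ
  have he : ∀ (t : K) (g : MvPolynomial σ K),
      (θ g).eval t = aeval (fun a => x a + t * v a) g := fun t g => by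
    rw [← Polynomial.coe_aeval_eq_eval, hθ, comp_aeval_apply]
    simp [mul_comm t]
  have h0 : θ f = 0 := Polynomial.funext fun t => by
    rw [he, mem_vI.1 hf _ (hx t), Polynomial.eval_zero]
  have h1 := congrArg (Polynomial.eval 0) (deriv_algHom θ Polynomial.derivative' f)
  rw [h0, map_zero, Polynomial.eval_zero, Polynomial.eval_finsetSum] at h1
  rw [h1]
  refine Finset.sum_congr rfl fun a _ => ?_
  rw [Polynomial.eval_mul, he]
  simp [hθ]

theorem pencil_W {i0 : ε} (i1 : ε) {η : ε ⊕ ε → K} (h : η (Sum.inl i0) = 1) (j k : ε)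
    {Φ : MvPolynomial (Option (Pr ε)) K} (hΦ : Φ ∈ IH i1 η) :
    Dh j k Φ - C (η (Sum.inl k)) * Dh j i0 Φ + C (η (Sum.inl j)) * Dh k i0 Φ ∈ IH i1 η := by
  set δ : Derivation K (MvPolynomial (Option (Pr ε)) K) (MvPolynomial (Option (Pr ε)) K) :=
    Dh j k - (C (η (Sum.inl k)) : MvPolynomial (Option (Pr ε)) K) • Dh j i0 +
      (C (η (Sum.inl j)) : MvPolynomial (Option (Pr ε)) K) • Dh k i0
  have hδ : ∀ g, δ g =
    Dh j k g - C (η (Sum.inl k)) * Dh j i0 g + C (η (Sum.inl j)) * Dh k i0 g := fun g => rfl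
  refine mem_vI.2 fun x hx => ?_
  rw [← hδ, deriv_eq_sum, map_sum]
  simp only [map_mul]
  refine pencil_line (fun t => ?_) hΦ
  refine ⟨fun a => ?_, ?_⟩
  · have h1 := congrArg (aeval x) (pencil_sum_W i0
      (fun b => (C (η (Sum.inl b)) : MvPolynomial (Option (Pr ε)) K)) j k a)
    simp only [h, C_1, one_mul, ← hδ, map_sum, map_mul, aeval_C, Algebra.algebraMap_self_apply,
      map_zero] at h1
    have h2 : ∀ b, sk (fun p => x (some p) + t * aeval x (δ (X (some p)))) a b =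
        sk (fun p => x (some p)) a b + t * aeval x (δ (Mh a b)) := fun b => by
      simp only [Mh, sk]
      split_ifs <;> simp
      ring
    simp only [h2, add_mul, mul_assoc, Finset.sum_add_distrib, ← Finset.mul_sum, h1, hx.1 a,
      mul_zero, add_zero]
  · simp [hδ, pencil_Dh_none, hx.2]

/-- the differential of a polynomial vanishing on a flat. -/
theorem Dd_form {i0 : ε} {η : ε ⊕ ε → K} (h : Nrm i0 η) {f : MvPolynomial (Pr ε) K}
    (hf : f ∈ IL η) (j k : ε) :
    Dd j k f - (C (η (Sum.inl k)) * Dd j i0 f - C (η (Sum.inl j)) * Dd k i0 f) ∈ IL η := by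
  have h1 := pencil_W i0 h.1 j k (rename_mem_IH.2 hf)
  rw [← rename_mem_IH (i1 := i0)]
  simp only [map_sub, map_mul, rename_C, ← Dh_rename]
  rwa [← sub_add]

theorem xi_sub_mem {i0 : ε} (i1 : ε) {η : ε ⊕ ε → K} (h : Nrm i0 η) {f : MvPolynomial (Pr ε) K}
    (hf : f ∈ IL η) (s : ε ⊕ ε) : xi i0 i1 f s - C (η s) * om f i1 i0 ∈ IH i1 η := by
  have hY : ∀ k, Yv i0 i1 f k - C (η (Sum.inl k)) * om f i1 i0 ∈ IH i1 η := fun k => by
    have h1 := (rename_mem_IH (i1 := i1)).2 (Dd_form h hf i1 k)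
    have h2 : (X none - C (η (Sum.inl i1)) : MvPolynomial (Option (Pr ε)) K) ∈ IH i1 η :=
      mem_IH.2 fun M _ => by simp
    have h3 := add_mem h1 (Ideal.mul_mem_right (om f k i0) _ h2)
    simp only [map_sub, map_mul, rename_C] at h3
    refine (congrArg (· ∈ IH i1 η) ?_).mp h3
    simp only [Yv, om]
    ring
  rcases s with k | i
  · exact hY k
  · have h2 : ∑ k, Mh i k * C (η (Sum.inl k)) - C (η (Sum.inr i)) ∈ IH i1 η :=
      mem_IH.2 fun M hM => by simpa [Mh, map_sk, sub_eq_zero] using hM i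
    have h3 := add_mem (Ideal.sum_mem _ fun k (_ : k ∈ Finset.univ) =>
      Ideal.mul_mem_left _ (Mh i k) (hY k)) (Ideal.mul_mem_right (om f i1 i0) _ h2)
    refine (congrArg (· ∈ IH i1 η) ?_).mp h3
    simp only [xi, Sum.elim_inr, Zv, mul_sub, sub_mul, Finset.sum_sub_distrib, Finset.sum_mul,
      mul_assoc]
    ring

theorem Vv_mem_IH {i0 : ε} (i1 : ε) {η : ε ⊕ ε → K} (h : Nrm i0 η) {f : MvPolynomial (Pr ε) K}
    (hf : f ∈ IL η) (j k : ε) {Φ : MvPolynomial (Option (Pr ε)) K} (hΦ : Φ ∈ IH i1 η) :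
    Vv i0 i1 f j k Φ ∈ IH i1 η := by
  have h3 := add_mem (sub_mem (Ideal.mul_mem_left _ (om f i1 i0) (pencil_W i1 h.1 j k hΦ))
    (Ideal.mul_mem_right (Dh j i0 Φ) _ (xi_sub_mem i1 h hf (Sum.inl k))))
    (Ideal.mul_mem_right (Dh k i0 Φ) _ (xi_sub_mem i1 h hf (Sum.inl j)))
  refine (congrArg (· ∈ IH i1 η) ?_).mp h3
  simp only [Vv_apply, xi, Sum.elim_inl]
  ring

theorem Th_mem_IH {i0 : ε} (i1 : ε) {η : ε ⊕ ε → K} (h : Nrm i0 η) {f : MvPolynomial (Pr ε) K}
    (hf : f ∈ IL η) (j k r : ε) : Th i0 i1 f j k r ∈ IH i1 η := by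
  have h1 := xi_sub_mem i1 h hf (Sum.inl r)
  have h3 := sub_mem (Ideal.mul_mem_left _ (om f i1 i0) (Vv_mem_IH i1 h hf j k h1))
    (Ideal.mul_mem_right (Vv i0 i1 f j k (om f i1 i0)) _ h1)
  refine (congrArg (· ∈ IH i1 η) ?_).mp h3
  simp only [Th, xi, Sum.elim_inl, map_sub, C_mul', Derivation.map_smul]
  simp only [← C_mul']
  ring

theorem Pl_mem_IL {i0 : ε} (i1 : ε) {η : ε ⊕ ε → K} (h : Nrm i0 η) {f : MvPolynomial (Pr ε) K}
    (hf : f ∈ IL η) (j k : ε) : Pl i0 i1 f j k ∈ IL η := by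
  rw [← rename_mem_IH (i1 := i1), ← Vv_self]
  exact Vv_mem_IH i1 h hf j k (rename_mem_IH.2 hf)

theorem exists_kappa {i0 : ε} {η : ε ⊕ ε → K} (h : Nrm i0 η) {f : MvPolynomial (Pr ε) K}
    (hf : f ∈ IL η) {p : Pr ε} (hp : pderiv p f ∉ IL η) :
    ∃ i1, i1 ≠ i0 ∧ Dd i1 i0 f ∉ IL η := by
  by_contra! hc
  have h1 : ∀ j, Dd j i0 f ∈ IL η := fun j => by
    rcases eq_or_ne j i0 with rfl | hj
    · rw [Dd_apply, sk_self]
      exact zero_mem _
    · exact hc j hj
  have h2 := add_mem (Dd_form h hf p.1.1 p.1.2)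
    (sub_mem (Ideal.mul_mem_left _ (C (η (Sum.inl p.1.2))) (h1 p.1.1))
      (Ideal.mul_mem_left _ (C (η (Sum.inl p.1.1))) (h1 p.1.2)))
  rw [sub_add_cancel, Dd_apply, sk_of_lt (fun p => pderiv p f)] at h2
  exact hp h2

theorem exists_pderiv_of_Dd {I : Ideal (MvPolynomial (Pr ε) K)} {f : MvPolynomial (Pr ε) K}
    (j k : ε) (hjk : j ≠ k) : ∃ p : Pr ε, (pderiv p f ∈ I ↔ Dd j k f ∈ I) ∧
      ∀ M : Pr ε → K, (aeval M (pderiv p f) = 0 ↔ aeval M (Dd j k f) = 0) := by
  rw [Dd_apply, sk]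
  rcases lt_or_gt_of_ne hjk with h | h
  · exact ⟨⟨(j, k), h⟩, by simp [h]⟩
  · exact ⟨⟨(k, j), h⟩, by simp [h, h.not_gt]⟩

/-- on the intersection of two flats all differentials are proportional. -/
theorem minor_mem_IL2 {i0 : ε} {η η' : ε ⊕ ε → K} (h : Nrm i0 η) (h' : Nrm i0 η')
    (hne : ∃ j, η (Sum.inl j) ≠ η' (Sum.inl j)) {f g : MvPolynomial (Pr ε) K} (hf : f ∈ IL η)
    (hf' : f ∈ IL η') (hg : g ∈ IL η) (hg' : g ∈ IL η') (a b : Pr ε) :
    pderiv a f * pderiv b g - pderiv b f * pderiv a g ∈ IL2 η η' := by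
  obtain ⟨j0, hj0⟩ := hne
  refine mem_vI.2 fun M hM => ?_
  have key : ∀ f : MvPolynomial (Pr ε) K, f ∈ IL η → f ∈ IL η' → ∀ p : Pr ε,
      aeval M (pderiv p f) = aeval M (Dd j0 i0 f) * ((η' (Sum.inl p.1.2) * η (Sum.inl p.1.1) -
        η' (Sum.inl p.1.1) * η (Sum.inl p.1.2)) / (η (Sum.inl j0) - η' (Sum.inl j0))) := by
    intro f hf hf' p
    have e1 := fun j k => mem_vI.1 (Dd_form h hf j k) M hM.1
    have e2 := fun j k => mem_vI.1 (Dd_form h' hf' j k) M hM.2
    simp only [map_sub, map_mul, aeval_C, Algebra.algebraMap_self_apply] at e1 e2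
    rw [← sk_of_lt (fun p => pderiv p f), ← Dd_apply, ← mul_div_assoc,
      eq_div_iff (sub_ne_zero.2 hj0)]
    linear_combination (η (Sum.inl j0) - η' (Sum.inl j0)) * e1 p.1.1 p.1.2 +
      η (Sum.inl p.1.2) * (e1 j0 p.1.1 - e2 j0 p.1.1) - η (Sum.inl p.1.1) * (e1 j0 p.1.2 - e2 j0 p.1.2)
  simp only [map_sub, map_mul, key f hf hf', key g hg hg']
  ring

/-- two independent equations determine the parameter of the pencil. -/
theorem exists_pderiv_Vv {i0 i1 : ε} {η : ε ⊕ ε → K} (h : Nrm i0 η) {ι : Type} [Fintype ι]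
    {g : ι → MvPolynomial (Pr ε) K} (hg : ∀ i, g i ∈ IL η) (hs : Sm g (IL η)) {i i' : ι}
    (hi : i ≠ i') (hκ : Dd i1 i0 (g i) ∉ IL η) :
    ∃ j k, pderiv none (Vv i0 i1 (g i) j k (rename some (g i'))) ∉ IH i1 η := by
  classical
  by_contra! hc
  have h0 : ∀ u : MvPolynomial (Pr ε) K,
      pderiv none (rename some u : MvPolynomial (Option (Pr ε)) K) = 0 := fun u =>
    pderiv_eq_zero_of_notMem_vars fun hv => by
      obtain ⟨a, -, ha⟩ := Finset.mem_image.1 (vars_rename _ _ hv)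
      exact absurd ha (by simp)
  have h1 : ∀ k, Dd i1 i0 (g i) * Dd k i0 (g i') - Dd k i0 (g i) * Dd i1 i0 (g i') ∈ IL η := by
    intro k
    have h2 := hc i1 k
    rw [← rename_mem_IH (i1 := i1)]
    refine (congrArg (· ∈ IH i1 η) ?_).mp h2
    simp only [Vv_apply, Dh_rename, Yv, om, map_add, map_sub, map_mul, Derivation.leibniz, h0,
      smul_eq_mul, pderiv_X_self]
    ring
  have h3 := hs (Pi.single i' (Dd i1 i0 (g i)) - Pi.single i (Dd i1 i0 (g i'))) (fun p => ?_) i'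
  · simp [hi.symm, hκ] at h3
  · have h4 := add_mem (sub_mem (Ideal.mul_mem_left _ (Dd i1 i0 (g i)) (Dd_form h (hg i') p.1.1 p.1.2))
      (Ideal.mul_mem_left _ (Dd i1 i0 (g i')) (Dd_form h (hg i) p.1.1 p.1.2)))
      (sub_mem (Ideal.mul_mem_left _ (C (η (Sum.inl p.1.2))) (h1 p.1.1))
        (Ideal.mul_mem_left _ (C (η (Sum.inl p.1.1))) (h1 p.1.2)))
    have h5 : ∀ u : MvPolynomial (Pr ε) K, Dd p.1.1 p.1.2 u = pderiv p u := fun u => by
      rw [Dd_apply, sk_of_lt (fun p => pderiv p u)]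
    refine (congrArg (· ∈ IL η) ?_).mp h4
    simp only [Pi.sub_apply, sub_mul, Finset.sum_sub_distrib, Pi.single_apply, ite_mul, zero_mul,
      Finset.sum_ite_eq', Finset.mem_univ, if_true, h5]
    ring

end

end Vale.Agent.P054
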