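import Vale.Agent.P054.Defs

/-!
Auxiliary lemmas for the Taylor maps: first order expansion, Newton iteration.
-/

namespace Vale.Agent.P054

open MvPolynomial

noncomputable section

section first

variable {K : Type} [Field K] {σ : Type} {A : Type} [CommRing A] [Algebra K A]

theorem taylor_zero (I : Ideal A) {π : σ → K} {x : σ → A}
    (hx : ∀ k, x k - algebraMap K A (π k) ∈ I) (f : MvPolynomial σ K) :
    aeval x f - algebraMap K A (aeval π f) ∈ I := by
  induction f using MvPolynomial.induction_on with
  | C a => simp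
  | add p q hp hq =>
    have := I.add_mem hp hq
    simp only [map_add]
    have e : aeval x p + aeval x q - (algebraMap K A (aeval π p) + algebraMap K A (aeval π q))
        = aeval x p - algebraMap K A (aeval π p) + (aeval x q - algebraMap K A (aeval π q)) := by
      ring
    rw [e]; exact this
  | mul_X p k hp =>
    simp only [map_mul, aeval_X]
    have e : aeval x p * x k - algebraMap K A (aeval π p) * algebraMap K A (π k)
        = (aeval x p - algebraMap K A (aeval π p)) * x k
          + algebraMap K A (aeval π p) * (x k - algebraMap K A (π k)) := by ring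
    rw [e]
    exact I.add_mem (I.mul_mem_right _ hp) (I.mul_mem_left _ (hx k))

theorem taylor_one {ι : Type} [Fintype ι] (I J : Ideal A) {π : σ → K} {x y : σ → A}
    (hx : ∀ k, x k - algebraMap K A (π k) ∈ I) (hy : ∀ k, y k - algebraMap K A (π k) ∈ I)
    (c : ι → σ) (h : ι → A) (hh : ∀ i, h i ∈ J)
    (hxy : ∀ k, x k - y k =
      ∑ i, algebraMap K A (aeval π (pderiv (c i) (X k : MvPolynomial σ K))) * h i)
    (f : MvPolynomial σ K) :
    aeval x f - aeval y f - ∑ i, algebraMap K A (aeval π (pderiv (c i) f)) * h i ∈ I * J := by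
  induction f using MvPolynomial.induction_on with
  | C a => simp
  | add p q hp hq =>
    have := (I * J).add_mem hp hq
    simp only [map_add, add_mul, Finset.sum_add_distrib]
    have e : aeval x p + aeval x q - (aeval y p + aeval y q)
        - (∑ i, algebraMap K A (aeval π (pderiv (c i) p)) * h i
          + ∑ i, algebraMap K A (aeval π (pderiv (c i) q)) * h i)
        = aeval x p - aeval y p - ∑ i, algebraMap K A (aeval π (pderiv (c i) p)) * h i
          + (aeval x q - aeval y q - ∑ i, algebraMap K A (aeval π (pderiv (c i) q)) * h i) := by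
      ring
    rw [e]; exact this
  | mul_X p k hp =>
    have hS : ∑ i, algebraMap K A (aeval π (pderiv (c i) p)) * h i ∈ J :=
      J.sum_mem fun i _ => J.mul_mem_left _ (hh i)
    have hd : x k - y k ∈ J := by
      rw [hxy k]; exact J.sum_mem fun i _ => J.mul_mem_left _ (hh i)
    have e1 : ∑ i, algebraMap K A (aeval π (pderiv (c i) (p * X k))) * h i
        = algebraMap K A (π k) * ∑ i, algebraMap K A (aeval π (pderiv (c i) p)) * h i
          + algebraMap K A (aeval π p) * (x k - y k) := by
      rw [hxy k, Finset.mul_sum, Finset.mul_sum, ← Finset.sum_add_distrib]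
      refine Finset.sum_congr rfl fun i _ => ?_
      rw [Derivation.leibniz]
      simp only [smul_eq_mul, map_add, map_mul, aeval_X]
      ring
    rw [e1]
    simp only [map_mul, aeval_X]
    set S := ∑ i, algebraMap K A (aeval π (pderiv (c i) p)) * h i with hSdef
    have e : aeval x p * x k - aeval y p * y k
        - (algebraMap K A (π k) * S + algebraMap K A (aeval π p) * (x k - y k))
        = (aeval x p - algebraMap K A (aeval π p)) * (x k - y k)
          + y k * (aeval x p - aeval y p - S) + (y k - algebraMap K A (π k)) * S := by ring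
    rw [e]
    exact (I * J).add_mem ((I * J).add_mem (Ideal.mul_mem_mul (taylor_zero I hx p) hd)
      ((I * J).mul_mem_left _ hp)) (Ideal.mul_mem_mul (hy k) hS)

end first

section newton

variable {A : Type} [CommRing A] {ι : Type}

theorem taylor_fix (I : Ideal A) [IsAdicComplete I A] (F : (ι → A) → (ι → A))
    (h0 : ∀ i, F 0 i ∈ I)
    (hF : ∀ (n : ℕ) (u v : ι → A), (∀ i, u i ∈ I) → (∀ i, v i ∈ I) → (∀ i, u i - v i ∈ I ^ n) →
      ∀ i, F u i - F v i ∈ I ^ (n + 1)) :
    ∃ u : ι → A, (∀ i, u i ∈ I) ∧ F u = u := by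
  have hI : ∀ u : ι → A, (∀ i, u i ∈ I) → ∀ i, F u i ∈ I := by
    intro u hu i
    have h1 := hF 0 u 0 hu (fun _ => I.zero_mem) (fun _ => by simp) i
    rw [zero_add, pow_one] at h1
    have := I.add_mem h1 (h0 i)
    simpa using this
  let s : ℕ → ι → A := fun n => F^[n] 0
  have hs : ∀ n, s (n + 1) = F (s n) := fun n => Function.iterate_succ_apply' F n 0
  have hsI : ∀ n i, s n i ∈ I := by
    intro n
    induction n with
    | zero => intro i; exact I.zero_mem
    | succ n ih => intro i; rw [hs]; exact hI _ ih i
  have hstep : ∀ n i, s (n + 1) i - s n i ∈ I ^ n := by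
    intro n
    induction n with
    | zero => intro i; simp
    | succ n ih =>
      intro i
      have := hF n (s (n + 1)) (s n) (hsI _) (hsI _) ih i
      rw [← hs, ← hs] at this
      exact this
  have hc : ∀ i, ∀ {m n : ℕ}, m ≤ n → s m i ≡ s n i [SMOD (I ^ m • ⊤ : Submodule A A)] := by
    intro i m n hmn
    rw [SModEq.sub_mem, smul_eq_mul, Ideal.mul_top]
    induction n, hmn using Nat.le_induction with
    | base => simp
    | succ n hmn ih =>
      have h1 : s (n + 1) i - s n i ∈ I ^ m := Ideal.pow_le_pow_right hmn (hstep n i)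
      have := (I ^ m).sub_mem ih h1
      have e : s m i - s (n + 1) i = s m i - s n i - (s (n + 1) i - s n i) := by ring
      rw [e]; exact this
  have hL : ∀ i, ∃ L : A, ∀ n, s n i - L ∈ I ^ n := by
    intro i
    obtain ⟨L, hL⟩ := IsPrecomplete.prec' (I := I) (M := A) (fun n => s n i) (hc i)
    refine ⟨L, fun n => ?_⟩
    have := hL n
    rwa [SModEq.sub_mem, smul_eq_mul, Ideal.mul_top] at this
  choose L hL using hL
  have hLI : ∀ i, L i ∈ I := by
    intro i
    have h1 := hL i 1
    rw [pow_one] at h1
    have := I.sub_mem (hsI 1 i) h1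
    simpa using this
  refine ⟨L, hLI, funext fun i => ?_⟩
  have : F L i - L i = 0 := by
    refine IsHausdorff.haus' (I := I) (M := A) _ fun n => ?_
    rw [SModEq.sub_mem, smul_eq_mul, Ideal.mul_top, sub_zero]
    have h1 := hF n (s n) L (hsI n) hLI (fun j => hL j n) i
    rw [← hs] at h1
    have h2 := hL i (n + 1)
    have h3 := (I ^ (n + 1)).sub_mem h2 h1
    have e : F L i - L i = s (n + 1) i - L i - (s (n + 1) i - F L i) := by ring
    rw [e]
    exact Ideal.pow_le_pow_right (Nat.le_succ n) h3
  exact sub_eq_zero.mp this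

end newton

section hensel

variable {K : Type} [Field K] {σ : Type} {A : Type} [CommRing A] [Algebra K A]
  {ι : Type} [Fintype ι] [DecidableEq ι]

/-- the Jacobian matrix at a rational point. -/
def taylorJ (g : ι → MvPolynomial σ K) (c : ι → σ) (π : σ → K) : Matrix ι ι K :=
  Matrix.of fun i i' => aeval π (pderiv (c i') (g i))

theorem taylorJ_det (g : ι → MvPolynomial σ K) (c : ι → σ) (π : σ → K) :
    (taylorJ g c π).det = aeval π (Jac g c) := by
  unfold Jac
  rw [AlgHom.map_det]
  rfl

theorem taylor_inv_sum {M : Type} [AddCommGroup M] [Module K M] (J : Matrix ι ι K)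
    (hJ : J.det ≠ 0) (z : ι → M) (i : ι) :
    ∑ j, J⁻¹ i j • ∑ i', J j i' • z i' = z i := by
  have h1 : J⁻¹ * J = 1 := Matrix.nonsing_inv_mul J (Ne.isUnit hJ)
  simp_rw [Finset.smul_sum, smul_smul]
  rw [Finset.sum_comm]
  simp_rw [← Finset.sum_smul]
  have h2 : ∀ i', ∑ j, J⁻¹ i j * J j i' = if i = i' then 1 else 0 := by
    intro i'
    have := congrFun (congrFun h1 i) i'
    rw [Matrix.mul_apply, Matrix.one_apply] at this
    exact this
  simp_rw [h2]
  simp

theorem taylor_hensel (I : Ideal A) [IsAdicComplete I A] (g : ι → MvPolynomial σ K) (c : ι → σ)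
    (π : σ → K) (hg : ∀ i, aeval π (g i) = 0) (hJ : aeval π (Jac g c) ≠ 0) (y : σ → A)
    (hy : ∀ k, y k - algebraMap K A (π k) ∈ I) :
    ∃ u : ι → A, (∀ i, u i ∈ I) ∧ ∀ i, aeval (fun k => y k +
      ∑ i, algebraMap K A (aeval π (pderiv (c i) (X k : MvPolynomial σ K))) * u i) (g i) = 0 := by
  let x : (ι → A) → σ → A := fun u k => y k +
      ∑ i, algebraMap K A (aeval π (pderiv (c i) (X k : MvPolynomial σ K))) * u i
  have hx : ∀ u : ι → A, (∀ i, u i ∈ I) → ∀ k, x u k - algebraMap K A (π k) ∈ I := by
    intro u hu k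
    have h1 : ∑ i, algebraMap K A (aeval π (pderiv (c i) (X k : MvPolynomial σ K))) * u i ∈ I :=
      I.sum_mem fun i _ => I.mul_mem_left _ (hu i)
    have := I.add_mem (hy k) h1
    have e : x u k - algebraMap K A (π k) = y k - algebraMap K A (π k) +
      ∑ i, algebraMap K A (aeval π (pderiv (c i) (X k : MvPolynomial σ K))) * u i := by
      simp only [x]; ring
    rw [e]; exact this
  set J := taylorJ g c π with hJdef
  have hdet : J.det ≠ 0 := by rw [hJdef, taylorJ_det]; exact hJ
  let F : (ι → A) → (ι → A) := fun u i => u i - ∑ j, J⁻¹ i j • aeval (x u) (g j)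
  obtain ⟨u, hu, hF⟩ := taylor_fix I F (by
      intro i
      simp only [F, Pi.zero_apply, zero_sub]
      refine I.neg_mem (I.sum_mem fun j _ => ?_)
      rw [Algebra.smul_def]
      refine I.mul_mem_left _ ?_
      have := taylor_zero I (hx 0 fun _ => I.zero_mem) (g j)
      rwa [hg j, map_zero, sub_zero] at this) (by
      intro n u v hu hv huv i
      have hT : ∀ j, aeval (x u) (g j) - aeval (x v) (g j) - ∑ i', J j i' • (u i' - v i')
          ∈ I ^ (n + 1) := by
        intro j
        have := taylor_one I (I ^ n) (hx u hu) (hx v hv) c (fun i => u i - v i) huv (by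
          intro k
          simp only [x, mul_sub, Finset.sum_sub_distrib]
          ring) (g j)
        rw [← pow_succ'] at this
        simp_rw [Algebra.smul_def]
        exact this
      have e : F u i - F v i = -∑ j, J⁻¹ i j •
          (aeval (x u) (g j) - aeval (x v) (g j) - ∑ i', J j i' • (u i' - v i')) := by
        simp only [smul_sub (J⁻¹ i _), Finset.sum_sub_distrib]
        rw [taylor_inv_sum J hdet (fun i' => u i' - v i') i]
        simp only [F]
        ring
      rw [e]
      refine (I ^ (n + 1)).neg_mem ((I ^ (n + 1)).sum_mem fun j _ => ?_)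
      rw [Algebra.smul_def]
      exact (I ^ (n + 1)).mul_mem_left _ (hT j))
  refine ⟨u, hu, fun i => ?_⟩
  have h1 : ∀ i, ∑ j, J⁻¹ i j • aeval (x u) (g j) = 0 := by
    intro i
    have := congrFun hF i
    simp only [F] at this
    exact sub_eq_self.mp this
  have hdet' : (J⁻¹).det ≠ 0 := by
    have := Matrix.isUnit_nonsing_inv_det J (Ne.isUnit hdet)
    exact this.ne_zero
  have h2 := taylor_inv_sum J⁻¹ hdet' (fun j => aeval (x u) (g j)) i
  simp only [h1, smul_zero, Finset.sum_const_zero] at h2
  exact h2.symm

end hensel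

section series

variable {K : Type} [Field K] {ρ : Type}

theorem taylor_mem_span [Fintype ρ] {f : MvPowerSeries ρ K}
    (hf : MvPowerSeries.constantCoeff f = 0) :
    f ∈ (Ideal.span (Set.range MvPowerSeries.X) : Ideal (MvPowerSeries ρ K)) := by
  classical
  have hj : ∀ d : ρ →₀ ℕ, d ≠ 0 → ∃ j, d j ≠ 0 := by
    intro d hd
    by_contra hcon
    push Not at hcon
    exact hd (Finsupp.ext hcon)
  choose j hj using hj
  let p : ρ → MvPowerSeries ρ K := fun r d =>
    if h : d ≠ 0 then (if j d h = r then MvPowerSeries.coeff d f else 0) else 0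
  have hp : ∀ r d, MvPowerSeries.coeff d (p r) =
      if h : d ≠ 0 then (if j d h = r then MvPowerSeries.coeff d f else 0) else 0 :=
    fun _ _ => rfl
  have e : f = ∑ r, p r := by
    ext d
    rw [map_sum]
    simp_rw [hp]
    by_cases hd : d = 0
    · subst hd
      simpa using hf
    · simp [hd]
  rw [e]
  refine Ideal.sum_mem _ fun r _ => ?_
  have hdvd : MvPowerSeries.X r ∣ p r := by
    rw [MvPowerSeries.X_dvd_iff]
    intro m hm
    rw [hp]
    split_ifs with h1 h2
    · exact absurd (h2 ▸ hm) (hj m h1)
    · rfl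
    · rfl
  obtain ⟨q, hq⟩ := hdvd
  rw [hq]
  exact Ideal.mul_mem_right _ _ (Ideal.subset_span ⟨r, rfl⟩)

theorem taylor_const_of_mem {f : MvPowerSeries ρ K}
    (hf : f ∈ (Ideal.span (Set.range MvPowerSeries.X) : Ideal (MvPowerSeries ρ K))) :
    MvPowerSeries.constantCoeff f = 0 := by
  have : (Ideal.span (Set.range MvPowerSeries.X) : Ideal (MvPowerSeries ρ K)) ≤
      RingHom.ker MvPowerSeries.constantCoeff := by
    rw [Ideal.span_le]
    rintro _ ⟨r, rfl⟩
    simp [RingHom.mem_ker]
  exact this hf

theorem taylor_order_pow (n : ℕ) {f : MvPowerSeries ρ K}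
    (hf : f ∈ (RingHom.ker (MvPowerSeries.constantCoeff (σ := ρ) (R := K))) ^ n) :
    (n : ℕ∞) ≤ f.order := by
  induction n generalizing f with
  | zero => simp
  | succ n ih =>
    rw [pow_succ] at hf
    refine Submodule.mul_induction_on hf ?_ ?_
    · intro a ha b hb
      have h1 := ih ha
      have h2 : (1 : ℕ∞) ≤ b.order :=
        MvPowerSeries.one_le_order_iff_constCoeff_eq_zero.mpr hb
      refine le_trans ?_ MvPowerSeries.le_order_mul
      push_cast
      exact add_le_add h1 h2
    · intro a b ha hb
      exact le_trans (le_min ha hb) MvPowerSeries.min_order_le_add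

end series

end

end Vale.Agent.P054
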