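import Vale.Agent.P054.Jac
import Vale.Agent.P054.TaylorAux

namespace Vale.Agent.P054

open MvPolynomial

noncomputable section

variable {K : Type} [Field K] {σ : Type} [Fintype σ] {ι : Type} [Fintype ι] [DecidableEq ι]
  {ρ : Type} [Fintype ρ]

omit [Fintype σ] [Fintype ρ] in
theorem taylor_const_aeval {π : σ → K} {x : σ → MvPowerSeries ρ K}
    (hx : ∀ k, MvPowerSeries.constantCoeff (x k) = π k) (f : MvPolynomial σ K) :
    MvPowerSeries.constantCoeff (aeval x f) = aeval π f := by
  induction f using MvPolynomial.induction_on with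
  | C a => simp [MvPowerSeries.algebraMap_apply]
  | add p q hp hq => simp only [map_add, hp, hq]
  | mul_X p k hp => simp only [map_mul, hp, aeval_X, hx]

/-- implicit function theorem in formal power series. -/
theorem exists_tay {g : ι → MvPolynomial σ K} {c : ι → σ} {e : ρ → σ} (h : Compl c e)
    {π : σ → K} (hg : ∀ i, aeval π (g i) = 0) (hJ : aeval π (Jac g c) ≠ 0) :
    ∃ θ, Tay g e π θ := by
  classical
  let I : Ideal (MvPowerSeries ρ K) := Ideal.span (Set.range MvPowerSeries.X)
  let y : σ → MvPowerSeries ρ K := fun k =>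
    MvPowerSeries.C (π k) + ∑ r, if k = e r then MvPowerSeries.X r else 0
  have hy : ∀ k, y k - algebraMap K (MvPowerSeries ρ K) (π k) ∈ I := by
    intro k
    have e1 : y k - algebraMap K (MvPowerSeries ρ K) (π k)
        = ∑ r, if k = e r then MvPowerSeries.X r else 0 := by
      simp [y, MvPowerSeries.algebraMap_apply]
    rw [e1]
    refine I.sum_mem fun r _ => ?_
    split_ifs
    · exact Ideal.subset_span ⟨r, rfl⟩
    · exact I.zero_mem
  obtain ⟨u, hu, hk⟩ := taylor_hensel I g c π hg hJ y hy
  refine ⟨aeval (fun k => y k + ∑ i, algebraMap K (MvPowerSeries ρ K)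
    (aeval π (pderiv (c i) (X k : MvPolynomial σ K))) * u i), ?_, ?_, hk⟩
  · refine taylor_const_aeval fun k => ?_
    have h1 := taylor_const_of_mem (hy k)
    have h2 : MvPowerSeries.constantCoeff (∑ i, algebraMap K (MvPowerSeries ρ K)
        (aeval π (pderiv (c i) (X k : MvPolynomial σ K))) * u i) = 0 :=
      taylor_const_of_mem (I.sum_mem fun i _ => I.mul_mem_left _ (hu i))
    rw [map_add, h2, add_zero]
    rw [map_sub, sub_eq_zero] at h1
    rw [h1]
    simp [MvPowerSeries.algebraMap_apply]
  · intro r
    rw [aeval_X]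
    have h1 : ∀ i, pderiv (c i) (X (e r) : MvPolynomial σ K) = 0 := by
      intro i
      refine pderiv_X_of_ne ?_
      intro hc
      exact (h.2.2 (e r)).mp ⟨i, hc.symm⟩ ⟨r, rfl⟩
    simp only [h1, map_zero, zero_mul, Finset.sum_const_zero, add_zero, y, h.2.1.eq_iff]
    simp

omit [Fintype ρ] in
/-- approximation by polynomials in the free coordinates. -/
theorem taylor_approx {g : ι → MvPolynomial σ K} {c : ι → σ} {e : ρ → σ} (h : Compl c e)
    {π : σ → K} (hg : ∀ i, aeval π (g i) = 0) (hJ : aeval π (Jac g c) ≠ 0) (N : ℕ)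
    (f : MvPolynomial σ K) :
    ∃ P : MvPolynomial ρ K, f - aeval (fun r => (X (e r) - C (π (e r)) : MvPolynomial σ K)) P ∈
      Ideal.span (Set.range g) ⊔ kr K π ^ (N + 1) := by
  classical
  set m := kr K π with hm
  set G := Ideal.span (Set.range g) with hG
  set y : ρ → MvPolynomial σ K := fun r => X (e r) - C (π (e r)) with hy
  have hGm : G ≤ m := by
    rw [hG, Ideal.span_le]
    rintro _ ⟨i, rfl⟩
    exact hg i
  have hz : ∀ k, (X k : MvPolynomial σ K) - C (π k) ∈ m := by
    intro k
    rw [hm, mem_kr]; simp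
  induction N generalizing f with
  | zero =>
    refine ⟨C (aeval π f), Ideal.mem_sup_right ?_⟩
    rw [zero_add, pow_one, hm, mem_kr]
    simp
  | succ N ih =>
    set T := G ⊔ m ^ (N + 1 + 1) with hT
    let S : Subalgebra K (MvPolynomial σ K) :=
      { carrier := {f | ∃ P : MvPolynomial ρ K, f - aeval y P ∈ T}
        mul_mem' := by
          rintro a b ⟨P, hP⟩ ⟨Q, hQ⟩
          refine ⟨P * Q, ?_⟩
          have e1 : a * b - aeval y (P * Q) = a * (b - aeval y Q) + aeval y Q * (a - aeval y P) := by
            rw [map_mul]; ring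
          rw [e1]
          exact T.add_mem (T.mul_mem_left _ hQ) (T.mul_mem_left _ hP)
        add_mem' := by
          rintro a b ⟨P, hP⟩ ⟨Q, hQ⟩
          refine ⟨P + Q, ?_⟩
          have e1 : a + b - aeval y (P + Q) = (a - aeval y P) + (b - aeval y Q) := by
            rw [map_add]; ring
          rw [e1]
          exact T.add_mem hP hQ
        algebraMap_mem' := by
          intro a
          exact ⟨C a, by simp⟩ }
    have hS : ∀ a, a ∈ S ↔ ∃ P : MvPolynomial ρ K, a - aeval y P ∈ T := fun a => Iff.rfl
    have hTm : ∀ a ∈ m, ∀ b ∈ G ⊔ m ^ (N + 1), a * b ∈ T := by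
      intro a ha b hb
      obtain ⟨b1, hb1, b2, hb2, rfl⟩ := Submodule.mem_sup.mp hb
      rw [mul_add]
      refine T.add_mem (Ideal.mem_sup_left (G.mul_mem_left _ hb1)) (Ideal.mem_sup_right ?_)
      rw [pow_succ' m (N + 1)]
      exact Ideal.mul_mem_mul ha hb2
    have hmm : ∀ a ∈ m * m, a ∈ S := by
      intro a ha
      refine Submodule.mul_induction_on ha ?_ fun a b ha hb => S.add_mem ha hb
      intro u hu v hv
      obtain ⟨P, hP⟩ := ih u
      obtain ⟨Q, hQ⟩ := ih v
      have hQm : aeval y Q ∈ m := by
        have h1 : G ⊔ m ^ (N + 1) ≤ m := sup_le hGm (Ideal.pow_le_self (Nat.succ_ne_zero N))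
        have := m.sub_mem hv (h1 hQ)
        simpa using this
      refine ⟨P * Q, ?_⟩
      have e1 : u * v - aeval y (P * Q) = u * (v - aeval y Q) + aeval y Q * (u - aeval y P) := by
        rw [map_mul]; ring
      rw [e1]
      exact T.add_mem (hTm _ hu _ hQ) (hTm _ hQm _ hP)
    have hGS : ∀ i, g i ∈ S := by
      intro i
      refine ⟨0, ?_⟩
      rw [map_zero, sub_zero]
      exact Ideal.mem_sup_left (Ideal.subset_span ⟨i, rfl⟩)
    have hyS : ∀ r, y r ∈ S := fun r => ⟨X r, by simp⟩
    have hlin : ∀ i, ∑ k, aeval π (pderiv k (g i)) • ((X k : MvPolynomial σ K) - C (π k)) ∈ S := by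
      intro i
      have h1 := taylor_one (A := MvPolynomial σ K) m m (π := π) (x := X) (y := fun k => C (π k))
        hz (fun k => by simp) id (fun k => X k - C (π k)) hz (by
          intro k
          simp [pderiv_X, Pi.single_apply, apply_ite]) (g i)
      have h2 : aeval (fun k => (C (π k) : MvPolynomial σ K)) (g i) = 0 := by
        have := aeval_algebraMap_apply (MvPolynomial σ K) π (g i)
        rw [hg i, map_zero] at this
        exact this
      rw [h2, aeval_X_left_apply, sub_zero] at h1
      have h3 := S.sub_mem (hGS i) (hmm _ h1)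
      simp only [sub_sub_cancel, id] at h3
      simp_rw [Algebra.smul_def]
      exact h3
    have hlin2 : ∀ i, ∑ i', taylorJ g c π i i' •
        ((X (c i') : MvPolynomial σ K) - C (π (c i'))) ∈ S := by
      intro i
      have h1 := hlin i
      rw [← Finset.sum_add_sum_compl (Finset.univ.image c),
        Finset.sum_image (fun a _ b _ hab => h.1 hab)] at h1
      have h2 : ∑ k ∈ (Finset.univ.image c)ᶜ,
          aeval π (pderiv k (g i)) • ((X k : MvPolynomial σ K) - C (π k)) ∈ S := by
        refine S.sum_mem fun k hk => S.smul_mem ?_ _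
        have hk' : k ∉ Set.range c := by simpa using hk
        have : k ∈ Set.range e := by
          by_contra hcon
          exact hk' ((h.2.2 k).mpr hcon)
        obtain ⟨r, rfl⟩ := this
        exact hyS r
      have h3 := S.sub_mem h1 h2
      rw [add_sub_cancel_right] at h3
      exact h3
    have hXS : ∀ k, (X k : MvPolynomial σ K) ∈ S := by
      intro k
      have h1 : (X k : MvPolynomial σ K) - C (π k) ∈ S := by
        by_cases hk : k ∈ Set.range e
        · obtain ⟨r, rfl⟩ := hk
          exact hyS r
        · obtain ⟨i, rfl⟩ := (h.2.2 k).mpr hk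
          have hdet : (taylorJ g c π).det ≠ 0 := by rw [taylorJ_det]; exact hJ
          rw [← taylor_inv_sum (taylorJ g c π) hdet
            (fun i' => (X (c i') : MvPolynomial σ K) - C (π (c i'))) i]
          exact S.sum_mem fun j _ => S.smul_mem (hlin2 j) _
      have := S.add_mem h1 (S.algebraMap_mem (π k))
      simpa using this
    rw [← hS]
    induction f using MvPolynomial.induction_on with
    | C a => exact S.algebraMap_mem a
    | add p q hp hq => exact S.add_mem hp hq
    | mul_X p k hp => exact S.mul_mem hp (hXS k)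

/-- the kernel of a Taylor map is the branch. -/
theorem Tay.ker_eq {g : ι → MvPolynomial σ K} {c : ι → σ} {e : ρ → σ} (h : Compl c e)
    {π : σ → K} (hJ : aeval π (Jac g c) ≠ 0) {θ : MvPolynomial σ K →ₐ[K] MvPowerSeries ρ K}
    (hθ : Tay g e π θ) : RingHom.ker θ = Br (Set.range g) (kr K π) := by
  have hg : ∀ i, aeval π (g i) = 0 := by
    intro i
    rw [← hθ.const, hθ.kill, map_zero]
  set m := kr K π with hm
  set G := Ideal.span (Set.range g) with hG
  have hGθ : G ≤ RingHom.ker θ := by
    rw [hG, Ideal.span_le]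
    rintro _ ⟨i, rfl⟩
    exact hθ.kill i
  apply le_antisymm
  · intro f hf
    have hf0 : θ f = 0 := hf
    have hall : ∀ N : ℕ, f ∈ G ⊔ m ^ (N + 1) := by
      intro N
      obtain ⟨P, hP⟩ := taylor_approx h hg hJ N f
      set y : ρ → MvPolynomial σ K := fun r => X (e r) - C (π (e r)) with hy
      have hθy : θ (aeval y P) = (P : MvPowerSeries ρ K) := by
        have : θ.comp (aeval y) = coeToMvPowerSeries.algHom K := by
          ext1 r
          simp [hy, hθ.free, coeToMvPowerSeries.algHom_apply, MvPowerSeries.algebraMap_apply]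
        have h1 := DFunLike.congr_fun this P
        simpa [coeToMvPowerSeries.algHom_apply] using h1
      have hmap : (G ⊔ m ^ (N + 1)).map θ ≤
          (RingHom.ker (MvPowerSeries.constantCoeff (σ := ρ) (R := K))) ^ (N + 1) := by
        rw [Ideal.map_sup, Ideal.map_pow]
        refine sup_le ?_ (Ideal.pow_right_mono ?_ _)
        · rw [(Ideal.map_eq_bot_iff_le_ker _).mpr hGθ]; exact bot_le
        · rw [Ideal.map_le_iff_le_comap]
          intro a ha
          rw [Ideal.mem_comap, RingHom.mem_ker, hθ.const]
          exact ha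
      have h1 := hmap (Ideal.mem_map_of_mem θ hP)
      rw [map_sub, hf0, zero_sub, hθy, Ideal.neg_mem_iff] at h1
      have h2 := taylor_order_pow _ h1
      have h3 : P ∈ idealOfVars ρ K ^ (N + 1) := by
        rw [mem_pow_idealOfVars_iff']
        intro d hd
        rw [← coeff_coe]
        exact MvPowerSeries.coeff_of_lt_order (lt_of_lt_of_le (by exact_mod_cast hd) h2)
      have h4 : aeval y P ∈ m ^ (N + 1) := by
        have h5 : (idealOfVars ρ K ^ (N + 1)).map
            (aeval y : MvPolynomial ρ K →ₐ[K] MvPolynomial σ K) ≤ m ^ (N + 1) := by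
          rw [Ideal.map_pow]
          refine Ideal.pow_right_mono ?_ _
          rw [Ideal.map_le_iff_le_comap, Ideal.span_le]
          rintro _ ⟨r, rfl⟩
          simp only [SetLike.mem_coe, Ideal.mem_comap, aeval_X, hm, mem_kr, hy]
          simp
        exact h5 (Ideal.mem_map_of_mem _ h3)
      have := (G ⊔ m ^ (N + 1)).add_mem hP (Ideal.mem_sup_right h4)
      simpa using this
    have key : ∀ a b : MvPolynomial σ K,
        a • Ideal.Quotient.mk G b = Ideal.Quotient.mk G (a * b) := fun _ _ => rfl
    have hx : Ideal.Quotient.mk G f ∈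
        (⨅ i : ℕ, m ^ i • ⊤ : Submodule (MvPolynomial σ K) (MvPolynomial σ K ⧸ G)) := by
      rw [Submodule.mem_iInf]
      intro i
      obtain ⟨a, ha, b, hb, rfl⟩ := Submodule.mem_sup.mp (hall i)
      rw [map_add, Ideal.Quotient.eq_zero_iff_mem.mpr ha, zero_add]
      have e1 : Ideal.Quotient.mk G b = b • Ideal.Quotient.mk G 1 := by
        rw [key, mul_one]
      rw [e1]
      exact Submodule.smul_mem_smul (Ideal.pow_le_pow_right (Nat.le_succ i) hb) Submodule.mem_top
    obtain ⟨r, hr⟩ := (Ideal.mem_iInf_smul_pow_eq_bot_iff m _).mp hx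
    refine Ideal.subset_span ⟨1 - (r : MvPolynomial σ K), ?_, ?_⟩
    · intro hcon
      have h1 : (1 : MvPolynomial σ K) ∈ m := by
        have := m.add_mem hcon r.2
        simpa using this
      rw [hm, mem_kr] at h1
      simp at h1
    · rw [← Ideal.Quotient.eq_zero_iff_mem, sub_mul, one_mul, map_sub, sub_eq_zero]
      rw [key] at hr
      exact hr.symm
  · unfold Br
    rw [Ideal.span_le]
    rintro f ⟨s, hs, hsf⟩
    have h1 : θ (s * f) = 0 := hGθ hsf
    rw [map_mul] at h1
    have h2 : θ s ≠ 0 := by
      intro h0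
      apply hs
      rw [hm, mem_kr, ← hθ.const, h0, map_zero]
    exact (mul_eq_zero.mp h1).resolve_left h2

omit [Fintype σ] in
/-- Hensel lifting of a simple root. -/
theorem extend_root {π : σ → K} (θ : MvPolynomial σ K →ₐ[K] MvPowerSeries ρ K)
    (hθ : ∀ f, MvPowerSeries.constantCoeff (θ f) = aeval π f) (Φ : MvPolynomial (Option σ) K)
    (w : K) (h0 : aeval (fun o : Option σ => o.elim w π) Φ = 0)
    (h1 : aeval (fun o : Option σ => o.elim w π) (pderiv none Φ) ≠ 0) :
    ∃ W : MvPowerSeries ρ K, MvPowerSeries.constantCoeff W = w ∧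
      aeval (fun o : Option σ => o.elim W (fun k => θ (X k))) Φ = 0 := by
  let I : Ideal (MvPowerSeries ρ K) := Ideal.span (Set.range MvPowerSeries.X)
  let y : Option σ → MvPowerSeries ρ K := fun o => o.elim (MvPowerSeries.C w) (fun k => θ (X k))
  have hy : ∀ o : Option σ, y o - algebraMap K (MvPowerSeries ρ K) (o.elim w π) ∈ I := by
    intro o
    refine taylor_mem_span ?_
    cases o with
    | none => simp [y, MvPowerSeries.algebraMap_apply]
    | some k => simp [y, hθ, MvPowerSeries.algebraMap_apply]
  have hJ : aeval (fun o : Option σ => o.elim w π)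
      (Jac (fun _ : Unit => Φ) (fun _ => none)) ≠ 0 := by
    unfold Jac
    rw [Matrix.det_unique]
    exact h1
  obtain ⟨u, hu, hk⟩ := taylor_hensel I (fun _ : Unit => Φ) (fun _ => none)
    (fun o : Option σ => o.elim w π) (fun _ => h0) hJ y hy
  refine ⟨MvPowerSeries.C w + u (), ?_, ?_⟩
  · rw [map_add, taylor_const_of_mem (hu ())]
    simp
  · rw [← hk ()]
    congr 2
    funext o
    cases o with
    | none => simp [y]
    | some k => simp [y, pderiv_X_of_ne]

omit [Fintype σ] [Fintype ι] [DecidableEq ι] [Fintype ρ] in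
theorem Tay.lift {g : ι → MvPolynomial σ K} {e : ρ → σ} {π : σ → K}
    {θ : MvPolynomial σ K →ₐ[K] MvPowerSeries ρ K} (hθ : Tay g e π θ)
    (Φ : MvPolynomial (Option σ) K) (w : K) (W : MvPowerSeries ρ K)
    (hW : MvPowerSeries.constantCoeff W = w)
    (hΦ : aeval (fun o : Option σ => o.elim W (fun k => θ (X k))) Φ = 0) :
    Tay (lift1 g Φ) (fun k => some (e k)) (fun o : Option σ => o.elim w π)
      (aeval (fun o : Option σ => o.elim W (fun k => θ (X k)))) := by
  refine ⟨?_, ?_, ?_⟩
  · refine taylor_const_aeval fun o => ?_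
    cases o with
    | none => exact hW
    | some k => simp [hθ.const]
  · intro k
    rw [aeval_X]
    exact hθ.free k
  · intro o
    cases o with
    | none => exact hΦ
    | some i =>
      change aeval _ (rename some (g i)) = 0
      rw [aeval_rename, ← hθ.kill i]
      have : (aeval ((fun o : Option σ => o.elim W (fun k => θ (X k))) ∘ some) :
          MvPolynomial σ K →ₐ[K] MvPowerSeries ρ K) = θ := by
        ext1 k
        simp
      rw [this]

end

end Vale.Agent.P054
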