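import Vale.Agent.P054.Perp
import Vale.Agent.P054.Pencil
import Vale.Agent.P054.Taylor

namespace Vale.Agent.P054

open MvPolynomial

noncomputable section

variable {K : Type} [Field K] [CharZero K] {ε : Type} [Fintype ε] [LinearOrder ε] {ρ : Type}
  [Fintype ρ] {ι : Type} [Fintype ι] [DecidableEq ι] [Unique ι]

section Aux

omit [CharZero K] [Fintype ρ] in
theorem liftPerp_coeff (k : ρ) (F : MvPowerSeries ρ K) :
    MvPowerSeries.coeff (Finsupp.single k 1) F =
      MvPowerSeries.constantCoeff (MvPowerSeries.pderiv K k F) := by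
  rw [← MvPowerSeries.coeff_zero_eq_constantCoeff_apply, MvPowerSeries.coeff_pderiv]
  simp

omit [CharZero K] [Fintype ρ] in
theorem liftPerp_coeff_mul (k : ρ) (F G : MvPowerSeries ρ K) :
    MvPowerSeries.coeff (Finsupp.single k 1) (F * G) =
      MvPowerSeries.constantCoeff F * MvPowerSeries.coeff (Finsupp.single k 1) G +
      MvPowerSeries.coeff (Finsupp.single k 1) F * MvPowerSeries.constantCoeff G := by
  simp only [liftPerp_coeff, Derivation.leibniz, smul_eq_mul, map_add, map_mul]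
  ring

omit [CharZero K] in
theorem liftPerp_der (a : ρ → MvPowerSeries ρ K) :
    ∃ L : Derivation K (MvPowerSeries ρ K) (MvPowerSeries ρ K),
      ∀ F, L F = ∑ k, a k * MvPowerSeries.pderiv K k F := by
  refine ⟨∑ k, a k • MvPowerSeries.pderiv K k, fun F => ?_⟩
  induction (Finset.univ : Finset ρ) using Finset.cons_induction with
  | empty => simp
  | cons i s hi ih => rw [Finset.sum_cons, Finset.sum_cons, Derivation.add_apply, ih]; rfl

omit [LinearOrder ε] in
theorem liftPerp_bil_sum {A α : Type} [CommRing A] (s : Finset α) (a : α → A)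
    (x : α → ε ⊕ ε → A) (y : ε ⊕ ε → A) :
    bil (fun b => ∑ p ∈ s, a p * x p b) y = ∑ p ∈ s, a p * bil (x p) y := by
  simp only [bil, Finset.mul_sum, Finset.sum_mul, ← Finset.sum_add_distrib]
  rw [Finset.sum_comm]
  exact Finset.sum_congr rfl fun p _ => Finset.sum_congr rfl fun i _ => by ring

omit [Fintype ε] in
theorem liftPerp_sk {A : Type} [AddCommGroup A] (F : ε → ε → A) (h0 : ∀ i, F i i = 0)
    (hF : ∀ i j, F j i = -F i j) (i j : ε) : sk (fun p : Pr ε => F p.1.1 p.1.2) i j = F i j := by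
  unfold sk
  split_ifs with h1 h2
  · rfl
  · exact (hF j i).symm
  · rw [le_antisymm (not_lt.1 h2) (not_lt.1 h1), h0]

omit [CharZero K] [Fintype ε] [Fintype ρ] in
theorem liftPerp_rename {σ A : Type} [CommRing A] [Algebra K A] (θ : MvPolynomial σ K →ₐ[K] A)
    (W : A) (f : MvPolynomial σ K) :
    aeval (fun o : Option σ => o.elim W (fun p => θ (X p))) (rename some f) = θ f := by
  rw [aeval_rename]
  exact DFunLike.congr_fun (aeval_unique θ).symm f

omit [Fintype ι] [DecidableEq ι] [Fintype ρ] in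
theorem liftPerp_cases {σ : Type} {c : ι → σ} {e : ρ → σ} (h : Compl c e) (p : σ) :
    p = c default ∨ ∃ k, e k = p := by
  by_cases hp : p ∈ Set.range e
  · exact Or.inr hp
  · obtain ⟨i, rfl⟩ := (h.2.2 p).2 hp
    exact Or.inl (by rw [Unique.eq_default i])

omit [CharZero K] [Fintype ε] in
/-- the solution space of the two linear systems is a line. -/
theorem liftPerp_line {i0 i1 : ε} (ω w : Pr ε → K) {τ τ' : K} (hτ : τ ≠ τ')
    (hκ : sk ω i1 i0 ≠ 0)
    (hP : ∀ j k, sk ω i1 i0 * sk ω j k - sk ω i1 k * sk ω j i0 + sk ω i1 j * sk ω k i0 = 0)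
    (h1 : ∀ j k, sk ω i1 i0 * sk w j k - (sk ω i1 k + τ * sk ω k i0) * sk w j i0 +
      (sk ω i1 j + τ * sk ω j i0) * sk w k i0 = 0)
    (h2 : ∀ j k, sk ω i1 i0 * sk w j k - (sk ω i1 k + τ' * sk ω k i0) * sk w j i0 +
      (sk ω i1 j + τ' * sk ω j i0) * sk w k i0 = 0) (p : Pr ε) :
    sk ω i1 i0 * w p = sk w i1 i0 * ω p := by
  have h3 : ∀ j, sk ω i1 i0 * sk w j i0 = sk w i1 i0 * sk ω j i0 := fun j => by
    refine mul_left_cancel₀ (sub_ne_zero.2 hτ) ?_
    linear_combination h2 j i1 - h1 j i1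
  rw [← sk_of_lt w p, ← sk_of_lt ω p]
  refine mul_left_cancel₀ hκ ?_
  linear_combination sk ω i1 i0 * h1 p.1.1 p.1.2 - sk w i1 i0 * hP p.1.1 p.1.2 +
    (sk ω i1 p.1.2 + τ * sk ω p.1.2 i0) * h3 p.1.1 - (sk ω i1 p.1.1 + τ * sk ω p.1.1 i0) * h3 p.1.2

omit [CharZero K] in
/-- the normalised vector is constant along the fields. -/
theorem liftPerp_const {A : Type} [CommRing A] [IsDomain A] [Algebra K A] {i0 i1 j k : ε}
    {f : MvPolynomial (Pr ε) K} (ψ : MvPolynomial (Option (Pr ε)) K →ₐ[K] A)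
    (L : Derivation K A A) (hL : ∀ F, ψ (Vv i0 i1 f j k F) = L (ψ F)) {u : A}
    (hu : ψ (om f i1 i0) * u = 1) (hT : ∀ r, ψ (Th i0 i1 f j k r) = 0) (b : ε ⊕ ε) :
    L (ψ (xi i0 i1 f b) * u) = 0 := by
  have h0 : ψ (om f i1 i0) * L u + u * L (ψ (om f i1 i0)) = 0 := by
    have := congrArg L hu
    rwa [L.leibniz, L.map_one_eq_zero] at this
  have hy : ∀ r, L (ψ (Yv i0 i1 f r) * u) = 0 := fun r => by
    have h1 := hT r
    rw [Th, map_sub, map_mul, map_mul, hL, hL] at h1
    rw [L.leibniz, smul_eq_mul, smul_eq_mul]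
    linear_combination u * u * h1 + ψ (Yv i0 i1 f r) * u * h0 -
      (ψ (Yv i0 i1 f r) * L u + u * L (ψ (Yv i0 i1 f r))) * hu
  rcases b with r | r
  · exact hy r
  · have h2 := congrArg ψ (Vv_Mh_mul i0 i1 f j k r)
    simp only [map_sum, map_mul, map_zero, hL] at h2
    show L (ψ (Zv i0 i1 f r) * u) = 0
    simp only [Zv, map_sum, map_mul, Finset.sum_mul, mul_assoc]
    rw [← mul_zero u, ← h2, Finset.mul_sum]
    refine Finset.sum_congr rfl fun b _ => ?_
    rw [L.leibniz, hy, smul_zero, zero_add, smul_eq_mul]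
    ring

end Aux

/-- two members of the pencil that both integrate to flats. -/
theorem lift_perp {i0 i1 : ε} {g : ι → MvPolynomial (Pr ε) K} {c : ι → Pr ε} {e : ρ → Pr ε}
    (h : Compl c e) {π : Pr ε → K} (hJ : aeval π (Jac g c) ≠ 0)
    (hκ : aeval π (Dd i1 i0 (g default)) ≠ 0)
    {θ : MvPolynomial (Pr ε) K →ₐ[K] MvPowerSeries ρ K} (hθ : Tay g e π θ)
    (W : Fin 2 → MvPowerSeries ρ K) (Φ : Fin 2 → MvPolynomial (Option (Pr ε)) K)
    (θ' : Fin 2 → (MvPolynomial (Option (Pr ε)) K →ₐ[K] MvPowerSeries ρ K))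
    (hθ' : ∀ s, θ' s = aeval (fun o : Option (Pr ε) => o.elim (W s) (fun p => θ (X p))))
    (hW : MvPowerSeries.constantCoeff (W 0) ≠ MvPowerSeries.constantCoeff (W 1))
    (hΦ : ∀ s, θ' s (Φ s) = 0)
    (hΦ' : ∀ s, MvPowerSeries.constantCoeff (θ' s (pderiv none (Φ s))) ≠ 0)
    (hV : ∀ s j k, θ' s (Vv i0 i1 (g default) j k (Φ s)) = 0)
    (hP : ∀ j k, θ (Pl i0 i1 (g default) j k) = 0)
    (hT : ∀ s j k r, θ' s (Th i0 i1 (g default) j k r) = 0) (n n' : ρ →₀ ℕ) :
    bil (fun b => MvPowerSeries.coeff n (θ' 0 (xi i0 i1 (g default) b)))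
      (fun b => MvPowerSeries.coeff n' (θ' 1 (xi i0 i1 (g default) b))) = 0 := by
  classical
  have : IsDomain (MvPowerSeries ρ K) := NoZeroDivisors.to_isDomain _
  have hr : ∀ s F, θ' s (rename some F) = θ F := fun s F => by rw [hθ', liftPerp_rename]
  have hθs : ∀ s, Tay (lift1 g (Φ s)) (fun k => some (e k))
      (fun o : Option (Pr ε) => o.elim (MvPowerSeries.constantCoeff (W s)) π) (θ' s) := fun s => by
    have h1 := hΦ s
    rw [hθ'] at h1 ⊢
    exact hθ.lift (Φ s) _ (W s) rfl h1
  have hc : ∀ s F, aeval (fun o : Option (Pr ε) => o.elim (MvPowerSeries.constantCoeff (W s)) π)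
      (rename some F) = aeval π F := fun s F => by rw [← (hθs s).const, hr, hθ.const]
  have hD : ∀ s j k F, θ' s (Vv i0 i1 (g default) j k F) =
      ∑ k', θ' s (Vv i0 i1 (g default) j k (X (some (e k')))) *
        MvPowerSeries.pderiv K k' (θ' s F) := fun s j k F => by
    refine Tay.deriv h.lift ?_ (hθs s) _ (fun o => ?_) F
    · rw [jac_lift1, map_mul, hc, ← (hθs s).const]
      exact mul_ne_zero (hΦ' s) hJ
    · rcases o with _ | i
      · exact hV s j k
      · rw [Unique.eq_default i]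
        show θ' s (Vv i0 i1 (g default) j k (rename some (g default))) = 0
        rw [Vv_self, hr, hP]
  obtain ⟨u, hu⟩ : ∃ u, θ (Dd i1 i0 (g default)) * u = 1 :=
    (MvPowerSeries.isUnit_iff_constantCoeff.2 (by
      rw [hθ.const]; exact isUnit_iff_ne_zero.2 hκ)).exists_right_inv
  have hk : ∀ s (p : ε × ε) b, ∑ k', θ' s (Vv i0 i1 (g default) p.1 p.2 (X (some (e k')))) *
      MvPowerSeries.pderiv K k' (θ' s (xi i0 i1 (g default) b) * u) = 0 := fun s p b => by
    obtain ⟨L, hL⟩ := liftPerp_der fun k' => θ' s (Vv i0 i1 (g default) p.1 p.2 (X (some (e k'))))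
    rw [← hL]
    exact liftPerp_const (θ' s) L (fun F => by rw [hL, hD]) (by rw [om, hr, hu])
      (hT s p.1 p.2) b
  have hω : ∀ j k, aeval π (Dd j k (g default)) =
      sk (fun p => aeval π (pderiv p (g default))) j k := fun j k => by rw [Dd_apply, map_sk]
  have key := perp (fun b => θ' 0 (xi i0 i1 (g default) b) * u)
    (fun b => θ' 1 (xi i0 i1 (g default) b) * u) _ _ (hk 0) (hk 1) (fun w h0 h1 => ?_) ?_
  · have e1 : ∀ s m b, MvPowerSeries.coeff m (θ' s (xi i0 i1 (g default) b)) =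
        ∑ p ∈ Finset.HasAntidiagonal.antidiagonal m, MvPowerSeries.coeff p.1 (θ (Dd i1 i0 (g default))) *
          MvPowerSeries.coeff p.2 (θ' s (xi i0 i1 (g default) b) * u) := fun s m b => by
      rw [← MvPowerSeries.coeff_mul, mul_left_comm, hu, mul_one]
    rw [funext (e1 0 n), funext (e1 1 n'), liftPerp_bil_sum]
    refine Finset.sum_eq_zero fun p _ => ?_
    rw [bil_comm, liftPerp_bil_sum, Finset.sum_eq_zero, mul_zero]
    intro q _
    rw [bil_comm, key, mul_zero]
  · obtain ⟨w', hw'⟩ : ∃ w' : Pr ε → K, w' = Function.extend e w 0 := ⟨_, rfl⟩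
    have hw1 : ∀ k, w' (e k) = w k := fun k => by rw [hw', h.2.1.extend_apply]
    have hw2 : ∀ p, p ∉ Set.range e → w' p = 0 := fun p hp => by
      rw [hw', Function.extend_apply' _ _ _ hp]; rfl
    have hs : ∀ s, (∀ p : ε × ε, ∑ k', MvPowerSeries.constantCoeff
        (θ' s (Vv i0 i1 (g default) p.1 p.2 (X (some (e k'))))) * w k' = 0) → ∀ j k,
        aeval π (Dd i1 i0 (g default)) * sk w' j k - (aeval π (Dd i1 k (g default)) +
          MvPowerSeries.constantCoeff (W s) * aeval π (Dd k i0 (g default))) * sk w' j i0 +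
          (aeval π (Dd i1 j (g default)) +
          MvPowerSeries.constantCoeff (W s) * aeval π (Dd j i0 (g default))) * sk w' k i0 = 0 := by
      intro s h2 j k
      have h3 := sum_Vv_X (aeval (fun o : Option (Pr ε) =>
        o.elim (MvPowerSeries.constantCoeff (W s)) π)) i0 i1 (g default) j k w'
      simp only [Yv, om, map_add, map_mul, hc, aeval_X, Option.elim_none] at h3
      rw [← h3, ← h2 (j, k)]
      symm
      refine Finset.sum_of_injOn e h.2.1.injOn (fun _ _ => Finset.mem_univ _)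
        (fun p _ hp => ?_) fun k' _ => ?_
      · rw [hw2 p (by simpa using hp), mul_zero]
      · rw [(hθs s).const, hw1]
    have hl := liftPerp_line (i0 := i0) (i1 := i1) (fun p => aeval π (pderiv p (g default))) w' hW
      (by rwa [← hω]) (fun j k => by
        have h4 := congrArg MvPowerSeries.constantCoeff (hP j k)
        rw [hθ.const, Pl] at h4
        simpa only [map_add, map_sub, map_mul, hω, map_zero] using h4)
      (by simpa only [hω] using hs 0 h0) (by simpa only [hω] using hs 1 h1)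
    have h5 := hl (c default)
    rw [hw2 _ ((h.2.2 _).1 ⟨default, rfl⟩), mul_zero, ← jac_unique, eq_comm, mul_eq_zero] at h5
    funext k
    have h6 := hl (e k)
    rw [h5.resolve_right hJ, zero_mul, ← hω, hw1] at h6
    exact (mul_eq_zero.1 h6).resolve_left hκ
  · have hM : ∀ s i k, θ' s (Mh i k) = sk (fun p => θ (X p)) i k := fun s i k => by
      rw [Mh, map_sk]
      simp only [← hr s, rename_X]
    have h7 := sum_sk_quad (fun p => θ (X p)) (fun i => θ' 0 (Yv i0 i1 (g default) i) * u)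
      (fun i => θ' 1 (Yv i0 i1 (g default) i) * u)
    simp only [bil, xi, Sum.elim_inl, Sum.elim_inr, Zv, map_sum, map_mul, hM, Finset.sum_mul,
      Finset.sum_add_distrib, mul_assoc] at h7 ⊢
    rw [h7, neg_add_cancel]

theorem lift_lam {i0 i1 : ε} {g : ι → MvPolynomial (Pr ε) K} {c : ι → Pr ε} {e : ρ → Pr ε}
    (h : Compl c e) {π : Pr ε → K} (hκ : aeval π (Dd i1 i0 (g default)) ≠ 0)
    {θ : MvPolynomial (Pr ε) K →ₐ[K] MvPowerSeries ρ K} (hθ : Tay g e π θ)
    (W : MvPowerSeries ρ K) (θ' : MvPolynomial (Option (Pr ε)) K →ₐ[K] MvPowerSeries ρ K)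
    (hθ' : θ' = aeval (fun o : Option (Pr ε) => o.elim W (fun p => θ (X p)))) :
    ∃ U1 U2 : Submodule K (ε ⊕ ε → K), Module.finrank K U1 ≤ Fintype.card ε ∧
      Module.finrank K U2 ≤ Fintype.card ε ∧ ∀ v : ε ⊕ ε → K, Nul v →
        θ' (bil (fun b => C (v b)) (xi i0 i1 (g default))) = 0 → v ∈ U1 ∨ v ∈ U2 := by
  classical
  have hr : ∀ F, θ' (rename some F) = θ F := fun F => by rw [hθ', liftPerp_rename]
  have hM : ∀ i k, θ' (Mh i k) = sk (fun p => θ (X p)) i k := fun i k => by
    rw [Mh, map_sk]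
    simp only [← hr, rename_X]
  obtain ⟨y, hy⟩ : ∃ y : ε → K, ∀ i, y i = MvPowerSeries.constantCoeff
    (θ' (Yv i0 i1 (g default) i)) := ⟨_, fun _ => rfl⟩
  have hy0 : y i0 ≠ 0 := by rwa [hy, Yv_i0, om, hr, hθ.const]
  refine (lam (fun b => θ' (xi i0 i1 (g default) b)) (by
    have h0 := congrArg θ' (nul_xi i0 i1 (g default))
    simpa only [Nul, map_sum, map_mul, map_zero] using h0) ?_).imp fun U1 => Exists.imp
      fun U2 h3 => ⟨h3.1, h3.2.1, fun v hv hb => h3.2.2 v hv ?_⟩
  swap
  · have hC : ∀ a : K, θ' (C a) = MvPowerSeries.C a := fun a => θ'.commutes a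
    simpa only [bil, map_sum, map_add, map_mul, hC] using hb
  obtain ⟨Λ, hΛ⟩ : ∃ Λ, Λ = Submodule.span K
      (insert (fun b => MvPowerSeries.constantCoeff (θ' (xi i0 i1 (g default) b)))
        (Set.range fun k : ρ => fun b => MvPowerSeries.coeff (Finsupp.single k 1)
          (θ' (xi i0 i1 (g default) b)))) := ⟨_, rfl⟩
  rw [← hΛ]
  let φ : (ε ⊕ ε → K) →ₗ[K] (ε → K) :=
    { toFun := fun η i => η (Sum.inr i) - ∑ j, sk π i j * η (Sum.inl j)
      map_add' := fun a b => by
        funext i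
        simp only [Pi.add_apply, mul_add, Finset.sum_add_distrib]
        ring
      map_smul' := fun a b => by
        funext i
        simp only [Pi.smul_apply, smul_eq_mul, RingHom.id_apply, mul_sub, Finset.mul_sum,
          mul_left_comm] }
  have hφ : ∀ η i, φ η i = η (Sum.inr i) - ∑ j, sk π i j * η (Sum.inl j) := fun _ _ => rfl
  let T : (Pr ε → K) →ₗ[K] (ε → K) :=
    { toFun := fun A i => ∑ j, sk A i j * y j
      map_add' := fun a b => by
        funext i
        rw [Pi.add_apply, ← Finset.sum_add_distrib]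
        refine Finset.sum_congr rfl fun j _ => ?_
        rw [← add_mul]
        congr 1
        unfold sk
        split_ifs <;> simp [add_comm]
      map_smul' := fun a b => by
        funext i
        rw [Pi.smul_apply, RingHom.id_apply, smul_eq_mul, Finset.mul_sum]
        refine Finset.sum_congr rfl fun j _ => ?_
        rw [← mul_assoc]
        congr 1
        unfold sk
        split_ifs <;> simp }
  have hT : ∀ A i, T A i = ∑ j, sk A i j * y j := fun _ _ => rfl
  have hcM : ∀ i j, MvPowerSeries.constantCoeff (sk (fun p => θ (X p)) i j) = sk π i j :=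
    fun i j => by simp only [map_sk, hθ.const, aeval_X]
  have hA : ∀ k : ρ, T (fun p => MvPowerSeries.coeff (Finsupp.single k 1) (θ (X p))) ∈ Λ.map φ :=
    fun k => by
    refine ⟨fun b => MvPowerSeries.coeff (Finsupp.single k 1) (θ' (xi i0 i1 (g default) b)),
      by rw [hΛ]; exact Submodule.subset_span (Set.mem_insert_of_mem _ ⟨k, rfl⟩),
      funext fun i => ?_⟩
    simp only [hφ, hT, xi, Sum.elim_inl, Sum.elim_inr, Zv, map_sum, map_mul, hM,
      liftPerp_coeff_mul, hcM, Finset.sum_add_distrib, add_sub_cancel_left, map_sk, hy]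
  have htop : (⊤ : Submodule K (ε → K)) ≤ (Λ.map φ ⊔ K ∙ T (Pi.single (c default) 1)) ⊔
      K ∙ (Pi.single i0 1 : ε → K) := fun v _ => by
    obtain ⟨A, hA'⟩ : ∃ A : Pr ε → K, ∀ i j, sk A i j =
        (if j = i0 then v i else 0) / y i0 - (if i = i0 then v j else 0) / y i0 :=
      ⟨_, liftPerp_sk (fun i j => (if j = i0 then v i else 0) / y i0 -
        (if i = i0 then v j else 0) / y i0) (fun i => sub_self _) fun i j => (neg_sub _ _).symm⟩
    have h4 : v = T A + (∑ j, v j / y i0 * y j) • (Pi.single i0 1 : ε → K) := by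
      funext i
      simp only [Pi.add_apply, hT, hA', sub_mul, Finset.sum_sub_distrib, Pi.smul_apply,
        smul_eq_mul, ite_div, zero_div, ite_mul, zero_mul, Finset.sum_ite_eq', Finset.mem_univ,
        if_true, div_mul_cancel₀ _ hy0, Pi.single_apply]
      split_ifs <;> simp
    obtain ⟨B, hB⟩ : ∃ B : Pr ε → K, B = A - ∑ k, A (e k) •
      fun p => MvPowerSeries.coeff (Finsupp.single k 1) (θ (X p)) := ⟨_, rfl⟩
    have h5 : B = B (c default) • (Pi.single (c default) 1 : Pr ε → K) := by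
      funext p
      rcases liftPerp_cases h p with rfl | ⟨k, rfl⟩
      · simp
      · have hne : e k ≠ c default := fun h6 => (h.2.2 _).1 ⟨default, rfl⟩ ⟨k, h6⟩
        rw [Pi.smul_apply, Pi.single_eq_of_ne hne, smul_zero, hB]
        simp only [Pi.sub_apply, Finset.sum_apply, Pi.smul_apply, hθ.free, liftPerp_coeff, map_add,
          MvPowerSeries.pderiv_C, MvPowerSeries.pderiv_X, zero_add, smul_eq_mul, Pi.single_apply]
        rw [Finset.sum_eq_single k (fun k' _ hk => by simp [hk.symm]) (by simp)]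
        simp
    rw [h4]
    refine Submodule.add_mem_sup ?_ (Submodule.smul_mem _ _ (Submodule.mem_span_singleton_self _))
    rw [← sub_add_cancel A B, map_add]
    refine Submodule.add_mem_sup ?_ ?_
    · rw [hB, sub_sub_cancel, map_sum]
      exact Submodule.sum_mem _ fun k _ => by
        rw [map_smul]; exact Submodule.smul_mem _ _ (hA k)
    · rw [h5, map_smul]
      exact Submodule.smul_mem _ _ (Submodule.mem_span_singleton_self _)
  have h6 := Submodule.finrank_mono htop
  have hs : ∀ x : ε → K, Module.finrank K (K ∙ x) ≤ 1 := fun x => by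
    simpa using finrank_span_le_card (R := K) ({x} : Set (ε → K))
  have h7 := Submodule.finrank_add_le_finrank_add_finrank
    (Λ.map φ ⊔ K ∙ T (Pi.single (c default) 1)) (K ∙ (Pi.single i0 1 : ε → K))
  have h8 := Submodule.finrank_add_le_finrank_add_finrank (Λ.map φ)
    (K ∙ T (Pi.single (c default) 1))
  have h9 := LinearMap.finrank_range_add_finrank_ker (φ.domRestrict Λ)
  have h10 : 1 ≤ Module.finrank K (LinearMap.ker (φ.domRestrict Λ)) := by
    rw [Submodule.one_le_finrank_iff, Submodule.ne_bot_iff]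
    refine ⟨⟨_, hΛ ▸ Submodule.subset_span (Set.mem_insert _ _)⟩, funext fun i => ?_, fun h0 => ?_⟩
    · simp only [LinearMap.domRestrict_apply, hφ, xi, Sum.elim_inl, Sum.elim_inr, Zv, map_sum,
        map_mul, hM, hcM, sub_self, Pi.zero_apply]
    · exact hy0 ((hy i0).trans (congrFun (congrArg Subtype.val h0) (Sum.inl i0)))
  rw [LinearMap.range_domRestrict] at h9
  rw [finrank_top, Module.finrank_fintype_fun_eq_card] at h6
  have h11 := hs (T (Pi.single (c default) 1))
  have h12 := hs (Pi.single i0 1)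
  omega

end

end Vale.Agent.P054
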