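import Vale.Agent.P054.WB

/-! The counting part of `linear_count`. -/

namespace Vale.Agent.P054

open Module

noncomputable section

theorem lin_cover {α β : Type} (E : Finset (α × α)) (Y : Finset β) (A B : β → Finset α)
    (h : ∀ x ∈ E, ∃ y ∈ Y, x.1 ∈ A y ∧ x.2 ∈ B y) :
    E.card ≤ ∑ y ∈ Y, (A y).card * (B y).card := by
  classical
  refine (Finset.card_le_card (t := Y.biUnion fun y => A y ×ˢ B y) fun x hx => ?_).trans
    (Finset.card_biUnion_le.trans_eq (Finset.sum_congr rfl fun y _ => Finset.card_product _ _))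
  obtain ⟨y, hy, h1⟩ := h x hx
  exact Finset.mem_biUnion.2 ⟨y, hy, Finset.mem_product.2 h1⟩

theorem lin_cover' {α β : Type} (E : Finset (α × α)) (Y : Finset β) (A B : β → Finset α)
    (h : ∀ x ∈ E, ∃ y ∈ Y, x.1 ∈ A y ∧ x.2 ∈ B y) {M : ℝ}
    (hM : ∀ y ∈ Y, ((A y).card : ℝ) * (B y).card ≤ M) : (E.card : ℝ) ≤ Y.card * M := by
  have h1 : (E.card : ℝ) ≤ ∑ y ∈ Y, ((A y).card : ℝ) * (B y).card := by
    exact_mod_cast lin_cover E Y A B h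
  exact h1.trans ((Finset.sum_le_card_nsmul _ _ _ hM).trans_eq (nsmul_eq_mul _ _))

open Classical in
theorem lin_comb : ∃ C : ℝ, 0 < C ∧ ∀ (σ ρ : Type) [Fintype σ] [Fintype ρ] (e : ρ → σ) (t : ℕ)
    (P : Finset (σ → ℝ)) (𝓛 : Finset (Submodule ℝ (ℝ × (σ → ℝ))))
    (Lf : (σ → ℝ) → Submodule ℝ (ℝ × (σ → ℝ))) (E : Finset ((σ → ℝ) × (σ → ℝ))) (f W H μ θ : ℝ),
    Function.Injective e → t + Fintype.card ρ = Fintype.card σ → 2 ≤ t →
    (∀ L ∈ 𝓛, finrank ℝ L ≤ t ∧ ∀ φ ∈ L, (∀ k, k ∉ Set.range e → φ.2 k = 0) → φ = 0) →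
    (𝓛.card : ℝ) ≤ f → (∀ a ∈ P, Lf a ∈ 𝓛 ∧ ∀ φ ∈ Lf a, φ.1 + ∑ k, φ.2 k * a k = 0) →
    (∀ L ∈ 𝓛, finrank ℝ L = t → ((P.filter fun a => Lf a = L).card : ℝ) ≤ W) → 0 ≤ W →
    HypB P H → 0 ≤ H → 1 ≤ μ → 0 < θ → θ ≤ 1 →
    (∀ x ∈ E, x.1 ∈ P ∧ x.2 ∈ P ∧ t ≤ finrank ℝ (Lf x.1 ⊓ Lf x.2 : Submodule ℝ _) + 1 ∧
      ∃ (Ω : Type) (T : Finset Ω) (M : Ω → Submodule ℝ (ℝ × (σ → ℝ))), μ < T.card ∧
        (∀ s ∈ T, M s ∈ 𝓛 ∧ Lf x.1 ⊓ Lf x.2 ≤ M s) ∧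
        ∀ s ∈ T, ∀ s' ∈ T, s ≠ s' → M s ⊓ M s' ≤ Lf x.1 ⊓ Lf x.2) →
    (E.card : ℝ) ≤ 2 * (P.card * H) + C * (W ^ 2 * f ^ 2 / μ + θ * W ^ 2 * f ^ 2 + H ^ 2 / θ ^ 2) +
      f * (μ * W * H) := by
  obtain ⟨C, hC, hsb⟩ := slice_beck
  refine ⟨C, hC, ?_⟩
  intro σ ρ _ _ e t P 𝓛 Lf E f W H μ θ he hcard ht h𝓛 hf hP hW hW0 hH hH0 hμ hθ hθ1 hE
  -- a nonzero space of forms cuts out at most `H` points
  have hyp : ∀ 𝓐 : Submodule ℝ (ℝ × (σ → ℝ)), 𝓐 ≠ ⊥ →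
      ((P.filter fun a => 𝓐 ≤ Lf a).card : ℝ) ≤ H := by
    intro 𝓐 h0
    obtain ⟨φ, hφ, hφ0⟩ := Submodule.exists_mem_ne_zero_of_ne_bot h0
    rcases (P.filter fun a => 𝓐 ≤ Lf a).eq_empty_or_nonempty with h | ⟨a, ha⟩
    · rwa [h, Finset.card_empty, Nat.cast_zero]
    · obtain ⟨ha, ha'⟩ := Finset.mem_filter.1 ha
      refine hH φ.2 (-φ.1) _ (fun h => hφ0 ((h𝓛 _ (hP a ha).1).2 φ (ha' hφ)
        fun k _ => congrFun h k)) (Finset.filter_subset _ _) fun b hb => ?_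
      obtain ⟨hb, hb'⟩ := Finset.mem_filter.1 hb
      linarith [(hP b hb).2 φ (hb' hφ)]
  have hne : ∀ x ∈ E, Lf x.1 ⊓ Lf x.2 ≠ ⊥ := fun x hx h => by
    have := (hE x hx).2.2.1
    rw [h, finrank_bot] at this
    omega
  set Q := 𝓛.filter fun L : Submodule ℝ (ℝ × (σ → ℝ)) => finrank ℝ L = t with hQ
  set w := fun L => (P.filter fun a => Lf a = L).card with hw
  have hwQ : ∀ L ∈ Q, (w L : ℝ) ≤ W := fun L hL =>
    hW L (Finset.mem_filter.1 hL).1 (Finset.mem_filter.1 hL).2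
  have hsum : ∀ 𝓐, ∑ L ∈ Q.filter (fun L => 𝓐 ≤ L), w L =
      (P.filter fun a => Lf a ∈ Q.filter fun L => 𝓐 ≤ L).card := fun 𝓐 =>
    Finset.sum_card_fiberwise_eq_card_filter _ _ _
  set E1 := E.filter fun x => Lf x.1 ≤ Lf x.2
  set E2 := E.filter fun x => Lf x.2 ≤ Lf x.1
  set E0 := E.filter fun x => ¬ Lf x.1 ≤ Lf x.2 ∧ ¬ Lf x.2 ≤ Lf x.1
  set E3 := E0.filter fun x => μ ≤ ((Q.filter fun L => Lf x.1 ⊓ Lf x.2 ≤ L).card : ℝ)
  set E4 := E0.filter fun x => ¬ μ ≤ ((Q.filter fun L => Lf x.1 ⊓ Lf x.2 ≤ L).card : ℝ)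
  have hsplit : (E.card : ℝ) ≤ E1.card + E2.card + E3.card + E4.card := by
    have h1 : E.card ≤ (E1 ∪ E2 ∪ E0).card := Finset.card_le_card fun x hx => by
      simp only [E1, E2, E0, Finset.mem_union, Finset.mem_filter]
      tauto
    have h2 : E3.card + E4.card = E0.card := Finset.card_filter_add_card_filter_not _
    have h3 := Finset.card_union_le (E1 ∪ E2) E0
    have h4 := Finset.card_union_le E1 E2
    exact_mod_cast (by omega : E.card ≤ E1.card + E2.card + E3.card + E4.card)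
  have hP' : (((P.filter fun a => Lf a ≠ ⊥).card : ℝ)) * H ≤ P.card * H :=
    mul_le_mul_of_nonneg_right (by exact_mod_cast Finset.card_filter_le _ _) hH0
  have b1 : (E1.card : ℝ) ≤ P.card * H := by
    refine (lin_cover' E1 (P.filter fun a => Lf a ≠ ⊥) (fun a => {a})
      (fun a => P.filter fun b => Lf a ≤ Lf b) (fun x hx => ?_) fun a ha => ?_).trans hP'
    · obtain ⟨hx, h⟩ := Finset.mem_filter.1 hx
      exact ⟨x.1, Finset.mem_filter.2 ⟨(hE x hx).1, ne_bot_of_le_ne_bot (hne x hx) inf_le_left⟩,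
        Finset.mem_singleton_self _, Finset.mem_filter.2 ⟨(hE x hx).2.1, h⟩⟩
    · simpa using hyp _ (Finset.mem_filter.1 ha).2
  have b2 : (E2.card : ℝ) ≤ P.card * H := by
    refine (lin_cover' E2 (P.filter fun a => Lf a ≠ ⊥) (fun a => P.filter fun b => Lf a ≤ Lf b)
      (fun a => {a}) (fun x hx => ?_) fun a ha => ?_).trans hP'
    · obtain ⟨hx, h⟩ := Finset.mem_filter.1 hx
      exact ⟨x.2, Finset.mem_filter.2 ⟨(hE x hx).2.1, ne_bot_of_le_ne_bot (hne x hx) inf_le_right⟩,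
        Finset.mem_filter.2 ⟨(hE x hx).1, h⟩, Finset.mem_singleton_self _⟩
    · simpa using hyp _ (Finset.mem_filter.1 ha).2
  have hE0 : ∀ x ∈ E0, Lf x.1 ∈ Q ∧ Lf x.2 ∈ Q ∧ Lf x.1 ≠ Lf x.2 ∧
      finrank ℝ (Lf x.1 ⊓ Lf x.2 : Submodule ℝ _) < t := fun x hx => by
    obtain ⟨hx, h1, h2⟩ := Finset.mem_filter.1 hx
    obtain ⟨p1, p2, p3, -⟩ := hE x hx
    have q1 := Submodule.finrank_lt_finrank_of_lt (inf_lt_left.2 h1)
    have q2 := Submodule.finrank_lt_finrank_of_lt (inf_lt_right.2 h2)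
    have q3 := (h𝓛 _ (hP _ p1).1).1
    have q4 := (h𝓛 _ (hP _ p2).1).1
    exact ⟨Finset.mem_filter.2 ⟨(hP _ p1).1, by omega⟩, Finset.mem_filter.2 ⟨(hP _ p2).1, by omega⟩,
      fun h => h1 h.le, by omega⟩
  have b3 : (E3.card : ℝ) ≤ C * (W ^ 2 * f ^ 2 / μ + θ * W ^ 2 * f ^ 2 + H ^ 2 / θ ^ 2) := by
    refine le_trans ?_ (hsb σ ρ e t Q w (E3.image fun x => (Lf x.1, Lf x.2)) f W H μ θ he hcard
      (fun L hL => ⟨(Finset.mem_filter.1 hL).2, (h𝓛 L (Finset.mem_filter.1 hL).1).2⟩)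
      (le_trans (by exact_mod_cast Finset.card_filter_le _ _) hf) hwQ hμ hθ hθ1 fun y hy => ?_)
    · rw [Nat.cast_le]
      refine lin_cover E3 (E3.image fun x => (Lf x.1, Lf x.2))
        (fun y => P.filter fun a => Lf a = y.1)
        (fun y => P.filter fun a => Lf a = y.2) fun x hx => ?_
      have hx' := hE x (Finset.mem_filter.1 (Finset.mem_filter.1 hx).1).1
      exact ⟨_, Finset.mem_image_of_mem _ hx, Finset.mem_filter.2 ⟨hx'.1, rfl⟩,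
        Finset.mem_filter.2 ⟨hx'.2.1, rfl⟩⟩
    · obtain ⟨x, hx, rfl⟩ := Finset.mem_image.1 hy
      obtain ⟨hx, h⟩ := Finset.mem_filter.1 hx
      have hx' := (Finset.mem_filter.1 hx).1
      refine ⟨(hE0 x hx).1, (hE0 x hx).2.1, (hE0 x hx).2.2.1, (hE x hx').2.2.1, h, ?_⟩
      rw [hsum]
      refine le_trans (Nat.cast_le.2 (Finset.card_le_card fun a ha => ?_)) (hyp _ (hne x hx'))
      obtain ⟨ha, ha'⟩ := Finset.mem_filter.1 ha
      exact Finset.mem_filter.2 ⟨ha, (Finset.mem_filter.1 ha').2⟩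
  have b4 : (E4.card : ℝ) ≤ f * (μ * W * H) := by
    refine (lin_cover' E4 (𝓛.filter fun 𝓐 => 𝓐 ≠ ⊥ ∧ ((Q.filter fun L => 𝓐 ≤ L).card : ℝ) ≤ μ)
      (fun 𝓐 => P.filter fun a => Lf a ∈ Q.filter fun L => 𝓐 ≤ L)
      (fun 𝓐 => P.filter fun a => 𝓐 ≤ Lf a) (fun x hx => ?_) fun 𝓐 h𝓐 => ?_).trans
      (mul_le_mul_of_nonneg_right (le_trans (by exact_mod_cast Finset.card_filter_le _ _) hf)
        (by positivity))
    · obtain ⟨hx, h⟩ := Finset.mem_filter.1 hx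
      have hx' := (Finset.mem_filter.1 hx).1
      obtain ⟨p1, p2, p3, Ω, T, M, hT, hM, hM'⟩ := hE x hx'
      refine ⟨Lf x.1 ⊓ Lf x.2, Finset.mem_filter.2 ⟨?_, hne x hx', (not_le.1 h).le⟩,
        Finset.mem_filter.2 ⟨p1, Finset.mem_filter.2 ⟨(hE0 x hx).1, inf_le_left⟩⟩,
        Finset.mem_filter.2 ⟨p2, inf_le_right⟩⟩
      by_contra hn
      have hlt : ∀ s ∈ T, Lf x.1 ⊓ Lf x.2 < M s := fun s hs =>
        (hM s hs).2.lt_of_ne fun h' => hn (h' ▸ (hM s hs).1)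
      refine h (hT.le.trans (Nat.cast_le.2 (Finset.card_le_card_of_injOn M (fun s hs => ?_)
        fun s hs s' hs' h' => by_contra fun hss => ?_)))
      · have q1 := Submodule.finrank_lt_finrank_of_lt (hlt s hs)
        have q2 := (h𝓛 _ (hM s hs).1).1
        exact Finset.mem_coe.2 (Finset.mem_filter.2
          ⟨Finset.mem_filter.2 ⟨(hM s hs).1, by omega⟩, (hM s hs).2⟩)
      · have q1 := hM' s hs s' hs' hss
        rw [← h', inf_idem] at q1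
        exact (hlt s hs).not_ge q1
    · obtain ⟨-, h1, h2⟩ := Finset.mem_filter.1 h𝓐
      refine mul_le_mul ?_ (hyp _ h1) (Nat.cast_nonneg _) (by positivity)
      rw [← hsum, Nat.cast_sum]
      refine (Finset.sum_le_card_nsmul _ _ W fun L hL => hwQ L (Finset.mem_filter.1 hL).1).trans ?_
      rw [nsmul_eq_mul]
      exact mul_le_mul_of_nonneg_right h2 hW0
  linarith

end

end Vale.Agent.P054
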