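import Vale.Agent.P054.Trisec
import Vale.Agent.P054.CelReal

/-! Real affine forms contained in a complex ideal. -/

namespace Vale.Agent.P054

open MvPolynomial Module

noncomputable section

variable {σ : Type} [Fintype σ]

/-- a real affine form as a complex polynomial. -/
def linP (φ : ℝ × (σ → ℝ)) : MvPolynomial σ ℂ := C (φ.1 : ℂ) + ∑ k, C (φ.2 k : ℂ) * X k

theorem lin_aeval {Ω : Type} [CommRing Ω] [Algebra ℂ Ω] (y : σ → Ω) (φ : ℝ × (σ → ℝ)) :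
    aeval y (linP φ) = algebraMap ℂ Ω φ.1 + ∑ k, algebraMap ℂ Ω (φ.2 k) * y k := by
  simp only [linP, map_add, map_sum, map_mul, aeval_C, aeval_X]

/-- the real affine forms in an ideal. -/
def LinR (𝔶 : Ideal (MvPolynomial σ ℂ)) : Submodule ℝ (ℝ × (σ → ℝ)) where
  carrier := {φ | linP φ ∈ 𝔶}
  add_mem' := fun {φ ψ} h h' => by
    have : linP (φ + ψ) = linP φ + linP ψ := by
      simp only [linP, Prod.fst_add, Prod.snd_add, Pi.add_apply, Complex.ofReal_add, map_add,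
        add_mul, Finset.sum_add_distrib]
      ring
    exact Set.mem_ofPred.2 (this ▸ 𝔶.add_mem h h')
  zero_mem' := by simp [linP]
  smul_mem' := fun r φ h => by
    have : linP (r • φ) = C (r : ℂ) * linP φ := by
      simp only [linP, Prod.smul_fst, Prod.smul_snd, Pi.smul_apply, smul_eq_mul,
        Complex.ofReal_mul, map_mul, mul_add, Finset.mul_sum, mul_assoc]
    exact Set.mem_ofPred.2 (this ▸ 𝔶.mul_mem_left _ h)

theorem lin_mem {𝔶 : Ideal (MvPolynomial σ ℂ)} {φ : ℝ × (σ → ℝ)} : φ ∈ LinR 𝔶 ↔ linP φ ∈ 𝔶 :=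
  Iff.rfl

theorem lin_lp {Ω : Type} [CommRing Ω] [Algebra ℂ Ω] (p q : σ → Ω) (s : Ω) (φ : ℝ × (σ → ℝ)) :
    aeval (lp p (fun k => q k - p k) s) (linP φ) =
      (1 - s) * aeval p (linP φ) + s * aeval q (linP φ) := by
  simp only [lin_aeval, lp, mul_add, mul_sub, Finset.sum_add_distrib, Finset.sum_sub_distrib,
    mul_left_comm _ s, ← Finset.mul_sum]
  ring

theorem lin_pderiv (φ : ℝ × (σ → ℝ)) (k : σ) : pderiv k (linP φ) = C (φ.2 k : ℂ) := by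
  classical
  simp [linP, pderiv_X, Pi.single_apply]

theorem lin_deg (φ : ℝ × (σ → ℝ)) : (linP φ).totalDegree ≤ 1 := by
  refine (totalDegree_add _ _).trans (max_le (by simp) ((totalDegree_finsetSum _ _).trans
    (Finset.sup_le fun k _ => (totalDegree_mul _ _).trans ?_)))
  rw [totalDegree_C, totalDegree_X]

theorem lin_trans {ρ : Type} [Fintype ρ] {e : ρ → σ} (he : Function.Injective e)
    {𝔶 : Ideal (MvPolynomial σ ℂ)} (h : Ind 𝔶 fun k => X (e k)) (φ : ℝ × (σ → ℝ))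
    (hφ : φ ∈ LinR 𝔶) (h0 : ∀ k, k ∉ Set.range e → φ.2 k = 0) : φ = 0 := by
  have h1 : linP (φ.1, fun k => φ.2 (e k)) = 0 := by
    refine h _ ?_
    rw [lin_aeval, Fintype.sum_of_injective e he
      (fun k => algebraMap ℂ (MvPolynomial σ ℂ) (φ.2 (e k)) * X (e k))
      (fun k => C (φ.2 k : ℂ) * X k) (fun k hk => by simp [h0 k hk]) fun k => rfl]
    exact hφ
  have h2 : φ.2 = 0 := funext fun k => by
    by_cases hk : k ∈ Set.range e
    · obtain ⟨k, rfl⟩ := hk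
      have h3 := lin_pderiv (φ.1, fun k => φ.2 (e k)) k
      rw [h1, map_zero, eq_comm, C_eq_zero] at h3
      exact_mod_cast h3
    · exact h0 k hk
  refine Prod.ext ?_ h2
  simpa [linP, h2] using h1

theorem lin_basis {ι ρ : Type} [Fintype ι] [DecidableEq ι] {c : ι → σ} {e : ρ → σ}
    (hc : Compl c e) {L : Submodule ℝ (ℝ × (σ → ℝ))}
    (h : ∀ φ ∈ L, (∀ k, k ∉ Set.range e → φ.2 k = 0) → φ = 0) :
    finrank ℝ L ≤ Fintype.card ι ∧ (finrank ℝ L = Fintype.card ι →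
      ∀ i, ∃ φ ∈ L, ∀ i', φ.2 (c i') = (Pi.single i 1 : ι → ℝ) i') := by
  let π : L →ₗ[ℝ] (ι → ℝ) := LinearMap.funLeft ℝ ℝ c ∘ₗ LinearMap.snd ℝ _ _ ∘ₗ L.subtype
  have hi : Function.Injective π := by
    rw [injective_iff_map_eq_zero]
    refine fun φ hφ => Subtype.ext (h φ φ.2 fun k hk => ?_)
    obtain ⟨i, rfl⟩ := (hc.2.2 k).2 hk
    exact congrFun hφ i
  refine ⟨by simpa using LinearMap.finrank_le_finrank_of_injective hi, fun hr i => ?_⟩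
  obtain ⟨φ, hφ⟩ := (LinearMap.injective_iff_surjective_of_finrank_eq_finrank
    (by simpa using hr)).1 hi (Pi.single i 1)
  exact ⟨φ, φ.2, congrFun hφ⟩

theorem lin_part {ι : Type} [Fintype ι] [DecidableEq ι] {γ : ι → MvPolynomial σ ℝ} {c : ι → σ}
    {b : σ → ℝ} (hg : ∀ i, aeval b (γ i) = 0) (hJ : aeval b (Jac γ c) ≠ 0) {l : σ → ℂ}
    {a : σ → ℝ}
    (h : linF l (cx a) ∈ Br (Set.range fun i => map (algebraMap ℝ ℂ) (γ i)) (kr ℂ (cx b)))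
    (φ : ℂ →ₗ[ℝ] ℝ) : (-∑ k, φ (l k) * a k, fun k => φ (l k)) ∈
      LinR (Br (Set.range fun i => map (algebraMap ℝ ℂ) (γ i)) (kr ℂ (cx b))) := by
  have h1 := (map_mem_Br_iff (K' := ℂ) hg hJ _).2 (Br_coeff hg hJ φ h (brb_coeff φ _))
  have h2 : brbT φ (linF l (cx a)) = ∑ k, φ (l k) • (X k - C (a k)) := by
    refine (map_sum (AddMonoidHom.mk' (brbT φ) (brb_add φ)) _ _).trans
      (Finset.sum_congr rfl fun k _ => ?_)
    rw [← brb_C_mul, map_sub, map_X, map_C]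
    rfl
  rw [h2] at h1
  refine lin_mem.2 ((congrArg (· ∈ _) ?_).mp h1)
  simp only [linP, smul_eq_C_mul, map_sum, map_mul, map_sub, map_X, map_C, mul_sub,
    Finset.sum_sub_distrib, Complex.ofReal_neg, Complex.ofReal_sum, Complex.ofReal_mul, map_neg,
    Complex.coe_algebraMap]
  ring

theorem lin_dim (H : Submodule ℂ (σ → ℂ)) (𝓐 : Submodule ℝ (ℝ × (σ → ℝ)))
    (h : ∀ l : σ → ℂ, (∀ v ∈ H, ∑ k, l k * v k = 0) → ∀ φ : ℂ →ₗ[ℝ] ℝ,
      ∃ b, (b, fun k => φ (l k)) ∈ 𝓐) : Fintype.card σ ≤ finrank ℂ H + finrank ℝ 𝓐 := by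
  let B : (σ → ℂ) →ₗ[ℂ] Dual ℂ H := H.subtype.dualMap ∘ₗ dotProductBilin ℂ ℂ
  let u : 𝓐 →ₗ[ℝ] (σ → ℂ) :=
    (Complex.ofRealAm.toLinearMap.compLeft σ) ∘ₗ LinearMap.snd ℝ _ _ ∘ₗ 𝓐.subtype
  have h1 := B.finrank_range_add_finrank_ker
  have h2 := (LinearMap.range B).finrank_le
  have hu : ∀ ψ, u ψ ∈ Submodule.span ℂ (Set.range fun i => u (finBasis ℝ 𝓐 i)) := fun ψ => by
    rw [← (finBasis ℝ 𝓐).sum_repr ψ, map_sum]
    refine Submodule.sum_mem _ fun i _ => ?_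
    rw [map_smul]
    exact Submodule.smul_of_tower_mem _ _ (Submodule.subset_span ⟨i, rfl⟩)
  have h3 : LinearMap.ker B ≤ Submodule.span ℂ (Set.range fun i => u (finBasis ℝ 𝓐 i)) := by
    intro l hl
    have h4 := h l fun v hv => DFunLike.congr_fun (LinearMap.mem_ker.1 hl) ⟨v, hv⟩
    obtain ⟨b1, h5⟩ := h4 Complex.reLm
    obtain ⟨b2, h6⟩ := h4 Complex.imLm
    have h7 : l = u ⟨_, h5⟩ + Complex.I • u ⟨_, h6⟩ := funext fun k => by
      rw [Pi.add_apply, Pi.smul_apply, smul_eq_mul, mul_comm]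
      exact (Complex.re_add_im _).symm
    rw [h7]
    exact Submodule.add_mem _ (hu _) (Submodule.smul_mem _ _ (hu _))
  have h4 := (Submodule.finrank_mono h3).trans (finrank_range_le_card _)
  rw [Subspace.dual_finrank_eq] at h2
  rw [Fintype.card_fin] at h4
  rw [finrank_fintype_fun_eq_card] at h1
  omega

/-- the primes of generic points of the branches. -/
def linB {ι ρ : Type} [Fintype ι] [DecidableEq ι] (γ : ι → MvPolynomial σ ℂ) (c : ι → σ)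
    (e : ρ → σ) : Set (Ideal (MvPolynomial σ ℂ)) :=
  {𝔶 | 𝔶.IsPrime ∧ (∀ i, γ i ∈ 𝔶) ∧ Jac γ c ∉ 𝔶 ∧ Ind 𝔶 fun k => X (e k)}

theorem lin_count {ι ρ : Type} [Fintype ι] [DecidableEq ι] [Fintype ρ] {γ : ι → MvPolynomial σ ℂ}
    {c : ι → σ} {e : ρ → σ} (hc : Compl c e) (δ : ι → ℝ)
    (hdeg : ∀ i, ((γ i).totalDegree : ℝ) ≤ δ i) (hδ : ∀ i, 1 ≤ δ i) :
    ∃ S : Finset (Ideal (MvPolynomial σ ℂ)), (∀ 𝔶, 𝔶 ∈ S ↔ 𝔶 ∈ linB γ c e) ∧
      (S.card : ℝ) ≤ (Fintype.card ρ).factorial *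
        (2 ^ Fintype.card σ * ∏ i, (2 ^ Fintype.card σ * δ i)) := by
  have key : ∀ S : Finset (Ideal (MvPolynomial σ ℂ)), ↑S ⊆ linB γ c e →
      (S.card : ℝ) ≤ (Fintype.card ρ).factorial *
        (2 ^ Fintype.card σ * ∏ i, (2 ^ Fintype.card σ * δ i)) := fun S hS => by
    have h1 := t1_gen S id γ δ (fun l hl => (hS hl).1) (fun l hl => dn_of_isAlgClosed (hS hl).1)
      (fun l hl => (hS hl).2.1) (fun l hl => sm_of_jac (hS hl).1 (hS hl).2.2.1) hdeg hδ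
    rw [← hc.card_add, Nat.add_sub_cancel_left, hc.card_add] at h1
    exact count_le S id (fun l hl => (hS hl).1) (Set.injOn_id _)
      (h1.mono (iInf₂_mono fun l hl => Br_le (hS hl).1
        (fun f ⟨i, hi⟩ => hi ▸ (hS hl).2.1 i) le_rfl) le_rfl)
      fun l hl => ⟨_, (hS hl).2.2.2, fun k => (totalDegree_X _).le⟩
  have hfin : (linB γ c e).Finite := by
    by_contra h
    obtain ⟨n, hn⟩ := exists_nat_gt ((Fintype.card ρ).factorial *
      (2 ^ Fintype.card σ * ∏ i, (2 ^ Fintype.card σ * δ i)) : ℝ)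
    obtain ⟨S, hS, rfl⟩ := Set.Infinite.exists_subset_card_eq h n
    exact hn.not_ge (key S hS)
  exact ⟨hfin.toFinset, fun _ => hfin.mem_toFinset, key _ hfin.coe_toFinset.le⟩

theorem lin_Br {ι ρ : Type} [Fintype ι] [DecidableEq ι] [Fintype ρ] {γ : ι → MvPolynomial σ ℂ}
    {c : ι → σ} {e : ρ → σ} (hc : Compl c e) {a : σ → ℂ} (hg : ∀ i, aeval a (γ i) = 0)
    (hJ : aeval a (Jac γ c) ≠ 0) :
    Br (Set.range γ) (kr ℂ a) ≤ kr ℂ a ∧ Br (Set.range γ) (kr ℂ a) ∈ linB γ c e := by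
  have h : Br (Set.range γ) (kr ℂ a) ≤ kr ℂ a :=
    Br_le (kr_isPrime a) (fun f ⟨i, hi⟩ => hi ▸ hg i) le_rfl
  exact ⟨h, Br_kr_isPrime hg hJ, fun i => mem_Br_of_mem (kr_isPrime a) ⟨i, rfl⟩,
    fun h' => hJ (h h'), Br_ind hc (kr_isPrime a) (dn_kr a) hg hJ⟩

theorem lin_pair {g : ℕ → MvPolynomial σ ℂ} {c : (r : ℕ) → Fin r → σ} {t : ℕ} (ht : 2 ≤ t)
    (hreal : ∀ i, ∃ g0 : MvPolynomial σ ℝ, g i = map (algebraMap ℝ ℂ) g0) {ρ : Type} [Fintype ρ]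
    {e : ρ → σ} (hc : Compl (c t) e) {a a' : σ → ℝ} (ha : ∀ i, gs g t i ∈ kr ℂ (cx a))
    (ha' : ∀ i, gs g t i ∈ kr ℂ (cx a')) (hJ : Jac (gs g t) (c t) ∉ kr ℂ (cx a))
    (hJ' : Jac (gs g t) (c t) ∉ kr ℂ (cx a')) (hnt : NT (g 0) (cx a) (cx a')) {μ : ℝ}
    (hμ : 1 ≤ μ) (hgen : ¬ Gen g (Jc g c) t μ (cx a) (cx a')) :
    t ≤ finrank ℝ (LinR (Br (Set.range (gs g t)) (kr ℂ (cx a))) ⊓
      LinR (Br (Set.range (gs g t)) (kr ℂ (cx a'))) : Submodule ℝ _) + 1 ∧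
    ∃ (Ω : Type) (T : Finset Ω) (M : Ω → Ideal (MvPolynomial σ ℂ)), μ < T.card ∧
      (∀ s ∈ T, M s ∈ linB (gs g t) (c t) e ∧ LinR (Br (Set.range (gs g t)) (kr ℂ (cx a))) ⊓
        LinR (Br (Set.range (gs g t)) (kr ℂ (cx a'))) ≤ LinR (M s)) ∧
      ∀ s ∈ T, ∀ s' ∈ T, s ≠ s' → LinR (M s) ⊓ LinR (M s') ≤
        LinR (Br (Set.range (gs g t)) (kr ℂ (cx a))) ⊓
          LinR (Br (Set.range (gs g t)) (kr ℂ (cx a'))) := by
  simp only [Gen, RB, not_forall, not_le] at hgen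
  obtain ⟨K', Ω, _, _, _, _, _, _, _, p, q, hp, hq, T, hT, hμT⟩ := hgen
  have htri := fun s hs => trisec hc ⟨0, by omega⟩ ha ha' hJ hJ' hnt hp hq (hT s hs).2.1
    (hT s hs).1 (fun i => (hT s hs).2.2.1 i i.2) ((hT s hs).2.2.2.1 t le_rfl) (hT s hs).2.2.2.2
  have hp' : kr ℂ (am Ω p) = Br (Set.range (gs g t)) (kr ℂ (cx a)) :=
    (brb_kr_comp (IsScalarTower.toAlgHom ℂ K' Ω) (algebraMap K' Ω).injective p).trans hp
  have hq' := kr_of_kr_base ha' hJ' hq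
  refine ⟨?_, Ω, T, fun s => kr ℂ (lp (am Ω p) (fun k => q k - am Ω p k) s), hμT,
    fun s hs => ⟨⟨kr_isPrime _, fun i => (hT s hs).2.2.1 i i.2, (hT s hs).2.2.2.1 t le_rfl,
      (htri s hs).2⟩, fun φ hφ => ?_⟩, fun s hs s' hs' hss φ hφ => ?_⟩
  · obtain ⟨s, hs⟩ : T.Nonempty :=
      Finset.card_pos.1 (Nat.cast_pos.1 ((one_pos.trans_le hμ).trans hμT))
    obtain ⟨H, hH, hl⟩ := (htri s hs).1
    choose g0 hg0 using hreal
    obtain rfl : g = fun i => map (algebraMap ℝ ℂ) (g0 i) := funext hg0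
    have hJ0 : ∀ b : σ → ℝ, Jac (gs (fun i => map (algebraMap ℝ ℂ) (g0 i)) t) (c t) ∉
        kr ℂ (cx b) → aeval b (Jac (gs g0 t) (c t)) ≠ 0 := fun b hb h =>
      hb ((jac_map (algebraMap ℝ ℂ) (gs g0 t) (c t)).symm ▸ (celReal_mem b _).2 h)
    have h1 := lin_dim H _ fun l hl' φ => ⟨_, Submodule.mem_inf.2
      ⟨lin_part (γ := gs g0 t) (fun i => (celReal_mem a _).1 (ha i)) (hJ0 a hJ) (hl l hl').1 φ,
        lin_part (γ := gs g0 t) (fun i => (celReal_mem a' _).1 (ha' i)) (hJ0 a' hJ')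
          (hl l hl').2 φ⟩⟩
    have h2 := hc.card_add
    rw [Fintype.card_fin] at h2
    exact (fun n (h : Fintype.card σ ≤ finrank ℂ H + n) => (by omega : t ≤ n + 1)) _ h1
  · rw [← hp', ← hq'] at hφ
    rw [lin_mem, mem_kr, lin_lp, mem_kr.1 hφ.1, mem_kr.1 hφ.2, mul_zero, mul_zero, add_zero]
  · have h1 := (lin_lp _ _ _ φ).symm.trans (mem_kr.1 hφ.1)
    have h2 := (lin_lp _ _ _ φ).symm.trans (mem_kr.1 hφ.2)
    rw [← hp', ← hq']
    refine ⟨mem_kr.2 (mul_left_cancel₀ (sub_ne_zero.2 hss) ?_),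
      mem_kr.2 (mul_left_cancel₀ (sub_ne_zero.2 hss) ?_)⟩
    · linear_combination s * h2 - s' * h1
    · linear_combination (1 - s') * h1 - (1 - s) * h2

theorem lin_weight {Λ : Type} (S : Finset Λ) (x : Λ → σ → ℂ) (hx : Set.InjOn x S)
    (g : ℕ → MvPolynomial σ ℂ) (δ : ℕ → ℝ) {t : ℕ} (ht : t ≤ Fintype.card σ) {c : Fin t → σ}
    {c' : Fin (Fintype.card σ) → σ} (hg : ∀ a ∈ S, ∀ i, i < Fintype.card σ → g i ∈ kr ℂ (x a))
    (hJ : ∀ a ∈ S, Jac (gs g t) c ∉ kr ℂ (x a))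
    (hJ' : ∀ a ∈ S, Jac (gs g (Fintype.card σ)) c' ∉ kr ℂ (x a))
    (hdeg : ∀ i, i < Fintype.card σ → ((g i).totalDegree : ℝ) ≤ δ i) (hδ : ∀ i, 1 ≤ δ i)
    (φ : Fin t → ℝ × (σ → ℝ)) (hφ : ∀ i i', (φ i).2 (c i') = (Pi.single i 1 : Fin t → ℝ) i')
    (hφ' : ∀ a ∈ S, ∀ i, φ i ∈ LinR (Br (Set.range (gs g t)) (kr ℂ (x a)))) :
    (S.card : ℝ) ≤ 2 ^ Fintype.card σ * (2 ^ Fintype.card σ) ^ t *
      ∏ i ∈ Finset.Ico t (Fintype.card σ), (2 ^ Fintype.card σ * δ i) := by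
  have hle : ∀ a ∈ S, ∀ r, r ≤ Fintype.card σ → Br (Set.range (gs g r)) (kr ℂ (x a)) ≤
      kr ℂ (x a) := fun a ha r hr =>
    Br_le (kr_isPrime _) (fun f ⟨i, hi⟩ => hi ▸ hg a ha i (i.2.trans_le hr)) le_rfl
  have h1 := t1_gen S (fun a => kr ℂ (x a)) (fun i => linP (φ i)) (fun _ => 1)
    (fun a _ => kr_isPrime _) (fun a _ => dn_kr _) (fun a ha i => hle a ha t ht (hφ' a ha i))
    (fun a ha b hb i => by simpa [lin_pderiv, hφ, Pi.single_apply, apply_ite] using hb (c i))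
    (fun i => by exact_mod_cast lin_deg _) fun _ => le_rfl
  rw [Fintype.card_fin, mul_one, Finset.prod_const, Finset.card_univ, Fintype.card_fin] at h1
  have h2 := t1_rel S (fun a => kr ℂ (x a)) g δ ht le_rfl (fun a _ => kr_isPrime _)
    (fun a _ => dn_kr _) hg (fun a ha => sm_of_jac (kr_isPrime _) (hJ' a ha)) hdeg hδ
    (h1.mono (iInf₂_mono fun a ha => Br_le
      (Br_kr_isPrime (fun i => hg a ha i (i.2.trans_le ht)) (hJ a ha))
      (fun f ⟨i, hi⟩ => hi ▸ hφ' a ha i) (hle a ha t ht)) le_rfl)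
  rw [Nat.sub_self] at h2
  exact count_points S x hx (h2.mono (iInf₂_mono fun a ha => hle a ha _ le_rfl) le_rfl)

end

end Vale.Agent.P054
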