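import Vale.Agent.P054.Trisec
import Vale.Agent.P054.WB
import Vale.Agent.P054.CelReal
import Vale.Agent.P054.LinearAux1
import Vale.Agent.P054.LinearAux2

namespace Vale.Agent.P054

open MvPolynomial

noncomputable section

theorem lin_final {C0 C1 n H μ θ f W : ℝ} (hC0 : 0 < C0) (hC1 : 0 ≤ C1) (hH : 0 ≤ H) (hHn : H ≤ n)
    (hμ : 1 ≤ μ) (hθ : 0 < θ) (h0 : 0 ≤ f * W) (h : f * W ≤ C1 * n) :
    2 * (n * H) + C0 * (W ^ 2 * f ^ 2 / μ + θ * W ^ 2 * f ^ 2 + H ^ 2 / θ ^ 2) + f * (μ * W * H) ≤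
      (C0 * C1 ^ 2 + C0 + C1 + 2) * ((1 / μ + θ) * n ^ 2 + (μ + 1 / θ ^ 2) * H * n) := by
  have hn : 0 ≤ n := hH.trans hHn
  have hμ0 : 0 < μ := one_pos.trans_le hμ
  have h1 := mul_le_mul_of_nonneg_left (pow_le_pow_left₀ h0 h 2)
    (show 0 ≤ C0 * (1 / μ + θ) by positivity)
  have h2 := mul_le_mul_of_nonneg_left h (show 0 ≤ μ * H by positivity)
  have h3 := mul_le_mul_of_nonneg_left hHn (show 0 ≤ C0 * (1 / θ ^ 2) * H by positivity)
  have h4 := mul_le_mul_of_nonneg_left hμ (show 0 ≤ H * n by positivity)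
  have h5 : 0 ≤ (C0 + C1 + 2) * ((1 / μ + θ) * n ^ 2) := by positivity
  have h6 : 0 ≤ (C0 * C1 ^ 2 + C0) * (μ * H * n) := by positivity
  have h7 : 0 ≤ (C0 * C1 ^ 2 + C1 + 2) * (1 / θ ^ 2 * H * n) := by positivity
  simp only [div_eq_mul_inv] at *
  linarith

/-- few pairs have a generic secant with many roots. -/
theorem linear_count (d : ℕ) (A : ℝ) (hA : 1 ≤ A) : ∃ C : ℝ, 0 < C ∧ ∀ (α : ℝ) (σ : Type)
    [Fintype σ] (P : Finset (σ → ℝ)) (D : Cel A α d (fun a : σ → ℝ => kr ℂ (cx a)) P) (H μ θ : ℝ)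
    (t : ℕ) (E : Finset ((σ → ℝ) × (σ → ℝ))), Fintype.card σ = d →
    (∀ i, ∃ g0 : MvPolynomial σ ℝ, D.g i = map (algebraMap ℝ ℂ) g0) → HypB P H → 2 ≤ t → t ≤ d →
    1 ≤ μ → 0 < θ → θ ≤ 1 →
    (∀ x ∈ E, x.1 ∈ P ∧ x.2 ∈ P ∧ NT (D.g 0) (cx x.1) (cx x.2) ∧
      ¬ Gen D.g (Jc D.g D.c) t μ (cx x.1) (cx x.2)) →
    (E.card : ℝ) ≤ C * ((1 / μ + θ) * (P.card : ℝ) ^ 2 + (μ + 1 / θ ^ 2) * H * P.card) := by
  classical
  obtain ⟨C0, hC0, hcomb⟩ := lin_comb
  obtain ⟨C1, hC1⟩ : ∃ C1 : ℝ, C1 = d.factorial * 2 ^ d * (2 ^ d * (2 ^ d) ^ d) *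
    (2 ^ d * A) ^ d * A := ⟨_, rfl⟩
  have hC1' : 0 ≤ C1 := by
    rw [hC1]
    positivity
  refine ⟨C0 * C1 ^ 2 + C0 + C1 + 2, by positivity, ?_⟩
  intro α σ _ P D H μ θ t E hd hreal hH ht htd hμ hθ hθ1 hE
  subst hd
  have hH0 : 0 ≤ H := by
    obtain ⟨k⟩ : Nonempty σ := Fintype.card_pos_iff.1 (by omega)
    simpa using hH (fun _ => 1) 0 ∅ (fun h => one_ne_zero (congrFun h k)) (Finset.empty_subset _)
      (by simp)
  rcases le_or_gt (P.card : ℝ) H with hPH | hPH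
  · have h1 : (E.card : ℝ) ≤ P.card * P.card := by
      exact_mod_cast (Finset.card_le_card (t := P ×ˢ P) fun x hx =>
        Finset.mem_product.2 ⟨(hE x hx).1, (hE x hx).2.1⟩).trans_eq (Finset.card_product _ _)
    have h2 := mul_le_mul_of_nonneg_right hPH (Nat.cast_nonneg P.card)
    have h3 := mul_le_mul_of_nonneg_right hμ (mul_nonneg hH0 (Nat.cast_nonneg P.card))
    have h4 : 0 ≤ (1 / μ + θ) * (P.card : ℝ) ^ 2 + 1 / θ ^ 2 * H * P.card := by positivity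
    refine le_trans (by linarith) (le_mul_of_one_le_left (by positivity) ?_)
    linarith [mul_nonneg hC0.le (sq_nonneg C1)]
  obtain ⟨a0, ha0⟩ : P.Nonempty := Finset.card_pos.1 (Nat.cast_pos.1 (hH0.trans_lt hPH))
  have hc := compl_free (inj_of_jac (g := gs D.g t) (c := D.c t) fun h =>
    D.jac t htd a0 ha0 (h ▸ Ideal.zero_mem _))
  have hδ : ∀ i, 1 ≤ A * D.δ i := fun i => one_le_mul_of_one_le_of_one_le hA (D.one_le i)
  have hg : ∀ a ∈ P, ∀ i, gs D.g t i ∈ kr ℂ (cx a) := fun a ha i =>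
    D.mem i (i.2.trans_le htd) a ha
  obtain ⟨S, hS, hSf⟩ := lin_count hc (fun i : Fin t => A * D.δ i)
    (γ := gs D.g t) (fun i => D.deg i (i.2.trans_le htd)) fun i => hδ i
  have hcard := hc.card_add
  rw [Fintype.card_fin] at hcard
  have htr : ∀ L ∈ S.image LinR, ∀ φ ∈ L, (∀ k, k ∉ Set.range
      (Subtype.val : {k // k ∉ Set.range (D.c t)} → σ) → φ.2 k = 0) → φ = 0 := fun L hL => by
    obtain ⟨𝔶, h, rfl⟩ := Finset.mem_image.1 hL
    exact lin_trans hc.2.1 ((hS 𝔶).1 h).2.2.2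
  refine (hcomb σ _ Subtype.val t P (S.image LinR)
    (fun a => LinR (Br (Set.range (gs D.g t)) (kr ℂ (cx a)))) E _
    (2 ^ Fintype.card σ * (2 ^ Fintype.card σ) ^ t *
      ∏ i ∈ Finset.Ico t (Fintype.card σ), (2 ^ Fintype.card σ * (A * D.δ i))) H μ θ hc.2.1 hcard ht
    (fun L hL => ⟨(lin_basis hc (htr L hL)).1.trans_eq (Fintype.card_fin t), htr L hL⟩)
    (le_trans (Nat.cast_le.2 Finset.card_image_le) hSf) (fun a ha => ?_) (fun L hL hr => ?_) ?_
    hH hH0 hμ hθ hθ1 fun x hx => ?_).trans (lin_final hC0 hC1' hH0 hPH.le hμ hθ ?_ ?_)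
  · obtain ⟨h1, h2⟩ := lin_Br hc (hg a ha) (D.jac t htd a ha)
    refine ⟨Finset.mem_image_of_mem _ ((hS _).2 h2), fun φ hφ => ?_⟩
    have h3 := (lin_aeval _ φ).symm.trans (mem_kr.1 (h1 hφ))
    simp only [Algebra.algebraMap_self, RingHom.id_apply] at h3
    exact_mod_cast h3
  · choose φ hφ hφ' using (lin_basis hc (htr L hL)).2 (hr.trans (Fintype.card_fin t).symm)
    exact lin_weight _ cx (fun a _ b _ h => funext fun k => Complex.ofReal_injective (congrFun h k))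
      D.g _ htd (fun a ha i hi => D.mem i hi a (Finset.mem_filter.1 ha).1)
      (fun a ha => D.jac t htd a (Finset.mem_filter.1 ha).1)
      (fun a ha => D.jac _ le_rfl a (Finset.mem_filter.1 ha).1) D.deg hδ φ hφ'
      fun a ha i => (Finset.mem_filter.1 ha).2.symm ▸ hφ i
  · exact mul_nonneg (by positivity) (Finset.prod_nonneg fun i _ =>
      mul_nonneg (by positivity) (zero_le_one.trans (hδ i)))
  · obtain ⟨h1, h2, h3, h4⟩ := hE x hx
    obtain ⟨h5, Ω, T, M, h6, h7, h8⟩ := lin_pair ht hreal hc (hg _ h1) (hg _ h2)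
      (D.jac t htd _ h1) (D.jac t htd _ h2) h3 hμ h4
    exact ⟨h1, h2, h5, Ω, T, fun s => LinR (M s), h6, fun s hs =>
      ⟨Finset.mem_image_of_mem _ ((hS _).2 (h7 s hs).1), (h7 s hs).2⟩, h8⟩
  · exact mul_nonneg ((Nat.cast_nonneg _).trans hSf) (mul_nonneg (by positivity)
      (Finset.prod_nonneg fun i _ => mul_nonneg (by positivity) (zero_le_one.trans (hδ i))))
  · have h1 := Finset.prod_range_mul_prod_Ico (fun i => 2 ^ Fintype.card σ * (A * D.δ i)) htd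
    have h2 : ∏ i ∈ Finset.range (Fintype.card σ), 2 ^ Fintype.card σ * (A * D.δ i) =
        (2 ^ Fintype.card σ * A) ^ Fintype.card σ * fp D.δ (Fintype.card σ) := by
      simp only [← mul_assoc, fp]
      rw [Finset.prod_mul_distrib, Finset.prod_const, Finset.card_range]
    rw [h2, ← Fin.prod_univ_eq_prod_range] at h1
    have h3 := fp_pos D.one_le (Fintype.card σ)
    calc _ = (Fintype.card {k // k ∉ Set.range (D.c t)}).factorial * 2 ^ Fintype.card σ *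
          (2 ^ Fintype.card σ * (2 ^ Fintype.card σ) ^ t) *
          ((2 ^ Fintype.card σ * A) ^ Fintype.card σ * fp D.δ (Fintype.card σ)) := by
          rw [← h1]
          ring
      _ ≤ (Fintype.card σ).factorial * 2 ^ Fintype.card σ *
          (2 ^ Fintype.card σ * (2 ^ Fintype.card σ) ^ Fintype.card σ) *
          ((2 ^ Fintype.card σ * A) ^ Fintype.card σ * (A * P.card)) := by
          gcongr
          · omega
          · exact one_le_pow₀ one_le_two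
          · exact D.le_card
      _ = _ := by
          rw [hC1]
          ring

end

end Vale.Agent.P054
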