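import Vale.Agent.P054.Defs

namespace Vale.Agent.P054

open MvPolynomial

noncomputable section

theorem loctree_sum_biUnion {α β : Type} [DecidableEq β] (s : Finset α) (t : α → Finset β)
    (f : β → ℕ) : ∑ x ∈ s.biUnion t, f x ≤ ∑ a ∈ s, ∑ x ∈ t a, f x := by
  classical
  induction s using Finset.induction_on with
  | empty => simp
  | insert a s ha ih =>
    rw [Finset.biUnion_insert, Finset.sum_insert ha]
    have := Finset.sum_union_inter (s₁ := t a) (s₂ := s.biUnion t) (f := f)
    omega

theorem loctree_sum_div {β : Type} (s : Finset β) (a : β → ℕ) (k : ℕ) :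
    ∑ x ∈ s, a x / k ≤ (∑ x ∈ s, a x) / k := by
  classical
  induction s using Finset.induction_on with
  | empty => simp
  | insert x s hx ih =>
    rw [Finset.sum_insert hx, Finset.sum_insert hx]
    exact (Nat.add_le_add_left ih _).trans (Nat.div_add_div_le_add_div)

theorem loctree_arith {β : Type} (s : Finset β) (a : β → ℕ) (c : ℕ) (h : ∑ x ∈ s, a x ≤ c) :
    ∑ x ∈ s, (2 * a x - 2 + if 1 ≤ a x ∧ a x < c then 1 else 0) ≤ 2 * c - 2 := by
  classical
  have : ∑ x ∈ s, (2 * a x - 2 + if 1 ≤ a x ∧ a x < c then 1 else 0) ≤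
      2 * (∑ x ∈ s, a x) - 2 + if 1 ≤ ∑ x ∈ s, a x ∧ ∑ x ∈ s, a x < c then 1 else 0 := by
    induction s using Finset.induction_on with
    | empty => simp
    | insert x s hx ih =>
      rw [Finset.sum_insert hx] at h
      rw [Finset.sum_insert hx, Finset.sum_insert hx]
      have := ih (by omega)
      split_ifs at this ⊢ <;> omega
  split_ifs at this <;> omega

section

variable {α Λ : Type} (ix : ℕ → α → Λ) (P : Finset α) (k : ℕ)

open Classical in
/-- size of a cube. -/
def loctreeS (i : ℕ) (l : Λ) : ℕ := (P.filter fun q => ix i q = l).card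

/-- quotient of the size of the cube of level `i` at `p`. -/
def loctreeQ (i : ℕ) (p : α) : ℕ := loctreeS ix P i (ix i p) / k

/-- levels up to the first jump. -/
def loctreeG (p : α) (i : ℕ) : Prop :=
  ∀ j ≤ i, loctreeQ ix P k j p = 0 ∨ loctreeQ ix P k j p = loctreeQ ix P k i p

open Classical in
/-- cubes at which the quotient jumps. -/
def loctreeJ (i : ℕ) : Finset Λ := (P.image (ix i)).filter fun l =>
  ∃ p, ix i p = l ∧ 1 ≤ loctreeQ ix P k i p ∧ loctreeQ ix P k i p < loctreeQ ix P k (i + 1) p

variable {ix} (nest : ∀ i p q, ix i p = ix i q → ix (i + 1) p = ix (i + 1) q)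
include nest

theorem loctree_nest {i j : ℕ} (h : i ≤ j) {p q : α} (e : ix i p = ix i q) : ix j p = ix j q := by
  induction j, h using Nat.le_induction with
  | base => exact e
  | succ j _ ih => exact nest j p q ih

theorem loctree_mono {i j : ℕ} (h : i ≤ j) (p : α) : loctreeQ ix P k i p ≤ loctreeQ ix P k j p := by
  classical
  refine Nat.div_le_div_right (Finset.card_le_card fun q hq => ?_)
  rw [Finset.mem_filter] at hq ⊢
  exact ⟨hq.1, loctree_nest nest h hq.2⟩

theorem loctree_down {i j : ℕ} (h : i ≤ j) {p : α} (hp : loctreeG ix P k p j) :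
    loctreeG ix P k p i := fun m hm => by
  have := loctree_mono P k nest hm p
  have := loctree_mono P k nest h p
  have := hp m (hm.trans h)
  omega

open Classical in
theorem loctree_count (n : ℕ) : ∑ i ∈ Finset.range n, (loctreeJ ix P k i).card ≤
    ∑ l ∈ P.image (ix n), (2 * (loctreeS ix P n l / k) - 2) := by
  induction n with
  | zero => simp
  | succ n ih =>
    rw [Finset.sum_range_succ]
    refine (Nat.add_le_add_right ih _).trans ?_
    rw [loctreeJ, Finset.card_filter, ← Finset.sum_add_distrib]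
    have h1 : P.image (ix n) ⊆ (P.image (ix (n + 1))).biUnion fun T =>
        (P.filter fun q => ix (n + 1) q = T).image (ix n) := fun l hl => by
      obtain ⟨p, hp, rfl⟩ := Finset.mem_image.1 hl
      exact Finset.mem_biUnion.2 ⟨_, Finset.mem_image_of_mem _ hp,
        Finset.mem_image_of_mem _ (Finset.mem_filter.2 ⟨hp, rfl⟩)⟩
    refine (Finset.sum_le_sum_of_subset h1).trans ((loctree_sum_biUnion _ _ _).trans
      (Finset.sum_le_sum fun T _ => le_trans (Finset.sum_le_sum fun l hl => ?_)
        (loctree_arith _ (fun l => loctreeS ix P n l / k) (loctreeS ix P (n + 1) T / k) ?_)))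
    · refine Nat.add_le_add_left ?_ _
      obtain ⟨q, hq, rfl⟩ := Finset.mem_image.1 hl
      split_ifs with h h'
      · rfl
      · obtain ⟨p, e, h2, h3⟩ := h
        rw [loctreeQ, e] at h2 h3
        rw [loctreeQ, nest _ _ _ e, (Finset.mem_filter.1 hq).2] at h3
        exact absurd ⟨h2, h3⟩ h'
      all_goals omega
    · refine (loctree_sum_div _ _ _).trans (Nat.div_le_div_right (le_of_eq ?_))
      rw [loctreeS, Finset.card_eq_sum_card_image (ix n)]
      refine Finset.sum_congr rfl fun l hl => ?_
      obtain ⟨q, hq, rfl⟩ := Finset.mem_image.1 hl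
      rw [loctreeS, Finset.filter_filter]
      congr 1
      refine Finset.filter_congr fun p _ => ⟨fun h => ⟨?_, h⟩, fun h => h.2⟩
      rw [nest _ _ _ h, (Finset.mem_filter.1 hq).2]

open Classical in
theorem loctree_fibre (hk : 1 ≤ k) (zero : ∀ p ∈ P, ∀ q ∈ P, ix 0 p = ix 0 q → p = q)
    (kids : ∀ i p, ((P.filter fun q => ix (i + 1) q = ix (i + 1) p).image (ix i)).card ≤ 8)
    (m : ℕ) (l : Λ) (F : Finset α) (hF : ∀ p ∈ F, p ∈ P ∧ ix m p = l ∧ loctreeG ix P k p m) :
    F.card ≤ 9 * k := by
  have hT : F ⊆ P.filter fun q => ix m q = l := fun p hp =>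
    Finset.mem_filter.2 ⟨(hF p hp).1, (hF p hp).2.1⟩
  by_cases hc : ∃ h, h ≤ m ∧ ∃ p ∈ F, loctreeQ ix P k h p ≠ 0
  swap
  · rcases F.eq_empty_or_nonempty with rfl | ⟨p, hp⟩
    · simp
    · have h1 : loctreeQ ix P k m p = 0 := by
        by_contra h
        exact hc ⟨m, le_rfl, p, hp, h⟩
      rw [loctreeQ, (hF p hp).2.1, Nat.div_eq_zero_iff, loctreeS] at h1
      have := Finset.card_le_card hT
      omega
  obtain ⟨hm, p0, hp0, h0⟩ := Nat.find_spec hc
  have hmin := fun j => Nat.find_min hc (m := j)
  generalize Nat.find hc = h at hm h0 hmin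
  set T' := P.filter fun q => ix h q = ix h p0 with hT'
  have hsub : T' ⊆ P.filter fun q => ix m q = l := fun q hq => Finset.mem_filter.2
    ⟨(Finset.mem_filter.1 hq).1, (loctree_nest nest hm (Finset.mem_filter.1 hq).2).trans
      (hF p0 hp0).2.1⟩
  have h1 : (F \ T').card ≤ k := by
    have h2 := ((hF p0 hp0).2.2 h hm).resolve_left h0
    rw [loctreeQ, loctreeQ, (hF p0 hp0).2.1, loctreeS, loctreeS, ← hT'] at h2
    have h3 := Finset.card_le_card (Finset.sdiff_subset_sdiff hT (le_refl T'))
    rw [Finset.card_sdiff_of_subset hsub] at h3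
    have h4 := Nat.lt_mul_div_succ (P.filter fun q => ix m q = l).card hk
    have h5 := Nat.mul_div_le T'.card k
    rw [← h2, mul_add] at h4
    omega
  have h2 : (F ∩ T').card ≤ 8 * k := by
    rcases h with _ | h
    · refine (Finset.card_le_one.2 fun p hp q hq => ?_).trans (by omega)
      have hp' := Finset.mem_filter.1 (Finset.mem_inter.1 hp).2
      have hq' := Finset.mem_filter.1 (Finset.mem_inter.1 hq).2
      exact zero p hp'.1 q hq'.1 (hp'.2.trans hq'.2.symm)
    · refine (Finset.card_le_mul_card_image (f := ix h) _ k fun l hl => ?_).trans ?_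
      · obtain ⟨p, hp, rfl⟩ := Finset.mem_image.1 hl
        have h3 : loctreeQ ix P k h p = 0 := by
          by_contra h3
          exact hmin h (Nat.lt_succ_self h) ⟨by omega, p, (Finset.mem_inter.1 hp).1, h3⟩
        rw [loctreeQ, Nat.div_eq_zero_iff, loctreeS] at h3
        have := Finset.card_le_card (Finset.filter_subset_filter (fun q => ix h q = ix h p)
          (show F ∩ T' ⊆ P from fun q hq => (hF q (Finset.mem_inter.1 hq).1).1))
        omega
      · rw [mul_comm]
        exact Nat.mul_le_mul_right _ ((Finset.card_le_card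
          (Finset.image_subset_image Finset.inter_subset_right)).trans (kids h p0))
  have := Finset.card_sdiff_add_card_inter F T'
  omega

end

open Classical in
/-- cells of a hierarchical partition. -/
theorem tree_cells {α Λ : Type} (ix : ℕ → α → Λ) (P : Finset α) (I k : ℕ) (hk : 1 ≤ k)
    (nest : ∀ i p q, ix i p = ix i q → ix (i + 1) p = ix (i + 1) q)
    (zero : ∀ p ∈ P, ∀ q ∈ P, ix 0 p = ix 0 q → p = q)
    (top : ∀ p ∈ P, ∀ q ∈ P, ix I p = ix I q)
    (kids : ∀ i p, ((P.filter fun q => ix (i + 1) q = ix (i + 1) p).image (ix i)).card ≤ 8) :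
    ∃ lev : α → ℕ,
      (∀ l : ℕ × Λ, (P.filter fun p => (lev p, ix (lev p) p) = l).card ≤ 9 * k) ∧
      (P.image fun p => (lev p, ix (lev p) p)).card * k ≤ 2 * P.card + k ∧
      ∀ i, ∀ p ∈ P, ∀ q ∈ P, ix i p = ix i q → i ≤ lev p → i ≤ lev q → lev p = lev q := by
  have hle : ∀ p i, i ≤ Nat.findGreatest (loctreeG ix P k p) I ↔ i ≤ I ∧ loctreeG ix P k p i :=
    fun p i => ⟨fun h => ⟨h.trans (Nat.findGreatest_le I), loctree_down P k nest h
      (Nat.findGreatest_spec (Nat.zero_le I) fun j hj => Or.inr (by rw [Nat.le_zero.1 hj]))⟩,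
      fun h => Nat.le_findGreatest h.1 h.2⟩
  refine ⟨fun p => Nat.findGreatest (loctreeG ix P k p) I, fun l => ?_, ?_, ?_⟩
  · refine loctree_fibre P k nest hk zero kids l.1 l.2 _ fun p hp => ?_
    obtain ⟨hp', rfl⟩ := Finset.mem_filter.1 hp
    exact ⟨hp', rfl, ((hle p _).1 le_rfl).2⟩
  · rcases P.eq_empty_or_nonempty with rfl | ⟨p0, hp0⟩
    · simp
    have h1 : (P.image fun p => (Nat.findGreatest (loctreeG ix P k p) I,
        ix (Nat.findGreatest (loctreeG ix P k p) I) p)) ⊆ insert (I, ix I p0)
          ((Finset.range I).biUnion fun i => (loctreeJ ix P k i).image fun l => (i, l)) := by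
      intro l hl
      obtain ⟨p, hp, rfl⟩ := Finset.mem_image.1 hl
      have h2 := hle p
      generalize Nat.findGreatest (loctreeG ix P k p) I = m at h2 ⊢
      obtain ⟨h3, h4⟩ := (h2 m).1 le_rfl
      rcases h3.eq_or_lt with rfl | h3
      · rw [top p hp p0 hp0]
        exact Finset.mem_insert_self _ _
      refine Finset.mem_insert_of_mem (Finset.mem_biUnion.2 ⟨m, Finset.mem_range.2 h3,
        Finset.mem_image_of_mem _ (Finset.mem_filter.2 ⟨Finset.mem_image_of_mem _ hp, p, rfl, ?_⟩)⟩)
      by_contra h5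
      refine absurd ((h2 (m + 1)).2 ⟨h3, fun j hj => ?_⟩) (by omega)
      have := loctree_mono P k nest (Nat.le_succ m) p
      rcases hj.eq_or_lt with rfl | hj
      · exact Or.inr rfl
      · have := h4 j (by omega)
        have := loctree_mono P k nest (show j ≤ m by omega) p
        simp only [Nat.succ_eq_add_one] at *
        omega
    have h2 := loctree_count P k nest I
    have h3 : P.image (ix I) = {ix I p0} := Finset.eq_singleton_iff_unique_mem.2
      ⟨Finset.mem_image_of_mem _ hp0, fun l hl => by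
        obtain ⟨p, hp, rfl⟩ := Finset.mem_image.1 hl
        exact top p hp p0 hp0⟩
    rw [h3, Finset.sum_singleton] at h2
    have h4 : loctreeS ix P I (ix I p0) / k * k ≤ P.card :=
      (Nat.div_mul_le_self _ _).trans (Finset.card_filter_le _ _)
    have h5 := (Finset.card_le_card h1).trans ((Finset.card_insert_le _ _).trans
      (Nat.add_le_add_right (Finset.card_biUnion_le.trans ((Finset.sum_le_sum fun i _ =>
        Finset.card_image_le).trans (h2.trans (Nat.sub_le _ _)))) 1))
    refine (Nat.mul_le_mul_right k h5).trans ?_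
    rw [add_mul, mul_assoc]
    omega
  · have key : ∀ i p q, ix i p = ix i q → i ≤ Nat.findGreatest (loctreeG ix P k p) I →
        i ≤ Nat.findGreatest (loctreeG ix P k q) I →
        Nat.findGreatest (loctreeG ix P k p) I ≤ Nat.findGreatest (loctreeG ix P k q) I := by
      intro i p q e hp hq
      obtain ⟨h1, h2⟩ := (hle p _).1 le_rfl
      have h3 := ((hle q _).1 hq).2
      have h4 : ∀ j, i ≤ j → loctreeQ ix P k j q = loctreeQ ix P k j p := fun j hj => by
        rw [loctreeQ, loctreeQ, loctree_nest nest hj e]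
      refine (hle q _).2 ⟨h1, fun j hj => ?_⟩
      rw [h4 _ hp]
      rcases le_total i j with h | h
      · rw [h4 j h]; exact h2 j hj
      · have := h3 j h
        have := h2 i hp
        have := h4 i le_rfl
        omega
    exact fun i p _ q _ e hp hq => le_antisymm (key i p q e hp hq) (key i q p e.symm hq hp)

end

end Vale.Agent.P054
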