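import Vale.Agent.P054.D3Defs
import Vale.Agent.P054.LocTree

namespace Vale.Agent.P054

open MvPolynomial

noncomputable section

/-- index of the dyadic cube of level `i`. -/
def cub (o : Pt) (δ : ℝ) (i : ℕ) (p : Pt) : Fin 3 → ℤ := fun j => ⌊(p j - o j) / (δ * 2 ^ i)⌋

theorem loc_succ (o : Pt) (δ : ℝ) (i : ℕ) (p : Pt) (j : Fin 3) :
    cub o δ (i + 1) p j = cub o δ i p j / 2 := by
  have h1 : (p j - o j) / (δ * 2 ^ (i + 1)) = (p j - o j) / (δ * 2 ^ i) / ((2 : ℕ) : ℝ) := by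
    rw [div_div, pow_succ, mul_assoc]
    norm_num
  have h2 := Int.floor_div_natCast ((p j - o j) / (δ * 2 ^ i)) 2
  unfold cub
  rw [h1, h2]
  norm_num

theorem cub_nest (o : Pt) {δ : ℝ} (hδ : 0 < δ) (i : ℕ) (p q : Pt) (h : cub o δ i p = cub o δ i q) :
    cub o δ (i + 1) p = cub o δ (i + 1) q := by
  funext j
  rw [loc_succ, loc_succ, h]

theorem loc_nest (o : Pt) {δ : ℝ} (hδ : 0 < δ) {i l : ℕ} (hl : i ≤ l) (p q : Pt)
    (h : cub o δ i p = cub o δ i q) : cub o δ l p = cub o δ l q := by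
  induction l, hl using Nat.le_induction with
  | base => exact h
  | succ l _ ih => exact cub_nest o hδ l p q ih

open Classical in
theorem cub_kids (o : Pt) {δ : ℝ} (hδ : 0 < δ) (P : Finset Pt) (i : ℕ) (p : Pt) :
    ((P.filter fun q => cub o δ (i + 1) q = cub o δ (i + 1) p).image (cub o δ i)).card ≤ 8 := by
  have h1 : ((P.filter fun q => cub o δ (i + 1) q = cub o δ (i + 1) p).image (cub o δ i)) ⊆
      Fintype.piFinset fun j => Finset.Icc (2 * cub o δ (i + 1) p j) (2 * cub o δ (i + 1) p j + 1) := by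
    intro m hm
    obtain ⟨q, hq, rfl⟩ := Finset.mem_image.1 hm
    rw [Fintype.mem_piFinset]
    intro j
    have h2 := congrFun (Finset.mem_filter.1 hq).2 j
    rw [loc_succ] at h2
    rw [Finset.mem_Icc]
    omega
  refine (Finset.card_le_card h1).trans ?_
  rw [Fintype.card_piFinset]
  have h2 : ∀ a : ℤ, (Finset.Icc a (a + 1)).card = 2 := by
    intro a
    rw [Int.card_Icc]
    omega
  simp only [h2]
  norm_num

theorem loc_small (T : Finset ℝ) : ∃ δ : ℝ, 0 < δ ∧ ∀ x ∈ T, x ≠ 0 → δ ≤ |x| := by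
  classical
  induction T using Finset.induction_on with
  | empty => exact ⟨1, one_pos, by simp⟩
  | insert a T _ ih =>
    obtain ⟨δ, hδ, h⟩ := ih
    by_cases ha : a = 0
    · refine ⟨δ, hδ, fun x hx hx0 => ?_⟩
      rcases Finset.mem_insert.1 hx with rfl | hx
      · exact absurd ha hx0
      · exact h x hx hx0
    · refine ⟨min δ |a|, lt_min hδ (abs_pos.2 ha), fun x hx hx0 => ?_⟩
      rcases Finset.mem_insert.1 hx with rfl | hx
      · exact min_le_right _ _
      · exact (min_le_left _ _).trans (h x hx hx0)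

theorem exists_cub (P : Finset Pt) : ∃ (o : Pt) (δ : ℝ) (I : ℕ), 0 < δ ∧
    (∀ p ∈ P, ∀ q ∈ P, cub o δ 0 p = cub o δ 0 q → p = q) ∧
    ∀ p ∈ P, ∀ q ∈ P, cub o δ I p = cub o δ I q := by
  classical
  obtain ⟨δ, hδ, h⟩ := loc_small
    (((P ×ˢ P) ×ˢ (Finset.univ : Finset (Fin 3))).image fun z => z.1.1 z.2 - z.1.2 z.2)
  obtain ⟨M, hM⟩ := ((P ×ˢ (Finset.univ : Finset (Fin 3))).image fun z => |z.1 z.2|).bddAbove
  have hM' : ∀ p ∈ P, ∀ j, |p j| ≤ M := fun p hp j =>
    hM (Finset.mem_coe.2 (Finset.mem_image.2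
      ⟨(p, j), Finset.mem_product.2 ⟨hp, Finset.mem_univ _⟩, rfl⟩))
  obtain ⟨I, hI⟩ := pow_unbounded_of_one_lt (2 * M / δ) (one_lt_two (α := ℝ))
  refine ⟨fun _ => -M, δ, I, hδ, ?_, ?_⟩
  · intro p hp q hq e
    funext j
    by_contra hne
    have h1 := h (p j - q j) (Finset.mem_image.2 ⟨((p, q), j),
      Finset.mem_product.2 ⟨Finset.mem_product.2 ⟨hp, hq⟩, Finset.mem_univ _⟩, rfl⟩)
      (sub_ne_zero.2 hne)
    have h2 := Int.abs_sub_lt_one_of_floor_eq_floor (congrFun e j)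
    rw [← sub_div, abs_div, pow_zero, mul_one, abs_of_pos hδ, div_lt_one hδ] at h2
    have h3 : p j - -M - (q j - -M) = p j - q j := by ring
    rw [h3] at h2
    linarith
  · have h1 : ∀ p ∈ P, cub (fun _ => -M) δ I p = 0 := by
      intro p hp
      funext j
      have h2 := abs_le.1 (hM' p hp j)
      have h3 : 0 < δ * 2 ^ I := by positivity
      rw [div_lt_iff₀ hδ] at hI
      unfold cub
      rw [Pi.zero_apply, Int.floor_eq_zero_iff, Set.mem_Ico, div_lt_one h3]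
      exact ⟨div_nonneg (by linarith [h2.1]) h3.le, by linarith [h2.2]⟩
    intro p hp q hq
    rw [h1 p hp, h1 q hq]

open Classical in
/-- an isometric image of a cube meets few cubes of the same level. -/
theorem cub_over (o : Pt) {δ : ℝ} (hδ : 0 < δ) (i : ℕ) (Z : Finset (Pt × Pt)) (hZ : Cmp Z)
    (h : ∀ y ∈ Z, ∀ z ∈ Z, cub o δ i y.1 = cub o δ i z.1) :
    (Z.image fun y => cub o δ i y.2).card ≤ 125 := by
  rcases Z.eq_empty_or_nonempty with rfl | ⟨z, hz⟩
  · simp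
  have hs : 0 < δ * 2 ^ i := by positivity
  have h1 : (Z.image fun y => cub o δ i y.2) ⊆
      Fintype.piFinset fun j => Finset.Icc (cub o δ i z.2 j - 2) (cub o δ i z.2 j + 2) := by
    intro m hm
    obtain ⟨y, hy, rfl⟩ := Finset.mem_image.1 hm
    rw [Fintype.mem_piFinset]
    intro j
    have h2 : ∀ k, (y.1 k - z.1 k) ^ 2 ≤ (δ * 2 ^ i) ^ 2 := by
      intro k
      have h3 := Int.abs_sub_lt_one_of_floor_eq_floor (congrFun (h y hy z hz) k)
      rw [← sub_div, abs_div, abs_of_pos hs, div_lt_one hs] at h3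
      have h4 : y.1 k - o k - (z.1 k - o k) = y.1 k - z.1 k := by ring
      rw [h4] at h3
      exact sq_le_sq' (abs_lt.1 h3).1.le (abs_lt.1 h3).2.le
    have h3 : (y.2 j - z.2 j) ^ 2 ≤ sqd y.2 z.2 :=
      Finset.single_le_sum (f := fun k => (y.2 k - z.2 k) ^ 2) (fun k _ => sq_nonneg _)
        (Finset.mem_univ j)
    rw [← hZ y hy z hz, sqd, Fin.sum_univ_three] at h3
    have h4 : (y.2 j - z.2 j) ^ 2 ≤ (2 * (δ * 2 ^ i)) ^ 2 := by
      nlinarith [h2 0, h2 1, h2 2, sq_nonneg (δ * 2 ^ i)]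
    have h5 := abs_le_of_sq_le_sq' h4 (by positivity)
    have h6 : (y.2 j - o j) / (δ * 2 ^ i) ≤ (z.2 j - o j) / (δ * 2 ^ i) + ((2 : ℤ) : ℝ) := by
      rw [div_add' _ _ _ hs.ne', div_le_div_iff_of_pos_right hs]
      push_cast
      linarith [h5.2]
    have h7 : (z.2 j - o j) / (δ * 2 ^ i) ≤ (y.2 j - o j) / (δ * 2 ^ i) + ((2 : ℤ) : ℝ) := by
      rw [div_add' _ _ _ hs.ne', div_le_div_iff_of_pos_right hs]
      push_cast
      linarith [h5.1]
    have h8 := Int.floor_mono h6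
    have h9 := Int.floor_mono h7
    rw [Int.floor_add_intCast] at h8 h9
    rw [Finset.mem_Icc]
    unfold cub
    omega
  refine (Finset.card_le_card h1).trans ?_
  rw [Fintype.card_piFinset]
  have h2 : ∀ a : ℤ, (Finset.Icc (a - 2) (a + 2)).card = 5 := by
    intro a
    rw [Int.card_Icc]
    omega
  simp only [h2]
  norm_num

theorem loc_factor {α β γ : Type} [DecidableEq β] [DecidableEq γ] (S : Finset α) (F : α → β)
    (G : α → γ) (h : ∀ y ∈ S, ∀ z ∈ S, G y = G z → F y = F z) :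
    (S.image F).card ≤ (S.image G).card := by
  refine Finset.card_le_card_of_forall_subsingleton (fun a b => ∃ y ∈ S, F y = a ∧ G y = b) ?_ ?_
  · intro a ha
    obtain ⟨y, hy, rfl⟩ := Finset.mem_image.1 ha
    exact ⟨G y, Finset.mem_image_of_mem _ hy, y, hy, rfl, rfl⟩
  · rintro b _ a ⟨_, y, hy, rfl, h1⟩ a' ⟨_, z, hz, rfl, h2⟩
    exact h y hy z hz (h1.trans h2.symm)

theorem loc_half {α Λ : Type} [DecidableEq Λ] (ix : ℕ → α → Λ) (P : Finset α) (lev : α → ℕ)
    (nest : ∀ i l, i ≤ l → ∀ p q, ix i p = ix i q → ix l p = ix l q)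
    (hlev : ∀ i, ∀ p ∈ P, ∀ q ∈ P, ix i p = ix i q → i ≤ lev p → i ≤ lev q →
      lev p = lev q) (Z : Finset (α × α)) (hZP : Z ⊆ P ×ˢ P)
    (hZ : ∀ i, ∀ S ⊆ Z, (∀ y ∈ S, ∀ z ∈ S, ix i y.1 = ix i z.1) →
      (S.image fun y => ix i y.2).card ≤ 125)
    (hle : ∀ y ∈ Z, lev y.1 ≤ lev y.2) :
    (Z.image fun y => ((lev y.1, ix (lev y.1) y.1), (lev y.2, ix (lev y.2) y.2))).card ≤
      (P.image fun p => (lev p, ix (lev p) p)).card * 125 := by
  have h1 : (Z.image fun y =>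
      ((lev y.1, ix (lev y.1) y.1), (lev y.2, ix (lev y.2) y.2))) ⊆
      (P.image fun p => (lev p, ix (lev p) p)).biUnion fun l =>
        (Z.filter fun y => (lev y.1, ix (lev y.1) y.1) = l).image fun y =>
          ((lev y.1, ix (lev y.1) y.1), (lev y.2, ix (lev y.2) y.2)) := by
    intro m hm
    obtain ⟨y, hy, rfl⟩ := Finset.mem_image.1 hm
    exact Finset.mem_biUnion.2 ⟨_, Finset.mem_image_of_mem _ (Finset.mem_product.1 (hZP hy)).1,
      Finset.mem_image_of_mem _ (Finset.mem_filter.2 ⟨hy, rfl⟩)⟩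
  refine (Finset.card_le_card h1).trans (Finset.card_biUnion_le_card_mul _ _ _ ?_)
  rintro ⟨i, c⟩ _
  have h2 : ∀ y ∈ Z.filter fun y => (lev y.1, ix (lev y.1) y.1) = (i, c),
      y ∈ Z ∧ lev y.1 = i ∧ ix i y.1 = c := by
    intro y hy
    obtain ⟨hy1, hy2⟩ := Finset.mem_filter.1 hy
    obtain ⟨h3, h4⟩ := Prod.mk.inj hy2
    rw [h3] at h4
    exact ⟨hy1, h3, h4⟩
  refine (loc_factor _ _ (fun y => ix i y.2) ?_).trans (hZ i _ (Finset.filter_subset _ _) ?_)
  · intro y hy z hz e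
    obtain ⟨hy1, hy2, hy3⟩ := h2 y hy
    obtain ⟨hz1, hz2, hz3⟩ := h2 z hz
    have h3 : i ≤ lev y.2 := hy2 ▸ hle y hy1
    have h4 : i ≤ lev z.2 := hz2 ▸ hle z hz1
    have h5 := hlev i _ (Finset.mem_product.1 (hZP hy1)).2 _ (Finset.mem_product.1 (hZP hz1)).2
      e h3 h4
    have h6 := nest _ _ h4 _ _ e
    rw [hy2, hz2, hy3, hz3, h5, h6]
  · intro y hy z hz
    rw [(h2 y hy).2.2, (h2 z hz).2.2]

open Classical in
theorem loc_half' (o : Pt) {δ : ℝ} (hδ : 0 < δ) (P : Finset Pt) (lev : Pt → ℕ)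
    (hlev : ∀ i, ∀ p ∈ P, ∀ q ∈ P, cub o δ i p = cub o δ i q → i ≤ lev p → i ≤ lev q →
      lev p = lev q) (Z : Finset (Pt × Pt)) (hZP : Z ⊆ P ×ˢ P) (hZ : Cmp Z)
    (hle : ∀ y ∈ Z, lev y.1 ≤ lev y.2) :
    (Z.image fun y => ((lev y.1, cub o δ (lev y.1) y.1), (lev y.2, cub o δ (lev y.2) y.2))).card ≤
      (P.image fun p => (lev p, cub o δ (lev p) p)).card * 125 :=
  loc_half (cub o δ) P lev (fun _ _ h p q => loc_nest o hδ h p q) hlev Z hZP
    (fun i S hS h => cub_over o hδ i S (fun y hy z hz => hZ y (hS hy) z (hS hz)) h) hle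

open Classical in
/-- the cell decomposition: small cells, and every motion meets few pairs of cells. -/
theorem exists_cells (P : Finset Pt) (k : ℕ) (hk : 1 ≤ k) :
    ∃ cell : Pt → ℕ × (Fin 3 → ℤ), (∀ l, (P.filter fun p => cell p = l).card ≤ 9 * k) ∧
      ∀ Z : Finset (Pt × Pt), Z ⊆ P ×ˢ P → Cmp Z →
        ((Z.image fun y => (cell y.1, cell y.2)).card : ℝ) ≤ 500 * ((P.card : ℝ) / k + 1) := by
  obtain ⟨o, δ, I, hδ, h0, hI⟩ := exists_cub P
  obtain ⟨lev, h1, h2, h3⟩ := tree_cells (cub o δ) P I k hk (cub_nest o hδ) h0 hI (by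
    intro i p
    refine le_trans (Finset.card_le_card ?_) (cub_kids o hδ P i p)
    intro m hm
    simpa only [Finset.mem_image, Finset.mem_filter] using hm)
  refine ⟨fun p => (lev p, cub o δ (lev p) p), ?_, ?_⟩
  · intro l
    refine le_trans (Finset.card_le_card ?_) (h1 l)
    intro m hm
    simpa only [Finset.mem_filter] using hm
  intro Z hZP hZ
  have h4 : (P.image fun p => (lev p, cub o δ (lev p) p)).card * k ≤ 2 * P.card + k := by
    refine le_trans (Nat.mul_le_mul_right _ (Finset.card_le_card ?_)) h2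
    intro m hm
    simpa only [Finset.mem_image] using hm
  have hA := loc_half' o hδ P lev h3 (Z.filter fun y => lev y.1 ≤ lev y.2)
    ((Finset.filter_subset _ _).trans hZP)
    (fun y hy z hz => hZ y (Finset.mem_filter.1 hy).1 z (Finset.mem_filter.1 hz).1)
    (fun y hy => (Finset.mem_filter.1 hy).2)
  have hB := loc_half' o hδ P lev h3 ((Z.filter fun y => lev y.2 ≤ lev y.1).image Prod.swap)
    (by
      intro y hy
      obtain ⟨z, hz, rfl⟩ := Finset.mem_image.1 hy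
      have h5 := Finset.mem_product.1 (hZP (Finset.mem_filter.1 hz).1)
      exact Finset.mem_product.2 ⟨h5.2, h5.1⟩)
    (by
      intro y hy y' hy'
      obtain ⟨z, hz, rfl⟩ := Finset.mem_image.1 hy
      obtain ⟨z', hz', rfl⟩ := Finset.mem_image.1 hy'
      exact (hZ z (Finset.mem_filter.1 hz).1 z' (Finset.mem_filter.1 hz').1).symm)
    (by
      intro y hy
      obtain ⟨z, hz, rfl⟩ := Finset.mem_image.1 hy
      exact (Finset.mem_filter.1 hz).2)
  have h5 : (Z.image fun y =>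
      ((lev y.1, cub o δ (lev y.1) y.1), (lev y.2, cub o δ (lev y.2) y.2))) ⊆
      ((Z.filter fun y => lev y.1 ≤ lev y.2).image fun y =>
        ((lev y.1, cub o δ (lev y.1) y.1), (lev y.2, cub o δ (lev y.2) y.2))) ∪
      ((((Z.filter fun y => lev y.2 ≤ lev y.1).image Prod.swap).image fun y =>
        ((lev y.1, cub o δ (lev y.1) y.1), (lev y.2, cub o δ (lev y.2) y.2))).image Prod.swap) := by
    intro m hm
    obtain ⟨y, hy, rfl⟩ := Finset.mem_image.1 hm
    rcases le_total (lev y.1) (lev y.2) with h6 | h6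
    · exact Finset.mem_union_left _ (Finset.mem_image_of_mem _ (Finset.mem_filter.2 ⟨hy, h6⟩))
    · refine Finset.mem_union_right _ (Finset.mem_image.2 ⟨_, Finset.mem_image_of_mem _
        (Finset.mem_image_of_mem Prod.swap (Finset.mem_filter.2 ⟨hy, h6⟩)), rfl⟩)
  have h6 := (Finset.card_le_card h5).trans ((Finset.card_union_le _ _).trans
    (Nat.add_le_add hA (Finset.card_image_le.trans hB)))
  have hk0 : (0 : ℝ) < k := by exact_mod_cast hk
  have h7 : ((P.image fun p => (lev p, cub o δ (lev p) p)).card : ℝ) ≤ 2 * ((P.card : ℝ) / k) + 1 := by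
    have h8 : ((P.image fun p => (lev p, cub o δ (lev p) p)).card : ℝ) * k ≤ 2 * P.card + k := by
      exact_mod_cast h4
    have h9 : (2 * ((P.card : ℝ) / k) + 1) * k = 2 * P.card + k := by
      field_simp
    exact le_of_mul_le_mul_right (h9 ▸ h8) hk0
  have h8 : ((Z.image fun y =>
      ((lev y.1, cub o δ (lev y.1) y.1), (lev y.2, cub o δ (lev y.2) y.2))).card : ℝ) ≤
      ((P.image fun p => (lev p, cub o δ (lev p) p)).card : ℝ) * 125 +
        ((P.image fun p => (lev p, cub o δ (lev p) p)).card : ℝ) * 125 := by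
    exact_mod_cast h6
  linarith

end

end Vale.Agent.P054
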