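import Vale.Agent.P054.HPairsL
import Vale.Agent.P054.Loc

namespace Vale.Agent.P054

open MvPolynomial

noncomputable section

theorem locL_conc {ι : Type} (s : Finset ι) (x : ι → ℝ) (hx : ∀ i ∈ s, 0 ≤ x i) :
    ∑ i ∈ s, x i ^ ((19 : ℝ) / 20) ≤
      (∑ i ∈ s, x i) ^ ((19 : ℝ) / 20) * (s.card : ℝ) ^ ((1 : ℝ) / 20) := by
  have hpq : Real.HolderConjugate (20 / 19) 20 := by
    rw [Real.holderConjugate_iff]; norm_num
  have h := Real.inner_le_Lp_mul_Lq_of_nonneg s (f := fun i => x i ^ ((19 : ℝ) / 20))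
    (g := fun _ => 1) hpq (fun i hi => Real.rpow_nonneg (hx i hi) _) (fun _ _ => zero_le_one)
  have e : ∑ i ∈ s, (x i ^ ((19 : ℝ) / 20)) ^ ((20 : ℝ) / 19) = ∑ i ∈ s, x i :=
    Finset.sum_congr rfl fun i hi => by
      rw [← Real.rpow_mul (hx i hi)]; norm_num
  simp only [mul_one, Real.one_rpow, Finset.sum_const, nsmul_eq_mul] at h
  rw [e] at h
  have e2 : (1 : ℝ) / (20 / 19) = 19 / 20 := by norm_num
  rw [e2] at h
  exact h

theorem locL_num {G t j u C0 B x m : ℝ} (hG : 0 ≤ G) (hj : 0 < j) (hu : 0 < u)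
    (ht : t = 2000 * u * j) (hC : 0 ≤ C0) (hB : 0 ≤ B) (hx : 0 ≤ x) (hm0 : 0 ≤ m)
    (hm : m ≤ (1000 * u) ^ 2)
    (h : G * (t / 2) * j ^ ((3 : ℝ) / 2) ≤ C0 * (8 * B) * (x * m ^ ((1 : ℝ) / 20))) :
    G * t ^ ((5 : ℝ) / 2) ≤ 64 * 10 ^ 9 * C0 * B * x * u ^ ((8 : ℝ) / 5) := by
  have ht0 : 0 < t := by rw [ht]; positivity
  have h1 : t ^ ((5 : ℝ) / 2) = t * t ^ ((3 : ℝ) / 2) := by
    rw [← Real.rpow_one_add' ht0.le (by norm_num)]; norm_num
  have h2 : t ^ ((3 : ℝ) / 2) ≤ 2000 ^ 2 * u ^ ((3 : ℝ) / 2) * j ^ ((3 : ℝ) / 2) := by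
    rw [ht, Real.mul_rpow (by positivity) hj.le, Real.mul_rpow (by norm_num) hu.le]
    have : (2000 : ℝ) ^ ((3 : ℝ) / 2) ≤ 2000 ^ 2 := by
      rw [← Real.rpow_two]
      exact Real.rpow_le_rpow_of_exponent_le (by norm_num) (by norm_num)
    gcongr
  have h3 : m ^ ((1 : ℝ) / 20) ≤ 1000 * u ^ ((1 : ℝ) / 10) := by
    refine (Real.rpow_le_rpow hm0 hm (by norm_num)).trans ?_
    rw [← Real.rpow_two, ← Real.rpow_mul (by positivity), Real.mul_rpow (by norm_num) hu.le]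
    have e : (2 : ℝ) * (1 / 20) = 1 / 10 := by norm_num
    rw [e]
    have : (1000 : ℝ) ^ ((1 : ℝ) / 10) ≤ 1000 := by
      have := Real.rpow_le_rpow_of_exponent_le (by norm_num : (1 : ℝ) ≤ 1000)
        (by norm_num : (1 : ℝ) / 10 ≤ 1)
      rwa [Real.rpow_one] at this
    gcongr
  have h4 : u ^ ((8 : ℝ) / 5) = u ^ ((3 : ℝ) / 2) * u ^ ((1 : ℝ) / 10) := by
    rw [← Real.rpow_add hu]; norm_num
  have h5 : C0 * (8 * B) * (x * m ^ ((1 : ℝ) / 20)) ≤
      C0 * (8 * B) * (x * (1000 * u ^ ((1 : ℝ) / 10))) := by gcongr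
  calc G * t ^ ((5 : ℝ) / 2) ≤ G * (t * (2000 ^ 2 * u ^ ((3 : ℝ) / 2) * j ^ ((3 : ℝ) / 2))) := by
        rw [h1]; gcongr
    _ = G * (t / 2) * j ^ ((3 : ℝ) / 2) * (2 * 2000 ^ 2 * u ^ ((3 : ℝ) / 2)) := by ring
    _ ≤ C0 * (8 * B) * (x * (1000 * u ^ ((1 : ℝ) / 10))) * (2 * 2000 ^ 2 * u ^ ((3 : ℝ) / 2)) :=
        mul_le_mul_of_nonneg_right (h.trans h5) (by positivity)
    _ = _ := by rw [h4]; ring

theorem locL_half {w : ℝ} (hw : 0 ≤ w) : w ^ ((1 : ℝ) + 3 / 2) ≤ 8 * (w / 2) ^ ((5 : ℝ) / 2) := by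
  have e : w = 2 * (w / 2) := by ring
  have e2 : (1 : ℝ) + 3 / 2 = 5 / 2 := by norm_num
  have h : (2 : ℝ) ^ ((5 : ℝ) / 2) ≤ 8 := by
    have := Real.rpow_le_rpow_of_exponent_le (by norm_num : (1 : ℝ) ≤ 2)
      (by norm_num : (5 : ℝ) / 2 ≤ (3 : ℕ))
    rw [Real.rpow_natCast] at this
    linarith
  calc w ^ ((1 : ℝ) + 3 / 2) = (2 * (w / 2)) ^ ((5 : ℝ) / 2) := by rw [← e, e2]
    _ = 2 ^ ((5 : ℝ) / 2) * (w / 2) ^ ((5 : ℝ) / 2) :=
        Real.mul_rpow (by norm_num) (by positivity)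
    _ ≤ _ := mul_le_mul_of_nonneg_right h (by positivity)

/-- localisation to pairs of cells. -/
theorem loc_stepL : ∃ C : ℝ, 1 ≤ C ∧ ∀ (n : ℝ) (k : ℕ) (P : Finset Pt) (X : Finset (Pt × Pt))
    (B w0 t : ℝ) (𝓖 : Finset Mo), 1 ≤ k → (k : ℝ) ≤ n → (P.card : ℝ) ≤ n → X ⊆ P ×ˢ P → 0 < t →
    0 ≤ B → (∀ (P' : Finset Pt) (X' : Finset (Pt × Pt)), P' ⊆ P → P'.card ≤ 18 * k → X' ⊆ X →
      X' ⊆ P' ×ˢ P' → RB5 X' w0 (B * (X'.card : ℝ) ^ ((19 : ℝ) / 20))) → w0 ≤ t * k / (C * n) →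
    (∀ g ∈ 𝓖, Iso g ∧ t ≤ ((gr X g).card : ℝ) ∧ LinB (gr X g) (t * k / (C * n))) →
    (𝓖.card : ℝ) * t ^ ((5 : ℝ) / 2) ≤
      C * B * (X.card : ℝ) ^ ((19 : ℝ) / 20) * (n / k) ^ ((8 : ℝ) / 5) := by
  classical
  obtain ⟨C0, hC0, hdy⟩ := dyadic_sumR 1 (3 / 2) zero_le_one (by norm_num)
  refine ⟨64 * 10 ^ 9 * C0, by linarith,
    fun n k P X B w0 t 𝓖 hk hkn hP hX ht hB hRB hw h𝓖 => ?_⟩
  obtain ⟨cell, hc1, hc2⟩ := exists_cells P k hk
  have hk0 : (0 : ℝ) < k := by exact_mod_cast hk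
  have hn : 0 < n := hk0.trans_le hkn
  set j := t * k / (2000 * n) with hj
  have hj0 : 0 < j := by positivity
  have hlj : t * k / (64 * 10 ^ 9 * C0 * n) ≤ j / 2 := by
    rw [hj, div_div]
    exact div_le_div_of_nonneg_left (by positivity) (by positivity) (by nlinarith)
  let lab : Pt × Pt → (ℕ × (Fin 3 → ℤ)) × (ℕ × (Fin 3 → ℤ)) := fun y => (cell y.1, cell y.2)
  let Xl := fun l => X.filter fun y => lab y = l
  let f := fun l g => ((gr (Xl l) g).card : ℝ)
  have h1 : ∀ g ∈ 𝓖, t / 2 ≤ ∑ l ∈ (X.image lab).filter (fun l => j ≤ f l g), f l g := by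
    intro g hg
    obtain ⟨hi, h2, -⟩ := h𝓖 g hg
    have hs : gr X g ⊆ X := fun y hy => (mem_gr.1 hy).1
    have h3 : ((gr X g).card : ℝ) = ∑ l ∈ (gr X g).image lab, f l g := by
      rw [Finset.card_eq_sum_card_image lab, Nat.cast_sum]
      refine Finset.sum_congr rfl fun l _ => ?_
      simp only [f, Xl, gr]
      rw [Finset.filter_comm]
    have h4 : (((gr X g).image lab).card : ℝ) ≤ 1000 * (n / k) := by
      refine (hc2 _ (hs.trans hX) (cmp_gr hi X)).trans ?_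
      have : (P.card : ℝ) / k ≤ n / k := by gcongr
      have : 1 ≤ n / k := (one_le_div hk0).2 hkn
      linarith
    rw [← Finset.sum_filter_add_sum_filter_not _ fun l => j ≤ f l g] at h3
    have h5 : ∑ l ∈ ((gr X g).image lab).filter (fun l => ¬ j ≤ f l g), f l g ≤ t / 2 := by
      refine (Finset.sum_le_card_nsmul _ _ j fun l hl =>
        (not_le.1 (Finset.mem_filter.1 hl).2).le).trans ?_
      rw [nsmul_eq_mul]
      calc _ ≤ 1000 * (n / k) * j := by
            gcongr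
            exact (Nat.cast_le.2 (Finset.card_filter_le _ _)).trans h4
        _ = t / 2 := by rw [hj]; field_simp; norm_num
    have h6 : ∑ l ∈ ((gr X g).image lab).filter (fun l => j ≤ f l g), f l g ≤
        ∑ l ∈ (X.image lab).filter (fun l => j ≤ f l g), f l g :=
      Finset.sum_le_sum_of_subset_of_nonneg
        (Finset.filter_subset_filter _ (Finset.image_subset_image hs)) fun _ _ _ => Nat.cast_nonneg _
    linarith
  have h2 : ∀ l, (∑ g ∈ 𝓖.filter (fun g => j ≤ f l g), f l g) * j ^ ((3 : ℝ) / 2) ≤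
      C0 * (8 * B) * ((Xl l).card : ℝ) ^ ((19 : ℝ) / 20) := by
    intro l
    have hR := hRB ((P.filter fun p => cell p = l.1) ∪ P.filter fun p => cell p = l.2) (Xl l)
      (Finset.union_subset (Finset.filter_subset _ _) (Finset.filter_subset _ _))
      ((Finset.card_union_le _ _).trans (by have := hc1 l.1; have := hc1 l.2; omega))
      (Finset.filter_subset _ _) (fun y hy => by
        obtain ⟨h1, rfl⟩ := Finset.mem_filter.1 hy
        have := Finset.mem_product.1 (hX h1)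
        simp [lab, this])
    have := hdy Mo (𝓖.filter fun g => j ≤ f l g) (f l) (fun _ => 1) j
      (8 * (B * ((Xl l).card : ℝ) ^ ((19 : ℝ) / 20)))
      hj0 (fun _ _ => zero_le_one) (fun g hg => (Finset.mem_filter.1 hg).2)
      fun w hw' => by
        have h3 := hR (w / 2) ((𝓖.filter fun g => j ≤ f l g).filter fun g => w ≤ f l g)
          (by linarith) fun g hg => by
            obtain ⟨h4, h5⟩ := Finset.mem_filter.1 hg
            obtain ⟨hi, -, h6⟩ := h𝓖 g (Finset.mem_filter.1 h4).1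
            exact ⟨hi, rich_of_linB (Finset.Subset.refl _)
              (h6.mono (gr_mono (Finset.filter_subset _ _) g) (hlj.trans (by linarith : j / 2 ≤ w / 2)))
              (by simpa [f] using h5)⟩
        rw [Finset.sum_const, nsmul_eq_mul, mul_one]
        have h4 := mul_le_mul_of_nonneg_left (locL_half (hj0.le.trans hw'))
          (Nat.cast_nonneg (α := ℝ) ((𝓖.filter fun g => j ≤ f l g).filter fun g => w ≤ f l g).card)
        linarith
    simp only [one_mul, Real.rpow_one] at this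
    exact this.trans_eq (by ring)
  have h3 : (𝓖.card : ℝ) * (t / 2) * j ^ ((3 : ℝ) / 2) ≤ C0 * (8 * B) *
      ((X.card : ℝ) ^ ((19 : ℝ) / 20) * ((X.image lab).card : ℝ) ^ ((1 : ℝ) / 20)) := by
    calc (𝓖.card : ℝ) * (t / 2) * j ^ ((3 : ℝ) / 2) ≤ (∑ g ∈ 𝓖, ∑ l ∈ (X.image lab).filter
          (fun l => j ≤ f l g), f l g) * j ^ ((3 : ℝ) / 2) := by
          gcongr
          rw [← nsmul_eq_mul]
          exact Finset.card_nsmul_le_sum _ _ _ h1
      _ = ∑ l ∈ X.image lab, (∑ g ∈ 𝓖.filter (fun g => j ≤ f l g), f l g) *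
            j ^ ((3 : ℝ) / 2) := by
          rw [← Finset.sum_mul]
          simp only [Finset.sum_filter]
          rw [Finset.sum_comm]
      _ ≤ ∑ l ∈ X.image lab, C0 * (8 * B) * ((Xl l).card : ℝ) ^ ((19 : ℝ) / 20) :=
          Finset.sum_le_sum fun l _ => h2 l
      _ ≤ _ := by
          rw [← Finset.mul_sum]
          refine mul_le_mul_of_nonneg_left ?_ (by positivity)
          have h4 := locL_conc (X.image lab) (fun l => ((Xl l).card : ℝ))
            fun _ _ => Nat.cast_nonneg _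
          rw [Finset.card_eq_sum_card_image lab X, Nat.cast_sum]
          exact h4
  have h4 : ((P.image cell).card : ℝ) ≤ 1000 * (n / k) := by
    have h5 := hc2 (P.image fun p => (p, p)) (by
      intro y hy
      obtain ⟨p, hp, rfl⟩ := Finset.mem_image.1 hy
      exact Finset.mem_product.2 ⟨hp, hp⟩) (by
      intro y hy z hz
      obtain ⟨p, -, rfl⟩ := Finset.mem_image.1 hy
      obtain ⟨q, -, rfl⟩ := Finset.mem_image.1 hz
      rfl)
    have h6 : (P.image cell).card ≤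
        ((P.image fun p => (p, p)).image fun y => (cell y.1, cell y.2)).card := by
      refine le_trans (Finset.card_le_card ?_) (Finset.card_image_le (f := Prod.fst))
      intro l hl
      obtain ⟨p, hp, rfl⟩ := Finset.mem_image.1 hl
      exact Finset.mem_image.2 ⟨(cell p, cell p), Finset.mem_image.2
        ⟨(p, p), Finset.mem_image_of_mem _ hp, rfl⟩, rfl⟩
    have h7 : (P.card : ℝ) / k ≤ n / k := by gcongr
    have h8 : 1 ≤ n / k := (one_le_div hk0).2 hkn
    have h9 := (Nat.cast_le (α := ℝ)).2 h6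
    linarith
  have h5 : ((X.image lab).card : ℝ) ≤ (1000 * (n / k)) ^ 2 := by
    have h6 : (X.image lab).card ≤ (P.image cell ×ˢ P.image cell).card := by
      refine Finset.card_le_card fun l hl => ?_
      obtain ⟨y, hy, rfl⟩ := Finset.mem_image.1 hl
      have := Finset.mem_product.1 (hX hy)
      exact Finset.mem_product.2 ⟨Finset.mem_image_of_mem _ this.1,
        Finset.mem_image_of_mem _ this.2⟩
    rw [Finset.card_product] at h6
    have h7 := (Nat.cast_le (α := ℝ)).2 h6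
    push_cast at h7
    rw [sq]
    exact h7.trans (mul_le_mul h4 h4 (Nat.cast_nonneg _) (by positivity))
  exact locL_num (Nat.cast_nonneg _) hj0 (by positivity) (by rw [hj]; field_simp) (by linarith) hB
    (by positivity) (Nat.cast_nonneg _) h5 h3

end

end Vale.Agent.P054
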