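import Vale.Agent.P054.Loc
import Vale.Agent.P054.Dyad

namespace Vale.Agent.P054

open MvPolynomial

noncomputable section

/-- localisation to pairs of cells. -/
theorem loc_step : ∃ C : ℝ, 1 ≤ C ∧ ∀ (n : ℝ) (k : ℕ) (P : Finset Pt) (X : Finset (Pt × Pt))
    (B w0 t : ℝ) (𝓖 : Finset Mo), 1 ≤ k → (k : ℝ) ≤ n → (P.card : ℝ) ≤ n → X ⊆ P ×ˢ P → 0 < t →
    0 ≤ B → (∀ (P' : Finset Pt) (X' : Finset (Pt × Pt)), P' ⊆ P → P'.card ≤ 18 * k → X' ⊆ X →
      X' ⊆ P' ×ˢ P' → RB3 X' w0 (B * X'.card)) → w0 ≤ t * k / (C * n) →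
    (∀ g ∈ 𝓖, Iso g ∧ t ≤ ((gr X g).card : ℝ) ∧ LinB (gr X g) (t * k / (C * n))) →
    (𝓖.card : ℝ) * t ^ 3 ≤ C * B * X.card * (n / k) ^ 2 := by
  classical
  refine ⟨256 * 10 ^ 6, by norm_num, fun n k P X B w0 t 𝓖 hk hkn hP hX ht hB hRB hw h𝓖 => ?_⟩
  obtain ⟨cell, hc1, hc2⟩ := exists_cells P k hk
  have hk0 : (0 : ℝ) < k := by exact_mod_cast hk
  have hn : 0 < n := hk0.trans_le hkn
  set j := t * k / (2000 * n) with hj
  have hj0 : 0 < j := by positivity
  have hlj : t * k / (256 * 10 ^ 6 * n) ≤ j / 2 := by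
    rw [hj, div_div]
    exact div_le_div_of_nonneg_left (by positivity) (by positivity) (by linarith)
  let lab : Pt × Pt → (ℕ × (Fin 3 → ℤ)) × (ℕ × (Fin 3 → ℤ)) := fun y => (cell y.1, cell y.2)
  let Xl := fun l => X.filter fun y => lab y = l
  let f := fun l g => ((gr (Xl l) g).card : ℝ)
  have h1 : ∀ g ∈ 𝓖, t / 2 ≤ ∑ l ∈ (X.image lab).filter (fun l => j ≤ f l g), f l g := by
    intro g hg
    obtain ⟨hi, h2, -⟩ := h𝓖 g hg
    have hs : gr X g ⊆ X := fun y hy => (mem_gr.1 hy).1
    have h3 : ((gr X g).card : ℝ) = ∑ l ∈ (gr X g).image lab, f l g := by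
      rw [Finset.card_eq_sum_card_image lab, Nat.cast_sum]
      refine Finset.sum_congr rfl fun l _ => ?_
      simp only [f, Xl, gr]
      rw [Finset.filter_comm]
    have h4 : (((gr X g).image lab).card : ℝ) ≤ 1000 * (n / k) := by
      refine (hc2 _ (hs.trans hX) (cmp_gr hi X)).trans ?_
      have : (P.card : ℝ) / k ≤ n / k := by gcongr
      have : 1 ≤ n / k := (one_le_div hk0).2 hkn
      linarith
    rw [← Finset.sum_filter_add_sum_filter_not _ fun l => j ≤ f l g] at h3
    have h5 : ∑ l ∈ ((gr X g).image lab).filter (fun l => ¬ j ≤ f l g), f l g ≤ t / 2 := by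
      refine (Finset.sum_le_card_nsmul _ _ j fun l hl =>
        (not_le.1 (Finset.mem_filter.1 hl).2).le).trans ?_
      rw [nsmul_eq_mul]
      calc _ ≤ 1000 * (n / k) * j := by
            gcongr
            exact (Nat.cast_le.2 (Finset.card_filter_le _ _)).trans h4
        _ = t / 2 := by rw [hj]; field_simp; norm_num
    have h6 : ∑ l ∈ ((gr X g).image lab).filter (fun l => j ≤ f l g), f l g ≤
        ∑ l ∈ (X.image lab).filter (fun l => j ≤ f l g), f l g :=
      Finset.sum_le_sum_of_subset_of_nonneg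
        (Finset.filter_subset_filter _ (Finset.image_subset_image hs)) fun _ _ _ => Nat.cast_nonneg _
    linarith
  have h2 : ∀ l, (∑ g ∈ 𝓖.filter (fun g => j ≤ f l g), f l g) * j ^ 2 ≤
      32 * B * (Xl l).card := by
    intro l
    have hR := hRB ((P.filter fun p => cell p = l.1) ∪ P.filter fun p => cell p = l.2) (Xl l)
      (Finset.union_subset (Finset.filter_subset _ _) (Finset.filter_subset _ _))
      ((Finset.card_union_le _ _).trans (by have := hc1 l.1; have := hc1 l.2; omega))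
      (Finset.filter_subset _ _) (fun y hy => by
        obtain ⟨h1, rfl⟩ := Finset.mem_filter.1 hy
        have := Finset.mem_product.1 (hX h1)
        simp [lab, this])
    have := dyadic_sum (𝓖.filter fun g => j ≤ f l g) (f l) (fun _ => 1) j (8 * (B * (Xl l).card))
      1 2 hj0 (by norm_num) (fun _ _ => zero_le_one) (fun g hg => (Finset.mem_filter.1 hg).2)
      fun w hw' => by
        have h3 := hR (w / 2) ((𝓖.filter fun g => j ≤ f l g).filter fun g => w ≤ f l g)
          (by linarith) fun g hg => by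
            obtain ⟨h4, h5⟩ := Finset.mem_filter.1 hg
            obtain ⟨hi, -, h6⟩ := h𝓖 g (Finset.mem_filter.1 h4).1
            exact ⟨hi, rich_of_linB (Finset.Subset.refl _)
              (h6.mono (gr_mono (Finset.filter_subset _ _) g) (hlj.trans (by linarith : j / 2 ≤ w / 2)))
              (by simpa [f] using h5)⟩
        rw [Finset.sum_const, nsmul_eq_mul, mul_one]
        norm_num
        linarith
    simp only [one_mul, pow_one] at this
    exact this.trans_eq (by ring)
  have h3 : (𝓖.card : ℝ) * (t / 2) * j ^ 2 ≤ 32 * B * X.card := by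
    calc (𝓖.card : ℝ) * (t / 2) * j ^ 2 ≤ (∑ g ∈ 𝓖, ∑ l ∈ (X.image lab).filter
          (fun l => j ≤ f l g), f l g) * j ^ 2 := by
          gcongr
          rw [← nsmul_eq_mul]
          exact Finset.card_nsmul_le_sum _ _ _ h1
      _ = ∑ l ∈ X.image lab, (∑ g ∈ 𝓖.filter (fun g => j ≤ f l g), f l g) * j ^ 2 := by
          rw [← Finset.sum_mul]
          simp only [Finset.sum_filter]
          rw [Finset.sum_comm]
      _ ≤ ∑ l ∈ X.image lab, 32 * B * (Xl l).card := Finset.sum_le_sum fun l _ => h2 l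
      _ = 32 * B * X.card := by
          rw [← Finset.mul_sum, Finset.card_eq_sum_card_image lab X, Nat.cast_sum]
  have h4 : (𝓖.card : ℝ) * t ^ 3 = 𝓖.card * (t / 2) * j ^ 2 * (8 * 10 ^ 6 * (n / k) ^ 2) := by
    rw [hj]; field_simp; ring
  rw [h4]
  refine (mul_le_mul_of_nonneg_right h3 (by positivity)).trans (le_of_eq ?_)
  ring

end

end Vale.Agent.P054
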