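import Vale.Agent.P054.MDefs

namespace Vale.Agent.P054

open MvPolynomial

noncomputable section

theorem mpieces_greedy {β : Type} [DecidableEq β] (P : Finset β) (G : Finset β → Prop)
    (h : ∀ R, R ⊆ P → P.card ≤ 2 * R.card → ∃ Q, Q ⊆ R ∧ Q.Nonempty ∧ G Q) (R : Finset β) :
    R ⊆ P → ∃ T : Finset (Finset β), (∀ Q ∈ T, Q ⊆ R ∧ G Q) ∧
      (∀ Q ∈ T, ∀ Q' ∈ T, Q ≠ Q' → Disjoint Q Q') ∧
      2 * R.card ≤ P.card + 2 * ∑ Q ∈ T, Q.card := by
  induction R using Finset.strongInduction with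
  | H R ih =>
    intro hR
    rcases le_total P.card (2 * R.card) with hc | hc
    · obtain ⟨Q, h1, h2, h3⟩ := h R hR hc
      obtain ⟨T, t1, t2, t3⟩ := ih (R \ Q) (Finset.sdiff_ssubset h1 h2)
        (Finset.sdiff_subset.trans hR)
      have hd : ∀ Q' ∈ T, Disjoint Q Q' := fun Q' hQ' =>
        Finset.disjoint_sdiff.mono_right (t1 Q' hQ').1
      have hn : Q ∉ T := fun hQ => h2.ne_empty ((Finset.disjoint_self_iff_empty _).1 (hd Q hQ))
      refine ⟨insert Q T, fun Q' hQ' => ?_, fun Q1 hQ1 Q2 hQ2 hne => ?_, ?_⟩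
      · rcases Finset.mem_insert.1 hQ' with rfl | hQ'
        · exact ⟨h1, h3⟩
        · exact ⟨(t1 Q' hQ').1.trans Finset.sdiff_subset, (t1 Q' hQ').2⟩
      · rcases Finset.mem_insert.1 hQ1 with e1 | e1 <;>
          rcases Finset.mem_insert.1 hQ2 with e2 | e2
        · exact absurd (e1.trans e2.symm) hne
        · exact e1 ▸ hd _ e2
        · exact e2 ▸ (hd _ e1).symm
        · exact t2 _ e1 _ e2 hne
      · rw [Finset.sum_insert hn]
        have := Finset.card_sdiff_add_card_eq_card h1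
        omega
    · exact ⟨∅, by simp, by simp, by simpa using hc⟩

theorem mpieces_pop {κ β : Type} [Fintype κ] [Fintype β] [DecidableEq β] [Nonempty β]
    (w : κ → ℝ) (typ : κ → β) :
    ∃ b, ∑ j, w j ≤ Fintype.card β * ∑ j : {j // typ j = b}, w j := by
  obtain ⟨b, -, hb⟩ := Finset.exists_max_image Finset.univ
    (fun b => ∑ j : {j // typ j = b}, w j) Finset.univ_nonempty
  refine ⟨b, ?_⟩
  rw [← Fintype.sum_fiberwise typ w]
  exact (Finset.sum_le_card_nsmul _ _ _ hb).trans_eq (by rw [nsmul_eq_mul, Finset.card_univ])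

theorem mpieces_mk {σ κ : Type} [Fintype σ] [Fintype κ] [Nonempty κ] {A α : ℝ} {d : ℕ}
    (Q : κ → Finset (σ → ℝ)) (hQ : ∀ i j, i ≠ j → Disjoint (Q i) (Q j))
    (D : ∀ j, Cel A α d (fun a : σ → ℝ => kr ℂ (cx a)) (Q j)) (c : (r : ℕ) → Fin r → σ)
    (hc : ∀ j, (D j).c = c)
    (hr : ∀ j i, ∃ g0 : MvPolynomial σ ℝ, (D j).g i = map (algebraMap ℝ ℂ) g0) :
    ∃ (P' : Finset (σ → ℝ)) (𝓟 : Pcs A α d P' κ), (∀ a ∈ P', ∃ j, a ∈ Q j) ∧
      (P'.card : ℝ) = ∑ j, ((Q j).card : ℝ) ∧ ∀ j, 𝓟.δ j = (D j).δ ∧ 𝓟.Q j = Q j := by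
  classical
  have hp : ∀ a : σ → ℝ, ∃ j, (∃ i, a ∈ Q i) → a ∈ Q j := fun a => by
    by_cases h : ∃ i, a ∈ Q i
    · obtain ⟨i, hi⟩ := h
      exact ⟨i, fun _ => hi⟩
    · exact ⟨Classical.arbitrary κ, fun h' => (h h').elim⟩
  choose pc hpc using hp
  refine ⟨Finset.univ.biUnion Q, ⟨pc, Q, fun j a => ?_, D, c, hc, hr⟩, fun a ha => ?_, ?_,
    fun j => ⟨rfl, rfl⟩⟩
  · simp only [Finset.mem_biUnion, Finset.mem_univ, true_and]
    constructor
    · intro ha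
      refine ⟨⟨j, ha⟩, by_contra fun hne => ?_⟩
      exact Finset.disjoint_left.1 (hQ _ _ hne) (hpc a ⟨j, ha⟩) ha
    · rintro ⟨ha, rfl⟩
      exact hpc a ha
  · simpa using ha
  · rw [Finset.card_biUnion fun i _ j _ hij => hQ i j hij]
    push_cast
    rfl

theorem mpieces_hb {σ : Type} [Fintype σ] (R : Finset (σ → ℝ)) {x : ℝ} {d r : ℕ}
    (hd : Fintype.card σ = d) (hx : 1 ≤ x) (hR : (R.card : ℝ) ≤ x ^ d) (hr : r ≤ d) :
    HB (⨅ a ∈ R, kr ℂ (cx a)) (2 ^ d * x ^ r) (Fintype.card σ - r) := by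
  intro m hm
  have hm1 : (1 : ℝ) ≤ m := by exact_mod_cast hm
  rw [hd]
  obtain ⟨k, rfl⟩ := Nat.exists_eq_add_of_le hr
  rw [Nat.add_sub_cancel_left]
  rcases le_total (m : ℝ) x with h | h
  · have h1 : (hf (⨅ a ∈ R, kr ℂ (cx a)) m : ℝ) ≤ ((m : ℝ) + 1) ^ (r + k) := by
      rw [← hd]
      exact_mod_cast hf_le_pow _ m
    calc _ ≤ (2 * (m : ℝ)) ^ (r + k) := h1.trans (by gcongr; linarith)
      _ = 2 ^ (r + k) * (m : ℝ) ^ r * (m : ℝ) ^ k := by rw [mul_pow, pow_add (m : ℝ), mul_assoc]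
      _ ≤ _ := by gcongr
  · have h1 : hf (⨅ a ∈ R, kr ℂ (cx a)) m ≤ R.card :=
      (hf_iInf_le R _ m).trans ((Finset.sum_le_card_nsmul _ _ 1 fun a _ => hf_kr_le _ m).trans_eq
        (by simp))
    have h2 : (1 : ℝ) ≤ 2 ^ (r + k) := one_le_pow₀ (by norm_num)
    calc _ ≤ x ^ (r + k) := le_trans (by exact_mod_cast h1) hR
      _ = 1 * x ^ r * x ^ k := by rw [pow_add, one_mul]
      _ ≤ _ := by gcongr

theorem mpieces_prod {δ : ℕ → ℝ} (h1 : ∀ i, 1 ≤ δ i) (hm : Monotone δ) {x α : ℝ} (hx : 1 ≤ x)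
    (hα : 0 < α) (d : ℕ) :
    ∏ r ∈ Finset.range (d + 1), (2 ^ d * x ^ r / fp δ r) ^ α ≤
      (2 * max 1 (x / δ 0)) ^ (α * (d * (d + 1))) := by
  have h0 : 0 < δ 0 := one_pos.trans_le (h1 0)
  have hV : 1 ≤ max 1 (x / δ 0) := le_max_left _ _
  have hb : ∀ r ∈ Finset.range (d + 1),
      (2 ^ d * x ^ r / fp δ r) ^ α ≤ ((2 * max 1 (x / δ 0)) ^ d) ^ α := by
    intro r hr
    have hp := fp_pos h1 r
    refine Real.rpow_le_rpow (by positivity) ?_ hα.le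
    have h2 : δ 0 ^ r ≤ fp δ r := by
      have := Finset.prod_le_prod (s := Finset.range r) (f := fun _ => δ 0) (g := δ)
        (fun _ _ => h0.le) fun i _ => hm (Nat.zero_le i)
      rwa [Finset.prod_const, Finset.card_range] at this
    calc 2 ^ d * x ^ r / fp δ r ≤ 2 ^ d * x ^ r / δ 0 ^ r := by gcongr
      _ = 2 ^ d * (x / δ 0) ^ r := by rw [div_pow, mul_div_assoc]
      _ ≤ 2 ^ d * (max 1 (x / δ 0)) ^ r := by gcongr; exact le_max_right _ _
      _ ≤ 2 ^ d * (max 1 (x / δ 0)) ^ d := by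
          have := pow_le_pow_right₀ hV (Nat.lt_succ_iff.1 (Finset.mem_range.1 hr))
          gcongr
      _ = _ := (mul_pow _ _ _).symm
  refine (Finset.prod_le_prod (fun r _ => ?_) hb).trans_eq ?_
  · have hp := fp_pos h1 r
    positivity
  · rw [Finset.prod_const, Finset.card_range, ← Real.rpow_natCast, ← Real.rpow_natCast,
      ← Real.rpow_mul (by positivity), ← Real.rpow_mul (by positivity)]
    congr 1
    push_cast
    ring

/-- a positive proportion of the points is a union of concentrated pieces which are large. -/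
theorem exists_pieces (d : ℕ) (hd : 1 ≤ d) (α : ℝ) (hα : 0 < α) : ∃ A c : ℝ, 1 ≤ A ∧ 0 < c ∧
    ∀ (σ : Type) [Fintype σ] (P : Finset (σ → ℝ)) (x : ℝ), Fintype.card σ = d → P.Nonempty →
    1 ≤ x → (P.card : ℝ) ≤ x ^ d →
    ∃ (P' : Finset (σ → ℝ)) (κ : Type) (_ : Fintype κ) (𝓟 : Pcs A α d P' κ), P' ⊆ P ∧
      c * P.card ≤ P'.card ∧ ∀ j, (P.card : ℝ) ≤
        2 * A * (2 * max 1 (x / 𝓟.δ j 0)) ^ (α * (d * (d + 1))) * (𝓟.Q j).card := by
  classical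
  obtain ⟨A, hA, h⟩ := celM_real d α hα hd
  have hN : (0 : ℝ) < (∏ r : Fin (d + 1), d ^ (r : ℕ) : ℕ) := by
    exact_mod_cast Finset.prod_pos fun r _ => pow_pos hd _
  refine ⟨A, 1 / (2 * (∏ r : Fin (d + 1), d ^ (r : ℕ) : ℕ)), hA, by positivity, ?_⟩
  intro σ _ P x hσ hP hx hPx
  have hP0 := hP.card_pos
  obtain ⟨T, t1, t2, t3⟩ := mpieces_greedy P (fun Q =>
    ∃ D : Cel A α d (fun a : σ → ℝ => kr ℂ (cx a)) Q,
      (∀ i, ∃ g0 : MvPolynomial σ ℝ, D.g i = map (algebraMap ℝ ℂ) g0) ∧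
      (P.card : ℝ) ≤ 2 * A * (2 * max 1 (x / D.δ 0)) ^ (α * (d * (d + 1))) * Q.card)
    (fun R hR hc => by
      obtain ⟨Q, q1, q2, D, q3, q4⟩ := h σ R hσ (Finset.card_pos.1 (by omega))
      refine ⟨Q, q1, q2, D, q3, ?_⟩
      have h1 := q4 R (Finset.Subset.refl _) (fun r => 2 ^ d * x ^ r) fun r hr =>
        mpieces_hb R hσ hx (le_trans (by exact_mod_cast Finset.card_le_card hR) hPx) hr
      have h2 := mul_le_mul_of_nonneg_left (mpieces_prod D.one_le D.mono hx hα d)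
        (show 0 ≤ A * Q.card by positivity)
      have h3 : (P.card : ℝ) ≤ 2 * R.card := by exact_mod_cast hc
      linarith) P (Finset.Subset.refl _)
  choose D hD1 hD2 using fun j : T => (t1 j j.2).2
  have : Nonempty σ := Fintype.card_pos_iff.1 (by omega)
  obtain ⟨b, hb⟩ := mpieces_pop (fun j : T => ((j : Finset (σ → ℝ)).card : ℝ))
    (fun j (r : Fin (d + 1)) => (D j).c r)
  have e : Fintype.card ((r : Fin (d + 1)) → Fin r → σ) = ∏ r : Fin (d + 1), d ^ (r : ℕ) := by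
    simp [hσ]
  have h4 : (P.card : ℝ) ≤ 2 * ∑ j : T, ((j : Finset (σ → ℝ)).card : ℝ) := by
    rw [Finset.sum_coe_sort T fun Q => (Q.card : ℝ)]
    have : P.card ≤ 2 * ∑ Q ∈ T, Q.card := by omega
    exact_mod_cast this
  rw [e] at hb
  have hne : Nonempty {j : T // (fun r : Fin (d + 1) => (D j).c r) = b} := by
    by_contra hn
    rw [not_nonempty_iff] at hn
    rw [Finset.sum_of_isEmpty (ι := {j : T // (fun r : Fin (d + 1) => (D j).c r) = b}),
      mul_zero] at hb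
    have : (0 : ℝ) < P.card := by exact_mod_cast hP0
    linarith
  obtain ⟨j0⟩ := hne
  have : Nonempty {j : T // (fun r : Fin (d + 1) => (D j).c r) = b} := ⟨j0⟩
  obtain ⟨P', 𝓟, p1, p2, p3⟩ := mpieces_mk
    (κ := {j : T // (fun r : Fin (d + 1) => (D j).c r) = b}) (fun j => j.1.1)
    (fun i j hij => t2 _ i.1.2 _ j.1.2 fun e => hij (Subtype.ext (Subtype.ext e)))
    (fun j => { D j.1 with
      c := (D j0.1).c
      jac := fun r hr => by
        have := congrFun (j0.2.trans j.2.symm) ⟨r, Nat.lt_succ_of_le hr⟩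
        simp only at this
        rw [this]
        exact (D j.1).jac r hr })
    (D j0.1).c (fun _ => rfl) fun j => hD1 j.1
  refine ⟨P', _, inferInstance, 𝓟, fun a ha => ?_, ?_, fun j => ?_⟩
  · obtain ⟨j, hj⟩ := p1 a ha
    exact (t1 _ j.1.2).1 hj
  · rw [p2, one_div_mul_eq_div, div_le_iff₀ (by positivity)]
    linarith
  · rw [(p3 j).1, (p3 j).2]
    exact hD2 j.1

theorem mpieces_disj {σ κ : Type} [Fintype σ] {A α : ℝ} {d : ℕ} {P : Finset (σ → ℝ)}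
    (𝓟 : Pcs A α d P κ) {i j : κ} (h : i ≠ j) : Disjoint (𝓟.Q i) (𝓟.Q j) :=
  Finset.disjoint_left.2 fun a h1 h2 => h (((𝓟.mem _ a).1 h1).2.symm.trans ((𝓟.mem _ a).1 h2).2)

theorem mpieces_sum {σ κ : Type} [Fintype σ] [Fintype κ] {A α : ℝ} {d : ℕ}
    {P : Finset (σ → ℝ)} (𝓟 : Pcs A α d P κ) : ∑ j, ((𝓟.Q j).card : ℝ) = P.card := by
  classical
  have e : P = Finset.univ.biUnion 𝓟.Q := by
    ext a
    simp [𝓟.mem]
  conv_rhs => rw [e, Finset.card_biUnion fun i _ j _ hij => mpieces_disj 𝓟 hij]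
  push_cast
  rfl

/-- passing to the pieces of the most popular type. -/
theorem Pcs.sub {σ κ β : Type} [Fintype σ] [Fintype κ] [Fintype β] {A α : ℝ} {d : ℕ}
    {P : Finset (σ → ℝ)} (𝓟 : Pcs A α d P κ) (hP : P.Nonempty) (typ : κ → β) :
    ∃ (P' : Finset (σ → ℝ)) (κ' : Type) (_ : Fintype κ') (𝓟' : Pcs A α d P' κ') (f : κ' → κ),
      P' ⊆ P ∧ (P.card : ℝ) ≤ Fintype.card β * P'.card ∧ Function.Injective f ∧
      (∀ j, 𝓟'.δ j = 𝓟.δ (f j)) ∧ ∀ i j, typ (f i) = typ (f j) := by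
  classical
  obtain ⟨a0, ha0⟩ := hP
  have : Nonempty β := ⟨typ (𝓟.pc a0)⟩
  obtain ⟨b, hb⟩ := mpieces_pop (fun j => ((𝓟.Q j).card : ℝ)) typ
  rw [mpieces_sum] at hb
  have hne : Nonempty {j // typ j = b} := by
    by_contra hn
    rw [not_nonempty_iff] at hn
    rw [Finset.sum_of_isEmpty, mul_zero] at hb
    have : (0 : ℝ) < P.card := by exact_mod_cast Finset.card_pos.2 ⟨a0, ha0⟩
    linarith
  obtain ⟨P', 𝓟', p1, p2, p3⟩ := mpieces_mk (κ := {j // typ j = b}) (fun j => 𝓟.Q j.1)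
    (fun i j hij => mpieces_disj 𝓟 fun e => hij (Subtype.ext e)) (fun j => 𝓟.D j.1) 𝓟.c
    (fun j => 𝓟.hc j.1) fun j => 𝓟.real j.1
  refine ⟨P', _, inferInstance, 𝓟', Subtype.val, fun a ha => ?_, by rwa [p2],
    Subtype.val_injective, fun j => (p3 j).1, fun i j => i.2.trans j.2.symm⟩
  obtain ⟨j, hj⟩ := p1 a ha
  exact ((𝓟.mem _ a).1 hj).1

theorem Pcs.sum_card {σ κ : Type} [Fintype σ] [Fintype κ] {A α : ℝ} {d : ℕ}
    {P : Finset (σ → ℝ)} (𝓟 : Pcs A α d P κ) : ∑ j, ((𝓟.Q j).card : ℝ) = P.card := by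
  exact mpieces_sum 𝓟

/-- exceptional pairs for all pairs of pieces. -/
theorem Pcs.glue {σ κ : Type} [Fintype σ] [Fintype κ] {A α θ : ℝ} {d : ℕ} {P : Finset (σ → ℝ)}
    (𝓟 : Pcs A α d P κ) (B : κ → κ → Finset ((σ → ℝ) × (σ → ℝ)))
    (h : ∀ i j, ((B i j).card : ℝ) ≤ θ * ((𝓟.Q i).card * (𝓟.Q j).card)) :
    ∃ Bad : Finset ((σ → ℝ) × (σ → ℝ)), (Bad.card : ℝ) ≤ θ * (P.card : ℝ) ^ 2 ∧
      ∀ i j, B i j ⊆ Bad := by
  classical
  refine ⟨Finset.univ.biUnion fun i => Finset.univ.biUnion (B i), ?_, fun i j a ha => ?_⟩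
  · have h1 : (Finset.univ.biUnion fun i => Finset.univ.biUnion (B i)).card ≤
        ∑ i, ∑ j, (B i j).card :=
      Finset.card_biUnion_le.trans (Finset.sum_le_sum fun i _ => Finset.card_biUnion_le)
    calc _ ≤ ∑ i, ∑ j, ((B i j).card : ℝ) := by exact_mod_cast h1
      _ ≤ ∑ i, ∑ j, θ * ((𝓟.Q i).card * (𝓟.Q j).card) :=
          Finset.sum_le_sum fun i _ => Finset.sum_le_sum fun j _ => h i j
      _ = _ := by
          rw [← 𝓟.sum_card, sq, Finset.sum_mul_sum, Finset.mul_sum]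
          simp only [Finset.mul_sum]
  · simp only [Finset.mem_biUnion, Finset.mem_univ, true_and]
    exact ⟨i, j, ha⟩

open Classical in
/-- half of the pairs are ordered. -/
theorem half_pairs {β : Type} (P : Finset β) (w : β → ℝ) (Bad : Finset (β × β))
    (h : (Bad.card : ℝ) ≤ 1 / 4 * (P.card : ℝ) ^ 2) :
    (P.card : ℝ) ^ 2 ≤ 4 * ((P ×ˢ P).filter fun x => w x.2 ≤ w x.1 ∧ x ∉ Bad).card := by
  obtain ⟨G, hG⟩ : ∃ G, G = (P ×ˢ P).filter fun x => w x.2 ≤ w x.1 := ⟨_, rfl⟩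
  have h1 : P ×ˢ P ⊆ G ∪ G.image Prod.swap := by
    intro x hx
    have hx' := Finset.mem_product.1 hx
    rcases le_total (w x.2) (w x.1) with h | h
    · exact Finset.mem_union_left _ (hG ▸ Finset.mem_filter.2 ⟨hx, h⟩)
    · exact Finset.mem_union_right _ (Finset.mem_image.2 ⟨x.swap,
        hG ▸ Finset.mem_filter.2 ⟨Finset.mem_product.2 ⟨hx'.2, hx'.1⟩, h⟩, rfl⟩)
  have h2 := (Finset.card_le_card h1).trans ((Finset.card_union_le _ _).trans
    (Nat.add_le_add_left Finset.card_image_le _))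
  have h3 : G ⊆ ((P ×ˢ P).filter fun x => w x.2 ≤ w x.1 ∧ x ∉ Bad) ∪ Bad := by
    intro x hx
    rw [hG, Finset.mem_filter] at hx
    by_cases hb : x ∈ Bad
    · exact Finset.mem_union_right _ hb
    · exact Finset.mem_union_left _ (Finset.mem_filter.2 ⟨hx.1, hx.2, hb⟩)
  have h4 := (Finset.card_le_card h3).trans (Finset.card_union_le _ _)
  rw [Finset.card_product] at h2
  have h5 : (P.card : ℝ) * P.card ≤ G.card + G.card := by exact_mod_cast h2
  have h6 : (G.card : ℝ) ≤ ((P ×ˢ P).filter fun x => w x.2 ≤ w x.1 ∧ x ∉ Bad).card + Bad.card := by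
    exact_mod_cast h4
  nlinarith


end

end Vale.Agent.P054
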