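import Vale.Agent.P054.MDefs

namespace Vale.Agent.P054

open MvPolynomial

set_option linter.unusedSectionVars false

noncomputable section

variable {K : Type} [Field K] {σ κ : Type} [Fintype σ]

section ini

theorem mRoot_C (a : K) (p : σ → K) (k : ℕ) : ini (C a) p k = if k = 0 then C a else 0 := by
  rw [ini, algHom_C, Polynomial.algebraMap_apply, Polynomial.coeff_C]
  rfl

theorem mRoot_add (f g : MvPolynomial σ K) (p : σ → K) (k : ℕ) :
    ini (f + g) p k = ini f p k + ini g p k := by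
  rw [ini, map_add, Polynomial.coeff_add]
  rfl

theorem mRoot_X (p : σ → K) (j : σ) :
    rootBLine K (fun i => (C (p i) : MvPolynomial σ K)) X (X j) =
      Polynomial.C (C (p j)) + Polynomial.X * Polynomial.C (X j) := aeval_X _ _

theorem mRoot_X0 (f : MvPolynomial σ K) (p : σ → K) (j : σ) :
    ini (f * X j) p 0 = ini f p 0 * C (p j) := by
  rw [ini, map_mul, mRoot_X, mul_add, Polynomial.coeff_add, Polynomial.coeff_mul_C, ← mul_assoc,
    Polynomial.coeff_mul_C, Polynomial.coeff_mul_X_zero, zero_mul, add_zero]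
  rfl

theorem mRoot_X1 (f : MvPolynomial σ K) (p : σ → K) (j : σ) (k : ℕ) :
    ini (f * X j) p (k + 1) = ini f p (k + 1) * C (p j) + ini f p k * X j := by
  rw [ini, map_mul, mRoot_X, mul_add, Polynomial.coeff_add, Polynomial.coeff_mul_C, ← mul_assoc,
    Polynomial.coeff_mul_C, Polynomial.coeff_mul_X]
  rfl

theorem ini_isHomogeneous (f : MvPolynomial σ K) (p : σ → K) (k : ℕ) :
    (ini f p k).IsHomogeneous k := by
  induction f using MvPolynomial.induction_on generalizing k with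
  | C a =>
    rw [mRoot_C]
    split_ifs with h
    · rw [h]; exact isHomogeneous_C _ _
    · exact isHomogeneous_zero _ _ _
  | add f g hf hg => rw [mRoot_add]; exact (hf k).add (hg k)
  | mul_X f j hf =>
    rcases k with _ | k
    · rw [mRoot_X0]; exact (hf 0).mul (isHomogeneous_C _ _)
    · rw [mRoot_X1]
      exact ((hf (k + 1)).mul (isHomogeneous_C _ _)).add ((hf k).mul (isHomogeneous_X _ _))

theorem ini_deg (f : MvPolynomial σ K) (p : σ → K) (k : ℕ) : (ini f p k).totalDegree ≤ k := by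
  exact (ini_isHomogeneous f p k).totalDegree_le

/-- the forms give the coefficients along every line. -/
theorem aeval_ini {A : Type} [CommRing A] [Algebra K A] (f : MvPolynomial σ K) (p : σ → K)
    (v : σ → A) (k : ℕ) : aeval v (ini f p k) = (rootBLine K (am A p) v f).coeff k := by
  rw [ini, rootB_map]
  simp only [aeval_C, aeval_X]

theorem aeval_ini_smul {A : Type} [CommRing A] [Algebra K A] (f : MvPolynomial σ K) (p : σ → K)
    (v : σ → A) (c : A) (k : ℕ) :
    aeval (fun i => c * v i) (ini f p k) = c ^ k * aeval v (ini f p k) := by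
  induction f using MvPolynomial.induction_on generalizing k with
  | C a =>
    rw [mRoot_C]
    split_ifs with h
    · simp [h]
    · simp
  | add f g hf hg => rw [mRoot_add, map_add, map_add, hf, hg, mul_add]
  | mul_X f j hf =>
    rcases k with _ | k
    · simp only [mRoot_X0, map_mul, hf, aeval_C, mul_assoc]
    · simp only [mRoot_X1, map_add, map_mul, hf, aeval_C, aeval_X]
      ring

theorem ini_zero (f : MvPolynomial σ K) (p : σ → K) : ini f p 0 = C (aeval p f) := by
  induction f using MvPolynomial.induction_on with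
  | C a => simp [mRoot_C]
  | add f g hf hg => rw [mRoot_add, hf, hg, map_add, map_add]
  | mul_X f j hf => rw [mRoot_X0, hf, map_mul, map_mul, aeval_X]

theorem aeval_ini_one (f : MvPolynomial σ K) (p v : σ → K) : aeval v (ini f p 1) = dg f p v := by
  have hl : lp p v 0 = p := funext fun k => by simp [lp]
  have h := rootB_deriv p v 0 f
  rw [hl, ← Polynomial.coeff_zero_eq_eval_zero, Polynomial.coeff_derivative] at h
  rw [aeval_ini, ← h, Nat.cast_zero, zero_add (1 : K), mul_one]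
  rfl

theorem pderiv_ini (f : MvPolynomial σ K) (p : σ → K) (j : σ) (k : ℕ) :
    pderiv j (ini f p (k + 1)) = ini (pderiv j f) p k := by
  classical
  induction f using MvPolynomial.induction_on generalizing k with
  | C a =>
    rw [mRoot_C, if_neg k.succ_ne_zero, pderiv_C, map_zero, ← C_0, mRoot_C]
    simp
  | add f g hf hg => rw [mRoot_add, map_add, map_add, mRoot_add, hf, hg]
  | mul_X f i hf =>
    have h1 : ini (f * pderiv j (X i)) p k = ini f p k * pderiv j (X i) := by
      rw [pderiv_X, Pi.single_apply]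
      split_ifs
      · rw [mul_one, mul_one]
      · rw [mul_zero, mul_zero, ← C_0, mRoot_C]
        simp
    rw [mRoot_X1, map_add, pderiv_mul, pderiv_mul, pderiv_mul, mRoot_add, h1, hf, pderiv_C,
      mul_zero, add_zero, ← add_assoc]
    congr 1
    rcases k with _ | k
    · rw [mRoot_X0, ini_zero f, pderiv_C, zero_mul, add_zero]
    · rw [mRoot_X1, hf]

theorem mRoot_univ (f : MvPolynomial σ K) (k : ℕ) (u : σ →₀ ℕ) (F : Type) [Field F] [Algebra K F]
    (p : σ → F) : coeff u (ini (map (algebraMap K F) f) p k) = aeval p (coeff u ((rootBLine K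
      (fun i => (C (X i) : MvPolynomial σ (MvPolynomial σ K))) X f).coeff k)) := by
  have h := rootB_map (mapAlgHom (σ := σ) (aeval p : MvPolynomial σ K →ₐ[K] F))
    (fun i => (C (X i) : MvPolynomial σ (MvPolynomial σ K))) X f k
  have h2 : ini (map (algebraMap K F) f) p k =
      (rootBLine K (fun i => (C (p i) : MvPolynomial σ F)) X f).coeff k :=
    congrArg (Polynomial.coeff · k) (aeval_map_algebraMap F _ f)
  simp only [mapAlgHom_apply, map_C, map_X, RingHom.coe_coe, aeval_X] at h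
  rw [h2, ← h, coeff_map]
  rfl

/-- the order does not increase when passing to a more general point. -/
theorem Ord.gen {f : MvPolynomial σ K} {a : σ → K} {m : ℕ} (h : Ord f a m) {F : Type} [Field F]
    [Algebra K F] {p : σ → F} (hp : kr K p ≤ kr K a) : Ord (map (algebraMap K F) f) p m := by
  obtain ⟨k, hk, h0⟩ := h
  refine ⟨k, hk, fun h1 => h0 ?_⟩
  ext u
  have h2 := mRoot_univ f k u F p
  have h3 := mRoot_univ f k u K a
  rw [h1, coeff_zero] at h2
  rw [Algebra.algebraMap_self, map_id] at h3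
  rw [h3, coeff_zero]
  exact mem_kr.1 (hp (mem_kr.2 h2.symm))

theorem Ord.exists_min {f : MvPolynomial σ K} {a : σ → K} {m : ℕ} (h : Ord f a m) :
    ∃ k, k ≤ m ∧ (∀ i, i < k → ini f a i = 0) ∧ ini f a k ≠ 0 := by
  classical
  obtain ⟨k, hk, h0⟩ := h
  have he : ∃ k, ini f a k ≠ 0 := ⟨k, h0⟩
  exact ⟨Nat.find he, (Nat.find_min' he h0).trans hk, fun i hi => not_not.1 (Nat.find_min he hi),
    Nat.find_spec he⟩

/-- the degree in `IniOK` does not depend on the second point. -/
theorem iniOK_unif {Λ : Type} {f : MvPolynomial σ K} {a : σ → K} {m : ℕ} (S : Finset Λ)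
    (b : Λ → σ → K) (h : ∀ s ∈ S, IniOK f a (b s) m) :
    ∃ k, k ≤ m ∧ (∀ i, i < k → ini f a i = 0) ∧
      ∀ s ∈ S, aeval (fun i => b s i - a i) (ini f a k) ≠ 0 := by
  rcases S.eq_empty_or_nonempty with rfl | ⟨s0, hs0⟩
  · exact ⟨0, Nat.zero_le _, fun i hi => absurd hi (Nat.not_lt_zero _), by simp⟩
  obtain ⟨k, hk, h1, h2⟩ := h s0 hs0
  refine ⟨k, hk, h1, fun s hs => ?_⟩
  obtain ⟨k', -, h3, h4⟩ := h s hs
  rcases lt_trichotomy k k' with h5 | rfl | h5
  · exact absurd (by rw [h3 k h5, map_zero]) h2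
  · exact h4
  · exact absurd (by rw [h1 k' h5, map_zero]) h4

/-- the initial form translated to the point is a nonzero polynomial of small degree. -/
theorem ini_shift {f : MvPolynomial σ K} {p : σ → K} {k : ℕ} (h : ini f p k ≠ 0) :
    ∃ G : MvPolynomial σ K, G ≠ 0 ∧ G.totalDegree ≤ k ∧
      ∀ b : σ → K, aeval b G = aeval (fun i => b i - p i) (ini f p k) := by
  have e : ∀ {A : Type} [CommRing A] [Algebra K A] (b : σ → A),
      aeval b (aeval (fun i => (X i - C (p i) : MvPolynomial σ K)) (ini f p k)) =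
        aeval (fun i => b i - algebraMap K A (p i)) (ini f p k) := fun b => by
    rw [comp_aeval_apply]
    simp only [map_sub, aeval_X, aeval_C]
  refine ⟨aeval (fun i => (X i - C (p i) : MvPolynomial σ K)) (ini f p k), fun h0 => h ?_, ?_,
    fun b => e b⟩
  · have h1 := e fun i => (X i + C (p i) : MvPolynomial σ K)
    rw [h0, map_zero] at h1
    simp only [algebraMap_eq, add_sub_cancel_right, aeval_X_left_apply] at h1
    exact h1.symm
  · refine (totalDegree_algHom_le (e := 1) _ (fun i => ?_) _).trans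
      ((one_mul _).le.trans (ini_deg f p k))
    rw [aeval_X]
    exact (totalDegree_sub _ _).trans (by simp)

theorem mRoot_sum {Ω : Type} [Field Ω] (k e : ℕ) (a : ℕ → Ω) (h0 : ∀ i, i < k → a i = 0) {s : Ω}
    (hs : s ≠ 0) (m : ℕ → Ω) :
    s ^ (k + e) * (m e * (a k * s⁻¹ ^ e) +
      ∑ i ∈ Finset.range e, m i * (a (k + e - i) * s⁻¹ ^ i)) =
      ∑ j ∈ Finset.range (k + e + 1), m (k + e - j) * a j * s ^ j := by
  have h1 : m e * (a k * s⁻¹ ^ e) + ∑ i ∈ Finset.range e, m i * (a (k + e - i) * s⁻¹ ^ i) =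
      ∑ i ∈ Finset.range (k + e + 1), m i * (a (k + e - i) * s⁻¹ ^ i) := by
    rw [← Finset.sum_subset (Finset.range_mono (by omega : e + 1 ≤ k + e + 1)) fun i h1 h2 => by
      rw [Finset.mem_range] at h1 h2
      rw [h0 _ (by omega), zero_mul, mul_zero], Finset.sum_range_succ, Nat.add_sub_cancel, add_comm]
  rw [h1, ← Finset.sum_range_reflect, Finset.mul_sum]
  refine Finset.sum_congr rfl fun j hj => ?_
  obtain ⟨r, hr⟩ := Nat.exists_eq_add_of_le (Nat.le_of_lt_succ (Finset.mem_range.1 hj))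
  rw [hr, show j + r + 1 - 1 - j = r by omega, show j + r - j = r by omega, Nat.add_sub_cancel,
    inv_pow]
  field_simp
  ring

/-- the equation satisfied by the inverse parameter of a root. -/
theorem exists_rel {τ : Type} (f : MvPolynomial σ K) (p : σ → K) (u : σ → MvPolynomial τ K)
    (hu : ∀ k, (u k).totalDegree ≤ 1) (k : ℕ) (hk : ∀ i, i < k → ini f p i = 0) :
    ∃ (e : ℕ) (b : ℕ → MvPolynomial τ K), e ≤ f.totalDegree ∧
      (aeval u (ini f p k)).totalDegree ≤ k ∧ (∀ i, i < e → (b i).totalDegree ≤ k + (e - i)) ∧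
      ∀ (Ω : Type) [Field Ω] [Algebra K Ω] (x : τ → Ω) (s : Ω), s ≠ 0 →
        (aeval (wpt (1 : MvPolynomial τ K) x s) (relP (aeval u (ini f p k)) b e) = 0 ↔
          aeval (lp (am Ω p) (fun k => aeval x (u k)) s) f = 0) ∧
        (aeval (lp (am Ω p) (fun k => aeval x (u k)) s) f = 0 →
          dg f (lp (am Ω p) (fun k => aeval x (u k)) s) (fun k => aeval x (u k)) ≠ 0 →
          aeval (wpt (1 : MvPolynomial τ K) x s)
            (pderiv none (relP (aeval u (ini f p k)) b e)) ≠ 0) := by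
  have hd : ∀ i, (aeval u (ini f p i)).totalDegree ≤ i := fun i =>
    (totalDegree_algHom_le (e := 1) _ (fun j => by rw [aeval_X]; exact hu j) _).trans
      ((one_mul _).le.trans (ini_deg f p i))
  set e := f.totalDegree - k with he
  refine ⟨e, fun i => aeval u (ini f p (k + e - i)), Nat.sub_le _ _, hd k,
    fun i hi => (hd _).trans (by omega), fun Ω _ _ x s hs => ?_⟩
  set P := rootBLine K (am Ω p) (fun k => aeval x (u k)) f
  have hP : ∀ i, aeval x (aeval u (ini f p i)) = P.coeff i := fun i => by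
    rw [comp_aeval_apply, aeval_ini]
  have h0 : ∀ i, i < k → P.coeff i = 0 := fun i hi => by rw [← hP, hk i hi, map_zero, map_zero]
  have hn : P.natDegree < k + e + 1 := (rootB_natDegree _ _ f).trans_lt (by omega)
  have hw : wpt (1 : MvPolynomial τ K) x s ∘ some = x := rfl
  have hw' : wpt (1 : MvPolynomial τ K) x s none = s⁻¹ := by simp [wpt]
  have k1 := mRoot_sum k e P.coeff h0 hs fun _ => 1
  have k2 := mRoot_sum k e P.coeff h0 hs fun i => i
  rw [← rootB_eval, ← rootB_deriv]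
  simp only [one_mul, ← Polynomial.eval_eq_sum_range' hn] at k1
  refine ⟨?_, fun e1 e2 e3 => ?_⟩
  · simp only [relP, map_add, map_pow, map_sum, map_mul, aeval_X, aeval_rename, hw, hw', hP]
    rw [← mul_right_inj' (pow_ne_zero (k + e) hs), k1, mul_zero]
  · have hX : ∀ i : ℕ, (X none * pderiv none (X none ^ i) : MvPolynomial (Option τ) K) =
        (i : MvPolynomial (Option τ) K) * X none ^ i := fun i => by
      rcases i with _ | i
      · simp
      · rw [pderiv_pow, pderiv_X_self, Nat.add_sub_cancel]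
        ring
    have e4 := congrArg (aeval (wpt (1 : MvPolynomial τ K) x s)
      (X none : MvPolynomial (Option τ) K) * ·) e3
    simp only [relP, ← map_mul, mul_zero, map_add, map_sum, mul_add, Finset.mul_sum,
      Derivation.leibniz, homog_pderiv_rename, add_zero, smul_eq_mul, mul_left_comm (X none),
      hX] at e4
    simp only [map_pow, map_mul, aeval_X, aeval_rename, hw, hw', hP, map_natCast,
      mul_left_comm _ (Nat.cast _)] at e4
    have e5 : ∑ j ∈ Finset.range (k + e + 1), ((k + e - j : ℕ) : Ω) * P.coeff j * s ^ j =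
        ((k + e : ℕ) : Ω) * P.eval s - s * P.derivative.eval s := by
      conv_rhs => rw [P.as_sum_range_C_mul_X_pow' hn]
      simp only [map_sum, Polynomial.derivative_C_mul_X_pow, Polynomial.eval_finsetSum,
        Polynomial.eval_mul, Polynomial.eval_C, Polynomial.eval_pow, Polynomial.eval_X,
        Finset.mul_sum, ← Finset.sum_sub_distrib]
      refine Finset.sum_congr rfl fun j hj => ?_
      rw [Nat.cast_sub (Nat.le_of_lt_succ (Finset.mem_range.1 hj))]
      rcases j with _ | j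
      · simp
      · simp only [Nat.add_sub_cancel, Nat.cast_add, Nat.cast_one]
        ring
    rw [e4, e5, e1, mul_zero, mul_zero, zero_sub, eq_comm, neg_eq_zero] at k2
    exact mul_ne_zero hs e2 k2

/-- the lifted equation of the same degree. -/
theorem exists_lift0 {τ : Type} (f : MvPolynomial σ K) (p : σ → K) (u : σ → MvPolynomial τ K)
    (hu : ∀ k, (u k).totalDegree ≤ 1) :
    ∃ H : MvPolynomial (Option τ) K, H.totalDegree ≤ f.totalDegree ∧
      ∀ (Ω : Type) [Field Ω] [Algebra K Ω] (x : τ → Ω) (s : Ω), s ≠ 0 →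
        (aeval (wpt (1 : MvPolynomial τ K) x s) H = 0 ↔
          aeval (lp (am Ω p) (fun k => aeval x (u k)) s) f = 0) ∧
        (aeval (lp (am Ω p) (fun k => aeval x (u k)) s) f = 0 →
          dg f (lp (am Ω p) (fun k => aeval x (u k)) s) (fun k => aeval x (u k)) ≠ 0 →
          aeval (wpt (1 : MvPolynomial τ K) x s) (pderiv none H) ≠ 0) := by
  obtain ⟨e, b, h1, h2, h3, h4⟩ := exists_rel f p u hu 0 fun i hi => absurd hi (Nat.not_lt_zero _)
  refine ⟨_, le_trans ?_ h1, h4⟩
  refine (totalDegree_add _ _).trans (max_le ((totalDegree_mul _ _).trans ?_)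
    (totalDegree_finsetSum_le fun i hi => (totalDegree_mul _ _).trans ?_))
  · rw [totalDegree_X_pow]
    have := (totalDegree_rename_le (some : τ → Option τ) _).trans h2
    omega
  · rw [totalDegree_X_pow]
    have h5 := Finset.mem_range.1 hi
    have := (totalDegree_rename_le (some : τ → Option τ) _).trans (h3 i h5)
    omega

end ini

section roots

variable {𝓙 𝓙' : Finset κ} {g J : κ → ℕ → MvPolynomial σ K} {Ω : Type} [Field Ω] [Algebra K Ω]

theorem mem_Rt_hJ {h : κ → MvPolynomial σ K} {j : κ} {t : ℕ} {p v : σ → Ω} {s : Ω} :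
    s ∈ Rt (g j) (hJ h J j) t p v ↔ s ∈ Rt (g j) (J j) t p v ∧ aeval (lp p v s) (h j) ≠ 0 := by
  simp only [Rt, hJ, Set.mem_ofPred_eq, map_mul, ne_eq, mul_eq_zero, not_or]
  exact ⟨fun h => ⟨⟨h.1, h.2.1, fun r hr => (h.2.2.1 r hr).2, h.2.2.2⟩,
    (h.2.2.1 0 (Nat.zero_le _)).1⟩,
    fun h => ⟨h.1.1, h.1.2.1, fun r hr => ⟨h.2, h.1.2.2.1 r hr⟩, h.1.2.2.2⟩⟩

theorem hJ_one : hJ (fun _ => 1) J = J := by
  funext j r
  exact one_mul _

theorem mp_hJ {K' : Type} [Field K'] (φ : K →+* K') (h : κ → MvPolynomial σ K) :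
    mp φ (hJ h J) = hJ (fun j => map φ (h j)) (mp φ J) := by
  funext j r
  exact map_mul _ _ _

theorem RBM.mono {t t' : ℕ} {p q : σ → Ω} {μ μ' : ℝ} (h : RBM 𝓙 g J t p q μ) (h𝓙 : 𝓙' ⊆ 𝓙)
    (ht : t ≤ t') (hμ : μ ≤ μ') : RBM 𝓙' g J t' p q μ' := by
  refine fun T hT => (h T fun s hs => ⟨(hT s hs).1, ?_⟩).trans hμ
  obtain ⟨j, hj, h1⟩ := (hT s hs).2
  exact ⟨j, h𝓙 hj, Rt_anti ht _ _ h1⟩

theorem RBM.rb {t : ℕ} {p q : σ → Ω} {μ : ℝ} (h : RBM 𝓙 g J t p q μ) {j : κ} (hj : j ∈ 𝓙) :
    RB (g j) (J j) t p q μ := by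
  exact fun T hT => h T fun s hs => ⟨(hT s hs).1, j, hj, (hT s hs).2⟩

theorem rBM_deg {t : ℕ} (ht : 1 ≤ t) (p q : σ → Ω) {δ : ℝ}
    (hδ : ∀ j ∈ 𝓙, ((g j 0).totalDegree : ℝ) ≤ δ) : RBM 𝓙 g J t p q (𝓙.card * δ) := by
  classical
  intro T hT
  have h1 : T ⊆ 𝓙.biUnion fun j => T.filter fun s => s ∈ Rt (g j) (J j) t p fun k => q k - p k :=
    fun s hs => by
      obtain ⟨j, hj, h1⟩ := (hT s hs).2
      exact Finset.mem_biUnion.2 ⟨j, hj, Finset.mem_filter.2 ⟨hs, h1⟩⟩
  have h2 : (T.card : ℝ) ≤ ∑ j ∈ 𝓙, ((T.filter fun s =>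
      s ∈ Rt (g j) (J j) t p fun k => q k - p k).card : ℝ) := by
    exact_mod_cast (Finset.card_le_card h1).trans Finset.card_biUnion_le
  refine h2.trans ((Finset.sum_le_card_nsmul _ _ δ fun j hj => ?_).trans (by simp))
  exact (rtB_deg ht p _ _ fun s hs => (Finset.mem_filter.1 hs).2).trans (hδ j hj)

theorem RBM.swap {t : ℕ} {p q : σ → Ω} {μ : ℝ} (h : RBM 𝓙 g J t p q μ) : RBM 𝓙 g J t q p μ := by
  classical
  intro T hT
  rw [← Finset.card_image_of_injective T (sub_right_injective (b := (1 : Ω)))]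
  refine h _ fun s' hs' => ?_
  obtain ⟨s, hs, rfl⟩ := Finset.mem_image.1 hs'
  obtain ⟨h1, j, hj, h2⟩ := hT s hs
  refine ⟨fun h1 => h2.1 (by linear_combination -h1), j, hj, rootB_scale (c := -1)
    (sub_ne_zero.2 h1.symm) (by simp) (fun k => by ring) ?_ h2⟩
  funext k
  simp only [lp]
  ring

theorem RBM.rtB {t : ℕ} {p v : σ → Ω} {s : Ω} (hs : s ≠ 0) {μ : ℝ}
    (h : RBM 𝓙 g J t p (lp p v s) μ) : RtBM 𝓙 g J t p v (μ + 1) := by
  classical
  intro T hT
  refine rootB_erase T s ?_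
  rw [← Finset.card_image_of_injective _ (f := (· / s)) fun a b => (div_left_inj' hs).1]
  refine h _ fun s' hs' => ?_
  obtain ⟨r, hr, rfl⟩ := Finset.mem_image.1 hs'
  obtain ⟨hr1, hr2⟩ := Finset.mem_erase.1 hr
  obtain ⟨j, hj, h2⟩ := hT r hr2
  refine ⟨fun h1 => hr1 ((div_eq_one_iff_eq hs).1 h1), j, hj, rootB_scale (c := s)
    (div_ne_zero h2.1 hs) hs (fun k => by simp [lp]) ?_ h2⟩
  funext k
  simp only [lp]
  field_simp
  ring

theorem RBM.rtB' {t : ℕ} {p q : σ → Ω} {μ : ℝ} (h : RBM 𝓙 g J t p q μ) :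
    RtBM 𝓙 g J t p (fun k => q k - p k) (μ + 1) := by
  classical
  intro T hT
  exact rootB_erase T 1 (h _ fun s hs =>
    ⟨(Finset.mem_erase.1 hs).1, hT s (Finset.mem_erase.1 hs).2⟩)

theorem RBM.of_algHom {Ω' : Type} [Field Ω'] [Algebra K Ω'] (f : Ω →ₐ[K] Ω') {t : ℕ}
    {p q : σ → Ω} {μ : ℝ} (h : RBM 𝓙 g J t (fun k => f (p k)) (fun k => f (q k)) μ) :
    RBM 𝓙 g J t p q μ := by
  classical
  intro T hT
  have hf : Function.Injective f := f.injective
  rw [← Finset.card_image_of_injective T hf]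
  refine h _ fun s' hs' => ?_
  obtain ⟨s, hs, rfl⟩ := Finset.mem_image.1 hs'
  obtain ⟨h1, j, hj, h2, h3, h4, h5⟩ := hT s hs
  have e : ∀ F : MvPolynomial σ K, aeval (lp (fun k => f (p k)) (fun k => f (q k) - f (p k)) (f s))
      F = f (aeval (lp p (fun k => q k - p k) s) F) := fun F => by
    rw [comp_aeval_apply]
    simp only [lp, map_add, map_mul, map_sub]
    rfl
  refine ⟨fun h => h1 (hf (h.trans (map_one f).symm)), j, hj, (map_ne_zero f).2 h2,
    fun i hi => (e _).trans (by rw [h3 i hi, map_zero]),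
    fun r hr => (e _).trans_ne ((map_ne_zero f).2 (h4 r hr)), fun h => (map_ne_zero f).2 h5 ?_⟩
  rw [← h]
  simp only [dg, e, map_sum, map_mul, map_sub]

theorem RBM_map {K' : Type} [Field K'] [Algebra K K'] [Algebra K' Ω] [IsScalarTower K K' Ω]
    (t : ℕ) (p q : σ → Ω) (μ : ℝ) :
    RBM 𝓙 (mp (algebraMap K K') g) (mp (algebraMap K K') J) t p q μ ↔ RBM 𝓙 g J t p q μ := by
  have e : ∀ j v, Rt (mp (algebraMap K K') g j) (mp (algebraMap K K') J j) t p v =
      Rt (g j) (J j) t p v := fun j v => Rt_map t p v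
  simp only [RBM, RtM, e]

theorem GenM.mono {b b' : ℕ → MvPolynomial σ K} {t s : ℕ} {μ μ' : ℝ} {a a' : σ → K}
    (h : GenM b b' 𝓙 g J t s μ a a') (h𝓙 : 𝓙' ⊆ 𝓙) (hμ : μ ≤ μ') :
    GenM b b' 𝓙' g J t s μ' a a' := by
  intro K' Ω _ _ _ _ _ _ _ p q h1 h2
  exact (h K' Ω p q h1 h2).mono h𝓙 le_rfl hμ

theorem BdM.mono {b b' : ℕ → MvPolynomial σ K} {t s : ℕ} {μ μ' : ℝ} {a a' : σ → K}
    (h : BdM b b' 𝓙 g J t s μ a a') (h𝓙 : 𝓙' ⊆ 𝓙) (hμ : μ ≤ μ') :
    BdM b b' 𝓙' g J t s μ' a a' := by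
  intro K' Ω _ _ _ _ _ _ _ p q h1 h2 h3
  exact (h K' Ω p q h1 h2 h3).mono h𝓙 le_rfl hμ

/-- the bound at the top level is a bound for the apex itself. -/
theorem BdM.top [IsAlgClosed K] {b b' : ℕ → MvPolynomial σ K} {t d : ℕ} {μ : ℝ} {a a' : σ → K}
    (h : BdM b b' 𝓙 g J t d μ a a') (hσ : Fintype.card σ = d) {c : Fin d → σ}
    (hb : ∀ i, i < d → aeval a (b i) = 0) (hJ : aeval a (Jac (gs b d) c) ≠ 0) {q : σ → Ω}
    (hq : kr K q ≤ kr K a') (hz : ∀ i, i < t → aeval q (b' i) = 0) :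
    RBM 𝓙 g J t (am Ω a) q μ := by
  classical
  have h1 : Br (Set.range (gs b d)) (kr K a) = kr K a :=
    Br_full (g := gs b d) (c := c) (fun i : Fin d => hb i i.2) (by simpa using hJ)
      (by rw [hσ, Fintype.card_fin])
  exact h K Ω a q h1.symm hq hz

end roots


end

end Vale.Agent.P054
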