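import Vale.Agent.P054.CelM

namespace Vale.Agent.P054

open MvPolynomial

noncomputable section

/-- few points on curves. -/
def NCa {K : Type} [Field K] {τ Λ : Type} [Fintype τ] (k : ℕ) (R : Finset Λ) (x : Λ → τ → K)
    (Y : ℝ) : Prop :=
  ∀ (S : Finset Λ) (γ : Fin k → MvPolynomial τ K) (c : Fin k → τ) (φ : ℝ), S ⊆ R →
    (∀ a ∈ S, (∀ i, aeval (x a) (γ i) = 0) ∧ aeval (x a) (Jac γ c) ≠ 0) →
    HB (⨅ a ∈ S, Br (Set.range γ) (kr K (x a))) φ 1 → (S.card : ℝ) ≤ φ * Y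

theorem NCa.mono {K : Type} [Field K] {τ Λ : Type} [Fintype τ] {k : ℕ} {R R' : Finset Λ}
    {x : Λ → τ → K} {Y Y' : ℝ} (h : NCa k R x Y) (hR : R' ⊆ R) (hY : Y ≤ Y') : NCa k R' x Y' :=
  fun S γ c φ hS h1 h2 =>
    (h S γ c φ (hS.trans hR) h1 h2).trans (mul_le_mul_of_nonneg_left hY h2.nonneg)

theorem sepA_fp {δ : ℕ → ℝ} (h1 : ∀ i, 1 ≤ δ i) {M : ℝ} {r : ℕ} (j : ℕ)
    (hM : ∀ i, i < r + j → δ i ≤ M) : fp δ (r + j) ≤ fp δ r * M ^ j := by
  induction j with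
  | zero => simp
  | succ j ih =>
    rw [← add_assoc, fp_succ, pow_succ, ← mul_assoc]
    have h2 := ih fun i hi => hM i (by omega)
    exact mul_le_mul h2 (hM _ (by omega)) (by linarith [h1 (r + j)])
      ((fp_pos h1 _).le.trans h2)

theorem sepA_num {n : ℕ} (hn : 1 ≤ n) {A z t : ℝ} (hA : 1 ≤ A) (hz : 1 ≤ z) (ht : 1 ≤ t)
    (h : z ≤ A * ((A * z * t ^ n) ^ (1 / ((n + 1 : ℝ) * (2 * n + 1)))) ^ (n + 1)) :
    z ≤ A ^ 2 * Real.sqrt t := by
  have h0 : 0 ≤ A * z * t ^ n := by positivity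
  have h1 := pow_le_pow_left₀ (by linarith) h (2 * n + 1)
  rw [mul_pow, ← pow_mul, ← Real.rpow_natCast ((A * z * t ^ n) ^ _), ← Real.rpow_mul h0] at h1
  have e : 1 / ((n + 1 : ℝ) * (2 * n + 1)) * (((n + 1) * (2 * n + 1) : ℕ) : ℝ) = 1 := by
    push_cast
    field_simp
  rw [e, Real.rpow_one] at h1
  have h2 : (z ^ 2) ^ n ≤ (A ^ 4 * t) ^ n := by
    have h3 : z ^ (2 * n) * z ≤ A ^ (2 * n + 2) * t ^ n * z := by
      calc z ^ (2 * n) * z = z ^ (2 * n + 1) := by ring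
        _ ≤ _ := h1
        _ = _ := by ring
    have h4 := le_of_mul_le_mul_right h3 (by linarith)
    rw [← pow_mul, mul_pow, ← pow_mul]
    refine h4.trans (mul_le_mul_of_nonneg_right (pow_le_pow_right₀ hA (by omega)) (by positivity))
  have h5 : z ^ 2 ≤ A ^ 4 * t := le_of_pow_le_pow_left₀ (by omega) (by positivity) h2
  refine le_of_pow_le_pow_left₀ two_ne_zero (by positivity) (h5.trans (le_of_eq ?_))
  rw [mul_pow, Real.sq_sqrt (by linarith)]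
  ring

theorem sepA_hb {K : Type} [Field K] {τ Λ : Type} [Fintype τ] (S T : Finset Λ) (x : Λ → τ → K)
    {φ : ℝ} {j m : ℕ} (hm : 1 ≤ m) (h : HB (⨅ a ∈ S, kr K (x a)) φ j)
    (hT : ∀ F : MvPolynomial τ K, F.totalDegree < m → (∀ b ∈ S, aeval (x b) F = 0) →
      ∀ a ∈ T, aeval (x a) F = 0) :
    HB (⨅ a ∈ T, kr K (x a)) (max φ (T.card / (m : ℝ) ^ j)) j := by
  intro m' hm'
  by_cases hlt : m' < m
  · have h1 : hf (⨅ a ∈ T, kr K (x a)) m' ≤ hf (⨅ a ∈ S, kr K (x a)) m' := by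
      refine hf_le_of_low fun f hf hd => ?_
      simp only [Ideal.mem_iInf, mem_kr] at hf ⊢
      exact hT f (by omega) hf
    calc (hf (⨅ a ∈ T, kr K (x a)) m' : ℝ) ≤ hf (⨅ a ∈ S, kr K (x a)) m' := by exact_mod_cast h1
      _ ≤ φ * (m' : ℝ) ^ j := h m' hm'
      _ ≤ _ := mul_le_mul_of_nonneg_right (le_max_left _ _) (by positivity)
  · have h1 : hf (⨅ a ∈ T, kr K (x a)) m' ≤ T.card := by
      refine (hf_iInf_le T _ m').trans ?_
      simpa using Finset.sum_le_card_nsmul T _ 1 fun a _ => hf_kr_le (x a) m'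
    have hm0 : (0 : ℝ) < m := by exact_mod_cast hm
    have h2 : (m : ℝ) ≤ m' := by exact_mod_cast not_lt.1 hlt
    calc (hf (⨅ a ∈ T, kr K (x a)) m' : ℝ) ≤ T.card := by exact_mod_cast h1
      _ = T.card / (m : ℝ) ^ j * (m : ℝ) ^ j := by field_simp
      _ ≤ T.card / (m : ℝ) ^ j * (m' : ℝ) ^ j := by gcongr
      _ ≤ _ := mul_le_mul_of_nonneg_right (le_max_right _ _) (by positivity)

/-- a piece with separators which forces few further points. -/
theorem sep_piece (k : ℕ) : ∃ C : ℝ, 1 ≤ C ∧ ∀ (K : Type) [Field K] [CharZero K] (τ Λ : Type)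
    [Fintype τ] (R : Finset Λ) (x : Λ → τ → K) (Y : ℝ), Fintype.card τ = k + 1 → R.Nonempty →
    1 ≤ Y → Set.InjOn x R → NCa k R x Y →
    ∃ (S : Finset Λ) (M : ℕ), S ⊆ R ∧ S.Nonempty ∧ 1 ≤ M ∧ (M : ℝ) ≤ C * Y ∧
      (∀ a ∈ S, ∃ F : MvPolynomial τ K, F.totalDegree < M ∧ aeval (x a) F ≠ 0 ∧
        ∀ b ∈ S, b ≠ a → aeval (x b) F = 0) ∧
      ∀ (m : ℕ) (T : Finset Λ), 1 ≤ m → m ≤ M → T ⊆ R →
        (∀ F : MvPolynomial τ K, F.totalDegree < m → (∀ b ∈ S, aeval (x b) F = 0) →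
          ∀ a ∈ T, aeval (x a) F = 0) →
        (T.card : ℝ) ≤ C * S.card * Real.sqrt ((M : ℝ) / m) := by
  have hα : (0 : ℝ) < 1 / ((((k + 1 : ℕ) : ℝ) + 1) * (2 * ((k + 1 : ℕ) : ℝ) + 1)) := by positivity
  obtain ⟨A, hA, hcel⟩ := celM_points (k + 1) _ hα (by omega)
  set α : ℝ := 1 / ((((k + 1 : ℕ) : ℝ) + 1) * (2 * ((k + 1 : ℕ) : ℝ) + 1)) with hαd
  have hr1 : (1 : ℝ) ≤ ((k + 1 : ℕ) : ℝ) := by exact_mod_cast Nat.le_add_left 1 k
  have hA0 : 0 < A := by linarith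
  have hA3 : A ^ 2 ≤ A ^ 3 := pow_le_pow_right₀ hA (by norm_num)
  have hA4 : A ^ 3 ≤ ((k + 1 : ℕ) : ℝ) * A ^ 3 := le_mul_of_one_le_left (by positivity) hr1
  have hA2 : 0 < A ^ 2 := by positivity
  refine ⟨((k + 1 : ℕ) : ℝ) * A ^ 3 + 1, by linarith, ?_⟩
  intro K _ _ τ Λ _ R x Y hcard hR hY hinj hyp
  obtain ⟨L, hL, hLne, D, hmax⟩ := hcel K τ Λ x R hcard hR hinj
  have h1 := D.hb k (by omega)
  rw [hcard, Nat.add_sub_cancel_left] at h1
  have h2 := hyp L (gs D.g k) (D.c k) _ hL (fun a ha =>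
    ⟨fun i => D.mem i (by omega) a ha, D.jac k (by omega) a ha⟩) h1
  have h5 := D.le_card
  rw [fp_succ] at h5
  have h6 := fp_pos D.one_le k
  have h7 : D.δ k ≤ A ^ 2 * Y := by
    refine le_of_mul_le_mul_left ?_ h6
    calc fp D.δ k * D.δ k ≤ A * L.card := h5
      _ ≤ A * ((A * fp D.δ k) * Y) := mul_le_mul_of_nonneg_left h2 (by linarith)
      _ = fp D.δ k * (A ^ 2 * Y) := by ring
  have h8 : ∀ i : Fin (k + 1), ((gs D.g (k + 1) i).totalDegree : ℝ) ≤ A ^ 3 * Y := by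
    intro i
    calc ((gs D.g (k + 1) i).totalDegree : ℝ) ≤ A * D.δ i := D.deg i i.2
      _ ≤ A * (A ^ 2 * Y) :=
        mul_le_mul_of_nonneg_left ((D.mono (Nat.lt_succ_iff.mp i.2)).trans h7) (by linarith)
      _ = A ^ 3 * Y := by ring
  set W : ℝ := ((k + 1 : ℕ) : ℝ) * A ^ 3 * Y with hW
  have hW0 : 0 ≤ W := by positivity
  have hWM : W < ((⌊W⌋₊ + 1 : ℕ) : ℝ) := by
    push_cast
    exact Nat.lt_floor_add_one W
  have hδM : ∀ i, i < k + 1 → D.δ i ≤ ((⌊W⌋₊ + 1 : ℕ) : ℝ) := by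
    intro i hi
    refine ((D.mono (Nat.lt_succ_iff.mp hi)).trans h7).trans (le_trans ?_ hWM.le)
    exact mul_le_mul_of_nonneg_right (hA3.trans hA4) (by linarith)
  refine ⟨L, ⌊W⌋₊ + 1, hL, hLne, by omega, ?_, fun a ha => ?_, fun m T hm hmM hT hF => ?_⟩
  · have := Nat.floor_le hW0
    push_cast at this hW ⊢
    rw [add_mul, ← hW]
    linarith
  · obtain ⟨F, hF1, hF2, hF3⟩ := bezout_sep (gs D.g (k + 1)) (D.c (k + 1)) (by simp [hcard]) L x
      (hinj.mono hL) (fun a ha i => D.mem i i.2 a ha) (fun a ha => D.jac (k + 1) le_rfl a ha) a ha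
    refine ⟨F, ?_, hF2, hF3⟩
    have h9 : (F.totalDegree : ℝ) ≤ ∑ i : Fin (k + 1), ((gs D.g (k + 1) i).totalDegree : ℝ) := by
      exact_mod_cast hF1
    have h10 : (F.totalDegree : ℝ) ≤ W := by
      refine h9.trans ((Finset.sum_le_card_nsmul _ _ _ fun i _ => h8 i).trans (le_of_eq ?_))
      rw [Finset.card_univ, Fintype.card_fin, nsmul_eq_mul, hW]
      ring
    exact_mod_cast h10.trans_lt hWM
  · generalize ⌊W⌋₊ + 1 = M at *
    clear_value W α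
    have hm0 : (0 : ℝ) < m := by exact_mod_cast hm
    have ht : (1 : ℝ) ≤ (M : ℝ) / m := by
      rw [le_div_iff₀ hm0, one_mul]
      exact_mod_cast hmM
    have hL0 : (0 : ℝ) < L.card := by exact_mod_cast hLne.card_pos
    have hs1 : 1 ≤ Real.sqrt ((M : ℝ) / m) := Real.one_le_sqrt.2 ht
    obtain ⟨z, hTz⟩ : ∃ z : ℝ, (T.card : ℝ) = z * L.card :=
      ⟨T.card / L.card, (div_mul_cancel₀ _ hL0.ne').symm⟩
    suffices hs : z ≤ A ^ 2 * Real.sqrt ((M : ℝ) / m) by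
      rw [hTz]
      calc z * L.card ≤ A ^ 2 * Real.sqrt ((M : ℝ) / m) * L.card := by gcongr
        _ = A ^ 2 * L.card * Real.sqrt ((M : ℝ) / m) := by ring
        _ ≤ _ := by gcongr; linarith
    by_cases hz1 : z ≤ 1
    · exact hz1.trans (one_le_mul_of_one_le_of_one_le (one_le_pow₀ hA) hs1)
    have hz2 : 1 ≤ z := (not_le.1 hz1).le
    have hb : ∀ r, r ≤ k + 1 → HB (⨅ a ∈ T, kr K (x a))
        (max (A * fp D.δ r) (T.card / (m : ℝ) ^ (Fintype.card τ - r))) (Fintype.card τ - r) := by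
      intro r hr
      refine sepA_hb L T x hm ?_ hF
      refine (D.hb r hr).mono (iInf₂_mono fun a ha => Br_le (kr_isPrime _) ?_ le_rfl) le_rfl
      rintro _ ⟨i, rfl⟩
      exact D.mem i (by omega) a ha
    have h11 := hmax T hT _ hb
    refine sepA_num (n := k + 1) (by omega) hA hz2 ht ?_
    rw [← hαd]
    refine le_of_mul_le_mul_right ?_ hL0
    rw [← hTz, mul_right_comm]
    refine h11.trans (mul_le_mul_of_nonneg_left ?_ (by positivity))
    refine (Finset.prod_le_prod (g := fun _ => (A * z * ((M : ℝ) / m) ^ (k + 1)) ^ α)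
      (fun r _ => ?_) fun r hr => ?_).trans (by simp)
    · have := fp_pos D.one_le r
      positivity
    have hr' : r ≤ k + 1 := Nat.lt_succ_iff.1 (Finset.mem_range.1 hr)
    have hp := fp_pos D.one_le r
    refine Real.rpow_le_rpow (by positivity) ?_ hα.le
    rw [div_le_iff₀ hp, hcard]
    obtain ⟨j, hj⟩ := Nat.exists_eq_add_of_le hr'
    have hj' : k + 1 - r = j := by omega
    rw [hj']
    have ht1 : 1 ≤ ((M : ℝ) / m) ^ (k + 1) := one_le_pow₀ ht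
    refine max_le ?_ ?_
    · refine mul_le_mul_of_nonneg_right ?_ hp.le
      rw [mul_assoc]
      exact le_mul_of_one_le_right hA0.le (one_le_mul_of_one_le_of_one_le hz2 ht1)
    · have h12 : (L.card : ℝ) ≤ A * (fp D.δ r * (M : ℝ) ^ j) := by
        refine D.card_le.trans (mul_le_mul_of_nonneg_left ?_ hA0.le)
        have := sepA_fp (r := r) D.one_le j fun i hi => hδM i (by omega)
        rwa [← hj] at this
      calc (T.card : ℝ) / (m : ℝ) ^ j = z * L.card / (m : ℝ) ^ j := by rw [← hTz]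
        _ ≤ z * (A * (fp D.δ r * (M : ℝ) ^ j)) / (m : ℝ) ^ j := by gcongr
        _ = A * z * ((M : ℝ) / m) ^ j * fp D.δ r := by rw [div_pow]; field_simp
        _ ≤ A * z * ((M : ℝ) / m) ^ (k + 1) * fp D.δ r := by
          gcongr
          omega

end

end Vale.Agent.P054
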