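import Vale.Agent.P054.MNc
import Vale.Agent.P054.MRoot
import Vale.Agent.P054.MPieces
import Vale.Agent.P054.SepA

namespace Vale.Agent.P054

open MvPolynomial

noncomputable section

theorem mnb_cx_inj {σ : Type} : Function.Injective (cx : (σ → ℝ) → σ → ℂ) := fun _ _ hab =>
  funext fun k => Complex.ofReal_injective (congrFun hab k)

theorem mnb_Q_ne {σ κ : Type} [Fintype σ] {A α : ℝ} {d : ℕ} {P : Finset (σ → ℝ)}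
    (𝓟 : Pcs A α d P κ) (j : κ) : (𝓟.Q j).Nonempty := by
  have h1 := (𝓟.D j).le_card
  have h2 := fp_pos (𝓟.D j).one_le d
  rw [Finset.nonempty_iff_ne_empty]
  intro h
  have h3 : ((𝓟.Q j).card : ℝ) = 0 := by rw [h]; simp
  rw [h3, mul_zero] at h1
  linarith

theorem mnb_g_ne {σ κ : Type} [Fintype σ] {A α : ℝ} {d : ℕ} {P : Finset (σ → ℝ)}
    (𝓟 : Pcs A α d P κ) (hd : 1 ≤ d) (j : κ) : 𝓟.g j 0 ≠ 0 := by
  obtain ⟨a, ha⟩ := mnb_Q_ne 𝓟 j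
  have h1 := (𝓟.D j).jac 1 hd a ha
  intro h0
  apply h1
  rw [jac_unique]
  have : gs (𝓟.D j).g 1 default = 0 := h0
  rw [this, map_zero]
  exact Ideal.zero_mem _

theorem mnb_c_inj {σ κ : Type} [Fintype σ] {A α : ℝ} {d : ℕ} {P : Finset (σ → ℝ)}
    (𝓟 : Pcs A α d P κ) (j : κ) {t : ℕ} (ht : t ≤ d) : Function.Injective (𝓟.c t) := by
  obtain ⟨a, ha⟩ := mnb_Q_ne 𝓟 j
  have h1 := (𝓟.D j).jac t ht a ha
  rw [𝓟.hc] at h1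
  refine inj_of_jac (g := gs (𝓟.D j).g t) fun h0 => h1 ?_
  rw [h0]
  exact Ideal.zero_mem _

theorem mnb_ne {σ : Type} [Fintype σ] {f f' : MvPolynomial σ ℂ} {a b : σ → ℝ}
    (h : NT2 f f' (cx a) (cx b)) : a ≠ b := by
  rintro rfl
  exact h.1 (by simp [dg])

theorem mnb_rho {σ : Type} [Fintype σ] [DecidableEq σ] {d : ℕ} (hσ : Fintype.card σ = d)
    (hd : 2 ≤ d) {i0 : σ} {c : Fin (d - 2) → Ne0 i0} (hc : Function.Injective c) :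
    Fintype.card {k // k ∉ Set.range c} = 1 := by
  have e1 := (compl_free hc).card_add
  have e2 : Fintype.card (Ne0 i0) = d - 1 := by
    rw [Fintype.card_subtype_compl, hσ, Fintype.card_unique]
  rw [Fintype.card_fin, e2] at e1
  omega

theorem mnb_split {Λ κ : Type} [Fintype κ] [DecidableEq κ] (S : Finset Λ) (f : Λ → κ)
    (X : κ → ℝ) (h : ∀ j, ((S.filter fun b => f b = j).card : ℝ) ≤ X j) :
    (S.card : ℝ) ≤ ∑ j, X j := by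
  rw [Finset.card_eq_sum_card_fiberwise (f := f) (t := Finset.univ)
    (fun _ _ => Finset.mem_coe.2 (Finset.mem_univ _))]
  push_cast
  exact Finset.sum_le_sum fun j _ => h j

theorem mnb_top {σ κ : Type} [Fintype σ] {A α : ℝ} {d : ℕ} {P : Finset (σ → ℝ)}
    (𝓟 : Pcs A α d P κ) (hσ : Fintype.card σ = d) {a : σ → ℝ} (ha : a ∈ P) {𝓙 : Finset κ}
    {g J : κ → ℕ → MvPolynomial σ ℂ} {b' : ℕ → MvPolynomial σ ℂ} {t : ℕ} {μ : ℝ} {a' : σ → ℂ}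
    (h : BdM (𝓟.g (𝓟.pc a)) b' 𝓙 g J t d μ (cx a) a') {Ω : Type} [Field Ω] [Algebra ℂ Ω]
    {q : σ → Ω} (hq : kr ℂ q ≤ kr ℂ a') (hz : ∀ i, i < t → aeval q (b' i) = 0) :
    RBM 𝓙 g J t (am Ω (cx a)) q μ :=
  h.top hσ (c := 𝓟.c d) (fun _ hi => 𝓟.zero ha hi) (𝓟.jac ha le_rfl) hq hz

/-- the count of non persistent points in one piece, uniformly in the level. -/
theorem mnb_piece (d : ℕ) (hd : 2 ≤ d) : ∃ C : ℝ, 0 < C ∧ ∀ (σ κ : Type) [Fintype σ]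
    [DecidableEq σ] (A α : ℝ) (i0 : σ) (P : Finset (σ → ℝ)) (𝓟 : Pcs A α d P κ) (a : σ → ℝ)
    (S : Finset (σ → ℝ)) (j : κ) (𝓙 : Finset κ) (δ ν : ℕ → ℝ) (X0 X φ : ℝ) (m l : ℕ)
    (γ : Fin (d - 2) → MvPolynomial (Ne0 i0) ℂ) (c : Fin (d - 2) → Ne0 i0),
    Fintype.card σ = d → 1 ≤ l → l ≤ d → a ∈ P → j ∈ 𝓙 → (∀ i, 1 ≤ δ i) →
    (∀ i, i < l → ((𝓟.g j i).totalDegree : ℝ) ≤ δ i) → 0 ≤ X → X0 ≤ X →
    (∀ t, 1 ≤ t → t < l → X0 < δ 0 * δ t → 0 ≤ ν t ∧ (ν t + m + 1) * δ t ≤ X) →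
    (∀ b ∈ S, b ∈ P ∧ 𝓟.pc b = j ∧ a i0 ≠ b i0 ∧
      NT2 (𝓟.g (𝓟.pc a) 0) (𝓟.g (𝓟.pc b) 0) (cx a) (cx b) ∧
      (∀ i, aeval (dirv i0 (cx a) (cx b)) (γ i) = 0) ∧
      aeval (dirv i0 (cx a) (cx b)) (Jac γ c) ≠ 0 ∧
      ¬ PersD i0 (𝓟.g (𝓟.pc b)) l (cx a) (cx b) γ ∧
      Low (𝓟.g (𝓟.pc a)) (𝓟.g j) 𝓙 𝓟.g 𝓟.J δ ν X0 m d l (cx a) (cx b)) →
    HB (⨅ b ∈ S, Br (Set.range γ) (kr ℂ (dirv i0 (cx a) (cx b)))) φ 1 →
    (S.card : ℝ) ≤ C * φ * X := by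
  classical
  choose Cn hCn hnc using fun l : ℕ => nc1 (l + 1) (by omega)
  have hsum : 0 < ∑ l ∈ Finset.range d, Cn l :=
    Finset.sum_pos (fun l _ => hCn l) ⟨0, Finset.mem_range.2 (by omega)⟩
  refine ⟨∑ l ∈ Finset.range d, Cn l, hsum, ?_⟩
  intro σ κ _ _ A α i0 P 𝓟 a S j 𝓙 δ ν X0 X φ m l γ c hσ hl hld ha hj hδ hdeg hX hX0 hν hS hHB
  have hφ := hHB.nonneg
  rcases S.eq_empty_or_nonempty with rfl | ⟨b0, hb0⟩
  · simp only [Finset.card_empty, Nat.cast_zero]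
    positivity
  have hc : Function.Injective c := inj_of_jac (g := γ) fun h0 => (hS b0 hb0).2.2.2.2.2.1 (by
    rw [h0, map_zero])
  obtain ⟨l, rfl⟩ : ∃ l', l = l' + 1 := ⟨l - 1, by omega⟩
  have key := hnc l ℂ σ (σ → ℝ) (Fin (d - 2)) {k // k ∉ Set.range c} i0 (𝓟.g j) (𝓟.J j) δ ν (cx a)
    S cx γ c Subtype.val (∏ j ∈ 𝓙, 𝓟.g j 0) m φ X (mnb_rho hσ hd hc) (compl_free hc) hδ hdeg
    (Finset.dvd_prod_of_mem (fun j => 𝓟.g j 0) hj) hX mnb_cx_inj.injOn ?_ hHB ?_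
  · refine key.trans ?_
    have : Cn l ≤ ∑ l ∈ Finset.range d, Cn l :=
      Finset.single_le_sum (f := Cn) (fun l _ => (hCn l).le) (Finset.mem_range.2 (by omega))
    gcongr
  · intro b hb
    obtain ⟨h1, h2, h3, h4, h5, h6, h7, _⟩ := hS b hb
    subst h2
    exact ⟨fun i hi => 𝓟.zero h1 (by omega), fun r hr => 𝓟.jac h1 (by omega),
      fun h0 => h3 (Complex.ofReal_injective h0).symm, h4.2, h5, h6, h7⟩
  · intro t ht htl hlt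
    have hlt' := hX0.trans_lt hlt
    refine ⟨(hν t ht htl hlt').1, (hν t ht htl hlt').2, fun b hb => ?_⟩
    obtain ⟨_, _, _, _, _, _, _, h8⟩ := hS b hb
    obtain ⟨h9, h10⟩ := h8.2.2 t ht htl hlt'
    exact ⟨h9, fun Ω _ _ q hq hz =>
      (mnb_top 𝓟 hσ ha (h10 d (by omega) le_rfl).1 hq hz).rb hj⟩

theorem mnb_ceil {z y : ℝ} (hz : 0 ≤ z) (hy : 0 ≤ y) (k : ℕ) {L : ℝ} (hL : L ≤ y)
    (h : z = L * y ^ k) : z ≤ (⌈z⌉₊ : ℝ) ∧ (⌈z⌉₊ : ℝ) ≤ y ^ (k + 1) + 1 := by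
  refine ⟨Nat.le_ceil z, (Nat.ceil_lt_add_one hz).le.trans ?_⟩
  have : L * y ^ k ≤ y * y ^ k := by gcongr
  rw [h, pow_succ']
  linarith

/-- the sum of a large power and small terms. -/
theorem mnb_num1 {y m : ℝ} (hy : 4 ≤ y) {k n : ℕ} (hkn : k ≤ n) (hm : m ≤ y ^ k + 1) :
    y ^ n + m + 1 ≤ y ^ (n + 1) := by
  have hy1 : 1 ≤ y := by linarith
  have h1 : y ^ k ≤ y ^ n := pow_le_pow_right₀ hy1 hkn
  have h2 : 1 ≤ y ^ n := one_le_pow₀ hy1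
  have h3 : 4 * y ^ n ≤ y * y ^ n := by gcongr
  rw [pow_succ']
  linarith

theorem mnb_num2 {y m L : ℝ} (hy : 4 ≤ y) {k : ℕ} (hm : m ≤ y ^ k + 1) (hm0 : 0 ≤ m)
    (hL : L ≤ y) : L * m ≤ y ^ (k + 2) := by
  have hy1 : 1 ≤ y := by linarith
  have h2 : 1 ≤ y ^ k := one_le_pow₀ hy1
  have h3 : 4 * y ^ k ≤ y * y ^ k := by gcongr
  calc L * m ≤ y * (y * y ^ k) := mul_le_mul hL (by linarith) hm0 (by linarith)
    _ = y ^ (k + 2) := by ring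

end

end Vale.Agent.P054
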