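import Vale.Agent.P054.MRoot

namespace Vale.Agent.P054

open MvPolynomial

noncomputable section

/-- for a persistent root every realisation of the root branch is a root of the same level. -/
theorem pers_branch {K : Type} [Field K] [CharZero K] [IsAlgClosed K] {σ τ ι ρ : Type}
    [Fintype σ] [Fintype τ] [Fintype ι] [DecidableEq ι] [Fintype ρ]
    {g J : ℕ → MvPolynomial σ K} {l : ℕ} (hl : 1 ≤ l) {p : σ → K}
    {u : σ → MvPolynomial τ K} (hu : ∀ k, (u k).totalDegree ≤ 1) {γ : ι → MvPolynomial τ K}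
    {c : ι → τ} {e : ρ → τ} (hc : Compl c e) {Ω : Type} [Field Ω] [Algebra K Ω] {x : τ → Ω}
    (hγ : ∀ i, aeval x (γ i) = 0) (hJ : aeval x (Jac γ c) ≠ 0) {s : Ω}
    (hs : s ∈ Rt g J l (am Ω p) (fun k => aeval x (u k)))
    (hP : Pers0 g l p u (Br (Set.range γ) (kr K x)) (kr K (wpt (1 : MvPolynomial τ K) x s))) :
    ∃ H : MvPolynomial (Option τ) K, H ∈ kr K (wpt (1 : MvPolynomial τ K) x s) ∧
      Jac (lift1 γ H) (Option.map c) ∉ kr K (wpt (1 : MvPolynomial τ K) x s) ∧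
      ∀ (Ω' : Type) [Field Ω'] [Algebra K Ω'] (x' : τ → Ω') (w : Ω'),
        kr K (fun o : Option τ => o.elim w x') =
          Br (Set.range (lift1 γ H)) (kr K (wpt (1 : MvPolynomial τ K) x s)) →
        w ≠ 0 ∧ (fun o : Option τ => o.elim w x') = wpt (1 : MvPolynomial τ K) x' w⁻¹ ∧
          w⁻¹ ∈ Rt g J l (am Ω' p) (fun k => aeval x' (u k)) := by
  obtain ⟨H, -, hF⟩ := exists_lift0 (g 0) p u hu
  obtain ⟨Ω₂, _, _, x₂, s₂, hx₂, s0₂, hg₂, hle⟩ := hP
  obtain ⟨h1, h2⟩ := hF Ω x s hs.1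
  have hJ' : aeval (wpt (1 : MvPolynomial τ K) x s) (Jac (lift1 γ H) (Option.map c)) ≠ 0 := by
    rw [jac_lift1, map_mul, aeval_rename]
    exact mul_ne_zero (h2 (hs.2.1 0 hl) hs.2.2.2) hJ
  have e3 : kr K (wpt (1 : MvPolynomial τ K) x₂ s₂) =
      Br (Set.range (lift1 γ H)) (kr K (wpt (1 : MvPolynomial τ K) x s)) := by
    refine eq_Br_of_ind hc.lift (kr_isPrime _) (dn_of_isAlgClosed (kr_isPrime _)) (kr_isPrime _)
      ?_ hle hJ' (fun k => X (some (e k))) rfl fun P hP => ?_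
    · rintro (_ | i)
      · exact (hF Ω₂ x₂ s₂ s0₂).1.2 (hg₂ 0 hl)
      · have : γ i ∈ kr K x₂ := hx₂ ▸ mem_Br_of_mem (kr_isPrime x) ⟨i, rfl⟩
        exact (aeval_rename _ _ _).trans this
    · refine Br_ind hc (kr_isPrime x) (dn_of_isAlgClosed (kr_isPrime x)) hγ hJ P ?_
      rw [← hx₂, mem_kr, ← AlgHom.comp_apply, comp_aeval]
      rw [mem_kr, ← AlgHom.comp_apply, comp_aeval] at hP
      simpa only [aeval_X, wpt, Option.elim_some] using hP
  refine ⟨H, h1.2 (hs.2.1 0 hl), hJ', fun Ω' _ _ x' w e1 => ?_⟩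
  have hle' := (e1.trans e3.symm).le.trans hle
  obtain ⟨w0, -, e2⟩ := cover_wpt hs.1 (by simp) hle'
  rw [map_one, one_div] at e2
  rw [e2] at e1 hle'
  refine ⟨w0, e2, mem_Rt_of_spec p u _ le_rfl (inv_ne_zero w0) (by simp) hle' hs fun i hi => ?_⟩
  have e4 := spec_kr p u _ s0₂ (inv_ne_zero w0) (by simp) (e3.trans e1.symm).le
  have e5 := @e4 (rename Sum.inl (g i))
  rw [mem_kr, mem_kr, aeval_rename, aeval_rename, Sum.elim_comp_inl, Sum.elim_comp_inl] at e5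
  exact e5 (hg₂ i hi)

/-- distinct persistent roots lift to distinct roots over the generic point. -/
theorem persist_countM {K : Type} [Field K] [CharZero K] [IsAlgClosed K] {σ τ ι ρ κ : Type}
    [Fintype σ] [Fintype τ] [Fintype ι] [DecidableEq ι] [Fintype ρ] {𝓙 : Finset κ}
    {g J : κ → ℕ → MvPolynomial σ K} {l : ℕ} (hl : 1 ≤ l) {p : σ → K}
    {u : σ → MvPolynomial τ K} (hu : ∀ k, (u k).totalDegree ≤ 1) {γ : ι → MvPolynomial τ K}
    {c : ι → τ} {e : ρ → τ} (hc : Compl c e) {Ω : Type} [Field Ω] [Algebra K Ω] {x : τ → Ω}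
    (hγ : ∀ i, aeval x (γ i) = 0) (hJ : aeval x (Jac γ c) ≠ 0) (T : Finset Ω)
    (hT : ∀ s ∈ T, ∃ j ∈ 𝓙, s ∈ Rt (g j) (J j) l (am Ω p) (fun k => aeval x (u k)) ∧
      Pers0 (g j) l p u (Br (Set.range γ) (kr K x)) (kr K (wpt (1 : MvPolynomial τ K) x s))) :
    ∃ (Ω' : Type) (_ : Field Ω') (_ : Algebra K Ω') (x' : τ → Ω') (T' : Finset Ω'),
      kr K x' = Br (Set.range γ) (kr K x) ∧ T'.card = T.card ∧
      ∀ s ∈ T', s ∈ RtM 𝓙 g J l (am Ω' p) (fun k => aeval x' (u k)) := by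
  classical
  obtain ⟨θ, hθ⟩ := exists_tay (g := fun i => map (algebraMap K Ω) (γ i)) hc (π := x)
    (fun i => by rw [aeval_map_algebraMap, hγ]) (by rwa [jac_map, aeval_map_algebraMap])
  have hx' := persist_generic hc hJ (fun _ => rfl) hθ
  obtain ⟨x', hx'e⟩ : ∃ x' : τ → FractionRing (MvPowerSeries ρ Ω),
    x' = fun k => algebraMap _ _ (θ (X k)) := ⟨_, rfl⟩
  rw [← hx'e] at hx'
  have key : ∀ s ∈ T, ∃ W : MvPowerSeries ρ Ω, MvPowerSeries.constantCoeff W = s⁻¹ ∧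
      (algebraMap _ (FractionRing (MvPowerSeries ρ Ω)) W)⁻¹ ∈
        RtM 𝓙 g J l (am _ p) (fun k => aeval x' (u k)) := by
    intro s hs
    obtain ⟨j, hj, hs, hP⟩ := hT s hs
    obtain ⟨F, h3, hJ', hF⟩ := pers_branch hl hu hc hγ hJ hs hP
    have h4 : aeval (wpt (1 : MvPolynomial τ K) x s) (pderiv none F) ≠ 0 := fun h =>
      hJ' (by rw [mem_kr, jac_lift1, map_mul, h, zero_mul])
    obtain ⟨W, hW, hWF⟩ := extend_root θ hθ.const (map (algebraMap K Ω) F)
      (aeval x (1 : MvPolynomial τ K) / s) (by rw [aeval_map_algebraMap]; exact h3)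
      (by rw [pderiv_map, aeval_map_algebraMap]; exact h4)
    have e1 := persist_generic (x := wpt (1 : MvPolynomial τ K) x s) hc.lift hJ'
      (by rintro (_ | i) <;> simp [lift1, map_rename]) (hθ.lift _ _ W hW hWF)
    simp only [aeval_X] at e1
    refine ⟨W, by rw [hW, map_one, one_div], j, hj, (hF _ x' _ ?_).2.2⟩
    rw [← e1, hx'e]
    congr 1
    funext o
    cases o <;> rfl
  choose! W h1 h2 using key
  refine ⟨_, inferInstance, inferInstance, x',
    T.image fun s => (algebraMap _ (FractionRing (MvPowerSeries ρ Ω)) (W s))⁻¹, hx',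
    Finset.card_image_of_injOn fun s hs t ht hst => ?_, fun s hs => ?_⟩
  · have e1 : W s = W t := FaithfulSMul.algebraMap_injective _ (FractionRing (MvPowerSeries ρ Ω))
      (inv_injective hst)
    exact inv_injective (by rw [← h1 s hs, e1, h1 t ht])
  · obtain ⟨t, ht, rfl⟩ := Finset.mem_image.1 hs
    exact h2 t ht

end

end Vale.Agent.P054
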