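import Vale.Agent.P054.MCover
import Vale.Agent.P054.MPersist

namespace Vale.Agent.P054

open MvPolynomial

noncomputable section

/-- points which do not persist along a curve of directions are few. -/
theorem nc1 (l : ℕ) (hl : 1 ≤ l) : ∃ C : ℝ, 0 < C ∧ ∀ (K : Type) [Field K] [CharZero K]
    [IsAlgClosed K] (σ Λ ι ρ : Type) [Fintype σ] [DecidableEq σ] [Fintype ι] [DecidableEq ι]
    [Fintype ρ] (i0 : σ) (g J : ℕ → MvPolynomial σ K) (δ ν : ℕ → ℝ) (p : σ → K) (S : Finset Λ)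
    (a : Λ → σ → K) (γ : ι → MvPolynomial (Ne0 i0) K) (c' : ι → Ne0 i0) (e' : ρ → Ne0 i0)
    (F : MvPolynomial σ K) (m : ℕ) (φ X : ℝ),
    Fintype.card ρ = 1 → Compl c' e' → (∀ i, 1 ≤ δ i) →
    (∀ i, i < l → ((g i).totalDegree : ℝ) ≤ δ i) → g 0 ∣ F → 0 ≤ X → Set.InjOn a S →
    (∀ s ∈ S, (∀ i, i < l → aeval (a s) (g i) = 0) ∧ (∀ r, r ≤ l → aeval (a s) (J r) ≠ 0) ∧
      a s i0 ≠ p i0 ∧ dg (g 0) (a s) (fun k => a s k - p k) ≠ 0 ∧
      (∀ i, aeval (dirv i0 p (a s)) (γ i) = 0) ∧ aeval (dirv i0 p (a s)) (Jac γ c') ≠ 0 ∧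
      ¬ PersD i0 g l p (a s) γ) →
    HB (⨅ s ∈ S, Br (Set.range γ) (kr K (dirv i0 p (a s)))) φ 1 →
    (∀ t, 1 ≤ t → t < l → X < δ 0 * δ t → 0 ≤ ν t ∧ (ν t + m + 1) * δ t ≤ X ∧
      ∀ s ∈ S, IniOK F p (a s) m ∧ ∀ (Ω : Type) [Field Ω] [Algebra K Ω] (q : σ → Ω),
        kr K q ≤ kr K (a s) → (∀ i, i < t → aeval q (g i) = 0) → RB g J t (am Ω p) q (ν t)) →
    (S.card : ℝ) ≤ C * φ * X := by
  classical
  obtain ⟨C0, hC0, hcov⟩ := cover1 0 l hl
  refine ⟨C0, hC0, ?_⟩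
  intro K _ _ _ σ Λ ι ρ _ _ _ _ _ i0 g J δ ν p S a γ c' e' F m φ X' hρ hce hδ hdeg hF hX hinj
    ha hb hlev
  have hf : ∀ s, aeval (dirv i0 p (a s)) (1 : MvPolynomial (Ne0 i0) K) ≠ 0 := fun s => by
    rw [map_one]
    exact one_ne_zero
  obtain ⟨k, hk⟩ : ∃ k : ℕ, ∀ t, 1 ≤ t → t < l → X' < δ 0 * δ t → k ≤ m ∧
      (∀ i, i < k → ini F p i = 0) ∧ ∀ s ∈ S, aeval (fun i => a s i - p i) (ini F p k) ≠ 0 := by
    by_cases h : ∃ t, 1 ≤ t ∧ t < l ∧ X' < δ 0 * δ t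
    · obtain ⟨t, h1, h2, h3⟩ := h
      obtain ⟨k, hk⟩ := iniOK_unif S a fun s hs => ((hlev t h1 h2 h3).2.2 s hs).1
      exact ⟨k, fun _ _ _ _ => hk⟩
    · exact ⟨0, fun t h1 h2 h3 => absurd ⟨t, h1, h2, h3⟩ h⟩
  have hmain := hcov K σ (Ne0 i0) ι ρ Λ g J δ (fun t => ν t + 1) p (step1U K i0) γ c' e' S
    (fun s => kr K (wpt (1 : MvPolynomial (Ne0 i0) K) (dirv i0 p (a s)) (a s i0 - p i0))) F k φ X'
    hρ hce hδ hdeg (step1U_deg i0) hX hF
    (fun s hs => by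
      obtain ⟨h1, h2, h3, h4, h5, h6, -⟩ := ha s hs
      refine ⟨K, _, _, _, _, rfl, ⟨sub_ne_zero.2 h3, ?_⟩, h5, h6⟩
      have e : lp (am K p) (fun k => aeval (dirv i0 p (a s)) (step1U K i0 k)) (a s i0 - p i0) =
        a s := step1U_lp h3
      rw [e]
      exact ⟨h1, h2, step1U_dg h3 _ h4⟩)
    (fun s hs => by
      rw [step1_comap]
      exact (ha s hs).2.2.2.2.2.2)
    (by
      simp only [step1_comap]
      exact hb)
    (fun t h1 h2 h3 => by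
      obtain ⟨b1, b2, b3⟩ := hlev t h1 h2 h3
      obtain ⟨k1, k2, k3⟩ := hk t h1 h2 h3
      refine ⟨by linarith, le_trans (mul_le_mul_of_nonneg_right ?_ (by linarith [hδ t])) b2, k2,
        fun s hs => ⟨fun hmem => ?_, fun Ω _ _ x w _ hw hle => ?_⟩⟩
      · have : (k : ℝ) ≤ m := by exact_mod_cast k1
        linarith
      · obtain ⟨-, -, a3, -, a5, -⟩ := ha s hs
        rw [step1_comap] at hmem
        have h5 := Br_le (kr_isPrime _) (by
          rintro _ ⟨i, rfl⟩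
          exact a5 i) le_rfl hmem
        have e : (fun i => aeval (dirv i0 p (a s)) (step1U K i0 i)) =
            fun i => (a s i0 - p i0)⁻¹ * (a s i - p i) := funext fun i => step1U_dir a3 i
        rw [mem_kr, comp_aeval_apply, e, aeval_ini_smul] at h5
        exact mul_ne_zero (pow_ne_zero _ (inv_ne_zero (sub_ne_zero.2 a3))) (k3 s hs) h5
      · exact ((b3 s hs).2 Ω _ (step1_spec (ha s hs).2.2.1 (hf s) hw.1 hle) hw.2.1).rtB hw.1)
  refine count_points S _ (fun s hs s' hs' hss => hinj hs hs' ?_) hmain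
  have h1 : (fun k : Ne0 i0 => (a s k - p k) / (a s i0 - p i0)) =
      fun k : Ne0 i0 => (a s' k - p k) / (a s' i0 - p i0) :=
    funext fun k => congrFun hss (some k)
  have h2 : aeval (dirv i0 p (a s)) (1 : MvPolynomial (Ne0 i0) K) / (a s i0 - p i0) =
      aeval (dirv i0 p (a s')) (1 : MvPolynomial (Ne0 i0) K) / (a s' i0 - p i0) :=
    congrFun hss none
  rw [map_one, map_one, one_div, one_div] at h2
  rw [← step1U_lp (ha s hs).2.2.1, ← step1U_lp (ha s' hs').2.2.1, h1, inv_injective h2]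

/-- nothing persists at the top level. -/
theorem not_persD_full {K : Type} [Field K] {σ ι ρ : Type} [Fintype σ] [DecidableEq σ] [Fintype ι]
    [DecidableEq ι] [Fintype ρ] {d : ℕ} (hσ : Fintype.card σ = d) {i0 : σ}
    {g : ℕ → MvPolynomial σ K} {c : Fin d → σ} {p a : σ → K} {γ : ι → MvPolynomial (Ne0 i0) K}
    {c' : ι → Ne0 i0} {e' : ρ → Ne0 i0} (hρ : Fintype.card ρ = 1) (hc : Compl c' e')
    (hg : ∀ i, i < d → aeval a (g i) = 0) (hJ : aeval a (Jac (gs g d) c) ≠ 0) (h0 : a i0 ≠ p i0)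
    (hγ : ∀ i, aeval (dirv i0 p a) (γ i) = 0) (hγ' : aeval (dirv i0 p a) (Jac γ c') ≠ 0) :
    ¬ PersD i0 g d p a γ := by
  rintro ⟨Ω, _, _, x, t, hx, ht0, ht, hle⟩
  have h5 := step1_spec h0 (f1 := 1) (by
    rw [map_one]
    exact one_ne_zero) ht0 hle
  have h6 := Br_le (kr_isPrime _) (step1_gs ht) h5
  rw [Br_full (g := gs g d) (c := c) (fun i => hg i i.2) hJ (by rw [Fintype.card_fin, hσ])] at h6
  have h7 := step1_const h0 h6
  have h8 : HB (kr K x) 1 0 := fun m _ => by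
    rw [pow_zero, mul_one]
    exact_mod_cast (hf_anti h7 m).trans (hf_kr_le _ m)
  refine not_ind_of_HB h8 (fun k => X (e' k)) (by omega) ?_
  rw [hx]
  exact Br_ind hc (kr_isPrime _) (dn_kr _) hγ hγ'


end

end Vale.Agent.P054
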