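import Vale.Agent.P054.MRank
import Vale.Agent.P054.MPersist

namespace Vale.Agent.P054

open MvPolynomial

noncomputable section

/-- points which persist along a curve of directions are few. -/
theorem ncP (l N : ℕ) (hl : 1 ≤ l) : ∃ C : ℝ, 0 < C ∧ ∀ (K : Type) [Field K] [CharZero K]
    [IsAlgClosed K] (σ Λ κ ι ρ β : Type) [Fintype σ] [DecidableEq σ] [Fintype ι] [DecidableEq ι]
    [Fintype ρ] [Fintype β] (i0 : σ) (𝓙 : Finset κ) (g J : κ → ℕ → MvPolynomial σ K)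
    (h : Λ → κ → MvPolynomial σ K) (ch : Λ → κ) (ω : Λ → ℕ) (p : σ → K) (S : Finset Λ)
    (a : Λ → σ → K) (γ : ι → MvPolynomial (Ne0 i0) K) (c' : ι → Ne0 i0) (e' : ρ → Ne0 i0)
    (F : MvPolynomial σ K) (k : ℕ) (Dp : β → MvPolynomial σ K) (φ Y ν : ℝ),
    Fintype.card ρ = 1 → Compl c' e' → Fintype.card β ≤ N → 1 ≤ Y → 0 ≤ ν →
    (∀ b, ((Dp b).totalDegree : ℝ) ≤ Y) → Set.InjOn a S → (∀ i, i < k → ini F p i = 0) →
    (∀ s ∈ S, ch s ∈ 𝓙 ∧ (∀ i, i < l → aeval (a s) (g (ch s) i) = 0) ∧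
      (∀ r, r ≤ l → aeval (a s) (J (ch s) r) ≠ 0) ∧ a s i0 ≠ p i0 ∧
      dg (g (ch s) 0) (a s) (fun k => a s k - p k) ≠ 0 ∧
      (∀ i, aeval (dirv i0 p (a s)) (γ i) = 0) ∧ aeval (dirv i0 p (a s)) (Jac γ c') ≠ 0 ∧
      PersD i0 (g (ch s)) l p (a s) γ) →
    (∀ s ∈ S, F ∈ Br (Set.range (gs (g (ch s)) l)) (kr K (a s)) ∧
      aeval (fun i => a s i - p i) (ini F p k) ≠ 0 ∧ (∀ b, aeval (a s) (Dp b) = 0) ∧
      (∀ s' ∈ S, ω s ≤ ω s' → aeval (a s') (h s (ch s')) ≠ 0) ∧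
      ∀ (Ω : Type) [Field Ω] [Algebra K Ω] (q : σ → Ω), kr K q ≤ kr K (a s) →
        ((∀ b, aeval q (Dp b) = 0) → q = am Ω (a s)) ∧
        ((∀ i, i < l → aeval q (g (ch s) i) = 0) → RBM 𝓙 g (hJ (h s) J) l (am Ω p) q ν)) →
    HB (⨅ s ∈ S, Br (Set.range γ) (kr K (dirv i0 p (a s)))) φ 1 →
    (S.card : ℝ) ≤ C * φ * ((ν + k + 1) * Y) := by
  classical
  refine ⟨4 * N + 1, by positivity, ?_⟩
  intro K _ _ _ σ Λ κ ι ρ β _ _ _ _ _ _ i0 𝓙 g J h ch ω p S a γ c' e' F k Dp φ Y ν hρ hce hβ hY hν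
    hDp hinj hk ha hb hφ
  have hlp : ∀ s ∈ S, lp (am K p) (fun j => aeval (dirv i0 p (a s)) (step1U K i0 j))
      (a s i0 - p i0) = a s := fun s hs => step1U_lp (ha s hs).2.2.2.1
  have ht : ∀ s ∈ S, a s i0 - p i0 ≠ 0 := fun s hs => sub_ne_zero.2 (ha s hs).2.2.2.1
  have hRt : ∀ s ∈ S, a s i0 - p i0 ∈ Rt (g (ch s)) (J (ch s)) l (am K p)
      (fun j => aeval (dirv i0 p (a s)) (step1U K i0 j)) := by
    intro s hs
    obtain ⟨-, h1, h2, h3, h4, -⟩ := ha s hs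
    refine ⟨ht s hs, ?_⟩
    rw [hlp s hs]
    exact ⟨h1, h2, step1U_dg h3 _ h4⟩
  choose! H hH1 hH2 hH3 using fun s (hs : s ∈ S) => pers_branch hl (step1U_deg i0) hce
    (ha s hs).2.2.2.2.2.1 (ha s hs).2.2.2.2.2.2.1 (hRt s hs) (ha s hs).2.2.2.2.2.2.2
  obtain ⟨z, hz⟩ : ∃ z : Λ → Option (Ne0 i0) → K,
    ∀ s, z s = wpt (1 : MvPolynomial (Ne0 i0) K) (dirv i0 p (a s)) (a s i0 - p i0) :=
    ⟨_, fun _ => rfl⟩
  obtain ⟨B, hBdef⟩ : ∃ B : Λ → Ideal (MvPolynomial (Option (Ne0 i0)) K),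
    ∀ s, B s = Br (Set.range (lift1 γ (H s))) (kr K (z s)) := ⟨_, fun _ => rfl⟩
  have hg : ∀ s ∈ S, ∀ o, lift1 γ (H s) o ∈ kr K (z s) := by
    intro s hs o
    rw [hz]
    cases o with
    | none => exact hH1 s hs
    | some i =>
      show aeval _ (rename some (γ i)) = 0
      rw [cover_aeval_rename]
      exact (ha s hs).2.2.2.2.2.1 i
  have hJ' : ∀ s ∈ S, Jac (lift1 γ (H s)) (Option.map c') ∉ kr K (z s) := fun s hs =>
    hz s ▸ hH2 s hs
  have hB : ∀ s ∈ S, (B s).IsPrime ∧ B s ≤ kr K (z s) ∧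
      (B s).comap (rename some : MvPolynomial (Ne0 i0) K →ₐ[K] _) =
        Br (Set.range γ) (kr K (dirv i0 p (a s))) ∧
      Ind ((B s).comap (rename some : MvPolynomial (Ne0 i0) K →ₐ[K] _)) (fun j => X (e' j)) ∧
      H s ∈ B s ∧ pderiv none (H s) ∉ B s := by
    intro s hs
    have h1 := cover_branch hce (kr_isPrime (z s)) (hg s hs) (hJ' s hs)
    rw [← hBdef, hz, step1_comap, ← hz] at h1
    exact h1
  have hreal : ∀ s ∈ S, ∀ (Ω : Type) [Field Ω] [Algebra K Ω] (x : Ne0 i0 → Ω) (w : Ω),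
      kr K (fun o : Option (Ne0 i0) => o.elim w x) = B s →
      kr K (wpt (1 : MvPolynomial (Ne0 i0) K) x w⁻¹) = B s ∧
      w⁻¹ ∈ Rt (g (ch s)) (J (ch s)) l (am Ω p) (fun j => aeval x (step1U K i0 j)) ∧
      kr K (lp (am Ω p) (fun j => aeval x (step1U K i0 j)) w⁻¹) ≤ kr K (a s) := by
    intro s hs Ω _ _ x w hx
    obtain ⟨k1, k2, k3⟩ := hH3 s hs Ω x w (by rw [hx, hBdef, hz])
    rw [k2] at hx
    refine ⟨hx, k3, step1_spec (ha s hs).2.2.2.1 (f1 := 1) (by rw [map_one]; exact one_ne_zero)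
      k3.1 ?_⟩
    rw [hx]
    exact (hB s hs).2.1.trans_eq (congrArg _ (hz s))
  have hgen : ∀ s ∈ S, ∃ (Ω : Type) (_ : Field Ω) (_ : Algebra K Ω) (x : Ne0 i0 → Ω) (w : Ω),
      kr K (fun o : Option (Ne0 i0) => o.elim w x) = B s := by
    intro s hs
    obtain ⟨Ω, _, _, y, hy, -⟩ := rank_generic (B s) (hB s hs).1
    refine ⟨Ω, inferInstance, inferInstance, fun j => y (some j), y none, ?_⟩
    rw [← hy]
    congr 1
    funext o
    cases o <;> rfl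
  obtain ⟨e, b, -, hc0, hbd, hF⟩ := exists_rel F p (step1U K i0) (step1U_deg i0) k hk
  have hcov := root_coverM S B (fun s hs => (hB s hs).1) (fun s hs => ⟨_, (hB s hs).2.2.2.1⟩)
    (φ := φ) (by
      rw [hρ]
      refine hφ.mono (le_iInf₂ fun s hs => ?_) le_rfl
      rw [(hB s hs).2.2.1]
      exact iInf₂_le s hs)
    (fun s hs => ⟨H s, (hB s hs).2.2.2.2⟩) (ν := ν + 1) (by linarith)
    (fun _ _ Ω _ _ x _ T hT => by
      rcases T.eq_empty_or_nonempty with rfl | hne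
      · rw [Finset.card_empty, Nat.cast_zero]
        linarith
      choose sel hsel hx using hT
      obtain ⟨w0, -, hmin⟩ := Finset.exists_min_image T.attach (fun w => ω (sel w.1 w.2))
        (Finset.attach_nonempty_iff.2 hne)
      obtain ⟨-, k2, k3⟩ := hreal _ (hsel w0.1 w0.2) Ω x _ (hx w0.1 w0.2)
      have hR := (((hb _ (hsel w0.1 w0.2)).2.2.2.2 Ω _ k3).2 k2.2.1).rtB k2.1
      rw [← Finset.card_image_of_injective T inv_injective]
      refine hR _ fun s hs => ?_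
      obtain ⟨w, hw, rfl⟩ := Finset.mem_image.1 hs
      obtain ⟨-, m2, m3⟩ := hreal _ (hsel w hw) Ω x _ (hx w hw)
      exact ⟨_, (ha _ (hsel w hw)).1, mem_Rt_hJ.2 ⟨m2, fun h0 =>
        (hb _ (hsel w0.1 w0.2)).2.2.2.1 _ (hsel w hw) (hmin ⟨w, hw⟩ (Finset.mem_attach _ _))
          (mem_kr.1 (m3 (mem_kr.2 h0)))⟩⟩)
    e k _ b hc0
    (fun s hs h0 => by
      have h1 := mem_kr.1 ((hB s hs).2.1 h0)
      rw [hz, cover_aeval_rename, ← AlgHom.comp_apply, comp_aeval] at h1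
      have h2 : (fun i => aeval (dirv i0 p (a s)) (step1U K i0 i)) =
          fun i => (a s i0 - p i0)⁻¹ * (a s i - p i) :=
        funext fun i => step1U_dir (ha s hs).2.2.2.1 i
      rw [h2, aeval_ini_smul] at h1
      exact mul_ne_zero (pow_ne_zero _ (inv_ne_zero (ht s hs))) (hb s hs).2.1 h1)
    hbd
    (fun s hs => by
      obtain ⟨Ω, _, _, x, w, hx⟩ := hgen s hs
      obtain ⟨k1, k2, k3⟩ := hreal s hs Ω x w hx
      rw [← k1, mem_kr, (hF Ω x _ k2.1).1]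
      exact mem_kr.1 (Br_le (kr_isPrime _) (step1_gs k2.2.1) k3 (hb s hs).1))
    (by
      simp only [hBdef]
      exact gro_Br' S _ _ hce.lift (fun s _ => kr_isPrime _) (fun s _ => dn_kr _) hg hJ')
  rw [hρ] at hcov
  choose L hLd hL using fun j => exists_lift0 (Dp j) p (step1U K i0) (step1U_deg i0)
  have hLr : ∀ s ∈ S, ∀ j, L j ∈ kr K (z s) := by
    intro s hs j
    rw [hz, mem_kr, (hL j K _ _ (ht s hs)).1, hlp s hs]
    exact (hb s hs).2.2.1 j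
  have hLB : ∀ s ∈ S, ∃ j, L j ∉ B s := by
    intro s hs
    by_contra hcon
    push Not at hcon
    obtain ⟨Ω, _, _, x, w, hx⟩ := hgen s hs
    obtain ⟨k1, k2, k3⟩ := hreal s hs Ω x w hx
    have h1 := ((hb s hs).2.2.2.2 Ω _ k3).1 fun j => by
      rw [← (hL j Ω x _ k2.1).1, ← mem_kr, k1]
      exact hcon j
    have h2 := step1_const (ha s hs).2.2.2.1 (x := x) (s := w⁻¹) fun f hf => by
      rw [h1, mem_kr, rootB_am, mem_kr.1 hf, map_zero]
    have h3 : HB (kr K x) 1 0 := fun m _ => by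
      rw [pow_zero, mul_one]
      exact_mod_cast (hf_anti h2 m).trans (hf_kr_le _ m)
    refine not_ind_of_HB h3 (fun j => X (e' j)) (by omega) ?_
    rw [← step1_comap 1 x w⁻¹, k1]
    exact (hB s hs).2.2.2.1
  have hcut := hb_iInf Finset.univ (fun j => ⨅ s ∈ S.filter fun s => L j ∉ B s, kr K (z s)) _
    fun j _ => hb_cut_family (S.filter fun s => L j ∉ B s) B (fun s => kr K (z s))
      (fun s hs => (hB s (Finset.mem_filter.1 hs).1).1)
      (fun s hs => (hB s (Finset.mem_filter.1 hs).1).2.1)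
      (fun s hs => hLr s (Finset.mem_filter.1 hs).1 j) (fun s hs => (Finset.mem_filter.1 hs).2)
      (le_trans (by exact_mod_cast hLd j) (hDp j)) hY (j := 0)
      (hcov.mono (le_iInf₂ fun s hs => iInf₂_le s (Finset.mem_filter.1 hs).1) le_rfl)
  refine count_points S z (fun s hs s' hs' hss => hinj hs hs' ?_) (hcut.mono ?_ ?_)
  · rw [hz, hz] at hss
    have h1 : dirv i0 p (a s) = dirv i0 p (a s') := funext fun j => congrFun hss (some j)
    have h2 : aeval (dirv i0 p (a s)) (1 : MvPolynomial (Ne0 i0) K) / (a s i0 - p i0) =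
        aeval (dirv i0 p (a s')) (1 : MvPolynomial (Ne0 i0) K) / (a s' i0 - p i0) :=
      congrFun hss none
    rw [map_one, map_one, one_div, one_div] at h2
    rw [← hlp s hs, ← hlp s' hs', h1, inv_injective h2]
  · refine le_iInf₂ fun s hs => ?_
    obtain ⟨j, hj⟩ := hLB s hs
    exact (iInf₂_le j (Finset.mem_univ j)).trans (iInf₂_le s (Finset.mem_filter.2 ⟨hs, hj⟩))
  · rw [Finset.sum_const, Finset.card_univ, nsmul_eq_mul]
    have h1 : (Fintype.card β : ℝ) ≤ N := by exact_mod_cast hβ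
    have h2 : 0 ≤ φ * ((ν + k + 1) * Y) := by have := hφ.nonneg; positivity
    have h3 := mul_le_mul_of_nonneg_right h1 h2
    push_cast
    linarith


end

end Vale.Agent.P054
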