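import Vale.Agent.P054.WB

namespace Vale.Agent.P054

open MvPolynomial

noncomputable section

theorem ob_col {σ : Type} {a b x y : σ → ℝ} (hx : Col a b x) (hy : Col a b y) (hxy : x ≠ y)
    (z : σ → ℝ) : Col x y z ↔ Col a b z := by
  obtain ⟨s, rfl⟩ := hx
  obtain ⟨t, rfl⟩ := hy
  have h : t - s ≠ 0 := fun h => hxy (by rw [sub_eq_zero.1 h])
  constructor
  · rintro ⟨u, rfl⟩
    exact ⟨s + u * (t - s), funext fun k => by ring⟩
  · rintro ⟨u, rfl⟩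
    exact ⟨(u - s) / (t - s), funext fun k => by field_simp; ring⟩

open Classical in
/-- second moment of the number of points of a subset on rich lines -/
theorem ob_sq : ∃ C : ℝ, 0 < C ∧ ∀ (σ : Type) [Fintype σ] (P : Finset (σ → ℝ))
    (𝓛 : Finset (Finset (σ → ℝ))) (p : (σ → ℝ) → Prop) [DecidablePred p] (m : ℕ) (K : ℝ),
    2 ≤ m → 0 ≤ K →
    (∀ l ∈ 𝓛, (∃ x y, l = P.filter fun z => Col x y z) ∧ m ≤ (l.filter p).card ∧
      ((l.filter p).card : ℝ) ≤ K) →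
    ∑ l ∈ 𝓛, ((l.filter p).card : ℝ) ^ 2 ≤
      C * (((P.filter p).card : ℝ) ^ 2 / m + (P.filter p).card * K) := by
  obtain ⟨C, hC, hst⟩ := st_rich
  refine ⟨3 * C, by positivity, fun σ _ P 𝓛 p _ m K hm hK h => ?_⟩
  rcases 𝓛.eq_empty_or_nonempty with rfl | ⟨l0, hl0⟩
  · rw [Finset.sum_empty]
    positivity
  have hs : ∀ l ∈ 𝓛, m ≤ (l.filter p).card ∧ (l.filter p).card ≤ ⌊K⌋₊ :=
    fun l hl => ⟨(h l hl).2.1, Nat.le_floor (h l hl).2.2⟩
  have h1 : ∀ l ∈ 𝓛, ∃ x ∈ l.filter p, ∃ y ∈ l.filter p, x ≠ y ∧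
      ∀ l' ∈ 𝓛, x ∈ l' → y ∈ l' → l' = P.filter fun z => Col x y z := by
    intro l hl
    obtain ⟨x, hx, y, hy, hxy⟩ := Finset.one_lt_card.1 (hm.trans (hs l hl).1)
    refine ⟨x, hx, y, hy, hxy, fun l' hl' hx' hy' => ?_⟩
    obtain ⟨⟨a, b, rfl⟩, -⟩ := h l' hl'
    exact Finset.filter_congr fun z _ =>
      (ob_col (Finset.mem_filter.1 hx').2 (Finset.mem_filter.1 hy').2 hxy z).symm
  have h2 : Set.InjOn (fun l : Finset (σ → ℝ) => l.filter p) 𝓛 := by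
    intro l hl l' hl' e
    obtain ⟨x, hx, y, hy, -, k⟩ := h1 l hl
    have e' : l.filter p = l'.filter p := e
    rw [k l hl (Finset.mem_filter.1 hx).1 (Finset.mem_filter.1 hy).1,
      k l' hl' (Finset.mem_filter.1 (e' ▸ hx)).1 (Finset.mem_filter.1 (e' ▸ hy)).1]
  refine (wb_parts 𝓛 (fun l => (l.filter p).card) hC.le (Nat.cast_nonneg (P.filter p).card)
    (by omega) ((hs l0 hl0).1.trans (hs l0 hl0).2) hs fun k hk => ?_).trans ?_
  · rw [← Finset.card_image_of_injOn (h2.mono (Finset.coe_subset.2 (Finset.filter_subset _ _)))]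
    refine hst σ _ _ k (hm.trans hk) fun L hL => ?_
    obtain ⟨l, hl, rfl⟩ := Finset.mem_image.1 hL
    obtain ⟨hl, hk'⟩ := Finset.mem_filter.1 hl
    obtain ⟨x, hx, y, hy, hxy, e⟩ := h1 l hl
    have e' := e l hl (Finset.mem_filter.1 hx).1 (Finset.mem_filter.1 hy).1
    have hsub : l.filter p ⊆ P.filter p :=
      Finset.filter_subset_filter _ (e' ▸ Finset.filter_subset _ _)
    refine ⟨hk', x, hsub hx, y, hsub hy, hxy, ?_⟩
    rw [Finset.filter_comm, ← e']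
  · have := Nat.floor_le hK
    gcongr

open Classical in
/-- pairs with prescribed lower bounds for the weights -/
theorem ob_pair : ∃ C : ℝ, 0 < C ∧ ∀ (σ : Type) [Fintype σ] (P : Finset (σ → ℝ))
    (E : Finset ((σ → ℝ) × (σ → ℝ))) (p q : (σ → ℝ) → Prop) [DecidablePred p] [DecidablePred q]
    (m : ℕ) (K K' : ℝ), 2 ≤ m → 0 ≤ K → 0 ≤ K' → (∀ x ∈ E, x.1 ∈ P ∧ x.2 ∈ P ∧ p x.1 ∧ q x.2 ∧
      (m ≤ ((P.filter fun z => Col x.1 x.2 z).filter p).card ∧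
        (((P.filter fun z => Col x.1 x.2 z).filter p).card : ℝ) ≤ K) ∧
      m ≤ ((P.filter fun z => Col x.1 x.2 z).filter q).card ∧
        (((P.filter fun z => Col x.1 x.2 z).filter q).card : ℝ) ≤ K') →
    (E.card : ℝ) ≤ C * (((P.filter p).card : ℝ) * (P.filter q).card / m +
      ((P.filter q).card * K + (P.filter p).card * K') / 2) := by
  obtain ⟨C, hC, hsq⟩ := ob_sq
  refine ⟨C, hC, fun σ _ P E p q _ _ m K K' hm hK hK' hE => ?_⟩
  rcases E.eq_empty_or_nonempty with rfl | ⟨x0, hx0⟩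
  · rw [Finset.card_empty, Nat.cast_zero]
    positivity
  set ln : (σ → ℝ) × (σ → ℝ) → Finset (σ → ℝ) := fun x => P.filter fun z => Col x.1 x.2 z
  have h1 : E.card ≤ ∑ l ∈ E.image ln, (l.filter p).card * (l.filter q).card := by
    rw [Finset.card_eq_sum_card_fiberwise (f := ln) (t := E.image ln)
      fun x hx => Finset.mem_image_of_mem ln hx]
    refine Finset.sum_le_sum fun l _ => ?_
    rw [← Finset.card_product]
    refine Finset.card_le_card fun x hx => ?_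
    obtain ⟨hxE, rfl⟩ := Finset.mem_filter.1 hx
    obtain ⟨h1, h2, h3, h4, -⟩ := hE x hxE
    exact Finset.mem_product.2
      ⟨Finset.mem_filter.2 ⟨Finset.mem_filter.2 ⟨h1, wb_col_left _ _⟩, h3⟩,
        Finset.mem_filter.2 ⟨Finset.mem_filter.2 ⟨h2, wb_col_right _ _⟩, h4⟩⟩
  have h2 := hsq σ P (E.image ln) p m K hm hK fun l hl => by
    obtain ⟨x, hx, rfl⟩ := Finset.mem_image.1 hl
    exact ⟨⟨_, _, rfl⟩, (hE x hx).2.2.2.2.1⟩
  have h3 := hsq σ P (E.image ln) q m K' hm hK' fun l hl => by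
    obtain ⟨x, hx, rfl⟩ := Finset.mem_image.1 hl
    exact ⟨⟨_, _, rfl⟩, (hE x hx).2.2.2.2.2⟩
  have ha : (0 : ℝ) < (P.filter p).card := Nat.cast_pos.2
    (Finset.card_pos.2 ⟨x0.1, Finset.mem_filter.2 ⟨(hE x0 hx0).1, (hE x0 hx0).2.2.1⟩⟩)
  have hb : (0 : ℝ) < (P.filter q).card := Nat.cast_pos.2
    (Finset.card_pos.2 ⟨x0.2, Finset.mem_filter.2 ⟨(hE x0 hx0).2.1, (hE x0 hx0).2.2.2.1⟩⟩)
  generalize ((P.filter p).card : ℝ) = a at ha h2 ⊢
  generalize ((P.filter q).card : ℝ) = b at hb h3 ⊢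
  have h4 : (E.card : ℝ) ≤ ∑ l ∈ E.image ln, ((l.filter p).card : ℝ) * (l.filter q).card := by
    exact_mod_cast h1
  have h5 : 2 * a * b * ∑ l ∈ E.image ln, ((l.filter p).card : ℝ) * (l.filter q).card ≤
      b ^ 2 * ∑ l ∈ E.image ln, ((l.filter p).card : ℝ) ^ 2 +
      a ^ 2 * ∑ l ∈ E.image ln, ((l.filter q).card : ℝ) ^ 2 := by
    simp only [Finset.mul_sum, ← Finset.sum_add_distrib]
    refine Finset.sum_le_sum fun l _ => ?_
    nlinarith [sq_nonneg (b * (l.filter p).card - a * (l.filter q).card)]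
  refine le_of_mul_le_mul_left ?_ (show 0 < 2 * a * b by positivity)
  calc _ ≤ _ := mul_le_mul_of_nonneg_left h4 (by positivity)
    _ ≤ _ := h5
    _ ≤ b ^ 2 * (C * (a ^ 2 / m + a * K)) + a ^ 2 * (C * (b ^ 2 / m + b * K')) := by gcongr
    _ = _ := by ring

theorem ob_layer {T a : ℕ} (h : a ≤ T) :
    (a : ℝ) = ∑ s ∈ Finset.range T, if s < a then 1 else 0 := by
  rw [Finset.sum_boole, Nat.cast_inj]
  refine (Finset.card_range a).symm.trans (congrArg _ (Finset.ext fun s => ?_))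
  simp only [Finset.mem_filter, Finset.mem_range]
  omega

theorem ob_num (S : Finset ℕ) (α β : ℕ → ℝ) (C m G : ℝ) :
    ∑ s ∈ S, ∑ t ∈ S, C * (α s * α t / m + (α t * (G * β s) + α s * (G * β t)) / 2) =
      C / m * (∑ s ∈ S, α s) ^ 2 + C * G * ((∑ s ∈ S, α s) * ∑ s ∈ S, β s) := by
  simp only [← Finset.mul_sum, Finset.sum_add_distrib, ← Finset.sum_div, ← Finset.sum_mul]
  ring

theorem ob_harm {T : ℕ} {N : ℝ} (hN1 : 1 ≤ N) (hT : (T : ℝ) ≤ N) :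
    ∑ s ∈ Finset.range T, ((s : ℝ) + 1)⁻¹ ≤ 1 + Real.log N := by
  have k1 := harmonic_le_one_add_log T
  simp only [harmonic, Rat.cast_sum, Rat.cast_inv, Nat.cast_add, Nat.cast_one, Rat.cast_add,
    Rat.cast_natCast, Rat.cast_one] at k1
  refine k1.trans (add_le_add_right ?_ 1)
  rcases T.eq_zero_or_pos with k | k
  · rw [k, Nat.cast_zero, Real.log_zero]
    exact Real.log_nonneg hN1
  · exact Real.log_le_log (Nat.cast_pos.2 k) hT

theorem ob_ev {ε η : ℝ} (hε : 0 < ε) (hη : 0 < η) :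
    ∃ N0 : ℝ, ∀ N ≥ N0, 1 ≤ N ∧ 1 + Real.log N ≤ ε * N ^ η := by
  refine Filter.eventually_atTop.1 ?_
  have h1 := ((isLittleO_log_rpow_atTop hη).add
    ((Asymptotics.isLittleO_const_left (c := (1 : ℝ))).2
      (Or.inr (tendsto_norm_atTop_atTop.comp (tendsto_rpow_atTop hη))))).bound hε
  filter_upwards [h1, Filter.eventually_ge_atTop 1] with N k1 k2
  rw [Real.norm_of_nonneg (show 0 ≤ N ^ η by positivity), add_comm] at k1
  exact ⟨k2, (le_abs_self _).trans k1⟩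

open Classical in
/-- ordered weighted form of the theorem of Beck. -/
theorem ord_beck (θ η : ℝ) (hθ : 0 < θ) (hη : 0 < η) : ∃ μ0 N0 : ℝ, 2 ≤ μ0 ∧
    ∀ (σ : Type) [Fintype σ] (P : Finset (σ → ℝ)) (w : (σ → ℝ) → ℕ)
    (E : Finset ((σ → ℝ) × (σ → ℝ))) (N H : ℝ), N0 ≤ N → ((∑ x ∈ P, w x : ℕ) : ℝ) ≤ N →
    H ≤ N ^ (1 - η) →
    (∀ x ∈ E, x.1 ∈ P ∧ x.2 ∈ P ∧ x.1 ≠ x.2 ∧ w x.1 ≤ w x.2 ∧
      μ0 ≤ ((P.filter fun z => Col x.1 x.2 z ∧ w x.2 ≤ w z).card : ℝ) ∧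
      ((∑ z ∈ P.filter (fun z => Col x.1 x.2 z), w z : ℕ) : ℝ) ≤ H) →
    ((∑ x ∈ E, w x.1 * w x.2 : ℕ) : ℝ) ≤ θ * N ^ 2 := by
  obtain ⟨C, hC, hp⟩ := ob_pair
  obtain ⟨N0, hN0⟩ := ob_ev (show 0 < θ / (2 * C) by positivity) hη
  refine ⟨max 2 (2 * C / θ), N0, le_max_left _ _, fun σ _ P w E N H hN hT hH hE => ?_⟩
  obtain ⟨hN1, hlog⟩ := hN0 N hN
  set T := ∑ x ∈ P, w x with hTd
  set m := ⌈max 2 (2 * C / θ)⌉₊
  set G := N ^ (1 - η) with hG
  have hG0 : 0 ≤ G := by positivity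
  have hm : max 2 (2 * C / θ) ≤ m := Nat.le_ceil _
  have hm2 : 2 ≤ m := by exact_mod_cast (le_max_left _ _).trans hm
  have hw : ∀ x ∈ P, w x ≤ T := fun x hx => Finset.single_le_sum (fun _ _ => Nat.zero_le _) hx
  set α : ℕ → ℝ := fun s => (P.filter fun z => s < w z).card with hα
  have h1 : ∑ s ∈ Finset.range T, α s ≤ N := by
    refine le_trans (le_of_eq ?_) hT
    rw [hTd, Nat.cast_sum, Finset.sum_congr rfl fun x hx => ob_layer (hw x hx), Finset.sum_comm]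
    exact Finset.sum_congr rfl fun s _ => (Finset.sum_boole _ _).symm
  have h2 : ((∑ x ∈ E, w x.1 * w x.2 : ℕ) : ℝ) = ∑ s ∈ Finset.range T, ∑ t ∈ Finset.range T,
      ((E.filter fun x => s < w x.1 ∧ t < w x.2).card : ℝ) := by
    simp only [← Finset.sum_boole, Nat.cast_sum, Nat.cast_mul]
    rw [Finset.sum_congr rfl fun s _ => Finset.sum_comm, Finset.sum_comm]
    refine Finset.sum_congr rfl fun x hx => ?_
    rw [ob_layer (hw _ (hE x hx).1), ob_layer (hw _ (hE x hx).2.1), Finset.sum_mul_sum]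
    simp only [ite_and, ite_mul, one_mul, zero_mul]
  have h3 : ∀ x ∈ E, ∀ s < w x.2,
      m ≤ ((P.filter fun z => Col x.1 x.2 z).filter fun z => s < w z).card ∧
      (((P.filter fun z => Col x.1 x.2 z).filter fun z => s < w z).card : ℝ)
        ≤ G * ((s : ℝ) + 1)⁻¹ := by
    intro x hx s hs
    obtain ⟨-, -, -, -, k1, k2⟩ := hE x hx
    refine ⟨(Nat.ceil_le.2 k1).trans (Finset.card_le_card fun z hz => ?_), ?_⟩
    · simp only [Finset.mem_filter] at hz ⊢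
      exact ⟨⟨hz.1, hz.2.1⟩, hs.trans_le hz.2.2⟩
    · rw [le_mul_inv_iff₀ (by positivity)]
      refine le_trans ?_ (k2.trans hH)
      norm_cast
      refine le_trans ?_ (Finset.sum_le_sum_of_subset (Finset.filter_subset (fun z => s < w z) _))
      exact Finset.card_nsmul_le_sum _ w (s + 1) fun z hz => (Finset.mem_filter.1 hz).2
  have h4 : ∀ s t, ((E.filter fun x => s < w x.1 ∧ t < w x.2).card : ℝ) ≤ C * (α s * α t / m +
      (α t * (G * ((s : ℝ) + 1)⁻¹) + α s * (G * ((t : ℝ) + 1)⁻¹)) / 2) := by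
    intro s t
    refine hp σ P _ _ _ m _ _ hm2 (by positivity) (by positivity) fun x hx => ?_
    obtain ⟨hx, k1, k2⟩ := Finset.mem_filter.1 hx
    exact ⟨(hE x hx).1, (hE x hx).2.1, k1, k2, h3 x hx s (k1.trans_le (hE x hx).2.2.2.1),
      h3 x hx t k2⟩
  have h5 := (ob_harm hN1 hT).trans hlog
  have h6 : 0 ≤ ∑ s ∈ Finset.range T, α s := Finset.sum_nonneg fun _ _ => Nat.cast_nonneg _
  have h7 : 0 ≤ ∑ s ∈ Finset.range T, ((s : ℝ) + 1)⁻¹ := Finset.sum_nonneg fun _ _ => by positivity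
  have h8 : C / m ≤ θ / 2 := by
    have := (div_le_iff₀ hθ).1 ((le_max_right _ _).trans hm)
    rw [div_le_div_iff₀ (Nat.cast_pos.2 (by omega)) two_pos]
    linarith
  have h9 : G * N ^ η = N := by rw [hG, ← Real.rpow_add (by linarith), sub_add_cancel, Real.rpow_one]
  rw [h2]
  refine (Finset.sum_le_sum fun s _ => Finset.sum_le_sum fun t _ => h4 s t).trans ?_
  rw [ob_num]
  generalize ∑ s ∈ Finset.range T, α s = A at h1 h6 ⊢
  generalize ∑ s ∈ Finset.range T, ((s : ℝ) + 1)⁻¹ = B at h5 h7 ⊢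
  calc _ ≤ θ / 2 * N ^ 2 + C * G * (N * (θ / (2 * C) * N ^ η)) := by gcongr
    _ = θ / 2 * N ^ 2 + θ / 2 * N * (G * N ^ η) := by field_simp
    _ = _ := by rw [h9]; ring

open Classical in
/-- the same for real flats given by their spaces of affine forms. -/
theorem ord_slice (θ η : ℝ) (hθ : 0 < θ) (hη : 0 < η) : ∃ μ0 N0 : ℝ, 2 ≤ μ0 ∧
    ∀ (σ ρ : Type) [Fintype σ] [Fintype ρ] (e : ρ → σ) (t : ℕ)
    (Q : Finset (Submodule ℝ (ℝ × (σ → ℝ)))) (w : Submodule ℝ (ℝ × (σ → ℝ)) → ℕ)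
    (E : Finset (Submodule ℝ (ℝ × (σ → ℝ)) × Submodule ℝ (ℝ × (σ → ℝ)))) (N H : ℝ),
    Function.Injective e → t + Fintype.card ρ = Fintype.card σ →
    (∀ L ∈ Q, Module.finrank ℝ L = t ∧
      ∀ φ ∈ L, (∀ k, k ∉ Set.range e → φ.2 k = 0) → φ = 0) →
    N0 ≤ N → ((∑ L ∈ Q, w L : ℕ) : ℝ) ≤ N → H ≤ N ^ (1 - η) →
    (∀ x ∈ E, x.1 ∈ Q ∧ x.2 ∈ Q ∧ x.1 ≠ x.2 ∧ t ≤ Module.finrank ℝ (x.1 ⊓ x.2 : Submodule ℝ _) + 1 ∧
      w x.1 ≤ w x.2 ∧ μ0 ≤ ((Q.filter fun L => x.1 ⊓ x.2 ≤ L ∧ w x.2 ≤ w L).card : ℝ) ∧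
      ((∑ L ∈ Q.filter (fun L => x.1 ⊓ x.2 ≤ L), w L : ℕ) : ℝ) ≤ H) →
    ((∑ x ∈ E, w x.1 * w x.2 : ℕ) : ℝ) ≤ θ * N ^ 2 := by
  obtain ⟨μ0, N0, hμ, hwb⟩ := ord_beck θ η hθ hη
  refine ⟨μ0, N0, hμ, fun σ ρ _ _ e t Q w E N H he ht hQ hN hT hH hE => ?_⟩
  let r : (ℝ × (σ → ℝ)) →ₗ[ℝ] ({k // k ∉ Set.range e} → ℝ) :=
    LinearMap.funLeft ℝ ℝ Subtype.val ∘ₗ LinearMap.snd ℝ ℝ (σ → ℝ)
  have hU : Module.finrank ℝ (ℝ × (σ → ℝ)) ≤ Module.finrank ℝ (LinearMap.ker r) + t := by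
    have d1 := LinearMap.finrank_range_add_finrank_ker r
    have d2 := Submodule.finrank_le (LinearMap.range r)
    rw [Module.finrank_fintype_fun_eq_card, Fintype.card_subtype_compl] at d2
    have d3 : Fintype.card {k // k ∈ Set.range e} = Fintype.card ρ :=
      Fintype.card_congr (Equiv.ofInjective e he).symm
    rw [d3] at d2
    omega
  obtain ⟨ξ, hinj, hcol⟩ := wb_slice (LinearMap.ker r) t hU Q fun L hL =>
    ⟨(hQ L hL).1, Submodule.disjoint_def.2 fun φ h1 h2 =>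
      (hQ L hL).2 φ h2 fun k hk => congrFun (LinearMap.mem_ker.1 h1) ⟨k, hk⟩⟩
  let b := Module.finBasis ℝ (Module.Dual ℝ (ℝ × (σ → ℝ)))
  let x : Submodule ℝ (ℝ × (σ → ℝ)) →
      (Fin (Module.finrank ℝ (Module.Dual ℝ (ℝ × (σ → ℝ)))) → ℝ) := fun L => b.equivFun (ξ L)
  have hx : Set.InjOn x (Q : Set (Submodule ℝ (ℝ × (σ → ℝ)))) :=
    fun L hL L' hL' h => hinj L hL L' hL' (b.equivFun.injective h)
  have hc : ∀ z ∈ E, ∀ L ∈ Q, (Col (x z.1) (x z.2) (x L) ↔ z.1 ⊓ z.2 ≤ L) := by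
    intro z hz L hL
    obtain ⟨h1, h2, h3, h4, -⟩ := hE z hz
    rw [← hcol z.1 h1 z.2 h2 h3 h4 L hL, wb_col_iff]
    refine exists_congr fun s => ?_
    show b.equivFun (ξ L) = b.equivFun (ξ z.1) + s • (b.equivFun (ξ z.2) - b.equivFun (ξ z.1)) ↔ _
    rw [← map_sub, ← map_smul, ← map_add, b.equivFun.injective.eq_iff]
  have hw : ∀ L ∈ Q, w (Function.invFunOn x (Q : Set (Submodule ℝ (ℝ × (σ → ℝ)))) (x L)) = w L :=
    fun L hL => congrArg w (hx.leftInvOn_invFunOn hL)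
  have hfil : ∀ z ∈ E, (Q.image x).filter (fun y => Col (x z.1) (x z.2) y)
      = (Q.filter fun L => z.1 ⊓ z.2 ≤ L).image x := by
    intro z hz
    rw [Finset.filter_image, Finset.filter_congr (hc z hz)]
  have hsub : ∀ z : Submodule ℝ (ℝ × (σ → ℝ)) × Submodule ℝ (ℝ × (σ → ℝ)),
      Set.InjOn x ((Q.filter fun L => z.1 ⊓ z.2 ≤ L : Finset _) : Set _) :=
    fun z => hx.mono (Finset.coe_subset.2 (Finset.filter_subset _ _))
  have key := hwb _ (Q.image x)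
    (fun y => w (Function.invFunOn x (Q : Set (Submodule ℝ (ℝ × (σ → ℝ)))) y))
    (E.image fun z => (x z.1, x z.2)) N H hN
    (by rwa [Finset.sum_image hx, Finset.sum_congr rfl hw]) hH
    (by
      intro y hy
      obtain ⟨z, hz, rfl⟩ := Finset.mem_image.1 hy
      obtain ⟨h1, h2, h3, -, h4, h5, h6⟩ := hE z hz
      refine ⟨Finset.mem_image_of_mem x h1, Finset.mem_image_of_mem x h2,
        fun h => h3 (hx h1 h2 h), by rwa [hw _ h1, hw _ h2], ?_, ?_⟩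
      · rw [Finset.filter_image, Finset.card_image_of_injOn
          (hx.mono (Finset.coe_subset.2 (Finset.filter_subset _ _))),
          Finset.filter_congr fun L hL => by rw [hc z hz L hL, hw _ h2, hw L hL]]
        exact h5
      · rw [hfil z hz, Finset.sum_image (hsub z),
          Finset.sum_congr rfl fun L hL => hw L (Finset.mem_filter.1 hL).1]
        exact h6)
  rw [Finset.sum_image (by
    intro z hz z' hz' h
    exact Prod.ext (hx (hE z hz).1 (hE z' hz').1 (congrArg Prod.fst h))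
      (hx (hE z hz).2.1 (hE z' hz').2.1 (congrArg Prod.snd h)))] at key
  refine le_trans (le_of_eq ?_) key
  refine congrArg Nat.cast (Finset.sum_congr rfl fun z hz => ?_)
  rw [hw z.1 (hE z hz).1, hw z.2 (hE z hz).2.1]

end

end Vale.Agent.P054
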