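import Vale.Agent.P054.MLin
import Vale.Agent.P054.OBeck

namespace Vale.Agent.P054

open MvPolynomial

noncomputable section

open Module

/-- filters which keep only the branches of points of large weight. -/
theorem exists_filter {σ κ ρ : Type} [Fintype σ] [Fintype ρ] {A α : ℝ} {d : ℕ}
    {P : Finset (σ → ℝ)} (𝓟 : Pcs A α d P κ) {t : ℕ} (htd : t ≤ d) {e : ρ → σ}
    (hc : Compl (𝓟.c t) e) (R : (σ → ℝ) → Prop) (j : κ) :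
    ∃ h : MvPolynomial σ ℂ, (∀ b ∈ P, 𝓟.pc b = j → R b → aeval (cx b) h ≠ 0) ∧
      ∀ 𝔶 ∈ linB (gs (𝓟.g j) t) (𝓟.c t) e, h ∉ 𝔶 →
        ∃ b ∈ P, 𝓟.pc b = j ∧ R b ∧ 𝔶 = Br (Set.range (gs (𝓟.g j) t)) (kr ℂ (cx b)) := by
  classical
  obtain ⟨S, hS, -⟩ := lin_count hc (γ := gs (𝓟.g j) t)
    (fun i => ((gs (𝓟.g j) t i).totalDegree : ℝ) + 1) (fun i => by linarith)
    fun i => le_add_of_nonneg_left (Nat.cast_nonneg _)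
  have key : ∀ 𝔶 : Ideal (MvPolynomial σ ℂ), ∃ f : MvPolynomial σ ℂ,
      (∀ b ∈ P, 𝓟.pc b = j → R b → aeval (cx b) f ≠ 0) ∧
      (𝔶 ∈ linB (gs (𝓟.g j) t) (𝓟.c t) e → f ∉ 𝔶 →
        ∃ b ∈ P, 𝓟.pc b = j ∧ R b ∧ 𝔶 = Br (Set.range (gs (𝓟.g j) t)) (kr ℂ (cx b))) := by
    intro 𝔶
    by_cases h : (𝔶 : Set (MvPolynomial σ ℂ)) ⊆
        ⋃ b ∈ ((P.filter fun b => 𝓟.pc b = j ∧ R b : Finset (σ → ℝ)) : Set (σ → ℝ)), kr ℂ (cx b)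
    · obtain ⟨b, hb, hle⟩ := (Ideal.subset_union_prime (0 : σ → ℝ) 0
        (f := fun b : σ → ℝ => kr ℂ (cx b)) fun b _ _ _ => kr_isPrime _).1 h
      obtain ⟨hb', rfl, hR⟩ := Finset.mem_filter.1 hb
      exact ⟨1, fun _ _ _ _ => by simp, fun h𝔶 _ => ⟨b, hb', rfl, hR,
        eq_Br_of_ind hc (kr_isPrime _) (dn_kr _) h𝔶.1 h𝔶.2.1 hle (𝓟.jac hb' htd) _ rfl h𝔶.2.2.2⟩⟩
    · obtain ⟨f, hf, hf'⟩ := Set.not_subset.1 h
      refine ⟨f, fun b hb h1 h2 h3 => hf' ?_, fun _ h1 => (h1 hf).elim⟩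
      exact Set.mem_biUnion (Finset.mem_coe.2 (Finset.mem_filter.2 ⟨hb, h1, h2⟩)) h3
  choose F hF hF' using key
  refine ⟨∏ 𝔶 ∈ S, F 𝔶, fun b hb h1 h2 => ?_, fun 𝔶 h𝔶 h => hF' 𝔶 h𝔶 fun h' => h ?_⟩
  · rw [map_prod]
    exact Finset.prod_ne_zero_iff.2 fun 𝔶 _ => hF 𝔶 b hb h1 h2
  · exact 𝔶.mem_of_dvd (Finset.dvd_prod_of_mem F ((hS 𝔶).2 h𝔶)) h'

theorem mord_hyp {σ κ ρ : Type} [Fintype σ] [Fintype ρ] {A α H : ℝ} {d : ℕ}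
    {P : Finset (σ → ℝ)} (𝓟 : Pcs A α d P κ) {t : ℕ} (htd : t ≤ d) {e : ρ → σ}
    (hc : Compl (𝓟.c t) e) (hH : HypB P H) (hH0 : 0 ≤ H) {𝓐 : Submodule ℝ (ℝ × (σ → ℝ))}
    (h0 : 𝓐 ≠ ⊥) (S : Finset (σ → ℝ)) (hS : ∀ a ∈ S, a ∈ P ∧ 𝓐 ≤ 𝓟.Lf t a) :
    (S.card : ℝ) ≤ H := by
  have hBr := fun a (ha : a ∈ P) => lin_Br hc (γ := gs (𝓟.g (𝓟.pc a)) t) (a := cx a)
    (fun i => 𝓟.zero ha (i.2.trans_le htd)) (𝓟.jac ha htd)
  obtain ⟨φ, hφ, hφ0⟩ := Submodule.exists_mem_ne_zero_of_ne_bot h0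
  rcases S.eq_empty_or_nonempty with h | ⟨a, ha⟩
  · rwa [h, Finset.card_empty, Nat.cast_zero]
  · refine hH φ.2 (-φ.1) _ (fun h => hφ0 (lin_trans hc.2.1 (hBr a (hS a ha).1).2.2.2.2 φ
      ((hS a ha).2 hφ) fun k _ => congrFun h k)) (fun b hb => (hS b hb).1) fun b hb => ?_
    have h3 := (lin_aeval _ φ).symm.trans (mem_kr.1 ((hBr b (hS b hb).1).1 ((hS b hb).2 hφ)))
    simp only [Algebra.algebraMap_self, RingHom.id_apply] at h3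
    have h4 : φ.1 + ∑ k, φ.2 k * b k = 0 := by exact_mod_cast h3
    linarith

theorem mord_num {θ H y n : ℝ} {d : ℕ} (hd : 3 ≤ d) (hθ : 0 < θ) (hH : 0 ≤ H) (hn : 0 ≤ n)
    (hy : 1 ≤ y) (hy' : 6 / θ ≤ y) (h : H * y ^ (6 * d) ≤ n) : 2 * (n * H) ≤ θ / 3 * n ^ 2 := by
  have h1 : y ≤ y ^ (6 * d) := le_self_pow₀ hy (by omega)
  have h2 : H * (6 / θ) ≤ n := (mul_le_mul_of_nonneg_left (hy'.trans h1) hH).trans h
  rw [← mul_div_assoc, div_le_iff₀ hθ] at h2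
  nlinarith [mul_le_mul_of_nonneg_left h2 hn]

/-- most ordered pairs have boundedly many generic roots on branches of larger weight. -/
theorem lin_ord (d : ℕ) (hd : 3 ≤ d) (A θ η : ℝ) (hA : 1 ≤ A) (hθ : 0 < θ) (hη : 0 < η) :
    ∃ μ0 y0 N0 : ℝ, 2 ≤ μ0 ∧ ∀ (α : ℝ) (σ κ : Type) [Fintype σ] [Fintype κ]
    (P : Finset (σ → ℝ)) (𝓟 : Pcs A α d P κ) (H y : ℝ) (t : ℕ), Fintype.card σ = d → y0 ≤ y →
    N0 ≤ P.card → (Fintype.card κ : ℝ) ≤ y → 𝓟.Cmpr y → HypB P H → H * y ^ (6 * d) ≤ P.card →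
    H ≤ (P.card : ℝ) ^ (1 - η) → 2 ≤ t → t ≤ d →
    ∃ (ω : (σ → ℝ) → ℕ) (h : ℕ → κ → MvPolynomial σ ℂ) (Bad : Finset ((σ → ℝ) × (σ → ℝ))),
      (Bad.card : ℝ) ≤ θ * (P.card : ℝ) ^ 2 ∧
      (∀ w, ∀ b ∈ P, w ≤ ω b → aeval (cx b) (h w (𝓟.pc b)) ≠ 0) ∧
      ∀ a ∈ P, ∀ a' ∈ P, (a, a') ∉ Bad → ω a ≤ ω a' →
        GenM (𝓟.g (𝓟.pc a')) (𝓟.g (𝓟.pc a)) Finset.univ 𝓟.g (hJ (h (ω a')) 𝓟.J) t t μ0
          (cx a') (cx a) := by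
  classical
  obtain ⟨y1, hcomb⟩ := pcs_comb d hd A (θ / 3) hA (by positivity)
  obtain ⟨μ0, N1, hμ, hsl⟩ := ord_slice (θ / 3) η (by positivity) hη
  refine ⟨μ0, max y1 (max 1 (6 / θ)), max N1 1, hμ, ?_⟩
  intro α σ κ _ _ P 𝓟 H y t hσ hy hN hκ hcm hH hHy hHη ht htd
  obtain ⟨a0, ha0⟩ : P.Nonempty :=
    Finset.card_pos.1 (Nat.cast_pos.1 (one_pos.trans_le ((le_max_right _ _).trans hN)))
  have hH0 : 0 ≤ H := by
    obtain ⟨k⟩ : Nonempty σ := Fintype.card_pos_iff.1 (by omega)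
    simpa using hH (fun _ => 1) 0 ∅ (fun h => one_ne_zero (congrFun h k)) (Finset.empty_subset _)
      (by simp)
  obtain ⟨ρ, _, e, hc⟩ : ∃ (ρ : Type) (_ : Fintype ρ) (e : ρ → σ), Compl (𝓟.c t) e :=
    ⟨_, inferInstance, _, compl_free (inj_of_jac (g := gs (𝓟.g (𝓟.pc a0)) t) (c := 𝓟.c t)
      fun h => 𝓟.jac ha0 htd ((congrArg (aeval (cx a0)) h).trans (map_zero _)))⟩
  have hcard := hc.card_add
  rw [Fintype.card_fin] at hcard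
  obtain ⟨w, hw⟩ : ∃ w : Submodule ℝ (ℝ × (σ → ℝ)) → ℕ,
    ∀ L, w L = (P.filter fun b => 𝓟.Lf t b = L).card := ⟨_, fun _ => rfl⟩
  choose h hh hh' using fun (v : ℕ) (j : κ) =>
    exists_filter 𝓟 htd hc (fun b => v ≤ w (𝓟.Lf t b)) j
  obtain ⟨B, hB, hB'⟩ := pcs_nt 𝓟 (by omega) hH
  have hBr := fun a (ha : a ∈ P) => (lin_Br hc (γ := gs (𝓟.g (𝓟.pc a)) t) (a := cx a)
    (fun i => 𝓟.zero ha (i.2.trans_le htd)) (𝓟.jac ha htd)).2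
  set E := (P ×ˢ P).filter fun x => (x.2, x.1) ∉ B ∧ w (𝓟.Lf t x.1) ≤ w (𝓟.Lf t x.2) ∧
    ¬ GenM (𝓟.g (𝓟.pc x.2)) (𝓟.g (𝓟.pc x.1)) Finset.univ 𝓟.g (hJ (h (w (𝓟.Lf t x.2))) 𝓟.J) t t μ0
      (cx x.2) (cx x.1) with hE
  have hEP : ∀ x ∈ E, x.1 ∈ P ∧ x.2 ∈ P := fun x hx =>
    Finset.mem_product.1 (Finset.mem_filter.1 hx).1
  have hpair := fun x (hx : x ∈ E) => inf_comm (𝓟.Lf t x.2) (𝓟.Lf t x.1) ▸
    lin_pairM 𝓟 ht htd hc (hEP x hx).2 (hEP x hx).1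
    (hB' _ (hEP x hx).2 _ (hEP x hx).1 (Finset.mem_filter.1 hx).2.1) (one_le_two.trans hμ)
    (Finset.mem_filter.1 hx).2.2.2
  set p := fun x : (σ → ℝ) × (σ → ℝ) => ∃ j, ∃ 𝔶 ∈ linB (gs (𝓟.g j) t) (𝓟.c t) e,
    𝓟.Lf t x.1 ⊓ 𝓟.Lf t x.2 = LinR 𝔶 with hp
  have b1 : ((E.filter p).card : ℝ) ≤ θ / 3 * (P.card : ℝ) ^ 2 := by
    refine hcomb α σ κ ρ P 𝓟 H y t e _ hσ ((le_max_left _ _).trans hy) hκ hcm hH hHy ht htd hc
      fun x hx => ?_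
    obtain ⟨hx, hpx⟩ := Finset.mem_filter.1 hx
    refine ⟨(hEP x hx).1, (hEP x hx).2, (hpair x hx).1, ℕ, Finset.range (⌊y ^ (4 * d)⌋₊ + 1),
      fun _ => 𝓟.Lf t x.1 ⊓ 𝓟.Lf t x.2, ?_, fun _ _ => ⟨hpx, le_rfl⟩, fun _ _ _ _ _ => inf_le_left⟩
    rw [Finset.card_range, Nat.cast_add, Nat.cast_one]
    exact Nat.lt_floor_add_one _
  have htr : ∀ j, ∀ 𝔶 ∈ linB (gs (𝓟.g j) t) (𝓟.c t) e, ∀ φ ∈ LinR 𝔶,
      (∀ k, k ∉ Set.range e → φ.2 k = 0) → φ = 0 := fun j 𝔶 h𝔶 => lin_trans hc.2.1 h𝔶.2.2.2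
  have hrk : ∀ x ∈ E.filter fun x => ¬ p x, ∀ j, ∀ 𝔶 ∈ linB (gs (𝓟.g j) t) (𝓟.c t) e,
      𝓟.Lf t x.1 ⊓ 𝓟.Lf t x.2 ≤ LinR 𝔶 →
      ¬ LinR 𝔶 ≤ 𝓟.Lf t x.1 ⊓ 𝓟.Lf t x.2 ∧ finrank ℝ (LinR 𝔶) = t := by
    intro x hx j 𝔶 h𝔶 hle
    obtain ⟨hx, hpx⟩ := Finset.mem_filter.1 hx
    have h1 := hle.lt_of_ne fun h => hpx ⟨j, 𝔶, h𝔶, h⟩
    have h2 := Submodule.finrank_lt_finrank_of_lt h1
    have h3 := (lin_basis hc (htr j 𝔶 h𝔶)).1.trans_eq (Fintype.card_fin t)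
    have h4 := (hpair x hx).1
    exact ⟨h1.not_ge, by omega⟩
  have b2 : ((E.filter fun x => ¬ p x).card : ℝ) ≤ θ / 3 * (P.card : ℝ) ^ 2 := by
    set Q := (P.image (𝓟.Lf t)).filter fun L : Submodule ℝ (ℝ × (σ → ℝ)) => finrank ℝ L = t
      with hQ
    have hsum : ∀ Q' : Finset (Submodule ℝ (ℝ × (σ → ℝ))), ∑ L ∈ Q', w L =
        (P.filter fun a => 𝓟.Lf t a ∈ Q').card := fun Q' => by
      simp only [hw]
      exact Finset.sum_card_fiberwise_eq_card_filter _ _ _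
    refine le_trans ?_ (hsl σ ρ e t Q w
      ((E.filter fun x => ¬ p x).image fun x => (𝓟.Lf t x.1, 𝓟.Lf t x.2)) P.card H hc.2.1 hcard
      (fun L hL => ?_) ((le_max_left _ _).trans hN) ?_ hHη fun z hz => ?_)
    · refine Nat.cast_le.2 ((lin_cover _ _
        (fun z : Submodule ℝ (ℝ × (σ → ℝ)) × Submodule ℝ (ℝ × (σ → ℝ)) =>
          P.filter fun a => 𝓟.Lf t a = z.1)
        (fun z => P.filter fun a => 𝓟.Lf t a = z.2) fun x hx => ?_).trans_eq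
        (Finset.sum_congr rfl fun z _ => congrArg₂ _ (hw _).symm (hw _).symm))
      have hx' := hEP x (Finset.mem_filter.1 hx).1
      exact ⟨_, Finset.mem_image_of_mem _ hx, Finset.mem_filter.2 ⟨hx'.1, rfl⟩,
        Finset.mem_filter.2 ⟨hx'.2, rfl⟩⟩
    · obtain ⟨hL, hr⟩ := Finset.mem_filter.1 hL
      obtain ⟨a, ha, rfl⟩ := Finset.mem_image.1 hL
      exact ⟨hr, htr _ _ (hBr a ha)⟩
    · rw [hsum, Nat.cast_le]
      exact Finset.card_filter_le _ _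
    · obtain ⟨x, hx, rfl⟩ := Finset.mem_image.1 hz
      have hx' := (Finset.mem_filter.1 hx).1
      obtain ⟨p1, p2⟩ := hEP x hx'
      obtain ⟨p3, Ω, T, M, hT, hM, hM'⟩ := hpair x hx'
      have q1 := hrk x hx _ _ (hBr _ p1) inf_le_left
      have q2 := hrk x hx _ _ (hBr _ p2) inf_le_right
      refine ⟨Finset.mem_filter.2 ⟨Finset.mem_image_of_mem _ p1, q1.2⟩,
        Finset.mem_filter.2 ⟨Finset.mem_image_of_mem _ p2, q2.2⟩,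
        fun h => q1.1 (le_inf le_rfl (le_of_eq h)), p3, (Finset.mem_filter.1 hx').2.2.1,
        hT.le.trans (Nat.cast_le.2 (Finset.card_le_card_of_injOn (fun s => LinR (M s))
          (fun s hs => ?_) fun s hs s' hs' h' => by_contra fun hss => ?_)), ?_⟩
      · obtain ⟨⟨j, k1, k2⟩, k3⟩ := hM s hs
        have k4 := (hrk x hx j _ k1 k3).2
        obtain ⟨b, hb, rfl, k5, k6⟩ := hh' _ j _ k1 k2
        have k7 : LinR (M s) = 𝓟.Lf t b := congrArg LinR k6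
        refine Finset.mem_coe.2 (Finset.mem_filter.2 ⟨Finset.mem_filter.2 ⟨?_, k4⟩, k3, ?_⟩)
        · exact Finset.mem_image.2 ⟨b, hb, k7.symm⟩
        · exact k5.trans_eq (congrArg w k7.symm)
      · obtain ⟨⟨j, k1, -⟩, k3⟩ := hM s hs
        exact (hrk x hx j _ k1 k3).1 ((le_inf le_rfl (le_of_eq h')).trans (hM' s hs s' hs' hss))
      · rw [hsum]
        refine mord_hyp 𝓟 htd hc hH hH0 (𝓐 := 𝓟.Lf t x.1 ⊓ 𝓟.Lf t x.2) (fun h0 => ?_) _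
          fun a ha => ⟨(Finset.mem_filter.1 ha).1,
            (Finset.mem_filter.1 (Finset.mem_filter.1 ha).2).2⟩
        rw [h0, finrank_bot] at p3
        omega
  refine ⟨fun a => w (𝓟.Lf t a), h, B.image Prod.swap ∪ E, ?_,
    fun v b hb hv => hh v _ b hb rfl hv, fun a ha a' ha' hx hle => by_contra fun hg => hx ?_⟩
  · have h1 : (B.image Prod.swap ∪ E).card ≤
        B.card + ((E.filter p).card + (E.filter fun x => ¬ p x).card) := by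
      rw [Finset.card_filter_add_card_filter_not]
      exact (Finset.card_union_le _ _).trans (Nat.add_le_add_right Finset.card_image_le _)
    have h2 := mord_num hd hθ hH0 (Nat.cast_nonneg P.card)
      ((le_max_left _ _).trans ((le_max_right _ _).trans hy))
      ((le_max_right _ _).trans ((le_max_right _ _).trans hy)) hHy
    have h3 : (((B.image Prod.swap ∪ E).card : ℕ) : ℝ) ≤
        B.card + ((E.filter p).card + (E.filter fun x => ¬ p x).card) := by exact_mod_cast h1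
    linarith
  · by_cases hb : (a', a) ∈ B
    · exact Finset.mem_union_left _ (Finset.mem_image.2 ⟨_, hb, rfl⟩)
    · exact Finset.mem_union_right _
        (Finset.mem_filter.2 ⟨Finset.mem_product.2 ⟨ha, ha'⟩, hb, hle, hg⟩)

end

end Vale.Agent.P054
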