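import Vale.Agent.P054.MRoot
import Vale.Agent.P054.LemA
import Vale.Agent.P054.LinearAux2

namespace Vale.Agent.P054

open MvPolynomial

noncomputable section

theorem mown_wd {σ : Type} [Fintype σ] {F : MvPolynomial σ ℂ} {a : σ → ℂ} {m : ℕ}
    (h : ¬ Ord F a m) (w : List σ) : ∀ i, i + w.length ≤ m →
    ini (wd (Empty.elim : Empty → MvPolynomial σ ℂ) Empty.elim w F) a i = 0 := by
  induction w with
  | nil => exact fun i hi => by_contra fun h' => h ⟨i, hi, h'⟩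
  | cons k w ih =>
    intro i hi
    have e : wd (Empty.elim : Empty → MvPolynomial σ ℂ) Empty.elim (k :: w) F =
        pderiv k (wd (Empty.elim : Empty → MvPolynomial σ ℂ) Empty.elim w F) := by
      refine (Xv_apply _ _ k _).trans ?_
      simp [Jac, wd]
    rw [List.length_cons] at hi
    rw [e, ← pderiv_ini, ih (i + 1) (by omega), map_zero]

/-- few points of a cell are zeros of high order. -/
theorem ord_count (d : ℕ) (hd : 1 ≤ d) (A α θ : ℝ) (hA : 1 ≤ A) (hα : 0 < α) (hθ : 0 < θ) :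
    ∃ L1 : ℝ, 1 ≤ L1 ∧ ∀ (σ : Type) [Fintype σ] (P : Finset (σ → ℝ))
    (D : Cel A α d (fun a : σ → ℝ => kr ℂ (cx a)) P) (F : MvPolynomial σ ℂ) (m : ℕ) (Δ : ℝ)
    (S : Finset (σ → ℝ)), Fintype.card σ = d → F ≠ 0 → (F.totalDegree : ℝ) ≤ Δ → 1 ≤ Δ →
    L1 * Δ ≤ (m + 1) * D.δ 0 → S ⊆ P → (∀ a ∈ S, ¬ Ord F (cx a) m) →
    (S.card : ℝ) ≤ θ * P.card := by
  obtain ⟨κ, hκ, -, hs⟩ := cel_small A α θ hA hα hθ
  obtain ⟨j, rfl⟩ : ∃ j, d = j + 1 := ⟨d - 1, by omega⟩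
  set c0 : ℝ := ((j + 1).factorial : ℝ) * 2 ^ (2 * j + 1) * 2 ^ (j + 1) with hc0
  refine ⟨c0 / κ + 1, le_add_of_nonneg_left (by positivity),
    fun σ _ P D F m Δ S hσ hF hΔ h1 hL hS hO => ?_⟩
  have h := lemA (ι := Empty) S (fun a => kr ℂ (cx a)) (g := Empty.elim) (c := Empty.elim)
    (e := id) ⟨fun x => x.elim, Function.injective_id, fun k => by simp⟩
    (fun _ _ => kr_isPrime _) (fun _ _ => dn_kr _) (fun _ _ i => i.elim)
    (fun _ _ => by simp [Jac, mem_kr]) hσ (φ := 2 ^ (j + 1)) (hσ ▸ hb_card _) (f := F)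
    (fun _ _ => by rw [Set.range_eq_empty, Br_empty (kr_isPrime _)]; exact hF) hΔ h1
    (T := m + 1) (by omega) fun a ha w hw => by
      have := mown_wd (hO a ha) w 0 (by omega)
      rwa [ini_zero, C_eq_zero] at this
  refine hs ℂ σ _ _ _ P D 1 hd S hS _ ?_ (by rw [hσ]; exact h)
  rw [fp, Finset.prod_range_one, div_le_iff₀ (by positivity), ← hc0]
  push_cast
  have h2 : c0 / κ * Δ ≤ (m + 1) * D.δ 0 := by nlinarith
  rw [div_mul_eq_mul_div, div_le_iff₀ hκ] at h2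
  linarith

/-- few points of a cell lie on a hypersurface of small degree over an extension field. -/
theorem hyp_count (d : ℕ) (hd : 1 ≤ d) (A α θ : ℝ) (hA : 1 ≤ A) (hα : 0 < α) (hθ : 0 < θ) :
    ∃ L1 : ℝ, 1 ≤ L1 ∧ ∀ (σ : Type) [Fintype σ] (P : Finset (σ → ℝ))
    (D : Cel A α d (fun a : σ → ℝ => kr ℂ (cx a)) P) (F0 : Type) [Field F0] [Algebra ℂ F0]
    (G : MvPolynomial σ F0) (m : ℕ) (S : Finset (σ → ℝ)), Fintype.card σ = d → G ≠ 0 →
    G.totalDegree ≤ m → L1 * m ≤ D.δ 0 → S ⊆ P → (∀ a ∈ S, aeval (am F0 (cx a)) G = 0) →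
    (S.card : ℝ) ≤ θ * P.card := by
  obtain ⟨L1, hL1, hs⟩ := ord_count d hd A α θ hA hα hθ
  refine ⟨L1, hL1, fun σ _ P D F0 _ _ G m S hσ hG hm hL hS hz => ?_⟩
  rcases S.eq_empty_or_nonempty with rfl | ⟨a, ha⟩
  · simp only [Finset.card_empty, Nat.cast_zero]
    positivity
  obtain ⟨u, hu⟩ := ne_zero_iff.1 hG
  obtain ⟨φ, hφ⟩ := not_forall.1 (mt (Module.forall_dual_apply_eq_zero_iff ℂ _).1 hu)
  have h0 : brbT φ G ≠ 0 := ne_zero_iff.2 ⟨u, by rwa [brb_coeff]⟩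
  have h1 : (brbT φ G).totalDegree ≤ m := by
    refine Finset.sup_le fun v hv => (le_totalDegree (mem_support_iff.2 fun h => ?_)).trans hm
    rw [mem_support_iff, brb_coeff, h, map_zero] at hv
    exact hv rfl
  have h2 : ∀ b ∈ S, aeval (cx b) (brbT φ G) = 0 := fun b hb => by
    rw [brb_aeval, hz b hb, map_zero]
  have h3 : 1 ≤ m := by
    refine le_trans (Nat.one_le_iff_ne_zero.2 fun h => h0 ?_) h1
    have h4 := h2 a ha
    rw [totalDegree_eq_zero_iff_eq_C.1 h] at h4 ⊢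
    rw [aeval_C] at h4
    exact C_eq_zero.2 h4
  refine hs σ P D (brbT φ G) 0 m S hσ h0 (by exact_mod_cast h1) (by exact_mod_cast h3)
    (by simpa using hL) hS fun b hb ⟨k, hk, h⟩ => h ?_
  rw [Nat.le_zero.1 hk, ini_zero, h2 b hb, map_zero]

/-- few points lie on a branch of some chain on which their own first equation is not zero. -/
theorem own_count (d : ℕ) (A θ α : ℝ) (hA : 1 ≤ A) (hθ : 0 < θ) (hα : 0 < α) : ∃ L : ℝ, 1 ≤ L ∧
    ∀ (σ κ ρ : Type) [Fintype σ] [Fintype κ] [Fintype ρ] (P : Finset (σ → ℝ))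
    (𝓟 : Pcs A α d P κ) (y : ℝ) (t : ℕ) (e : ρ → σ), Fintype.card σ = d → 1 ≤ y →
    (Fintype.card κ : ℝ) ≤ y → 𝓟.Cmpr y → t < d → Compl (𝓟.c t) e →
    (∀ i, L * y ^ (d + 1) * 𝓟.δ i 0 ≤ 𝓟.δ i t) →
    ∃ Bad : Finset (σ → ℝ), (Bad.card : ℝ) ≤ θ * P.card ∧ ∀ a ∈ P, a ∉ Bad →
      ∀ j, ∀ 𝔶 ∈ linB (gs (𝓟.g j) t) (𝓟.c t) e, 𝔶 ≤ kr ℂ (cx a) → 𝓟.g (𝓟.pc a) 0 ∈ 𝔶 := by
  classical
  obtain ⟨k0, hk0, hk1, hs⟩ := cel_small A α θ hA hα hθ
  have hB1 : (1 : ℝ) ≤ 2 ^ d * A := one_le_mul_of_one_le_of_one_le (one_le_pow₀ one_le_two) hA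
  refine ⟨2 ^ d * 2 ^ d * (2 ^ d * A) ^ d * A / k0, ?_,
    fun σ κ ρ _ _ _ P 𝓟 y t e hσ hy hκ hc ht he hL => ?_⟩
  · rw [one_le_div hk0]
    refine hk1.trans ?_
    have h1 : (1 : ℝ) ≤ 2 ^ d := one_le_pow₀ one_le_two
    exact one_le_mul_of_one_le_of_one_le (one_le_mul_of_one_le_of_one_le
      (one_le_mul_of_one_le_of_one_le h1 h1) (one_le_pow₀ hB1)) hA
  refine ⟨P.filter fun a => ∃ z : κ × Ideal (MvPolynomial σ ℂ),
    z.2 ∈ linB (gs (𝓟.g z.1) t) (𝓟.c t) e ∧ z.2 ≤ kr ℂ (cx a) ∧ 𝓟.g (𝓟.pc a) 0 ∉ z.2, ?_,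
    fun a ha hb j 𝔶 h1 h2 => by_contra fun h3 => hb (Finset.mem_filter.2 ⟨ha, (j, 𝔶), h1, h2, h3⟩)⟩
  rw [Finset.card_eq_sum_card_fiberwise (f := 𝓟.pc) (t := Finset.univ) (by simp),
    Finset.card_eq_sum_card_fiberwise (s := P) (f := 𝓟.pc) (t := Finset.univ) (by simp)]
  push_cast
  rw [Finset.mul_sum]
  refine Finset.sum_le_sum fun i _ => ?_
  have hQ : (P.filter fun a => 𝓟.pc a = i) = 𝓟.Q i := by
    ext a; rw [𝓟.mem, Finset.mem_filter]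
  rw [hQ]
  set S := Finset.filter (fun a => 𝓟.pc a = i) (P.filter fun a =>
    ∃ z : κ × Ideal (MvPolynomial σ ℂ), z.2 ∈ linB (gs (𝓟.g z.1) t) (𝓟.c t) e ∧
      z.2 ≤ kr ℂ (cx a) ∧ 𝓟.g (𝓟.pc a) 0 ∉ z.2) with hS
  have hSQ : S ⊆ 𝓟.Q i := fun a ha => (𝓟.mem i a).2
    ⟨(Finset.mem_filter.1 (Finset.mem_filter.1 ha).1).1, (Finset.mem_filter.1 ha).2⟩
  have hex : ∀ a, ∃ z : κ × Ideal (MvPolynomial σ ℂ), a ∈ S →
      z.2 ∈ linB (gs (𝓟.g z.1) t) (𝓟.c t) e ∧ z.2 ≤ kr ℂ (cx a) ∧ 𝓟.g i 0 ∉ z.2 := fun a => by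
    by_cases ha : a ∈ S
    · obtain ⟨z, hz⟩ := (Finset.mem_filter.1 (Finset.mem_filter.1 ha).1).2
      exact ⟨z, fun _ => (Finset.mem_filter.1 ha).2 ▸ hz⟩
    · exact ⟨(i, ⊥), fun h => (ha h).elim⟩
  choose z hz using hex
  have hδ : ∀ s, 1 ≤ 𝓟.δ i s := (𝓟.D i).one_le
  have h1 : ∀ j ∈ (Finset.univ : Finset κ), HB (⨅ a ∈ S.filter fun a => (z a).1 = j, (z a).2)
      (2 ^ d * ((2 ^ d * A * y) ^ t * fp (𝓟.δ i) t)) (d - t) := fun j _ => by
    have hm : ∀ a ∈ S.filter fun a => (z a).1 = j, (z a).2 ∈ linB (gs (𝓟.g j) t) (𝓟.c t) e :=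
      fun a ha => (Finset.mem_filter.1 ha).2 ▸ (hz a (Finset.mem_filter.1 ha).1).1
    have h := t1_gen _ (fun a => (z a).2) (gs (𝓟.g j) t) (fun s => A * (y * 𝓟.δ i s))
      (fun a ha => (hm a ha).1) (fun a ha => dn_of_isAlgClosed (hm a ha).1)
      (fun a ha => (hm a ha).2.1) (fun a ha => sm_of_jac (hm a ha).1 (hm a ha).2.2.1)
      (fun s => ((𝓟.D j).deg s (s.2.trans ht)).trans
        (mul_le_mul_of_nonneg_left (hc j i s (s.2.trans ht)) (by linarith)))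
      fun s => one_le_mul_of_one_le_of_one_le hA (one_le_mul_of_one_le_of_one_le hy (hδ s))
    rw [hσ, Fintype.card_fin] at h
    refine h.mono (iInf₂_mono fun a ha => Br_le (hm a ha).1
      (fun f ⟨s, hs⟩ => hs ▸ (hm a ha).2.1 s) le_rfl) (le_of_eq ?_)
    rw [fp, ← Fin.prod_univ_eq_prod_range, ← Fin.prod_const t, ← Finset.prod_mul_distrib]
    congr 1
    exact Finset.prod_congr rfl fun s _ => by ring
  have h2 : HB (⨅ a ∈ S, (z a).2) (y * (2 ^ d * ((2 ^ d * A * y) ^ t * fp (𝓟.δ i) t)))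
      (d - (t + 1) + 1) := by
    rw [show d - (t + 1) + 1 = d - t by omega]
    refine (hb_iInf _ _ _ h1).mono (le_iInf₂ fun a ha => iInf₂_le_of_le (z a).1 (Finset.mem_univ _)
      (iInf₂_le_of_le a (Finset.mem_filter.2 ⟨ha, rfl⟩) le_rfl)) ?_
    rw [Finset.sum_const, nsmul_eq_mul]
    exact mul_le_mul_of_nonneg_right hκ (h1 i (Finset.mem_univ _)).nonneg
  have h3 := hb_cut_family S _ (fun a => kr ℂ (cx a)) (fun a ha => (hz a ha).1.1)
    (fun a ha => (hz a ha).2.1) (G := 𝓟.g i 0) (fun a ha => (𝓟.D i).mem 0 (by omega) a (hSQ ha))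
    (fun a ha => (hz a ha).2.2) ((𝓟.D i).deg 0 (by omega))
    (one_le_mul_of_one_le_of_one_le hA (hδ 0)) h2
  refine hs ℂ σ _ _ _ _ (𝓟.D i) (t + 1) ht S hSQ _ ?_ (by rw [hσ]; exact h3)
  have h4 := hL i
  rw [div_mul_eq_mul_div, div_mul_eq_mul_div, div_le_iff₀ hk0] at h4
  have h5 : 0 ≤ fp (𝓟.δ i) t := zero_le_one.trans (cel_one_le_fp hδ t)
  have h6 : 0 ≤ 𝓟.δ i 0 := zero_le_one.trans (hδ 0)
  change _ * (_ * (_ * (_ * fp (𝓟.δ i) t))) * (A * 𝓟.δ i 0) ≤ k0 * fp (𝓟.δ i) (t + 1)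
  rw [fp, fp, Finset.prod_range_succ, ← fp]
  calc _ = (2 ^ (d - (t + 1) + 1) * 2 ^ d * (2 ^ d * A) ^ t * A * y ^ (t + 1) * 𝓟.δ i 0) *
        fp (𝓟.δ i) t := by rw [mul_pow (2 ^ d * A) y]; ring
    _ ≤ (2 ^ d * 2 ^ d * (2 ^ d * A) ^ d * A * y ^ (d + 1) * 𝓟.δ i 0) * fp (𝓟.δ i) t := by
        gcongr <;> first | omega | norm_num
    _ ≤ 𝓟.δ i t * k0 * fp (𝓟.δ i) t := mul_le_mul_of_nonneg_right h4 h5
    _ = _ := by ring

/-- a polynomial of order one at `a` vanishing on all branches of level `t`. -/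
theorem exists_killer {σ κ ρ : Type} [Fintype σ] [Fintype κ] [Fintype ρ] {A α : ℝ} {d : ℕ}
    {P : Finset (σ → ℝ)} (𝓟 : Pcs A α d P κ) {t : ℕ} (hd : 1 ≤ d) (htd : t ≤ d) {e : ρ → σ}
    (hc : Compl (𝓟.c t) e) {a : σ → ℝ} (ha : a ∈ P)
    (h : ∀ j, ∀ 𝔶 ∈ linB (gs (𝓟.g j) t) (𝓟.c t) e, 𝔶 ≤ kr ℂ (cx a) → 𝓟.g (𝓟.pc a) 0 ∈ 𝔶) :
    ∃ F : MvPolynomial σ ℂ, (∀ i, i < 1 → ini F (cx a) i = 0) ∧ ∀ b ∈ P,
      F ∈ Br (Set.range (gs (𝓟.g (𝓟.pc b)) t)) (kr ℂ (cx b)) ∧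
      (dg (𝓟.g (𝓟.pc a) 0) (cx a) (fun k => cx b k - cx a k) ≠ 0 →
        aeval (fun k => cx b k - cx a k) (ini F (cx a) 1) ≠ 0) := by
  classical
  have h1 : ∀ j, ∃ H : MvPolynomial σ ℂ, aeval (cx a) H ≠ 0 ∧
      ∀ 𝔶 ∈ linB (gs (𝓟.g j) t) (𝓟.c t) e, ¬ 𝔶 ≤ kr ℂ (cx a) → H ∈ 𝔶 := fun j => by
    obtain ⟨S, hS, -⟩ := lin_count (γ := gs (𝓟.g j) t) hc
      (fun i => (gs (𝓟.g j) t i).totalDegree + 1) (fun i => by linarith)
      fun i => le_add_of_nonneg_left (by positivity)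
    have h2 : ∀ 𝔶 : Ideal (MvPolynomial σ ℂ), ∃ f, aeval (cx a) f ≠ 0 ∧
        (¬ 𝔶 ≤ kr ℂ (cx a) → f ∈ 𝔶) := fun 𝔶 => by
      by_cases h3 : 𝔶 ≤ kr ℂ (cx a)
      · exact ⟨1, by simp, fun h => (h h3).elim⟩
      · obtain ⟨f, h4, h5⟩ := SetLike.not_le_iff_exists.1 h3
        exact ⟨f, h5, fun _ => h4⟩
    choose f hf hf' using h2
    refine ⟨∏ 𝔶 ∈ S, f 𝔶, ?_, fun 𝔶 h3 h4 => Ideal.mem_of_dvd _
      (Finset.dvd_prod_of_mem f ((hS 𝔶).2 h3)) (hf' 𝔶 h4)⟩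
    rw [map_prod]
    exact Finset.prod_ne_zero_iff.2 fun 𝔶 _ => hf 𝔶
  choose H hH hH' using h1
  have h0 := 𝓟.zero ha hd
  have h2 : aeval (cx a) (∏ j, H j) ≠ 0 := by
    rw [map_prod]
    exact Finset.prod_ne_zero_iff.2 fun j _ => hH j
  refine ⟨𝓟.g (𝓟.pc a) 0 * ∏ j, H j, fun i hi => ?_, fun b hb => ⟨?_, fun hdg => ?_⟩⟩
  · rw [Nat.lt_one_iff.1 hi, ini_zero, map_mul, h0, zero_mul, map_zero]
  · have h3 := (lin_Br (γ := gs (𝓟.g (𝓟.pc b)) t) hc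
      (fun i => 𝓟.zero hb (i.2.trans_le htd)) (𝓟.jac hb htd)).2
    by_cases h4 : Br (Set.range (gs (𝓟.g (𝓟.pc b)) t)) (kr ℂ (cx b)) ≤ kr ℂ (cx a)
    · exact Ideal.mul_mem_right _ _ (h _ _ h3 h4)
    · exact Ideal.mul_mem_left _ _ (Ideal.mem_of_dvd _
        (Finset.dvd_prod_of_mem H (Finset.mem_univ _)) (hH' _ _ h3 h4))
  · rw [aeval_ini_one]
    refine fun h3 => mul_ne_zero h2 hdg (Eq.trans ?_ h3)
    simp only [dg, Derivation.leibniz, smul_eq_mul, map_add, map_mul, h0, zero_mul, zero_add,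
      Finset.mul_sum, mul_assoc]

/-- polynomials built from distances which cut out the points. -/
theorem exists_distpoly {σ : Type} [Fintype σ] (P : Finset (σ → ℝ)) {H : ℝ} (hH : HypB P H)
    (hP : H < P.card) (hne : P.Nonempty) :
    ∃ Dp : Fin (Fintype.card σ + 1) → MvPolynomial σ ℂ,
      (∀ i, ((Dp i).totalDegree : ℝ) ≤ 2 * (nd P + 1)) ∧ ∀ b ∈ P, (∀ i, aeval (cx b) (Dp i) = 0) ∧
        ∀ (Ω : Type) [Field Ω] [Algebra ℂ Ω] (q : σ → Ω), kr ℂ q ≤ kr ℂ (cx b) →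
          (∀ i, aeval q (Dp i) = 0) → q = am Ω (cx b) := by
  classical
  obtain ⟨a0, ha0⟩ := hne
  have hsp : Submodule.span ℝ ((fun a => a - a0) '' (P : Set (σ → ℝ))) = ⊤ := by
    by_contra h
    obtain ⟨f, hf, hf'⟩ := Submodule.exists_le_ker_of_lt_top _ (lt_top_iff_ne_top.2 h)
    have h1 : ∀ v, f v = ∑ k, f (Pi.single k 1) * v k := fun v => by
      rw [LinearMap.pi_apply_eq_sum_univ]
      refine Finset.sum_congr rfl fun k _ => ?_
      rw [smul_eq_mul, mul_comm]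
      congr 2
      funext j
      simp [Pi.single_apply, eq_comm]
    refine hP.not_ge (hH (fun k => f (Pi.single k 1)) (f a0) P (fun h2 => hf ?_) le_rfl
      fun a ha => ?_)
    · refine LinearMap.ext fun v => ?_
      rw [h1]
      exact Finset.sum_eq_zero fun k _ => by rw [congrFun h2 k, Pi.zero_apply, zero_mul]
    · have h2 : f (a - a0) = 0 := hf' (Submodule.subset_span ⟨a, ha, rfl⟩)
      rw [← h1, ← sub_eq_zero, ← map_sub, h2]
  obtain ⟨a, ha, hu⟩ : ∃ a : Fin (Fintype.card σ) → σ → ℝ, (∀ i, a i ∈ P) ∧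
      Submodule.span ℝ (Set.range fun i => a i - a0) = ⊤ := by
    obtain ⟨f, h1, h2, -⟩ := Submodule.exists_fun_fin_finrank_span_eq ℝ
      ((fun a => a - a0) '' (P : Set (σ → ℝ)))
    choose a ha ha' using h1
    have h3 : Fintype.card σ =
        Module.finrank ℝ (Submodule.span ℝ ((fun a => a - a0) '' (P : Set (σ → ℝ)))) := by
      rw [hsp, finrank_top, Module.finrank_fintype_fun_eq_card]
    refine ⟨fun i => a (finCongr h3 i), fun i => ha _, ?_⟩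
    refine Eq.trans (congrArg _ ?_) (h2.trans hsp)
    rw [← (finCongr h3).surjective.range_comp f]
    exact congrArg _ (funext fun i => ha' _)
  set R := insert 0 (((P ×ˢ P).filter fun x => x.1 ≠ x.2).image fun x => sqd x.1 x.2) with hR
  have hRc : R.card ≤ nd P + 1 := by
    refine (Finset.card_insert_le _ _).trans (le_of_eq ?_)
    unfold nd
    congr
  have hRm : ∀ b ∈ P, ∀ c ∈ P, sqd b c ∈ R := fun b hb c hc => by
    by_cases h : b = c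
    · simp [hR, h, sqd]
    · exact Finset.mem_insert_of_mem (Finset.mem_image.2 ⟨(b, c),
        Finset.mem_filter.2 ⟨Finset.mem_product.2 ⟨hb, hc⟩, h⟩, rfl⟩)
  set Q : (σ → ℝ) → MvPolynomial σ ℂ := fun c => ∑ k, (X k - C (c k : ℂ)) ^ 2 with hQ
  have hQd : ∀ c (r : ℂ), (Q c - C r).totalDegree ≤ 2 := fun c r => by
    refine (totalDegree_sub _ _).trans (max_le ((totalDegree_finsetSum _ _).trans
      (Finset.sup_le fun k _ => (totalDegree_pow _ _).trans ?_)) (by simp))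
    have : (X k - C (c k : ℂ) : MvPolynomial σ ℂ).totalDegree ≤ 1 :=
      (totalDegree_sub _ _).trans (max_le (totalDegree_X _).le (by simp))
    omega
  set a' : Fin (Fintype.card σ + 1) → σ → ℝ := Fin.cons a0 a with ha'
  have ha'P : ∀ i, a' i ∈ P := fun i => Fin.cases ha0 ha i
  refine ⟨fun i => ∏ r ∈ R, (Q (a' i) - C (r : ℂ)), fun i => ?_, fun b hb => ⟨fun i => ?_,
    fun Ω _ _ q hq hz => ?_⟩⟩
  · have h := (totalDegree_finsetProd R fun r => Q (a' i) - C (r : ℂ)).trans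
      (Finset.sum_le_card_nsmul _ _ 2 fun r _ => hQd _ _)
    rw [smul_eq_mul] at h
    exact_mod_cast h.trans (by omega)
  · rw [map_prod]
    refine Finset.prod_eq_zero (hRm b hb _ (ha'P i)) ?_
    simp [hQ, sqd]
  have h1 : ∀ i, ∑ k, (q k - algebraMap ℂ Ω (a' i k)) ^ 2 =
      ∑ k, (am Ω (cx b) k - algebraMap ℂ Ω (a' i k)) ^ 2 := fun i => by
    have h2 := hz i
    rw [map_prod] at h2
    obtain ⟨r, -, h3⟩ := Finset.prod_eq_zero_iff.1 h2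
    have h4 : aeval (am Ω (cx b)) (Q (a' i) - C (r : ℂ)) = 0 := by
      rw [rootB_am, mem_kr.1 (hq h3), map_zero]
    have h5 := h3.trans h4.symm
    simpa only [hQ, map_sub, map_sum, map_pow, aeval_X, aeval_C, sub_left_inj] using h5
  have h2 : ∀ u : σ → ℝ, ∑ k, (q k - am Ω (cx b) k) * algebraMap ℂ Ω (u k) = 0 := fun u => by
    have hu' : u ∈ Submodule.span ℝ (Set.range fun i => a i - a0) := hu ▸ Submodule.mem_top
    induction hu' using Submodule.span_induction with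
    | mem u h =>
      obtain ⟨i, rfl⟩ := h
      have h3 := h1 0
      have h4 := h1 i.succ
      simp only [ha', Fin.cons_zero, Fin.cons_succ] at h3 h4
      have h5 : (2 : Ω) ≠ 0 := by
        rw [← map_ofNat (algebraMap ℂ Ω) 2]
        exact (map_ne_zero _).2 two_ne_zero
      refine mul_left_cancel₀ h5 ?_
      rw [← sub_eq_zero, ← Finset.sum_sub_distrib] at h3 h4
      rw [mul_zero, ← sub_self (0 : Ω), Finset.mul_sum]
      nth_rewrite 1 [← h3]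
      rw [← h4, ← Finset.sum_sub_distrib]
      refine Finset.sum_congr rfl fun k _ => ?_
      simp only [Pi.sub_apply, Complex.ofReal_sub, map_sub]
      ring
    | zero => simp
    | add u v _ _ h3 h4 =>
      simp only [Pi.add_apply, Complex.ofReal_add, map_add, mul_add, Finset.sum_add_distrib, h3, h4,
        add_zero]
    | smul r u _ h3 =>
      simp only [Pi.smul_apply, smul_eq_mul, Complex.ofReal_mul, map_mul, mul_left_comm _
        (algebraMap ℂ Ω r), ← Finset.mul_sum, h3, mul_zero]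
  funext k
  have h3 := h2 (Pi.single k 1)
  rw [Finset.sum_eq_single k (fun j _ hj => by simp [Pi.single_eq_of_ne hj]) (by simp)] at h3
  simpa [sub_eq_zero] using h3


end

end Vale.Agent.P054
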