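import Vale.Agent.P054.MKey

namespace Vale.Agent.P054

open MvPolynomial

noncomputable section

theorem mtop_unif (d : ℕ) (Q : ℕ → ℝ → ℝ → Prop)
    (h : ∀ l, 1 ≤ l → l < d → ∃ L0 L1 : ℝ, 1 ≤ L0 ∧ 1 ≤ L1 ∧ Q l L0 L1) :
    ∃ L0 L1 : ℝ, 1 ≤ L0 ∧ 1 ≤ L1 ∧ ∀ l, 1 ≤ l → l < d →
      ∃ M0 M1 : ℝ, 1 ≤ M0 ∧ 1 ≤ M1 ∧ M0 ≤ L0 ∧ M1 ≤ L1 ∧ Q l M0 M1 := by
  induction d with
  | zero => exact ⟨1, 1, le_rfl, le_rfl, fun l _ hl => absurd hl (Nat.not_lt_zero _)⟩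
  | succ n ih =>
    obtain ⟨L0, L1, h0, h1, hQ⟩ := ih (fun l hl hn => h l hl (Nat.lt_succ_of_lt hn))
    by_cases hn : 1 ≤ n
    · obtain ⟨M0, M1, m0, m1, hM⟩ := h n hn (Nat.lt_succ_self n)
      refine ⟨max L0 M0, max L1 M1, h0.trans (le_max_left _ _), h1.trans (le_max_left _ _),
        fun l hl hln => ?_⟩
      rcases Nat.lt_succ_iff_lt_or_eq.1 hln with hlt | rfl
      · obtain ⟨N0, N1, a, b, c, e, f⟩ := hQ l hl hlt
        exact ⟨N0, N1, a, b, c.trans (le_max_left _ _), e.trans (le_max_left _ _), f⟩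
      · exact ⟨M0, M1, m0, m1, le_max_right _ _, le_max_right _ _, hM⟩
    · exact ⟨1, 1, le_rfl, le_rfl, fun l hl hln => by omega⟩

theorem mtop_fib {α β : Type} (P1 : Finset α) (P2 : Finset β) (R : α → β → Prop)
    [∀ a b, Decidable (R a b)] (c : ℝ) (h : ∀ a ∈ P1, ((P2.filter (R a)).card : ℝ) ≤ c) :
    (((P1 ×ˢ P2).filter fun z => R z.1 z.2).card : ℝ) ≤ P1.card * c := by
  classical
  have h1 : ((P1 ×ˢ P2).filter fun z => R z.1 z.2).card = ∑ a ∈ P1, (P2.filter (R a)).card := by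
    simp only [Finset.card_filter]
    rw [Finset.sum_product]
  rw [h1]
  push_cast
  calc ∑ a ∈ P1, ((P2.filter (R a)).card : ℝ) ≤ ∑ _a ∈ P1, c := Finset.sum_le_sum h
    _ = P1.card * c := by rw [Finset.sum_const, nsmul_eq_mul]

theorem mtop_fib' {α β : Type} (P1 : Finset α) (P2 : Finset β) (R : α → β → Prop)
    [∀ a b, Decidable (R a b)] (c : ℝ)
    (h : ∀ b ∈ P2, ((P1.filter (fun a => R a b)).card : ℝ) ≤ c) :
    (((P1 ×ˢ P2).filter fun z => R z.1 z.2).card : ℝ) ≤ P2.card * c := by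
  classical
  have h1 : ((P1 ×ˢ P2).filter fun z => R z.1 z.2).card =
      ∑ b ∈ P2, (P1.filter (fun a => R a b)).card := by
    simp only [Finset.card_filter]
    rw [Finset.sum_product_right]
  rw [h1]
  push_cast
  calc ∑ b ∈ P2, ((P1.filter (fun a => R a b)).card : ℝ) ≤ ∑ _b ∈ P2, c := Finset.sum_le_sum h
    _ = P2.card * c := by rw [Finset.sum_const, nsmul_eq_mul]

/-- the root bound at the first level with a large degree. -/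
theorem pair_top (d : ℕ) (A α θ : ℝ) (hA : 1 ≤ A) (hα : 0 < α) (hθ : 0 < θ) :
    ∃ L0 L1 : ℝ, 1 ≤ L0 ∧ 1 ≤ L1 ∧ ∀ (σ κ : Type) [Fintype σ] (P1 P2 : Finset (σ → ℝ))
    (D1 : Cel A α d (fun a : σ → ℝ => kr ℂ (cx a)) P1)
    (D2 : Cel A α d (fun a : σ → ℝ => kr ℂ (cx a)) P2) (𝓙 : Finset κ)
    (g J : κ → ℕ → MvPolynomial σ ℂ) (h : (σ → ℝ) → κ → MvPolynomial σ ℂ) (δ ν : ℕ → ℝ)
    (X0 X Y μ0 : ℝ) (m l : ℕ), Fintype.card σ = d → 1 ≤ l → l < d → (∀ i, 1 ≤ δ i) →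
    (∀ j ∈ 𝓙, ∀ i, i < l → ((g j i).totalDegree : ℝ) ≤ δ i) → 0 ≤ X → X0 ≤ X →
    𝓙.card * X ≤ Y → (𝓙.card * δ 0) ^ 2 ≤ Y → 2 ≤ μ0 → L0 * Y ≤ D1.δ l → L0 * Y ≤ D2.δ l →
    (∀ t, 1 ≤ t → t < l → X0 < δ 0 * δ t → 0 ≤ ν t ∧ (ν t + m + 1) * δ t ≤ X ∧
      L1 * m ≤ D1.δ 0 ∧ L1 * m ≤ D2.δ 0) →
    ∃ Bad : Finset ((σ → ℝ) × (σ → ℝ)), (Bad.card : ℝ) ≤ θ * (P1.card * P2.card) ∧
      ∀ a ∈ P1, ∀ a' ∈ P2, (a, a') ∉ Bad → Low D1.g D2.g 𝓙 g J δ ν X0 m d l (cx a) (cx a') →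
        GenM D2.g D1.g 𝓙 g (hJ (h a') J) l l μ0 (cx a') (cx a) →
        BdM D1.g D2.g 𝓙 g (hJ (h a') J) l d (4 * μ0) (cx a) (cx a') := by
  classical
  obtain ⟨L0, L1, h0, h1, hL⟩ := mtop_unif d _
    (fun l hl hld => ind_keyM d l hl hld A α (θ / 2) hA hα (half_pos hθ))
  refine ⟨L0, L1, h0, h1, ?_⟩
  intro σ κ _ P1 P2 D1 D2 𝓙 g J h δ ν X0 X Y μ0 m l hd hl hld hδ hdeg hX hX0 hXY hδY hμ hY1 hY2
    hlev
  obtain ⟨M0, M1, m0, m1, hM0, hM1, key⟩ := hL l hl hld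
  have hY : 0 ≤ Y := (sq_nonneg _).trans hδY
  have hm0 : (0 : ℝ) ≤ m := Nat.cast_nonneg m
  have big : ∀ μ e : ℝ, 1 ≤ μ → L0 * Y ≤ e → M0 * Y ≤ μ * e := by
    intro μ e hμ1 he
    have h2 : M0 * Y ≤ L0 * Y := mul_le_mul_of_nonneg_right hM0 hY
    have h3 : 0 ≤ e := (mul_nonneg (zero_le_one.trans h0) hY).trans he
    nlinarith
  have hMm : M1 * m ≤ L1 * m := mul_le_mul_of_nonneg_right hM1 hm0
  let R1 : (σ → ℝ) → (σ → ℝ) → Prop := fun a a' =>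
    Low D1.g D2.g 𝓙 g J δ ν X0 m d l (cx a) (cx a') ∧
      GenM D2.g D1.g 𝓙 g (hJ (h a') J) l l μ0 (cx a') (cx a) ∧
      ¬ BdM D2.g D1.g 𝓙 g (hJ (h a') J) l l (2 * μ0) (cx a') (cx a)
  let R2 : (σ → ℝ) → (σ → ℝ) → Prop := fun a a' =>
    Low D1.g D2.g 𝓙 g J δ ν X0 m d l (cx a) (cx a') ∧
      GenM D1.g D2.g 𝓙 g (hJ (h a') J) l d (2 * μ0) (cx a) (cx a') ∧
      ¬ BdM D1.g D2.g 𝓙 g (hJ (h a') J) l d (4 * μ0) (cx a) (cx a')
  have c1 : ∀ a' ∈ P2, ((P1.filter (fun a => R1 a a')).card : ℝ) ≤ θ / 2 * P1.card := by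
    intro a' ha'
    refine key σ κ P1 D1 𝓙 g J (fun _ => h a') δ ν D2.g l (D2.c l) (cx a') m X Y (2 * μ0)
      (P1.filter (fun a => R1 a a')) hd hδ hdeg hX hXY hδY (by linarith)
      (big _ _ (by linarith) hY1) (fun i hi => D2.mem i (hi.trans hld) a' ha')
      (D2.jac l hld.le a' ha') ?_ (Finset.filter_subset _ _) ?_
    · intro t ht htl hXt
      have hXt' := hX0.trans_lt hXt
      obtain ⟨e1, e2, e3, -⟩ := hlev t ht htl hXt'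
      refine ⟨e1, e2, hMm.trans e3, fun a ha => ?_⟩
      have hLow := (Finset.mem_filter.1 ha).2.1
      exact ⟨hLow.2.1, ((hLow.2.2 t ht htl hXt').2 l htl.le hld.le).2⟩
    · intro a ha
      obtain ⟨-, -, e1, e2⟩ := Finset.mem_filter.1 ha
      refine ⟨?_, e2⟩
      rw [show 2 * μ0 / 2 = μ0 by ring]
      exact e1
  have c2 : ∀ a ∈ P1, ((P2.filter (R2 a)).card : ℝ) ≤ θ / 2 * P2.card := by
    intro a ha
    refine key σ κ P2 D2 𝓙 g J h δ ν D1.g d (D1.c d) (cx a) m X Y (4 * μ0)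
      (P2.filter (R2 a)) hd hδ hdeg hX hXY hδY (by linarith)
      (big _ _ (by linarith) hY2) (fun i hi => D1.mem i hi a ha)
      (D1.jac d le_rfl a ha) ?_ (Finset.filter_subset _ _) ?_
    · intro t ht htl hXt
      have hXt' := hX0.trans_lt hXt
      obtain ⟨e1, e2, -, e3⟩ := hlev t ht htl hXt'
      refine ⟨e1, e2, hMm.trans e3, fun a' ha' => ?_⟩
      have hLow := (Finset.mem_filter.1 ha').2.1
      exact ⟨hLow.1, ((hLow.2.2 t ht htl hXt').2 d (htl.trans hld).le le_rfl).1⟩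
    · intro a' ha'
      obtain ⟨-, -, e1, e2⟩ := Finset.mem_filter.1 ha'
      refine ⟨?_, e2⟩
      rw [show 4 * μ0 / 2 = 2 * μ0 by ring]
      exact e1
  refine ⟨((P1 ×ˢ P2).filter fun z => R1 z.1 z.2) ∪ ((P1 ×ˢ P2).filter fun z => R2 z.1 z.2),
    ?_, ?_⟩
  · have b1 := mtop_fib' P1 P2 R1 _ c1
    have b2 := mtop_fib P1 P2 R2 _ c2
    have b3 : ((((P1 ×ˢ P2).filter fun z => R1 z.1 z.2) ∪
        ((P1 ×ˢ P2).filter fun z => R2 z.1 z.2)).card : ℝ) ≤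
        (((P1 ×ˢ P2).filter fun z => R1 z.1 z.2).card : ℝ) +
          (((P1 ×ˢ P2).filter fun z => R2 z.1 z.2).card : ℝ) := by
      exact_mod_cast Finset.card_union_le _ _
    linarith
  · intro a ha a' ha' hB hLow hGen
    rw [Finset.mem_union, not_or, Finset.mem_filter, Finset.mem_filter] at hB
    have hp : (a, a') ∈ P1 ×ˢ P2 := Finset.mem_product.2 ⟨ha, ha'⟩
    have e1 : BdM D2.g D1.g 𝓙 g (hJ (h a') J) l l (2 * μ0) (cx a') (cx a) := by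
      by_contra hn
      exact hB.1 ⟨hp, hLow, hGen, hn⟩
    have e2 : GenM D1.g D2.g 𝓙 g (hJ (h a') J) l d (2 * μ0) (cx a) (cx a') :=
      gen_of_bdM (fun i hi => D1.mem i hi a ha) (D1.jac d le_rfl a ha)
        (fun i hi => D2.mem i (hi.trans hld) a' ha') (D2.jac l hld.le a' ha') hld.le e1
    by_contra hn
    exact hB.2 ⟨hp, hLow, e2, hn⟩


end

end Vale.Agent.P054
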