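import Vale.Agent.P054.MPair
import Vale.Agent.P054.MTop
import Vale.Agent.P054.MNc
import Vale.Agent.P054.MNcP
import Vale.Agent.P054.MOrd
import Vale.Agent.P054.MOwn
import Vale.Agent.P054.MPieces
import Vale.Agent.P054.SepA
import Vale.Agent.P054.MNBAux

namespace Vale.Agent.P054

open MvPolynomial

noncomputable section

theorem mb_lev {d : ℕ} (hd : 3 ≤ d) {A y X0 m L e0 et e0' : ℝ} (hA : 1 ≤ A) (hAy : A ^ 2 ≤ y)
    (hy : 4 ≤ y) (hm : m ≤ y ^ 4 + 1) (hm0 : 0 ≤ m) (hL : L ≤ y) (h0 : 1 ≤ e0) (ht : 1 ≤ et)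
    (hX : et * y ^ (8 * d) ≤ X0) (h00 : e0 ≤ y * e0') (hlt : X0 < A * y * e0 * (A * y * et)) :
    (y ^ (4 * d) + m + 1) * (A * y * et) ≤ X0 ∧ L * m ≤ e0' := by
  have hy1 : 1 ≤ y := by linarith
  have hy0 : 0 < y := by linarith
  have hA2 : A ≤ y := (le_self_pow₀ hA (by norm_num)).trans hAy
  constructor
  · have h1 := mnb_num1 hy (show 4 ≤ 4 * d by omega) hm
    have h2 : y ^ (4 * d + 1 + 1 + 1) ≤ y ^ (8 * d) := pow_le_pow_right₀ hy1 (by omega)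
    calc (y ^ (4 * d) + m + 1) * (A * y * et) ≤ y ^ (4 * d + 1) * (y * y * et) := by gcongr
      _ = et * y ^ (4 * d + 1 + 1 + 1) := by ring
      _ ≤ et * y ^ (8 * d) := by gcongr
      _ ≤ _ := hX
  · refine (mnb_num2 hy hm hm0 hL).trans ?_
    have he0' : 0 ≤ e0' := by
      by_contra hneg
      have := mul_neg_of_pos_of_neg hy0 (not_le.1 hneg)
      linarith
    have h1 : et * y ^ (8 * d) ≤ et * (y ^ 4 * e0') := by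
      calc et * y ^ (8 * d) ≤ A * y * e0 * (A * y * et) := by linarith
        _ = A ^ 2 * e0 * (y ^ 2 * et) := by ring
        _ ≤ y * (y * e0') * (y ^ 2 * et) := by gcongr
        _ = _ := by ring
    have h2 := le_of_mul_le_mul_left h1 (by linarith)
    have h3 : y ^ 4 * y ^ (4 + 2) ≤ y ^ (8 * d) := by
      rw [← pow_add]
      exact pow_le_pow_right₀ hy1 (by omega)
    exact le_of_mul_le_mul_left (h3.trans h2) (by positivity)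

theorem mb_x1 {d : ℕ} (hd : 3 ≤ d) {A Kc y X0 : ℝ} (hA : 1 ≤ A) (hKc : 1 ≤ Kc) (hy : 1 ≤ y)
    (hKy : Kc * A ≤ y) (hX0 : 0 ≤ X0) :
    X0 ≤ (Kc * y ^ 2 * (A * y ^ 2)) ^ d * X0 ∧
      y ^ 4 * ((Kc * y ^ 2 * (A * y ^ 2)) ^ d * X0) ≤ X0 * y ^ (8 * d) := by
  have hy2 : 1 ≤ y ^ 2 := one_le_pow₀ hy
  refine ⟨le_mul_of_one_le_left hX0 (one_le_pow₀ (one_le_mul_of_one_le_of_one_le
    (one_le_mul_of_one_le_of_one_le hKc hy2) (one_le_mul_of_one_le_of_one_le hA hy2))), ?_⟩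
  have h1 : Kc * y ^ 2 * (A * y ^ 2) ≤ y ^ 5 := by
    calc Kc * y ^ 2 * (A * y ^ 2) = Kc * A * y ^ 4 := by ring
      _ ≤ y * y ^ 4 := by gcongr
      _ = y ^ 5 := by ring
  have h2 : y ^ (4 + 5 * d) ≤ y ^ (8 * d) := pow_le_pow_right₀ hy (by omega)
  calc y ^ 4 * ((Kc * y ^ 2 * (A * y ^ 2)) ^ d * X0) ≤ y ^ 4 * ((y ^ 5) ^ d * X0) := by gcongr
    _ = X0 * y ^ (4 + 5 * d) := by rw [← pow_mul, pow_add]; ring
    _ ≤ _ := by gcongr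

open Classical in
/-- the root bounds for most pairs. -/
theorem mb_pairs (d : ℕ) (hd : 3 ≤ d) (A α η : ℝ) (hA : 1 ≤ A) (hα : 0 < α) (hη : 0 < η) :
    ∃ μ y0 N0 : ℝ, 0 ≤ μ ∧ ∀ (σ κ : Type) [Fintype σ] [Fintype κ]
    (P : Finset (σ → ℝ)) (𝓟 : Pcs A α d P κ) (H y X0 : ℝ) (j0 : κ) (l : ℕ),
    Fintype.card σ = d → y0 ≤ y → N0 ≤ P.card →
    (Fintype.card κ : ℝ) ≤ y → 𝓟.Cmpr y → HypB P H → H * y ^ (6 * d) ≤ P.card →
    H ≤ (P.card : ℝ) ^ (1 - η) → 2 ≤ l → l < d →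
    𝓟.δ j0 0 * 𝓟.δ j0 1 * y ^ 3 ≤ X0 → (∀ t, t < l → 𝓟.δ j0 t * y ^ (8 * d) ≤ X0) →
    X0 * y ^ (8 * d) ≤ 𝓟.δ j0 l →
    ∃ (Bad : Finset ((σ → ℝ) × (σ → ℝ))) (ω : (σ → ℝ) → ℕ) (h : ℕ → κ → MvPolynomial σ ℂ)
      (ν : κ → κ → ℕ → ℝ) (m : ℕ) (X1 : ℝ), (Bad.card : ℝ) ≤ 1 / 5 * (P.card : ℝ) ^ 2 ∧
      X0 ≤ X1 ∧ y ^ 4 * X1 ≤ X0 * y ^ (8 * d) ∧
      (∀ w, ∀ b ∈ P, w ≤ ω b → aeval (cx b) (h w (𝓟.pc b)) ≠ 0) ∧
      (∀ i j t, 1 ≤ t → t < l → X0 < A * y * 𝓟.δ j0 0 * (A * y * 𝓟.δ j0 t) →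
        0 ≤ ν i j t ∧ (ν i j t + m + 1) * (A * y * 𝓟.δ j0 t) ≤ X1) ∧
      ∀ a ∈ P, ∀ b ∈ P, (a, b) ∉ Bad →
        NT2 (𝓟.g (𝓟.pc a) 0) (𝓟.g (𝓟.pc b) 0) (cx a) (cx b) ∧
        Low (𝓟.g (𝓟.pc a)) (𝓟.g (𝓟.pc b)) Finset.univ 𝓟.g 𝓟.J (fun t => A * y * 𝓟.δ j0 t)
          (ν (𝓟.pc a) (𝓟.pc b)) X0 m d l (cx a) (cx b) ∧
        (ω a ≤ ω b → BdM (𝓟.g (𝓟.pc a)) (𝓟.g (𝓟.pc b)) Finset.univ 𝓟.g (hJ (h (ω b)) 𝓟.J) l d μ
          (cx a) (cx b)) := by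
  obtain ⟨y1, hlin⟩ := lin_crude d hd A (1 / 20) hA (by norm_num)
  obtain ⟨Kc, L1, hKc, hL1, hpair⟩ := pair_good d (by omega) A α (1 / 20) hA hα (by norm_num)
  obtain ⟨L0, L2, hL0, hL2, htop⟩ := pair_top d A α (1 / 20) hA hα (by norm_num)
  obtain ⟨μ0, y2, N0, hμ0, hord⟩ := lin_ord d hd A (1 / 20) η hA (by norm_num) hη
  have hA0 : 0 < A := by linarith
  refine ⟨4 * μ0, max (max y1 y2) (A ^ 2 + (L1 + L2) * A + Kc * A + L0 + 4), N0, by linarith, ?_⟩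
  intro σ κ _ _ P 𝓟 H y X0 j0 l hσ hy hN hκ hC hH hHP hHη hl hld h01 hlow hhi
  have hy1 : y1 ≤ y := ((le_max_left _ _).trans (le_max_left _ _)).trans hy
  have hy2 : y2 ≤ y := ((le_max_right _ _).trans (le_max_left _ _)).trans hy
  have hy3 : A ^ 2 + (L1 + L2) * A + Kc * A + L0 + 4 ≤ y := (le_max_right _ _).trans hy
  have hLA : L1 + L2 ≤ (L1 + L2) * A := le_mul_of_one_le_right (by linarith) hA
  have hKA : 0 ≤ Kc * A := by positivity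
  have hA2 : 0 ≤ A ^ 2 := by positivity
  have hy4 : 4 ≤ y := by linarith
  have hy0 : 0 < y := by linarith
  have hy1' : 1 ≤ y := by linarith
  have hAy : A ^ 2 ≤ y := by linarith
  obtain ⟨B1, hB1, hB1'⟩ := hlin α σ κ P 𝓟 H y hσ hy1 hκ hC hH hHP
  obtain ⟨ω, h, B3, hB3, hω, hB3'⟩ := hord α σ κ P 𝓟 H y l hσ hy2 hN hκ hC hH hHP hHη hl hld.le
  obtain ⟨hm1, hm2⟩ := mnb_ceil (z := (L1 + L2) * A * y ^ 3) (by positivity) hy0.le 3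
    (L := (L1 + L2) * A) (by linarith) rfl
  generalize ⌈(L1 + L2) * A * y ^ 3⌉₊ = m at hm1 hm2
  have hδ1 : ∀ j t, 1 ≤ 𝓟.δ j t := fun j t => (𝓟.D j).one_le t
  have hδA : ∀ t, 1 ≤ A * y * 𝓟.δ j0 t := fun t =>
    one_le_mul_of_one_le_of_one_le (one_le_mul_of_one_le_of_one_le hA hy1') (hδ1 j0 t)
  have hdeg : ∀ j i, i < d → ((𝓟.g j i).totalDegree : ℝ) ≤ A * y * 𝓟.δ j0 i := fun j i hi => by
    refine ((𝓟.D j).deg i hi).trans ?_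
    rw [mul_assoc]
    exact mul_le_mul_of_nonneg_left (hC j j0 i hi) hA0.le
  have hsq : A * y * 𝓟.δ j0 0 * (A * y * 𝓟.δ j0 1) ≤ X0 := by
    have := hδ1 j0 0
    have := hδ1 j0 1
    calc A * y * 𝓟.δ j0 0 * (A * y * 𝓟.δ j0 1) = 𝓟.δ j0 0 * 𝓟.δ j0 1 * (A ^ 2 * y ^ 2) := by ring
      _ ≤ 𝓟.δ j0 0 * 𝓟.δ j0 1 * (y * y ^ 2) := by gcongr
      _ = 𝓟.δ j0 0 * 𝓟.δ j0 1 * y ^ 3 := by ring
      _ ≤ X0 := h01
  have hsq0 : (A * y * 𝓟.δ j0 0) ^ 2 ≤ X0 := by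
    refine le_trans ?_ hsq
    have h2 : 𝓟.δ j0 0 ≤ 𝓟.δ j0 1 := (𝓟.D j0).mono (by omega)
    have := hδA 0
    rw [sq]
    gcongr
  have hX0 : 0 ≤ X0 := le_trans (by positivity) hsq0
  obtain ⟨hX1, hX2⟩ := mb_x1 hd hA hKc hy1' (by linarith) hX0
  have hL : ∀ i, L1 * (y * (A * y * 𝓟.δ j0 0)) ≤ (m + 1) * 𝓟.δ i 0 := fun i => by
    have := hδ1 i 0
    calc L1 * (y * (A * y * 𝓟.δ j0 0)) = L1 * A * y ^ 2 * 𝓟.δ j0 0 := by ring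
      _ ≤ (L1 + L2) * A * y ^ 2 * (y * 𝓟.δ i 0) := by
        gcongr
        · linarith [hδ1 j0 0]
        · linarith
        · exact hC j0 i 0 (by omega)
      _ = (L1 + L2) * A * y ^ 3 * 𝓟.δ i 0 := by ring
      _ ≤ _ := by gcongr; linarith
  have hlev := fun (i : κ) (L : ℝ) (hL : L ≤ y) (t : ℕ) (htl : t < l)
    (hlt : X0 < A * y * 𝓟.δ j0 0 * (A * y * 𝓟.δ j0 t)) => mb_lev hd hA hAy hy4 hm2
      (Nat.cast_nonneg m) hL (hδ1 j0 0) (hδ1 j0 t) (hlow t htl) (hC j0 i 0 (by omega)) hlt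
  have hδr : ∀ i t, t < l → A * y * 𝓟.δ j0 t ≤ A * y ^ 2 * 𝓟.δ i t := fun i t ht => by
    calc A * y * 𝓟.δ j0 t ≤ A * y * (y * 𝓟.δ i t) :=
          mul_le_mul_of_nonneg_left (hC j0 i t (by omega)) (by positivity)
      _ = _ := by ring
  have hpg := fun i j => hpair σ κ (𝓟.Q i) (𝓟.Q j) (𝓟.D i) (𝓟.D j) Finset.univ 𝓟.g 𝓟.J
    (fun t => A * y * 𝓟.δ j0 t) y (A * y ^ 2) X0 (y ^ (4 * d)) m l hσ hld.le hy1'
    (by rwa [Finset.card_univ]) (one_le_mul_of_one_le_of_one_le hA (one_le_pow₀ hy1'))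
    (by positivity) hδA (fun j _ => hdeg j) (fun j _ => mnb_g_ne 𝓟 (by omega) j) hsq0 (hL i) (hL j)
    (fun t _ htl hlt => ⟨hδr i t htl, hδr j t htl, (hlev i L1 (by linarith) t htl hlt).1,
      (hlev i L1 (by linarith) t htl hlt).2, (hlev j L1 (by linarith) t htl hlt).2⟩)
  choose ν B hB hν hlow' using hpg
  generalize (Kc * y ^ 2 * (A * y ^ 2)) ^ d * X0 = X1 at hX1 hX2 hν
  have hX1' : 0 ≤ X1 := hX0.trans hX1
  have hL0' : ∀ i, L0 * (y ^ 2 * X1) ≤ 𝓟.δ i l := fun i => by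
    refine le_of_mul_le_mul_left ?_ hy0
    calc y * (L0 * (y ^ 2 * X1)) ≤ y * (y * (y ^ 2 * X1)) := by gcongr; linarith
      _ = y ^ 4 * X1 := by ring
      _ ≤ _ := hX2.trans (hhi.trans (hC j0 i l hld))
  have hκ0 : (0 : ℝ) ≤ (Finset.univ : Finset κ).card := Nat.cast_nonneg _
  have hκ1 : (((Finset.univ : Finset κ).card : ℕ) : ℝ) ≤ y := by rwa [Finset.card_univ]
  have hpt := fun i j => htop σ κ (𝓟.Q i) (𝓟.Q j) (𝓟.D i) (𝓟.D j) Finset.univ 𝓟.g 𝓟.J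
    (fun a' => h (ω a')) (fun t => A * y * 𝓟.δ j0 t) (ν i j) X0 X1 (y ^ 2 * X1) μ0 m l hσ
    (by omega) hld hδA (fun j _ i hi => hdeg j i (by omega)) hX1' hX1
    (mul_le_mul_of_nonneg_right (hκ1.trans (le_self_pow₀ hy1' (by norm_num))) hX1')
    (by
      rw [mul_pow]
      exact mul_le_mul (pow_le_pow_left₀ hκ0 hκ1 2) (hsq0.trans hX1) (by positivity)
        (by positivity)) hμ0 (hL0' i) (hL0' j)
    (fun t ht htl hlt => ⟨(hν i j t ht htl hlt).1, (hν i j t ht htl hlt).2,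
      (hlev i L2 (by linarith) t htl hlt).2, (hlev j L2 (by linarith) t htl hlt).2⟩)
  choose B' hB' hbd using hpt
  obtain ⟨B2, hB2, hB2'⟩ := 𝓟.glue B hB
  obtain ⟨B4, hB4, hB4'⟩ := 𝓟.glue B' hB'
  refine ⟨B1 ∪ B2 ∪ (B3 ∪ B4), ω, h, ν, m, X1, ?_, hX1, hX2, hω, hν, fun a ha b hb hab => ?_⟩
  · have e1 : (((B1 ∪ B2 ∪ (B3 ∪ B4)).card : ℕ) : ℝ) ≤ B1.card + B2.card + (B3.card + B4.card) := by
      exact_mod_cast (Finset.card_union_le _ _).trans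
        (Nat.add_le_add (Finset.card_union_le _ _) (Finset.card_union_le _ _))
    linarith
  simp only [Finset.mem_union, not_or] at hab
  obtain ⟨⟨k1, k2⟩, k3, k4⟩ := hab
  have k5 := hlow' _ _ a (𝓟.mem_pc ha) b (𝓟.mem_pc hb) (fun h => k2 (hB2' _ _ h)) (by
    intro t ht htl hlt
    have ht2 : 2 ≤ t := by
      by_contra h
      have : t = 1 := by omega
      subst this
      exact absurd hsq (not_le.2 hlt)
    exact (hB1' a ha b hb k1).2 t ht2 (by omega))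
  exact ⟨(hB1' a ha b hb k1).1, k5, fun hω' => hbd _ _ a (𝓟.mem_pc ha) b (𝓟.mem_pc hb)
    (fun h => k4 (hB4' _ _ h)) k5 (hB3' a ha b hb k3 hω')⟩

open Classical in
/-- the case of a large degree. -/
theorem b_case (d : ℕ) (hd : 3 ≤ d) (A α η : ℝ) (hA : 1 ≤ A) (hα : 0 < α) (hη : 0 < η) :
    ∃ C y0 N0 : ℝ, 0 < C ∧ ∀ (σ κ : Type) [Fintype σ] [DecidableEq σ] [Fintype κ] (i0 : σ)
    (P : Finset (σ → ℝ)) (𝓟 : Pcs A α d P κ) (H y X X0 : ℝ) (j0 : κ) (l : ℕ),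
    Fintype.card σ = d → y0 ≤ y → N0 ≤ P.card → (∀ a ∈ P, ∀ b ∈ P, a ≠ b → a i0 ≠ b i0) →
    (Fintype.card κ : ℝ) ≤ y → 𝓟.Cmpr y → HypB P H → H * y ^ (6 * d) ≤ P.card →
    H ≤ (P.card : ℝ) ^ (1 - η) → (nd P : ℝ) ≤ X → 2 ≤ l → l < d →
    𝓟.δ j0 0 * 𝓟.δ j0 1 * y ^ 3 ≤ X0 → (∀ t, t < l → 𝓟.δ j0 t * y ^ (8 * d) ≤ X0) →
    X0 * y ^ (8 * d) ≤ 𝓟.δ j0 l → X0 * y ^ (8 * d) ≤ X →
    ∃ G : Finset ((σ → ℝ) × (σ → ℝ)), (P.card : ℝ) ^ 2 ≤ 4 * G.card ∧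
      (∀ x ∈ G, x.1 ∈ P ∧ x.2 ∈ P ∧ x.1 ≠ x.2) ∧
      ∀ a ∈ P, NCa (d - 2) (P.filter fun b => (a, b) ∈ G) (fun b => dirv i0 (cx a) (cx b))
        (C * X) := by
  obtain ⟨μ, y1, N0, hμ, hpairs⟩ := mb_pairs d hd A α η hA hα hη
  obtain ⟨L, hL, hown⟩ := own_count d A (1 / 20) α hA (by norm_num) hα
  obtain ⟨Cn, hCn, hnc⟩ := mnb_piece d (by omega)
  choose Cp hCp hncP using fun l : ℕ => ncP (l + 1) (d + 1) (by omega)
  have hsum : 0 ≤ ∑ l ∈ Finset.range d, Cp l := Finset.sum_nonneg fun l _ => (hCp l).le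
  have hA0 : 0 < A := by linarith
  refine ⟨Cn + (∑ l ∈ Finset.range d, Cp l) * ((μ + 2) * 4), max y1 (L + 4), N0,
    by positivity, ?_⟩
  intro σ κ _ _ _ i0 P 𝓟 H y X X0 j0 l hσ hy hN hi0 hκ hC hH hHP hHη hnd hl hld h01 hlow hhi hX
  have hy1 : y1 ≤ y := (le_max_left _ _).trans hy
  have hy2 : L + 4 ≤ y := (le_max_right _ _).trans hy
  have hy0 : 0 < y := by linarith
  have hy1' : 1 ≤ y := by linarith
  have hδ1 : ∀ j t, 1 ≤ 𝓟.δ j t := fun j t => (𝓟.D j).one_le t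
  have hy8 : 1 ≤ y ^ (8 * d) := one_le_pow₀ hy1'
  have hX01 : 1 ≤ X0 := (one_le_mul_of_one_le_of_one_le (hδ1 j0 0) hy8).trans (hlow 0 (by omega))
  have hX1 : 1 ≤ X := (one_le_mul_of_one_le_of_one_le hX01 hy8).trans hX
  obtain ⟨B1, ω, h, ν, m, X1, hB1, hX2, hX3, hω, hν, hgood⟩ :=
    hpairs σ κ P 𝓟 H y X0 j0 l hσ hy1 hN hκ hC hH hHP hHη hl hld h01 hlow hhi
  have hcl := compl_free (mnb_c_inj 𝓟 j0 hld.le)
  obtain ⟨Bo, hBo, hBo'⟩ := hown σ κ _ P 𝓟 y l _ hσ hy1' hκ hC hld hcl (fun i => by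
    refine le_of_mul_le_mul_left ?_ hy0
    have e1 : y ^ (d + 1 + 1 + 1 + 1) ≤ y ^ (8 * d) := pow_le_pow_right₀ hy1' (by omega)
    have := hδ1 i 0
    have := hδ1 j0 0
    calc y * (L * y ^ (d + 1) * 𝓟.δ i 0) ≤ y * (y * y ^ (d + 1) * (y * 𝓟.δ j0 0)) := by
          gcongr
          · linarith
          · exact hC i j0 0 (by omega)
      _ = 𝓟.δ j0 0 * y ^ (d + 1 + 1 + 1 + 1) := by ring
      _ ≤ 𝓟.δ j0 0 * y ^ (8 * d) := by gcongr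
      _ ≤ X0 := hlow 0 (by omega)
      _ ≤ X0 * y ^ (8 * d) := le_mul_of_one_le_right (by linarith) hy8
      _ ≤ _ := hhi.trans (hC j0 i l hld))
  have hBad : (((B1 ∪ Bo ×ˢ P).card : ℕ) : ℝ) ≤ 1 / 4 * (P.card : ℝ) ^ 2 := by
    have e1 : (((B1 ∪ Bo ×ˢ P).card : ℕ) : ℝ) ≤ B1.card + Bo.card * P.card := by
      have := Finset.card_union_le B1 (Bo ×ˢ P)
      rw [Finset.card_product] at this
      exact_mod_cast this
    have e2 : (Bo.card : ℝ) * P.card ≤ 1 / 20 * P.card * P.card :=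
      mul_le_mul_of_nonneg_right hBo (Nat.cast_nonneg _)
    linarith
  have hG := half_pairs P (fun a => -(ω a : ℝ)) (B1 ∪ Bo ×ˢ P) hBad
  obtain ⟨G, hGc, hGm⟩ : ∃ G : Finset ((σ → ℝ) × (σ → ℝ)), (P.card : ℝ) ^ 2 ≤ 4 * G.card ∧
      ∀ x ∈ G, x.1 ∈ P ∧ x.2 ∈ P ∧ ω x.1 ≤ ω x.2 ∧ x ∉ B1 ∧ x.1 ∉ Bo := by
    refine ⟨_, hG, fun x hx => ?_⟩
    simp only [Finset.mem_filter, Finset.mem_product, Finset.mem_union, not_or, neg_le_neg_iff,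
      Nat.cast_le] at hx
    exact ⟨hx.1.1, hx.1.2, hx.2.1, hx.2.2.1, fun h0 => hx.2.2.2 ⟨h0, hx.1.2⟩⟩
  refine ⟨G, hGc, fun x hx => ?_, fun a ha S γ c φ hS h1 h2 => ?_⟩
  · obtain ⟨k1, k2, _, k4, _⟩ := hGm x hx
    exact ⟨k1, k2, mnb_ne (hgood _ k1 _ k2 k4).1⟩
  have hφ := h2.nonneg
  rcases S.eq_empty_or_nonempty with rfl | ⟨b0, hb0⟩
  · simp only [Finset.card_empty, Nat.cast_zero]
    positivity
  have hSG : ∀ b ∈ S, (a, b) ∈ G := fun b hb => (Finset.mem_filter.1 (hS hb)).2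
  have hc : Function.Injective c := inj_of_jac (g := γ) fun h0 => (h1 b0 hb0).2 (by
    rw [h0, map_zero])
  have hS' : ∀ b ∈ S, b ∈ P ∧ a i0 ≠ b i0 ∧ (a, b) ∉ B1 := fun b hb => by
    obtain ⟨_, k2, _, k4, _⟩ := hGm _ (hSG b hb)
    exact ⟨k2, hi0 a ha b k2 (mnb_ne (hgood _ ha _ k2 k4).1), k4⟩
  have hX1' : 0 ≤ X1 := by linarith
  have hδA : ∀ t, 1 ≤ A * y * 𝓟.δ j0 t := fun t =>
    one_le_mul_of_one_le_of_one_le (one_le_mul_of_one_le_of_one_le hA hy1') (hδ1 j0 t)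
  have key1 := mnb_split (S.filter fun b => ¬ PersD i0 (𝓟.g (𝓟.pc b)) l (cx a) (cx b) γ) 𝓟.pc
    (fun _ => Cn * φ * X1) (fun j => by
      refine hnc σ κ A α i0 P 𝓟 a _ j Finset.univ (fun t => A * y * 𝓟.δ j0 t) (ν (𝓟.pc a) j)
        X0 X1 φ m l γ c hσ (by omega) hld.le ha (Finset.mem_univ j) hδA (fun i hi => ?_) hX1' hX2
        (hν _ j) (fun b hb => ?_) (h2.mono (biInf_mono fun b hb =>
          (Finset.mem_filter.1 (Finset.mem_filter.1 hb).1).1) le_rfl)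
      · refine ((𝓟.D j).deg i (by omega)).trans ?_
        rw [mul_assoc]
        exact mul_le_mul_of_nonneg_left (hC j j0 i (by omega)) hA0.le
      · obtain ⟨hb3, hb4⟩ := Finset.mem_filter.1 hb
        obtain ⟨hb5, hb6⟩ := Finset.mem_filter.1 hb3
        obtain ⟨k1, k2, k3⟩ := hS' b hb5
        subst hb4
        exact ⟨k1, rfl, k2, (hgood _ ha _ k1 k3).1, (h1 b hb5).1, (h1 b hb5).2, hb6,
          (hgood _ ha _ k1 k3).2.1⟩)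
  rw [Finset.sum_const, Finset.card_univ, nsmul_eq_mul] at key1
  have key1' : (Fintype.card κ : ℝ) * (Cn * φ * X1) ≤ φ * (Cn * X) := by
    have e1 : y ≤ y ^ 4 := le_self_pow₀ hy1' (by norm_num)
    calc (Fintype.card κ : ℝ) * (Cn * φ * X1) ≤ y ^ 4 * (Cn * φ * X1) :=
          mul_le_mul_of_nonneg_right (hκ.trans e1) (by positivity)
      _ = φ * (Cn * (y ^ 4 * X1)) := by ring
      _ ≤ φ * (Cn * X) := by gcongr; exact hX3.trans hX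
  have hP1 : (1 : ℝ) ≤ P.card := by exact_mod_cast Finset.card_pos.2 ⟨a, ha⟩
  have hHlt : H < P.card := by
    by_cases h0 : H ≤ 0
    · linarith
    · have : 1 < y ^ (6 * d) := one_lt_pow₀ (by linarith) (by omega)
      exact (lt_mul_of_one_lt_right (not_le.1 h0) this).trans_le hHP
  obtain ⟨Dp, hDp, hDp'⟩ := exists_distpoly P hH hHlt ⟨a, ha⟩
  obtain ⟨F, hF, hF'⟩ := exists_killer 𝓟 (by omega) hld.le hcl ha
    (hBo' a ha (hGm _ (hSG b0 hb0)).2.2.2.2)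
  obtain ⟨l, rfl⟩ : ∃ l', l = l' + 1 := ⟨l - 1, by omega⟩
  have hnd0 : (0 : ℝ) ≤ nd P := Nat.cast_nonneg _
  have key2 := hncP l ℂ σ (σ → ℝ) κ (Fin (d - 2)) {k // k ∉ Set.range c} (Fin (Fintype.card σ + 1))
    i0 Finset.univ 𝓟.g 𝓟.J (fun b => h (ω b)) 𝓟.pc ω (cx a)
    (S.filter fun b => PersD i0 (𝓟.g (𝓟.pc b)) (l + 1) (cx a) (cx b) γ) cx γ c Subtype.val F 1 Dp
    φ (2 * (nd P + 1)) μ (mnb_rho hσ (by omega) hc) (compl_free hc)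
    (by rw [Fintype.card_fin, hσ]) (by linarith) hμ hDp mnb_cx_inj.injOn hF (fun b hb => by
      obtain ⟨hb5, hb6⟩ := Finset.mem_filter.1 hb
      obtain ⟨k1, k2, k3⟩ := hS' b hb5
      exact ⟨Finset.mem_univ _, fun i hi => 𝓟.zero k1 (by omega), fun r hr => 𝓟.jac k1 (by omega),
        fun h0 => k2 (Complex.ofReal_injective h0).symm, (hgood _ ha _ k1 k3).1.2, (h1 b hb5).1,
        (h1 b hb5).2, hb6⟩) (fun b hb => by
      obtain ⟨hb5, _⟩ := Finset.mem_filter.1 hb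
      obtain ⟨k1, _, k3⟩ := hS' b hb5
      refine ⟨(hF' b k1).1, (hF' b k1).2 (hgood _ ha _ k1 k3).1.1, (hDp' b k1).1,
        fun b' hb' hbb => hω _ b' (hS' b' (Finset.mem_filter.1 hb').1).1 hbb,
        fun Ω _ _ q hq => ⟨(hDp' b k1).2 Ω q hq, fun hz => ?_⟩⟩
      exact mnb_top 𝓟 hσ ha ((hgood _ ha _ k1 k3).2.2 (hGm _ (hSG b hb5)).2.2.1) hq hz)
    (h2.mono (biInf_mono fun b hb => (Finset.mem_filter.1 hb).1) le_rfl)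
  have key2' : Cp l * φ * ((μ + (1 : ℕ) + 1) * (2 * (nd P + 1))) ≤
      φ * ((∑ l ∈ Finset.range d, Cp l) * ((μ + 2) * 4) * X) := by
    have e1 : Cp l ≤ ∑ l ∈ Finset.range d, Cp l :=
      Finset.single_le_sum (f := Cp) (fun l _ => (hCp l).le) (Finset.mem_range.2 (by omega))
    have e2 : 2 * ((nd P : ℝ) + 1) ≤ 4 * X := by linarith
    calc Cp l * φ * ((μ + (1 : ℕ) + 1) * (2 * (nd P + 1)))
        = Cp l * φ * ((μ + 2) * (2 * (nd P + 1))) := by push_cast; ring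
      _ ≤ (∑ l ∈ Finset.range d, Cp l) * φ * ((μ + 2) * (4 * X)) := by gcongr
      _ = _ := by ring
  have e3 := Finset.card_filter_add_card_filter_not (s := S)
    (fun b => PersD i0 (𝓟.g (𝓟.pc b)) (l + 1) (cx a) (cx b) γ)
  rw [← e3]
  push_cast
  linarith


end

end Vale.Agent.P054
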