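import Vale.Agent.P054.CelReal

namespace Vale.Agent.P054

open MvPolynomial

noncomputable section

theorem mcells_fp1 {δ : ℕ → ℝ} (h1 : ∀ i, 1 ≤ δ i) (hm : Monotone δ) {d t : ℕ} (ht : t < d) :
    δ 0 ^ (d - 1) * δ t ≤ fp δ d := by
  unfold fp
  have hmem : t ∈ Finset.range d := Finset.mem_range.2 ht
  rw [← Finset.mul_prod_erase _ _ hmem, mul_comm]
  refine mul_le_mul_of_nonneg_left ?_ (zero_le_one.trans (h1 t))
  have hc : ((Finset.range d).erase t).card = d - 1 := by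
    rw [Finset.card_erase_of_mem hmem, Finset.card_range]
  rw [← hc, ← Finset.prod_const]
  exact Finset.prod_le_prod (fun i _ => zero_le_one.trans (h1 0)) fun i _ => hm (Nat.zero_le i)

theorem mcells_fp2 {δ : ℕ → ℝ} (h1 : ∀ i, 1 ≤ δ i) (hm : Monotone δ) (e : ℕ) :
    δ 0 * δ 1 ^ e ≤ fp δ (e + 1) := by
  induction e with
  | zero => simp [fp]
  | succ e ih =>
    rw [fp_succ, pow_succ, ← mul_assoc]
    exact mul_le_mul ih (hm (by omega)) (zero_le_one.trans (h1 1)) (fp_pos h1 _).le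

theorem mcells_le_fp {δ : ℕ → ℝ} (h1 : ∀ i, 1 ≤ δ i) (hm : Monotone δ) {d t : ℕ} (ht : t < d) :
    δ t ≤ fp δ d :=
  le_trans (le_mul_of_one_le_left (zero_le_one.trans (h1 t)) (one_le_pow₀ (h1 0)))
    (mcells_fp1 h1 hm ht)

theorem mcells_lev {b u : ℝ} {M : ℕ} (hb : 1 < b) (hu : 1 ≤ u) (hM : u ≤ b ^ M) :
    ∃ k : ℕ, k < M + 1 ∧ b ^ k ≤ u ∧ u < b ^ (k + 1) := by
  obtain ⟨k, hk1, hk2⟩ := exists_nat_pow_near hu hb
  exact ⟨k, Nat.lt_succ_of_le ((pow_le_pow_iff_right₀ hb).1 (hk1.trans hM)), hk1, hk2⟩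

/-- the first degree is at most `A x`. -/
theorem mcells_d0 {δ : ℕ → ℝ} (h1 : ∀ i, 1 ≤ δ i) (hm : Monotone δ) {d : ℕ} (hd : 3 ≤ d)
    {A x : ℝ} (hA : 1 ≤ A) (hx : 1 ≤ x) (hf : fp δ d ≤ A * x ^ d) : δ 0 ≤ A * x := by
  have h := mcells_fp1 h1 hm (show 0 < d by omega)
  rw [← pow_succ, Nat.sub_add_cancel (by omega)] at h
  have h2 : A * x ^ d ≤ (A * x) ^ d := by
    rw [mul_pow]
    exact mul_le_mul_of_nonneg_right (le_self_pow₀ hA (by omega)) (by positivity)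
  exact le_of_pow_le_pow_left₀ (show d ≠ 0 by omega) (by positivity) (h.trans (hf.trans h2))

theorem mcells_two {δ : ℕ → ℝ} (h1 : ∀ i, 1 ≤ δ i) (hm : Monotone δ) {d : ℕ} (hd : 3 ≤ d)
    {A x z : ℝ} (hA : 1 ≤ A) (hx : 1 ≤ x) (hf : fp δ d ≤ A * x ^ d) (hz : 1 ≤ z)
    (hz4 : z ^ 4 ≤ 2 * max 1 (x / δ 0)) : δ 0 * δ 1 * z ≤ 2 * A * x ^ 2 := by
  obtain ⟨e, rfl⟩ : ∃ e, d = e + 3 := ⟨d - 3, by omega⟩
  have h0 := h1 0
  have h01 : δ 0 ≤ δ 1 := hm (by omega)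
  have hx0 : 0 < x := by linarith
  have hP := (mcells_fp2 h1 hm (e + 2)).trans hf
  have hz2 : z ^ 2 ≤ z ^ 4 := pow_le_pow_right₀ hz (by norm_num)
  have hz1 : z ≤ z ^ 2 := le_self_pow₀ hz (by norm_num)
  rcases le_or_gt x (δ 0) with hc | hc
  · have hV : max 1 (x / δ 0) = 1 := max_eq_left ((div_le_one (by linarith)).2 hc)
    rw [hV] at hz4
    have h3 : x ^ (e + 1) ≤ δ 1 ^ (e + 1) := pow_le_pow_left₀ hx0.le (hc.trans h01) _
    have h4 : δ 0 * δ 1 * x ^ (e + 1) ≤ A * x ^ 2 * x ^ (e + 1) := by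
      calc δ 0 * δ 1 * x ^ (e + 1) ≤ δ 0 * δ 1 * δ 1 ^ (e + 1) :=
            mul_le_mul_of_nonneg_left h3 (by nlinarith)
        _ = δ 0 * δ 1 ^ (e + 2) := by ring
        _ ≤ A * x ^ (e + 2 + 1) := hP
        _ = A * x ^ 2 * x ^ (e + 1) := by ring
    have h5 : δ 0 * δ 1 ≤ A * x ^ 2 := le_of_mul_le_mul_right h4 (by positivity)
    have h6 : z ≤ 2 := by linarith
    calc δ 0 * δ 1 * z ≤ A * x ^ 2 * 2 := mul_le_mul h5 h6 (by linarith) (by positivity)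
      _ = 2 * A * x ^ 2 := by ring
  · have hV : max 1 (x / δ 0) = x / δ 0 := max_eq_right ((one_le_div (by linarith)).2 hc.le)
    rw [hV, ← mul_div_assoc, le_div_iff₀ (by linarith)] at hz4
    have h7 : δ 0 * z ^ 2 ≤ 2 * x := by nlinarith
    have h8 : δ 0 * z ≤ 2 * x := by nlinarith
    rcases le_or_gt (δ 1) x with hc2 | hc2
    · calc δ 0 * δ 1 * z = (δ 0 * z) * δ 1 := by ring
        _ ≤ 2 * x * x := mul_le_mul h8 hc2 (by linarith) (by positivity)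
        _ = 2 * 1 * x ^ 2 := by ring
        _ ≤ 2 * A * x ^ 2 := by gcongr
    · have h3 : x ^ e ≤ δ 1 ^ e := pow_le_pow_left₀ hx0.le hc2.le _
      have h4 : δ 0 * δ 1 ^ 2 * x ^ e ≤ A * x ^ 3 * x ^ e := by
        calc δ 0 * δ 1 ^ 2 * x ^ e ≤ δ 0 * δ 1 ^ 2 * δ 1 ^ e :=
              mul_le_mul_of_nonneg_left h3 (by positivity)
          _ = δ 0 * δ 1 ^ (e + 2) := by ring
          _ ≤ A * x ^ (e + 2 + 1) := hP
          _ = A * x ^ 3 * x ^ e := by ring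
      have h5 : δ 0 * δ 1 ^ 2 ≤ A * x ^ 3 := le_of_mul_le_mul_right h4 (by positivity)
      refine le_of_pow_le_pow_left₀ (show 2 ≠ 0 by omega) (by positivity) ?_
      calc (δ 0 * δ 1 * z) ^ 2 = (δ 0 * δ 1 ^ 2) * (δ 0 * z ^ 2) := by ring
        _ ≤ A * x ^ 3 * (2 * x) := mul_le_mul h5 h7 (by positivity) (by positivity)
        _ = (2 * A) * x ^ 4 := by ring
        _ ≤ (2 * A) ^ 2 * x ^ 4 :=
            mul_le_mul_of_nonneg_right (le_self_pow₀ (by linarith) (by norm_num)) (by positivity)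
        _ = (2 * A * x ^ 2) ^ 2 := by ring

/-- the eighth power of the loss factor. -/
theorem mcells_r {d : ℕ} (hd : 3 ≤ d) {y V : ℝ} (hy : 2 ≤ y) (hV : 1 ≤ V)
    (hVx : V ≤ y ^ (128 * d ^ 3)) :
    1 ≤ (2 * V) ^ ((1 : ℝ) / (1024 * d ^ 3)) ∧
      ((2 * V) ^ ((1 : ℝ) / (1024 * d ^ 3))) ^ 8 ≤ min (2 * V) (y ^ 2) := by
  have hd1 : (1 : ℝ) ≤ d := by exact_mod_cast (show 1 ≤ d by omega)
  have hd3 : (1 : ℝ) ≤ (d : ℝ) ^ 3 := one_le_pow₀ hd1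
  have h2V : (1 : ℝ) ≤ 2 * V := by linarith
  refine ⟨Real.one_le_rpow h2V (by positivity), ?_⟩
  have he : ((2 * V) ^ ((1 : ℝ) / (1024 * d ^ 3))) ^ 8 = (2 * V) ^ ((1 : ℝ) / (128 * d ^ 3)) := by
    rw [← Real.rpow_natCast, ← Real.rpow_mul (by linarith)]
    refine congrArg _ ?_
    push_cast
    field_simp
    norm_num
  have hβ : (1 : ℝ) / (128 * d ^ 3) ≤ 1 := by
    rw [div_le_one (by positivity)]
    linarith
  rw [he]
  refine le_min ?_ ?_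
  · calc (2 * V) ^ ((1 : ℝ) / (128 * d ^ 3)) ≤ (2 * V) ^ (1 : ℝ) :=
          Real.rpow_le_rpow_of_exponent_le h2V hβ
      _ = 2 * V := Real.rpow_one _
  · have h3 : (y ^ (128 * d ^ 3)) ^ ((1 : ℝ) / (128 * d ^ 3)) = y := by
      have h4 : ((1 : ℝ) / (128 * d ^ 3)) = ((128 * d ^ 3 : ℕ) : ℝ)⁻¹ := by
        push_cast
        rw [one_div]
      rw [h4]
      exact Real.pow_rpow_inv_natCast (by linarith) (by positivity)
    calc (2 * V) ^ ((1 : ℝ) / (128 * d ^ 3))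
        = 2 ^ ((1 : ℝ) / (128 * d ^ 3)) * V ^ ((1 : ℝ) / (128 * d ^ 3)) :=
          Real.mul_rpow (by norm_num) (by linarith)
      _ ≤ 2 ^ (1 : ℝ) * (y ^ (128 * d ^ 3)) ^ ((1 : ℝ) / (128 * d ^ 3)) :=
          mul_le_mul (Real.rpow_le_rpow_of_exponent_le (by norm_num) hβ)
            (Real.rpow_le_rpow (by linarith) hVx (by positivity)) (by positivity) (by positivity)
      _ = 2 * y := by rw [h3, Real.rpow_one]
      _ ≤ y ^ 2 := by nlinarith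

/-- all facts about a single degree sequence. -/
theorem mcells_one {d : ℕ} (hd : 3 ≤ d) {A : ℝ} (hA : 1 ≤ A) {a : ℕ} (ha : A ≤ 2 ^ a)
    {δ : ℕ → ℝ} {y : ℝ} (hy : 4 * A ^ 2 ≤ y) (h1 : ∀ i, 1 ≤ δ i) (hm : Monotone δ)
    (hf : fp δ d ≤ A * y ^ (128 * d ^ 4)) :
    2 * A * (2 * max 1 (y ^ (128 * d ^ 3) / δ 0)) ^ ((1 : ℝ) / (1024 * d ^ 3)) ≤ y ∧
    ∃ w : ℝ, 1 < w ∧ w ^ (2 * d) ≤ y ∧ δ 0 * δ 1 * w ^ (2 * d) ≤ 2 * A * y ^ (256 * d ^ 3) ∧
      (2 * max 1 (y ^ (128 * d ^ 3) / δ 0)) ^ ((1 : ℝ) / (1024 * d ^ 3)) ≤ w ^ d ∧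
      ∀ t, t < d → δ t ≤ y ^ (8 * d * (128 * d ^ 4 + 1 + a + d)) ∧
        max (δ t / y ^ (128 * d ^ 3)) 1 ≤ w ^ (8 * d * (128 * d ^ 4 + 1 + a + d)) ∧
        (2 * A * y ^ (256 * d ^ 3) < δ 0 * δ t * w ^ (2 * d) → w < δ t / y ^ (128 * d ^ 3)) := by
  have hA2 : A ≤ A ^ 2 := le_self_pow₀ hA (by norm_num)
  have hy4 : 4 ≤ y := by linarith
  have hAy : A ≤ y := by linarith
  have hy1 : 1 ≤ y := by linarith
  set x : ℝ := y ^ (128 * d ^ 3) with hxdef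
  have hx : 1 ≤ x := one_le_pow₀ hy1
  have hx0 : 0 < x := by linarith
  have hxd : y ^ (128 * d ^ 4) = x ^ d := by
    rw [hxdef, ← pow_mul]
    refine congrArg _ ?_
    ring
  have hx2 : y ^ (256 * d ^ 3) = x ^ 2 := by
    rw [hxdef, ← pow_mul]
    refine congrArg _ ?_
    ring
  have h0 := h1 0
  have hfx : fp δ d ≤ A * x ^ d := by rwa [hxd] at hf
  set V : ℝ := max 1 (x / δ 0) with hVdef
  have hV : 1 ≤ V := le_max_left _ _
  have hVx : V ≤ x := max_le hx (div_le_self hx0.le h0)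
  obtain ⟨hr1, hr8⟩ := mcells_r hd (by linarith : (2 : ℝ) ≤ y) hV hVx
  set r : ℝ := (2 * V) ^ ((1 : ℝ) / (1024 * d ^ 3)) with hrdef
  set W : ℝ := min (2 * V) (y ^ 2) with hWdef
  have hW2 : 2 ≤ W := le_min (by linarith) (by nlinarith)
  have hWV : W ≤ 2 * V := min_le_left _ _
  have hWy : W ≤ y ^ 2 := min_le_right _ _
  have hr4 : r ^ 4 ≤ y := by
    refine le_of_pow_le_pow_left₀ (show 2 ≠ 0 by omega) (by linarith) ?_
    calc (r ^ 4) ^ 2 = r ^ 8 := by ring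
      _ ≤ y ^ 2 := hr8.trans hWy
  refine ⟨?_, ?_⟩
  · rcases le_or_gt r (2 * A) with h | h
    · nlinarith
    · have : r ^ 2 ≤ r ^ 4 := pow_le_pow_right₀ hr1 (by norm_num)
      nlinarith
  have h8d : 8 * d ≠ 0 := by omega
  obtain ⟨w, hw0, hw8⟩ : ∃ w : ℝ, 0 ≤ w ∧ w ^ (8 * d) = W :=
    ⟨W ^ ((8 * d : ℕ) : ℝ)⁻¹, by positivity, Real.rpow_inv_natCast_pow (by linarith) h8d⟩
  have hw1 : 1 < w := by
    by_contra hc
    have := pow_le_one₀ (n := 8 * d) hw0 (not_lt.1 hc)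
    linarith
  have hz4 : (w ^ (2 * d)) ^ 4 = W := by
    rw [← hw8, ← pow_mul]
    refine congrArg _ ?_
    ring
  have hz1 : 1 ≤ w ^ (2 * d) := one_le_pow₀ hw1.le
  have hd0W : δ 0 * W ≤ 2 * A * x := by
    rcases le_or_gt x (δ 0) with hc | hc
    · have hV1 : V = 1 := max_eq_left ((div_le_one (by linarith)).2 hc)
      have h5 := mcells_d0 h1 hm hd hA hx hfx
      calc δ 0 * W ≤ A * x * 2 := mul_le_mul h5 (by linarith) (by linarith) (by positivity)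
        _ = 2 * A * x := by ring
    · have hV1 : V = x / δ 0 := max_eq_right ((one_le_div (by linarith)).2 hc.le)
      have h5 : δ 0 * V = x := by
        rw [hV1]
        field_simp
      calc δ 0 * W ≤ δ 0 * (2 * V) := mul_le_mul_of_nonneg_left hWV (by linarith)
        _ = 2 * 1 * x := by rw [← h5]; ring
        _ ≤ 2 * A * x := by gcongr
  refine ⟨w, hw1, ?_, ?_, ?_, ?_⟩
  · refine le_of_pow_le_pow_left₀ (show 4 ≠ 0 by omega) (by linarith) ?_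
    rw [hz4]
    exact hWy.trans (pow_le_pow_right₀ hy1 (by norm_num))
  · rw [hx2]
    exact mcells_two h1 hm hd hA hx hfx hz1 (by rw [hz4]; exact hWV)
  · refine le_of_pow_le_pow_left₀ (show 8 ≠ 0 by omega) (by positivity) ?_
    calc r ^ 8 ≤ W := hr8
      _ = (w ^ d) ^ 8 := by
        rw [← hw8, ← pow_mul]
        refine congrArg _ ?_
        ring
  intro t ht
  have hδy : δ t ≤ y ^ (128 * d ^ 4 + 1) := by
    calc δ t ≤ A * y ^ (128 * d ^ 4) := (mcells_le_fp h1 hm ht).trans hf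
      _ ≤ y * y ^ (128 * d ^ 4) := mul_le_mul_of_nonneg_right hAy (by positivity)
      _ = y ^ (128 * d ^ 4 + 1) := by ring
  have hW1 : 1 ≤ W := by linarith
  refine ⟨hδy.trans (pow_le_pow_right₀ hy1 ?_), ?_, ?_⟩
  · calc 128 * d ^ 4 + 1 ≤ 1 * (128 * d ^ 4 + 1 + a + d) := by omega
      _ ≤ 8 * d * (128 * d ^ 4 + 1 + a + d) := Nat.mul_le_mul_right _ (by omega)
  · rw [pow_mul, hw8]
    refine max_le ?_ (one_le_pow₀ hW1)
    rcases min_choice (2 * V) (y ^ 2) with hc | hc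
    · have hWe : W = 2 * V := hc
      have h5 := (mcells_fp1 h1 hm ht).trans hfx
      have h6 : x ≤ V * δ 0 := by
        have : x / δ 0 ≤ V := le_max_right _ _
        rwa [div_le_iff₀ (by linarith)] at this
      have h7 : x ^ (d - 1) ≤ V ^ (d - 1) * δ 0 ^ (d - 1) := by
        rw [← mul_pow]
        exact pow_le_pow_left₀ hx0.le h6 _
      have h8 : x ^ d = x ^ (d - 1) * x := by
        rw [← pow_succ, Nat.sub_add_cancel (by omega)]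
      have h9 : δ 0 ^ (d - 1) * δ t ≤ δ 0 ^ (d - 1) * (A * V ^ (d - 1) * x) := by
        calc δ 0 ^ (d - 1) * δ t ≤ A * (x ^ (d - 1) * x) := by rwa [h8] at h5
          _ ≤ A * (V ^ (d - 1) * δ 0 ^ (d - 1) * x) := by gcongr
          _ = δ 0 ^ (d - 1) * (A * V ^ (d - 1) * x) := by ring
      have h10 : δ t ≤ A * V ^ (d - 1) * x := le_of_mul_le_mul_left h9 (by positivity)
      rw [div_le_iff₀ hx0]
      refine h10.trans (mul_le_mul_of_nonneg_right ?_ hx0.le)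
      calc A * V ^ (d - 1) ≤ W ^ a * W ^ (d - 1) :=
            mul_le_mul (ha.trans (pow_le_pow_left₀ (by norm_num) hW2 _))
              (pow_le_pow_left₀ (by linarith) (by linarith) _) (by positivity) (by positivity)
        _ = W ^ (a + (d - 1)) := (pow_add _ _ _).symm
        _ ≤ W ^ (128 * d ^ 4 + 1 + a + d) := pow_le_pow_right₀ hW1 (by omega)
    · have hWe : W = y ^ 2 := hc
      calc δ t / x ≤ δ t := div_le_self (by linarith [h1 t]) hx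
        _ ≤ y ^ (128 * d ^ 4 + 1) := hδy
        _ ≤ W ^ (128 * d ^ 4 + 1) := pow_le_pow_left₀ (by linarith) (by nlinarith) _
        _ ≤ W ^ (128 * d ^ 4 + 1 + a + d) := pow_le_pow_right₀ hW1 (by omega)
  · intro h
    rw [hx2] at h
    have ht1 := h1 t
    rw [lt_div_iff₀ hx0]
    have h5 : 2 * A * x * (x * W) < 2 * A * x * (δ t * w ^ (2 * d)) := by
      calc 2 * A * x * (x * W) = 2 * A * x ^ 2 * W := by ring
        _ < δ 0 * δ t * w ^ (2 * d) * W := mul_lt_mul_of_pos_right h (by linarith)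
        _ = δ 0 * W * (δ t * w ^ (2 * d)) := by ring
        _ ≤ 2 * A * x * (δ t * w ^ (2 * d)) := mul_le_mul_of_nonneg_right hd0W (by positivity)
    have h6 : x * W < δ t * w ^ (2 * d) := lt_of_mul_lt_mul_left h5 (by positivity)
    have h7 : w * w ^ (2 * d) ≤ W := by
      rw [← hw8, ← pow_succ']
      exact pow_le_pow_right₀ hw1.le (by omega)
    have h8 : w * x * w ^ (2 * d) < δ t * w ^ (2 * d) := by
      calc w * x * w ^ (2 * d) = x * (w * w ^ (2 * d)) := by ring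
        _ ≤ x * W := mul_le_mul_of_nonneg_left h7 hx0.le
        _ < δ t * w ^ (2 * d) := h6
    exact lt_of_mul_lt_mul_right h8 (by positivity)

/-- classification of degree sequences into boundedly many types. -/
theorem cells_num (d : ℕ) (hd : 3 ≤ d) (A : ℝ) (hA : 1 ≤ A) : ∃ (M : ℕ) (y1 : ℝ),
    ∀ (κ : Type) [Fintype κ] (δ : κ → ℕ → ℝ) (q : κ → ℝ) (y : ℝ), y1 ≤ y → (∀ j i, 1 ≤ δ j i) →
    (∀ j, Monotone (δ j)) → (∀ j, fp (δ j) d ≤ A * y ^ (128 * d ^ 4)) → (∀ j, 0 ≤ q j) →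
    ∑ j, q j ≤ y ^ (128 * d ^ 4) →
    (∀ j, y ^ (128 * d ^ 4) ≤
      2 * A * (2 * max 1 (y ^ (128 * d ^ 3) / δ j 0)) ^ ((1 : ℝ) / (1024 * d ^ 3)) * q j) →
    (Fintype.card κ : ℝ) ≤ y ∧ ∃ (typ : κ → Fin d → Fin M × Fin M) (w : κ → ℝ),
      (∀ j, 1 ≤ w j ∧ w j ^ (2 * d) ≤ y ∧
        δ j 0 * δ j 1 * w j ^ (2 * d) ≤ 2 * A * y ^ (256 * d ^ 3)) ∧
      ∑ j, 1 / w j ^ d ≤ 2 * A ∧
      ∀ i j, typ i = typ j → ∀ t, t < d → δ i t ≤ y * δ j t ∧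
        (w j ≤ w i → 2 * A * y ^ (256 * d ^ 3) < δ j 0 * δ j t * w j ^ (2 * d) →
          δ j t ≤ w j * δ i t) := by
  obtain ⟨a, ha⟩ : ∃ a : ℕ, A ≤ 2 ^ a :=
    (pow_unbounded_of_one_lt A (by norm_num : (1 : ℝ) < 2)).imp fun _ h => h.le
  refine ⟨8 * d * (128 * d ^ 4 + 1 + a + d) + 1, 4 * A ^ 2, ?_⟩
  intro κ _ δ q y hy h1 hm hf hq hsum hN
  have hA2 : A ≤ A ^ 2 := le_self_pow₀ hA (by norm_num)
  have hy1 : 1 < y := by linarith
  have hN0 : 0 < y ^ (128 * d ^ 4) := by positivity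
  have hx0 : 0 < y ^ (128 * d ^ 3) := by positivity
  have H := fun j => mcells_one hd hA ha hy (h1 j) (hm j) (hf j)
  choose w hw1 hwy hw2 hwr hwt using fun j => (H j).2
  have hk1 : ∀ (j : κ) (t : Fin d), ∃ k : ℕ, k < 8 * d * (128 * d ^ 4 + 1 + a + d) + 1 ∧
      y ^ k ≤ δ j t ∧ δ j t < y ^ (k + 1) :=
    fun j t => mcells_lev hy1 (h1 j t) (hwt j t t.2).1
  have hk2 : ∀ (j : κ) (t : Fin d), ∃ k : ℕ, k < 8 * d * (128 * d ^ 4 + 1 + a + d) + 1 ∧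
      w j ^ k ≤ max (δ j t / y ^ (128 * d ^ 3)) 1 ∧
        max (δ j t / y ^ (128 * d ^ 3)) 1 < w j ^ (k + 1) :=
    fun j t => mcells_lev (hw1 j) (le_max_right _ _) (hwt j t t.2).2.1
  choose k1 hk1a hk1b hk1c using hk1
  choose k2 hk2a hk2b hk2c using hk2
  refine ⟨?_, fun j t => (⟨k1 j t, hk1a j t⟩, ⟨k2 j t, hk2a j t⟩), w,
    fun j => ⟨(hw1 j).le, hwy j, hw2 j⟩, ?_, ?_⟩
  · have h2 : ∀ j, y ^ (128 * d ^ 4) ≤ y * q j := fun j =>
      (hN j).trans (mul_le_mul_of_nonneg_right (H j).1 (hq j))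
    have h3 : (Fintype.card κ : ℝ) * y ^ (128 * d ^ 4) ≤ y * y ^ (128 * d ^ 4) := by
      calc (Fintype.card κ : ℝ) * y ^ (128 * d ^ 4) = ∑ _j : κ, y ^ (128 * d ^ 4) := by
            rw [Finset.sum_const, Finset.card_univ, nsmul_eq_mul]
        _ ≤ ∑ j, y * q j := Finset.sum_le_sum fun j _ => h2 j
        _ = y * ∑ j, q j := (Finset.mul_sum _ _ _).symm
        _ ≤ y * y ^ (128 * d ^ 4) := mul_le_mul_of_nonneg_left hsum (by linarith)
    exact le_of_mul_le_mul_right h3 hN0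
  · have h2 : ∀ j, 1 / w j ^ d ≤ 2 * A / y ^ (128 * d ^ 4) * q j := by
      intro j
      have hw0 : 0 < w j ^ d := pow_pos (by linarith [hw1 j]) _
      rw [div_mul_eq_mul_div, div_le_div_iff₀ hw0 hN0, one_mul]
      refine (hN j).trans ?_
      calc 2 * A * (2 * max 1 (y ^ (128 * d ^ 3) / δ j 0)) ^ ((1 : ℝ) / (1024 * d ^ 3)) * q j
          ≤ 2 * A * w j ^ d * q j :=
            mul_le_mul_of_nonneg_right (mul_le_mul_of_nonneg_left (hwr j) (by linarith)) (hq j)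
        _ = 2 * A * q j * w j ^ d := by ring
    calc ∑ j, 1 / w j ^ d ≤ ∑ j, 2 * A / y ^ (128 * d ^ 4) * q j :=
          Finset.sum_le_sum fun j _ => h2 j
      _ = 2 * A / y ^ (128 * d ^ 4) * ∑ j, q j := (Finset.mul_sum _ _ _).symm
      _ ≤ 2 * A / y ^ (128 * d ^ 4) * y ^ (128 * d ^ 4) :=
          mul_le_mul_of_nonneg_left hsum (by positivity)
      _ = 2 * A := div_mul_cancel₀ _ hN0.ne'
  · intro i j hij t ht
    have he := congrFun hij ⟨t, ht⟩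
    have e1 : k1 i ⟨t, ht⟩ = k1 j ⟨t, ht⟩ := congrArg (fun p => p.1.val) he
    have e2 : k2 i ⟨t, ht⟩ = k2 j ⟨t, ht⟩ := congrArg (fun p => p.2.val) he
    refine ⟨?_, fun hw hlt => ?_⟩
    · have h2 : δ i t < y ^ (k1 i ⟨t, ht⟩ + 1) := hk1c i ⟨t, ht⟩
      have h3 : y ^ k1 j ⟨t, ht⟩ ≤ δ j t := hk1b j ⟨t, ht⟩
      rw [e1, pow_succ'] at h2
      exact h2.le.trans (mul_le_mul_of_nonneg_left h3 (by linarith))
    · have h2 := (hwt j t ht).2.2 hlt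
      have h3 : max (δ j t / y ^ (128 * d ^ 3)) 1 < w j ^ (k2 j ⟨t, ht⟩ + 1) := hk2c j ⟨t, ht⟩
      have h4 : w i ^ k2 i ⟨t, ht⟩ ≤ max (δ i t / y ^ (128 * d ^ 3)) 1 := hk2b i ⟨t, ht⟩
      rw [e2] at h4
      have h5 : δ j t / y ^ (128 * d ^ 3) < w j ^ (k2 j ⟨t, ht⟩ + 1) :=
        (le_max_left _ _).trans_lt h3
      have h6 : k2 j ⟨t, ht⟩ ≠ 0 := by
        intro h0
        rw [h0, zero_add, pow_one] at h5
        linarith
      have h7 : 1 < w i ^ k2 j ⟨t, ht⟩ := one_lt_pow₀ (hw1 i) h6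
      have h8 : w i ^ k2 j ⟨t, ht⟩ ≤ δ i t / y ^ (128 * d ^ 3) := by
        rcases le_max_iff.1 h4 with h | h
        · exact h
        · linarith
      have hwj : 0 ≤ w j := by linarith [hw1 j]
      have h9 : δ j t / y ^ (128 * d ^ 3) ≤ w j * δ i t / y ^ (128 * d ^ 3) := by
        rw [mul_div_assoc]
        refine h5.le.trans ?_
        rw [pow_succ']
        exact mul_le_mul_of_nonneg_left ((pow_le_pow_left₀ hwj hw _).trans h8) hwj
      exact (div_le_div_iff_of_pos_right hx0).1 h9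

theorem mcells_small (d : ℕ) (hd : 3 ≤ d) (δ : ℕ → ℝ) (y : ℝ) (hy : 1 ≤ y)
    (h1 : ∀ i, 1 ≤ δ i) (hm : Monotone δ) (hf : fp δ d ≤ y * y ^ (128 * d ^ 4))
    (hb : y ^ (256 * d ^ 3) < δ (d - 1) * y ^ (16 * d)) :
    δ 0 * δ 1 * y ^ (16 * d * d + 8 * d + 3) ≤ y ^ (256 * d ^ 3) := by
  obtain ⟨e, he⟩ : ∃ e, d = e + 3 := ⟨d - 3, by omega⟩
  have hd1 : d - 1 = e + 2 := by omega
  rw [hd1] at hb
  have h0 := h1 0
  have h11 := h1 1
  have h01 : δ 0 ≤ δ 1 := hm (by omega)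
  have hP : δ 0 * δ 1 ^ (e + 1) * δ (e + 2) ≤ y * y ^ (128 * d ^ 4) := by
    refine le_trans ?_ hf
    have : fp δ d = fp δ (e + 1 + 1) * δ (e + 2) := by rw [he]; exact fp_succ δ (e + 2)
    rw [this]
    exact mul_le_mul_of_nonneg_right (mcells_fp2 h1 hm (e + 1)) (by linarith [h1 (e + 2)])
  have h2 : δ 0 * δ 1 ^ (e + 1) * y ^ (256 * d ^ 3) ≤ y ^ (128 * d ^ 4 + 1 + 16 * d) := by
    calc δ 0 * δ 1 ^ (e + 1) * y ^ (256 * d ^ 3)
        ≤ δ 0 * δ 1 ^ (e + 1) * (δ (e + 2) * y ^ (16 * d)) :=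
          mul_le_mul_of_nonneg_left hb.le (by positivity)
      _ = δ 0 * δ 1 ^ (e + 1) * δ (e + 2) * y ^ (16 * d) := by ring
      _ ≤ y * y ^ (128 * d ^ 4) * y ^ (16 * d) := mul_le_mul_of_nonneg_right hP (by positivity)
      _ = y ^ (128 * d ^ 4 + 1 + 16 * d) := by rw [pow_add, pow_succ' y]
  have h3 : (δ 0 * δ 1) ^ (e + 2) ≤ (δ 0 * δ 1 ^ (e + 1)) ^ 2 := by
    have h4 : δ 0 ^ e ≤ δ 1 ^ e := pow_le_pow_left₀ (by linarith) h01 e
    calc (δ 0 * δ 1) ^ (e + 2) = δ 0 ^ e * (δ 0 ^ 2 * δ 1 ^ (e + 2)) := by ring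
      _ ≤ δ 1 ^ e * (δ 0 ^ 2 * δ 1 ^ (e + 2)) := mul_le_mul_of_nonneg_right h4 (by positivity)
      _ = (δ 0 * δ 1 ^ (e + 1)) ^ 2 := by ring
  have hexp : (128 * d ^ 4 + 1 + 16 * d) * 2 + (16 * d * d + 8 * d + 3) * (e + 2) ≤
      256 * d ^ 3 * (e + 2) + 256 * d ^ 3 * 2 := by
    subst he
    ring_nf
    omega
  have hy0 : 0 < y := by linarith
  refine le_of_pow_le_pow_left₀ (show e + 2 ≠ 0 by omega) (by positivity) ?_
  refine le_of_mul_le_mul_right ?_ (show 0 < (y ^ (256 * d ^ 3)) ^ 2 by positivity)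
  calc (δ 0 * δ 1 * y ^ (16 * d * d + 8 * d + 3)) ^ (e + 2) * (y ^ (256 * d ^ 3)) ^ 2
      = (δ 0 * δ 1) ^ (e + 2) * (y ^ (256 * d ^ 3)) ^ 2 *
          (y ^ (16 * d * d + 8 * d + 3)) ^ (e + 2) := by
        rw [mul_pow, mul_right_comm]
    _ ≤ (δ 0 * δ 1 ^ (e + 1)) ^ 2 * (y ^ (256 * d ^ 3)) ^ 2 *
          (y ^ (16 * d * d + 8 * d + 3)) ^ (e + 2) := by gcongr
    _ = (δ 0 * δ 1 ^ (e + 1) * y ^ (256 * d ^ 3)) ^ 2 *
          (y ^ (16 * d * d + 8 * d + 3)) ^ (e + 2) := by rw [← mul_pow]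
    _ ≤ (y ^ (128 * d ^ 4 + 1 + 16 * d)) ^ 2 * (y ^ (16 * d * d + 8 * d + 3)) ^ (e + 2) := by
        gcongr
    _ = y ^ ((128 * d ^ 4 + 1 + 16 * d) * 2 + (16 * d * d + 8 * d + 3) * (e + 2)) := by
        rw [← pow_mul, ← pow_mul, ← pow_add]
    _ ≤ y ^ (256 * d ^ 3 * (e + 2) + 256 * d ^ 3 * 2) := pow_le_pow_right₀ hy hexp
    _ = (y ^ (256 * d ^ 3)) ^ (e + 2) * (y ^ (256 * d ^ 3)) ^ 2 := by
        rw [← pow_mul, ← pow_mul, ← pow_add]

theorem mcells_free (d : ℕ) (hd : 1 ≤ d) (δ : ℕ → ℝ) (B X : ℝ) (hB : 1 ≤ B)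
    (h1 : ∀ i, 1 ≤ δ i) : ∃ k, 1 ≤ k ∧ k ≤ d ∧
      ∀ t, t < d - 1 → δ t * B ^ k ≤ X → δ t * B ^ (k + 1) ≤ X := by
  by_contra hc
  push Not at hc
  choose! f hf1 hf2 hf3 using hc
  have hinj : Set.InjOn f (Finset.Icc 1 d : Finset ℕ) := by
    have key : ∀ k k', 1 ≤ k → k ≤ d → 1 ≤ k' → k' ≤ d → f k = f k' → ¬ k < k' := by
      intro k k' a1 a2 b1 b2 he hlt
      have h2 := hf3 k a1 a2
      have h3 := hf2 k' b1 b2
      rw [← he] at h3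
      have h4 : δ (f k) * B ^ (k + 1) ≤ δ (f k) * B ^ k' :=
        mul_le_mul_of_nonneg_left (pow_le_pow_right₀ hB hlt) (by linarith [h1 (f k)])
      linarith
    intro k hk k' hk' he
    rw [Finset.mem_coe, Finset.mem_Icc] at hk hk'
    have h2 := key k k' hk.1 hk.2 hk'.1 hk'.2 he
    have h3 := key k' k hk'.1 hk'.2 hk.1 hk.2 he.symm
    omega
  have hmaps : Set.MapsTo f (Finset.Icc 1 d : Finset ℕ) (Finset.range (d - 1) : Finset ℕ) := by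
    intro k hk
    rw [Finset.mem_coe, Finset.mem_Icc] at hk
    rw [Finset.mem_coe, Finset.mem_range]
    exact hf1 k hk.1 hk.2
  have := Finset.card_le_card_of_injOn f hmaps hinj
  rw [Nat.card_Icc, Finset.card_range] at this
  omega

/-- a window free of degrees. -/
theorem window_num (d : ℕ) (hd : 3 ≤ d) (A : ℝ) (hA : 1 ≤ A) (δ : ℕ → ℝ) (y : ℝ) (hy : A ≤ y)
    (h1 : ∀ i, 1 ≤ δ i) (hm : Monotone δ) (hf : fp δ d ≤ A * y ^ (128 * d ^ 4))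
    (hb : y ^ (256 * d ^ 3) < δ (d - 1) * y ^ (16 * d)) :
    ∃ (l : ℕ) (X0 : ℝ), 2 ≤ l ∧ l < d ∧ δ 0 * δ 1 * y ^ 3 ≤ X0 ∧
      (∀ t, t < l → δ t * y ^ (8 * d) ≤ X0) ∧ X0 * y ^ (8 * d) ≤ δ l ∧
      X0 * y ^ (8 * d) ≤ y ^ (256 * d ^ 3) := by
  classical
  have hy1 : 1 ≤ y := hA.trans hy
  have hy0 : 0 < y := by linarith
  have hs := mcells_small d hd δ y hy1 h1 hm
    (hf.trans (mul_le_mul_of_nonneg_right hy (by positivity))) hb
  set X : ℝ := y ^ (256 * d ^ 3) with hX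
  have hX0 : 0 < X := by positivity
  set s : ℝ := y ^ (8 * d) with hsdef
  have hs1 : 1 ≤ s := one_le_pow₀ hy1
  set B : ℝ := y ^ (16 * d) with hBdef
  have hBs : B = s * s := by
    rw [hBdef, hsdef, ← pow_add]
    refine congrArg _ ?_
    ring
  have hB1 : 1 ≤ B := one_le_pow₀ hy1
  obtain ⟨k, hk1, hkd, hk⟩ := mcells_free d (by omega) δ B X hB1 h1
  have hBk : 1 ≤ B ^ k := one_le_pow₀ hB1
  have hlast : X < δ (d - 1) * B ^ k :=
    hb.trans_le (mul_le_mul_of_nonneg_left (le_self_pow₀ hB1 (by omega))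
      (by linarith [h1 (d - 1)]))
  have hex : ∃ t, X < δ t * B ^ k := ⟨d - 1, hlast⟩
  have hld : Nat.find hex ≤ d - 1 := Nat.find_min' hex hlast
  have hsm : δ 0 * δ 1 * y ^ 3 * (B ^ k * s) ≤ X := by
    refine le_trans ?_ hs
    have h2 : B ^ k ≤ B ^ d := pow_le_pow_right₀ hB1 hkd
    have h0 := h1 0
    have h11 := h1 1
    calc δ 0 * δ 1 * y ^ 3 * (B ^ k * s) ≤ δ 0 * δ 1 * y ^ 3 * (B ^ d * s) := by gcongr
      _ = δ 0 * δ 1 * (B ^ d * s * y ^ 3) := by ring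
      _ = δ 0 * δ 1 * y ^ (16 * d * d + 8 * d + 3) := by
          rw [hBdef, hsdef, ← pow_mul, ← pow_add, ← pow_add]
  have hone : δ 1 * B ^ k ≤ X := by
    refine le_trans ?_ hsm
    have h0 := h1 0
    have h11 := h1 1
    have hy3 : 1 ≤ y ^ 3 := one_le_pow₀ hy1
    calc δ 1 * B ^ k = 1 * δ 1 * 1 * (B ^ k * 1) := by ring
      _ ≤ δ 0 * δ 1 * y ^ 3 * (B ^ k * s) := by gcongr
  have hpos : 0 < B ^ k * s := by positivity
  have hXs : X / (B ^ k * s) * s = X / B ^ k := by field_simp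
  refine ⟨Nat.find hex, X / (B ^ k * s), ?_, by omega, ?_, ?_, ?_, ?_⟩
  · by_contra hc
    have h2 := Nat.find_spec hex
    have h3 : δ (Nat.find hex) ≤ δ 1 := hm (by omega)
    have h4 : δ (Nat.find hex) * B ^ k ≤ δ 1 * B ^ k :=
      mul_le_mul_of_nonneg_right h3 (by linarith)
    linarith
  · rwa [le_div_iff₀ hpos]
  · intro t ht
    have h2 := hk t (by omega) (not_lt.1 (Nat.find_min hex ht))
    rw [le_div_iff₀ hpos]
    refine le_trans (le_of_eq ?_) h2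
    rw [pow_succ, hBs]
    ring
  · rw [hXs, div_le_iff₀ (by linarith)]
    exact (Nat.find_spec hex).le
  · rw [hXs]
    exact div_le_self hX0.le hBk


end

end Vale.Agent.P054
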