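import Vale.Agent.P054.MDefs

namespace Vale.Agent.P054

open MvPolynomial

noncomputable section

variable {K : Type} [Field K] {τ : Type} [Fintype τ] {Λ : Type}

theorem mrank_step (𝔟 : Ideal (MvPolynomial τ K)) {c0 : MvPolynomial τ K} {m : ℕ}
    (hc0 : c0.totalDegree ≤ m) (hnz : ∀ f, c0 * f ∈ 𝔟 → f ∈ 𝔟) (k : ℕ) :
    ∃ (N : ℕ) (w : Fin N → MvPolynomial τ K), N + hf 𝔟 k ≤ hf 𝔟 (k + m) ∧
      ∀ r : MvPolynomial τ K, r.totalDegree ≤ k + m → ∃ (a : Fin N → K) (r' : MvPolynomial τ K),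
        r'.totalDegree ≤ k ∧ r - ∑ i, a i • w i - c0 * r' ∈ 𝔟 := by
  obtain ⟨T, hT⟩ : ∃ T : Submodule K (MvPolynomial τ K), ∀ f, f ∈ T ↔
      ∃ r' : MvPolynomial τ K, r'.totalDegree ≤ k ∧ f - c0 * r' ∈ 𝔟 := by
    refine ⟨𝔟.restrictScalars K ⊔ (restrictTotalDegree τ K k).map (LinearMap.mulLeft K c0),
      fun f => ?_⟩
    rw [Submodule.mem_sup]
    constructor
    · rintro ⟨y, hy, _, ⟨r', hr', rfl⟩, rfl⟩
      exact ⟨r', hf_mem.1 hr', by simpa using hy⟩
    · rintro ⟨r', hr', h⟩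
      exact ⟨_, h, _, ⟨r', hf_mem.2 hr', rfl⟩, by simp⟩
  obtain ⟨w, h1, h2, h3⟩ := hf_gbasis T.mkQ (restrictTotalDegree τ K (k + m))
  simp only [Submodule.mkQ_apply, Submodule.Quotient.mk_eq_zero, hT] at h2 h3
  refine ⟨_, w, ?_, fun r hr => h3 r (hf_mem.2 hr)⟩
  obtain ⟨u, hu1, hu2⟩ := exists_indM 𝔟 k
  have key := card_le_hf (I := 𝔟) (Sum.elim w fun j => c0 * u j) (m := k + m) (by
    rintro (i | j)
    · exact hf_mem.1 (h1 i)
    · exact (totalDegree_mul _ _).trans (by have := hu1 j; omega)) (by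
    intro a ha
    rw [Fintype.sum_sum_type] at ha
    simp only [Sum.elim_inl, Sum.elim_inr] at ha
    have e : ∑ j, a (Sum.inr j) • (c0 * u j) = c0 * ∑ j, a (Sum.inr j) • u j := by
      simp only [Finset.mul_sum, mul_smul_comm]
    rw [e] at ha
    have h4 := h2 (fun i => a (Sum.inl i)) ⟨-∑ j, a (Sum.inr j) • u j, by
      rw [totalDegree_neg]
      exact totalDegree_finsetSum_le fun j _ => (totalDegree_smul_le _ _).trans (hu1 j), by
      rwa [mul_neg, sub_neg_eq_add]⟩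
    simp only [h4, zero_smul, Finset.sum_const_zero, zero_add] at ha
    have h5 := hu2 _ (hnz _ ha)
    rintro (i | j)
    · exact h4 i
    · exact h5 j)
  simpa using key

theorem mrank_tel (h N : ℕ → ℕ) (m : ℕ) (hN : ∀ k, N k + h k ≤ h (k + m)) (hm : Monotone h)
    (n : ℕ) : ∑ k ∈ Finset.range (n + 1), N k ≤ m * h (n + m) := by
  have h1 : ∑ k ∈ Finset.range (n + 1), N k + ∑ k ∈ Finset.range (n + 1), h k ≤
      ∑ k ∈ Finset.range (n + 1), h (m + k) := by
    rw [← Finset.sum_add_distrib]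
    exact Finset.sum_le_sum fun k _ => (add_comm m k) ▸ hN k
  have h2 := Finset.sum_range_add h m (n + 1)
  have h3 := Finset.sum_range_add h (n + 1) m
  rw [add_comm m (n + 1)] at h2
  have h4 : ∑ k ∈ Finset.range m, h (n + 1 + k) ≤ m * h (n + m) := by
    have := Finset.sum_le_card_nsmul (Finset.range m) (fun k => h (n + 1 + k)) (h (n + m))
      fun k hk => hm (by have := Finset.mem_range.1 hk; omega)
    simpa using this
  omega

omit [Fintype τ] in
theorem mrank_rep (P : Submodule K (MvPolynomial (Option τ) K))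
    (J : Ideal (MvPolynomial (Option τ) K)) (hJ : ∀ f ∈ J, f ∈ P) {e m n : ℕ}
    {c0 : MvPolynomial τ K} {b : ℕ → MvPolynomial τ K}
    (hdeg : ∀ i, i < e → (b i).totalDegree ≤ m + (e - i)) (hF : relP c0 b e ∈ J)
    (h0 : ∀ a, a < e → ∀ r : MvPolynomial τ K, r.totalDegree ≤ n + m →
      rename some r * X none ^ a ∈ P)
    (h1 : ∀ a, a ≤ n → ∀ r : MvPolynomial τ K, r.totalDegree ≤ n - a + m →
      ∃ r' : MvPolynomial τ K, r'.totalDegree ≤ n - a ∧ rename some (r - c0 * r') * X none ^ a ∈ P)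
    (a : ℕ) : a ≤ n → ∀ r : MvPolynomial τ K, r.totalDegree + a ≤ n + m →
      rename some r * X none ^ a ∈ P := by
  induction a using Nat.strong_induction_on with
  | _ a ih =>
    intro ha r hr
    by_cases hae : a < e
    · exact h0 a hae r (by omega)
    obtain ⟨k, rfl⟩ := Nat.exists_eq_add_of_le (not_lt.1 hae)
    obtain ⟨r', d1, d2⟩ := h1 _ ha r (by omega)
    have d3 := hJ _ (J.mul_mem_left (rename some r' * X none ^ k) hF)
    have d4 := P.sum_mem (t := Finset.range e)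
      (f := fun i => rename some (r' * b i) * X none ^ (i + k)) fun i hi => by
        have hi' := Finset.mem_range.1 hi
        refine ih (i + k) (by omega) (by omega) _ ?_
        have := totalDegree_mul r' (b i)
        have := hdeg i hi'
        omega
    have d5 := P.sub_mem (P.add_mem d2 d3) d4
    have e1 : ∑ i ∈ Finset.range e, rename some (r' * b i) * X none ^ (i + k) =
        rename some r' * X none ^ k * ∑ i ∈ Finset.range e,
          rename some (b i) * (X none : MvPolynomial (Option τ) K) ^ i := by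
      rw [Finset.mul_sum]
      refine Finset.sum_congr rfl fun i _ => ?_
      rw [map_mul, pow_add]
      ring
    have e2 : rename some r * (X none : MvPolynomial (Option τ) K) ^ (e + k) =
        rename some (r - c0 * r') * X none ^ (e + k) +
          rename some r' * X none ^ k * relP c0 b e -
          ∑ i ∈ Finset.range e, rename some (r' * b i) * X none ^ (i + k) := by
      rw [e1, relP, map_sub, map_mul, pow_add]
      ring
    rw [e2]
    exact d5

theorem mrank_low (P : Submodule K (MvPolynomial (Option τ) K)) {n : ℕ}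
    (h : ∀ a, a ≤ n → ∀ r : MvPolynomial τ K, r.totalDegree + a ≤ n →
      rename some r * X none ^ a ∈ P) : restrictTotalDegree (Option τ) K n ≤ P := by
  intro f hf
  rw [f.as_sum]
  refine P.sum_mem fun u hu => ?_
  have h1 := (le_totalDegree hu).trans (hf_mem.1 hf)
  have h2 := totalDegree_monomial_le u.some (coeff u f)
  rw [Finsupp.sum_fintype _ _ (fun _ => rfl)] at h1 h2
  rw [Fintype.sum_option] at h1
  simp only [Finsupp.some_apply, Function.id_def] at h2
  rw [rank_monomial]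
  exact h _ (by omega) _ (by omega)

theorem mrank_V (e M : ℕ) : ∃ (V : Submodule K (MvPolynomial (Option τ) K))
    (_ : Module.Finite K V), (∀ a, a < e → ∀ r : MvPolynomial τ K, r.totalDegree ≤ M →
      rename some r * X none ^ a ∈ V) ∧ ∀ f ∈ V, ∃ r : Fin e → MvPolynomial τ K,
        (∀ i, (r i).totalDegree ≤ M) ∧ f = ∑ i, rename some (r i) * X none ^ (i : ℕ) := by
  let L : (Fin e → restrictTotalDegree τ K M) →ₗ[K] MvPolynomial (Option τ) K :=
    ∑ i : Fin e, LinearMap.mulRight K (X none ^ (i : ℕ)) ∘ₗ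
      (rename some : MvPolynomial τ K →ₐ[K] MvPolynomial (Option τ) K).toLinearMap ∘ₗ
      Submodule.subtype _ ∘ₗ LinearMap.proj i
  have hL : ∀ r, L r = ∑ i : Fin e, rename some (r i : MvPolynomial τ K) * X none ^ (i : ℕ) :=
    fun r => by simp [L]
  refine ⟨LinearMap.range L, inferInstance, fun a ha r hr => ?_, ?_⟩
  · refine ⟨Pi.single ⟨a, ha⟩ ⟨r, hf_mem.2 hr⟩, ?_⟩
    rw [hL, Finset.sum_eq_single ⟨a, ha⟩]
    · simp
    · intro i _ hi
      simp [hi]
    · simp
  · rintro _ ⟨r, rfl⟩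
    exact ⟨fun i => r i, fun i => hf_mem.1 (r i).2, hL r⟩

theorem mrank_hf (I : Ideal (MvPolynomial (Option τ) K)) (𝔟 : Ideal (MvPolynomial τ K))
    (hI : ∀ f ∈ 𝔟, rename some f ∈ I) {e m : ℕ} {c0 : MvPolynomial τ K}
    {b : ℕ → MvPolynomial τ K} (hc0 : c0.totalDegree ≤ m) (hnz : ∀ f, c0 * f ∈ 𝔟 → f ∈ 𝔟)
    (hdeg : ∀ i, i < e → (b i).totalDegree ≤ m + (e - i)) (hF : relP c0 b e ∈ I) (n : ℕ) :
    ∃ (D : ℕ) (v : Fin D → MvPolynomial (Option τ) K), IndM I v ∧
      (∀ a, ∃ r : Fin e → MvPolynomial τ K, (∀ i, (r i).totalDegree ≤ n + m) ∧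
        v a - ∑ i, rename some (r i) * X none ^ (i : ℕ) ∈ I) ∧
      hf I n ≤ m * hf 𝔟 (n + m) + D := by
  classical
  choose N w hN hw using mrank_step 𝔟 hc0 hnz
  obtain ⟨V, _, hV1, hV2⟩ := mrank_V (K := K) (τ := τ) e (n + m)
  obtain ⟨v, v1, v2, -⟩ := hf_basis I V
  refine ⟨_, v, v2, fun a => ?_, ?_⟩
  · obtain ⟨r, hr, h⟩ := hV2 _ (v1 a)
    exact ⟨r, hr, by rw [← h, sub_self]; exact I.zero_mem⟩
  let W : (Σ k : Fin (n + 1), Fin (N k)) → MvPolynomial (Option τ) K :=
    fun t => rename some (w t.1 t.2) * X none ^ (n - t.1)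
  let q := (Ideal.Quotient.mkₐ K I).toLinearMap
  let P := ((Submodule.span K (Set.range W) ⊔ V).map q).comap q
  have p1 : ∀ f ∈ I, f ∈ P := fun f hf => by
    rw [Submodule.mem_comap, hf_q.2 hf]
    exact Submodule.zero_mem _
  have p2 : ∀ f ∈ V, f ∈ P := fun f hf => Submodule.mem_map_of_mem (Submodule.mem_sup_right hf)
  have p3 : ∀ t, W t ∈ P := fun t =>
    Submodule.mem_map_of_mem (Submodule.mem_sup_left (Submodule.subset_span ⟨t, rfl⟩))
  have p4 := mrank_rep P I p1 (n := n) hdeg hF (fun a ha r hr => p2 _ (hV1 a ha r hr))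
    (fun a ha r hr => by
      obtain ⟨c, r', d1, d2⟩ := hw (n - a) r hr
      refine ⟨r', d1, ?_⟩
      have d3 := p1 _ (I.mul_mem_right (X none ^ a) (hI _ d2))
      have d4 := P.sum_mem (t := Finset.univ) fun i _ =>
        P.smul_mem (c i) (p3 ⟨⟨n - a, by omega⟩, i⟩)
      have d5 := P.add_mem d3 d4
      simp only [W, Nat.sub_sub_self ha] at d5
      have e1 : rename some (r - c0 * r') * (X none : MvPolynomial (Option τ) K) ^ a =
          rename some (r - ∑ i, c i • w (n - a) i - c0 * r') * X none ^ a +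
            ∑ i, c i • (rename some (w (n - a) i) * X none ^ a) := by
        simp only [map_sub, map_sum, map_smul, sub_mul, Finset.sum_mul, smul_mul_assoc]
        ring
      rw [e1]
      exact d5)
  have p5 := mrank_low P (n := n) fun a ha r hr => p4 a ha r (by omega)
  have p6 : (restrictTotalDegree (Option τ) K n).map q ≤
      (Submodule.span K (Set.range W)).map q ⊔ V.map q := by
    rw [← Submodule.map_sup]
    exact Submodule.map_le_iff_le_comap.2 p5
  have := Module.Finite.span_of_finite K (Set.finite_range W)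
  have p7 := (Submodule.finrank_mono p6).trans
    (Submodule.finrank_add_le_finrank_add_finrank _ _)
  have p8 := (Submodule.finrank_map_le q _).trans (finrank_range_le_card (R := K) W)
  rw [Fintype.card_sigma] at p8
  simp only [Fintype.card_fin] at p8
  rw [← Finset.sum_range (fun k => N k)] at p8
  exact p7.trans (Nat.add_le_add_right (p8.trans
    (mrank_tel (hf 𝔟) N m hN (fun _ _ h => hf_mono 𝔟 h) n)) _)

/-- covers by roots of an equation whose leading coefficient has small degree. -/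
theorem root_coverM [CharZero K] (S : Finset Λ) (B : Λ → Ideal (MvPolynomial (Option τ) K))
    (hB : ∀ l ∈ S, (B l).IsPrime) {ρ : Type} [Fintype ρ]
    (hind : ∀ l ∈ S, ∃ t : ρ → MvPolynomial τ K,
      Ind ((B l).comap (rename some : MvPolynomial τ K →ₐ[K] _)) t) {φ : ℝ}
    (hb : HB (⨅ l ∈ S, (B l).comap (rename some : MvPolynomial τ K →ₐ[K] _)) φ (Fintype.card ρ))
    (halg : ∀ l ∈ S, ∃ Φ ∈ B l, pderiv none Φ ∉ B l) {ν : ℝ} (hν : 0 ≤ ν)
    (hroot : ∀ l ∈ S, ∀ (Ω : Type) [Field Ω] [Algebra K Ω] (x : τ → Ω),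
      kr K x = (B l).comap (rename some : MvPolynomial τ K →ₐ[K] _) → ∀ T : Finset Ω,
      (∀ w ∈ T, ∃ l' ∈ S, kr K (fun o : Option τ => o.elim w x) = B l') → (T.card : ℝ) ≤ ν)
    (e m : ℕ) (c0 : MvPolynomial τ K) (b : ℕ → MvPolynomial τ K) (hc0 : c0.totalDegree ≤ m)
    (hc : ∀ l ∈ S, rename some c0 ∉ B l) (hdeg : ∀ i, i < e → (b i).totalDegree ≤ m + (e - i))
    (hF : ∀ l ∈ S, relP c0 b e ∈ B l) (hgro : Gro (⨅ l ∈ S, B l) (Fintype.card ρ)) :
    HB (⨅ l ∈ S, B l) ((ν + m) * φ * (Fintype.card ρ + 1) ^ Fintype.card ρ) (Fintype.card ρ) := by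
  obtain ⟨s, hs⟩ := rank_bound S B hB hind hb halg hν hroot (fun i : Fin e => X none ^ (i : ℕ))
  have hφ := hb.nonneg
  refine hb_of_gro hgro (φ := (ν + m) * φ) (s := m + s + 1) fun n => ?_
  obtain ⟨D, v, v1, v2, v3⟩ := mrank_hf (⨅ l ∈ S, B l)
    (⨅ l ∈ S, (B l).comap (rename some : MvPolynomial τ K →ₐ[K] _)) (fun f hf => by
      simp only [Ideal.mem_iInf] at hf ⊢
      exact hf) hc0 (fun f hf => by
      simp only [Ideal.mem_iInf, Ideal.mem_comap, map_mul] at hf ⊢
      exact fun l hl => ((hB l hl).mem_or_mem (hf l hl)).resolve_left (hc l hl)) hdeg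
    (by simpa only [Ideal.mem_iInf] using hF) n
  have k1 := hs (n + m) _ v v2 v1
  rw [Fintype.card_fin] at k1
  have k2 := hb (n + (m + s + 1)) (by omega)
  have k3 := hf_mono (⨅ l ∈ S, (B l).comap (rename some : MvPolynomial τ K →ₐ[K] _))
    (show n + m ≤ n + (m + s + 1) by omega)
  have k4 : (hf (⨅ l ∈ S, B l) n : ℝ) ≤ m * hf (⨅ l ∈ S, (B l).comap
      (rename some : MvPolynomial τ K →ₐ[K] _)) (n + (m + s + 1)) + D := by
    exact_mod_cast v3.trans (Nat.add_le_add_right (Nat.mul_le_mul_left _ k3) _)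
  have k5 : ν * φ * (((n + m : ℕ) : ℝ) + s) ^ Fintype.card ρ ≤
      ν * φ * ((n : ℝ) + ((m + s + 1 : ℕ) : ℝ)) ^ Fintype.card ρ := by
    refine mul_le_mul_of_nonneg_left (pow_le_pow_left₀ (by positivity) ?_ _) (by positivity)
    push_cast
    linarith
  have k6 := mul_le_mul_of_nonneg_left k2 (Nat.cast_nonneg (α := ℝ) m)
  rw [Nat.cast_add n] at k6
  linarith

/-- extension of a family of ideals to one more variable. -/
theorem hb_ext (S : Finset Λ) (b : Λ → Ideal (MvPolynomial τ K)) {φ : ℝ} {j : ℕ}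
    (h : HB (⨅ l ∈ S, b l) φ j) :
    HB (⨅ l ∈ S, (b l).map (rename (R := K) (some : τ → Option τ))) (2 * φ) (j + 1) := by
  intro m hm
  obtain ⟨w, -, hw⟩ := exists_span_hf (⨅ l ∈ S, b l) m
  have key := hf_le_of_span (⨅ l ∈ S, (b l).map (rename (R := K) (some : τ → Option τ))) m
    (fun z : Fin (m + 1) × Fin _ => X none ^ (z.1 : ℕ) * rename some (w z.2)) fun f hf =>
      homog_span (fun f hf => by
        simp only [Ideal.mem_iInf] at hf ⊢
        exact fun l hl => Ideal.mem_map_of_mem _ (hf l hl)) hw f hf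
        ((degreeOf_le_totalDegree f none).trans hf)
  simp only [Fintype.card_prod, Fintype.card_fin] at key
  have k1 : (hf (⨅ l ∈ S, (b l).map (rename (R := K) (some : τ → Option τ))) m : ℝ) ≤
      (2 * m) * hf (⨅ l ∈ S, b l) m := by
    exact_mod_cast key.trans (Nat.mul_le_mul_right _ (by omega))
  refine k1.trans ((mul_le_mul_of_nonneg_left (h m hm) (by positivity)).trans_eq ?_)
  ring

/-- two cuts above a family of primes. -/
theorem hb_two_cuts (S : Finset Λ) (B r : Λ → Ideal (MvPolynomial (Option τ) K))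
    (hB : ∀ l ∈ S, (B l).IsPrime) (hle : ∀ l ∈ S, B l ≤ r l) {Φ G : MvPolynomial (Option τ) K}
    (hΦ : ∀ l ∈ S, Φ ∈ B l) (hΦ' : ∀ l ∈ S, pderiv none Φ ∉ B l) (hG : ∀ l ∈ S, G ∈ r l)
    (hG' : ∀ l ∈ S, G ∉ B l) {φ δ δ' : ℝ} {j : ℕ} (hδ : 1 ≤ δ) (hδ' : 1 ≤ δ')
    (hdΦ : (Φ.totalDegree : ℝ) ≤ δ) (hdG : (G.totalDegree : ℝ) ≤ δ')
    (h : HB (⨅ l ∈ S, (B l).comap (rename some : MvPolynomial τ K →ₐ[K] _)) φ (j + 1)) :
    HB (⨅ l ∈ S, r l) (2 ^ (2 * j + 4) * φ * (δ * δ')) j := by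
  have hJB : ∀ l ∈ S, ((B l).comap (rename some : MvPolynomial τ K →ₐ[K] _)).map
      (rename (R := K) (some : τ → Option τ)) ≤ B l := fun l _ => Ideal.map_comap_le
  have h1 := hb_cut_family S _ B (fun l hl => by
      have := hB l hl
      exact homog_prime (Ideal.comap_isPrime _ _)) hJB hΦ
    (fun l hl h0 => hΦ' l hl (hJB l hl (homog_pderiv_mem h0))) hdΦ hδ (hb_ext S _ h)
  have h2 := hb_cut_family S B r hB hle hG hG' hdG hδ' h1
  exact h2.mono le_rfl (le_of_eq (by ring))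

/-- growth for branches of systems which depend on the index. -/
theorem gro_Br' {ι ρ : Type} [Fintype ι] [DecidableEq ι] [Fintype ρ] (S : Finset Λ)
    (p : Λ → Ideal (MvPolynomial τ K)) (g : Λ → ι → MvPolynomial τ K) {c : ι → τ} {e : ρ → τ}
    (h : Compl c e) (hp : ∀ l ∈ S, (p l).IsPrime) (hd : ∀ l ∈ S, Dn (p l))
    (hg : ∀ l ∈ S, ∀ i, g l i ∈ p l) (hJ : ∀ l ∈ S, Jac (g l) c ∉ p l) :
    Gro (⨅ l ∈ S, Br (Set.range (g l)) (p l)) (Fintype.card ρ) := by
  choose π θ _ _ _ h4 h5 using fun l : S => exists_tay_prime h (hp l l.2) (hd l l.2) (hg l l.2)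
    (hJ l l.2) (s := 1) ((Ideal.ne_top_iff_one _).1 (hp l l.2).ne_top)
  have := gro_of_homs Finset.univ (fun _ : S => ρ) (fun _ _ => rfl) θ
    fun l _ k => ⟨X (e k), π l (e k), (totalDegree_X _).le, (h4 l).free k⟩
  simpa only [h5, Finset.mem_univ, iInf_pos, iInf_subtype] using this


end

end Vale.Agent.P054
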