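import Vale.Agent.P054.MRoot
import Vale.Agent.P054.MRank

namespace Vale.Agent.P054

open MvPolynomial

noncomputable section

/-- roots that do not persist lie on a variety of small degree. -/
theorem cover1 (j l : ℕ) (hl : 1 ≤ l) : ∃ C : ℝ, 0 < C ∧ ∀ (K : Type) [Field K] [CharZero K]
    [IsAlgClosed K] (σ τ ι ρ Λ : Type) [Fintype σ] [Fintype τ] [Fintype ι] [DecidableEq ι]
    [Fintype ρ] (g J : ℕ → MvPolynomial σ K) (δ ν : ℕ → ℝ) (p : σ → K)
    (u : σ → MvPolynomial τ K) (γ : ι → MvPolynomial τ K) (c : ι → τ) (e : ρ → τ)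
    (S : Finset Λ) (r : Λ → Ideal (MvPolynomial (Option τ) K)) (F : MvPolynomial σ K) (k : ℕ)
    (φ X : ℝ), Fintype.card ρ = j + 1 → Compl c e → (∀ i, 1 ≤ δ i) →
    (∀ i, i < l → ((g i).totalDegree : ℝ) ≤ δ i) → (∀ k, (u k).totalDegree ≤ 1) → 0 ≤ X →
    g 0 ∣ F →
    (∀ a ∈ S, ∃ (Ω : Type) (_ : Field Ω) (_ : Algebra K Ω) (x : τ → Ω) (s : Ω),
      r a = kr K (wpt (1 : MvPolynomial τ K) x s) ∧
      s ∈ Rt g J l (am Ω p) (fun k => aeval x (u k)) ∧ (∀ i, aeval x (γ i) = 0) ∧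
      aeval x (Jac γ c) ≠ 0) →
    (∀ a ∈ S, ¬ Pers0 g l p u
      (Br (Set.range γ) ((r a).comap (rename some : MvPolynomial τ K →ₐ[K] _))) (r a)) →
    HB (⨅ a ∈ S, Br (Set.range γ) ((r a).comap (rename some : MvPolynomial τ K →ₐ[K] _))) φ
      (j + 1) →
    (∀ t, 1 ≤ t → t < l → X < δ 0 * δ t → 0 ≤ ν t ∧ (ν t + k) * δ t ≤ X ∧
      (∀ i, i < k → ini F p i = 0) ∧ ∀ a ∈ S,
        aeval u (ini F p k) ∉
          Br (Set.range γ) ((r a).comap (rename some : MvPolynomial τ K →ₐ[K] _)) ∧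
        ∀ (Ω : Type) [Field Ω] [Algebra K Ω] (x : τ → Ω) (s : Ω),
          kr K x = Br (Set.range γ) ((r a).comap (rename some : MvPolynomial τ K →ₐ[K] _)) →
          s ∈ Rt g J t (am Ω p) (fun k => aeval x (u k)) →
          kr K (wpt (1 : MvPolynomial τ K) x s) ≤ r a →
          RtB g J t (am Ω p) (fun k => aeval x (u k)) (ν t)) →
    HB (⨅ a ∈ S, r a) (C * φ * X) j := by
  classical
  obtain ⟨D, hD⟩ : ∃ D : ℝ, D = 2 ^ (2 * j + 4) + 2 ^ (j + 1) * ((j : ℝ) + 1 + 1) ^ (j + 1) :=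
    ⟨_, rfl⟩
  have D0 : 0 < D := by rw [hD]; positivity
  refine ⟨l * D, ?_, ?_⟩
  · have : (0 : ℝ) < l := by exact_mod_cast hl
    positivity
  intro K _ _ _ σ τ ι ρ Λ _ _ _ _ _ g J δ ν p u γ c e S r F k φ Y hρ hc hδ hdeg hu hY hdv hr hP hb
    hlast
  have hφ : 0 ≤ φ := hb.nonneg
  have h1ne : ∀ (Ω : Type) [Field Ω] [Algebra K Ω] (x : τ → Ω),
      aeval x (1 : MvPolynomial τ K) ≠ 0 := fun Ω _ _ x => by rw [map_one]; exact one_ne_zero
  choose H hHd hH using fun i => exists_lift0 (g i) p u hu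
  have hrp : ∀ a ∈ S, (r a).IsPrime := by
    intro a ha
    obtain ⟨Ω, _, _, x, s, h1, -⟩ := hr a ha
    rw [h1]
    exact kr_isPrime _
  have hHr : ∀ a ∈ S, ∀ t, t < l → H t ∈ r a := by
    intro a ha t ht
    obtain ⟨Ω, _, _, x, s, h1, h3, -⟩ := hr a ha
    rw [h1, mem_kr, (hH t Ω x s h3.1).1]
    exact h3.2.1 t ht
  have hg : ∀ a ∈ S, ∀ o, lift1 γ (H 0) o ∈ r a := by
    intro a ha o
    cases o with
    | none => exact hHr a ha 0 hl
    | some i =>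
      obtain ⟨Ω, _, _, x, s, h1, h3, h4, -⟩ := hr a ha
      rw [h1, mem_kr]
      show aeval _ (rename some (γ i)) = 0
      rw [cover_aeval_rename]
      exact h4 i
  have hJ : ∀ a ∈ S, Jac (lift1 γ (H 0)) (Option.map c) ∉ r a := by
    intro a ha
    obtain ⟨Ω, _, _, x, s, h1, h3, h4, h5⟩ := hr a ha
    rw [h1, mem_kr, jac_lift1, map_mul, cover_aeval_rename]
    exact mul_ne_zero ((hH 0 Ω x s h3.1).2 (h3.2.1 0 hl) h3.2.2.2) h5
  obtain ⟨B, hBdef⟩ : ∃ B : Λ → Ideal (MvPolynomial (Option τ) K),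
    ∀ a, B a = Br (Set.range (lift1 γ (H 0))) (r a) := ⟨_, fun _ => rfl⟩
  have hB : ∀ a ∈ S, (B a).IsPrime ∧ B a ≤ r a ∧
      (B a).comap (rename some : MvPolynomial τ K →ₐ[K] _) =
        Br (Set.range γ) ((r a).comap (rename some : MvPolynomial τ K →ₐ[K] _)) ∧
      Ind ((B a).comap (rename some : MvPolynomial τ K →ₐ[K] _)) (fun k => X (e k)) ∧
      H 0 ∈ B a ∧ pderiv none (H 0) ∉ B a := by
    intro a ha
    rw [hBdef a]
    exact cover_branch hc (hrp a ha) (hg a ha) (hJ a ha)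
  have hreal : ∀ a ∈ S, ∀ (Ω : Type) [Field Ω] [Algebra K Ω] (x : τ → Ω) (w : Ω),
      kr K (fun o : Option τ => o.elim w x) = B a →
      aeval x (1 : MvPolynomial τ K) / w ≠ 0 ∧
      kr K (wpt (1 : MvPolynomial τ K) x (aeval x (1 : MvPolynomial τ K) / w)) = B a ∧
      kr K x = Br (Set.range γ) ((r a).comap (rename some : MvPolynomial τ K →ₐ[K] _)) ∧
      ∀ t, t ≤ l → (∀ i, i < t → H i ∈ B a) →
        aeval x (1 : MvPolynomial τ K) / w ∈ Rt g J t (am Ω p) (fun k => aeval x (u k)) := by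
    intro a ha Ω _ _ x w hx
    obtain ⟨Ω', _, _, x', s', h1, h3, -⟩ := hr a ha
    have hle : kr K (fun o : Option τ => o.elim w x) ≤ kr K (wpt (1 : MvPolynomial τ K) x' s') := by
      rw [hx, ← h1]
      exact (hB a ha).2.1
    obtain ⟨k1, k2, k3⟩ := cover_wpt h3.1 (h1ne Ω' x') hle
    rw [k3] at hx hle
    refine ⟨div_ne_zero k2 k1, hx, ?_, fun t ht hi => ?_⟩
    · rw [← (hB a ha).2.2.1, ← hx, cover_comap]
    · refine mem_Rt_of_spec p u _ ht (div_ne_zero k2 k1) (h1ne Ω' x') hle h3 fun i hit => ?_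
      rw [← (hH i Ω x _ (div_ne_zero k2 k1)).1, ← mem_kr, hx]
      exact hi i hit
  have hgen : ∀ a ∈ S, ∃ (Ω : Type) (_ : Field Ω) (_ : Algebra K Ω) (x : τ → Ω) (w : Ω),
      kr K (fun o : Option τ => o.elim w x) = B a := by
    intro a ha
    obtain ⟨Ω, _, _, y, hy, -⟩ := rank_generic (B a) (hB a ha).1
    refine ⟨Ω, inferInstance, inferInstance, fun k => y (some k), y none, ?_⟩
    rw [← hy]
    congr 1
    funext o
    cases o <;> rfl
  have hcls : ∀ a ∈ S, ∃ t ∈ Finset.Ico 1 l, (∀ i, i < t → H i ∈ B a) ∧ H t ∉ B a := by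
    intro a ha
    have hex : ∃ t, t < l ∧ H t ∉ B a := by
      by_contra hcon
      push Not at hcon
      obtain ⟨Ω, _, _, x, w, hx⟩ := hgen a ha
      obtain ⟨k1, k3, k4, k5⟩ := hreal a ha Ω x w hx
      refine hP a ha ⟨Ω, inferInstance, inferInstance, x, _, k4, k1, (k5 l le_rfl hcon).2.1, ?_⟩
      rw [k3]
      exact (hB a ha).2.1
    have h1 := Nat.find_spec hex
    refine ⟨Nat.find hex, Finset.mem_Ico.2 ⟨?_, h1.1⟩, fun i hi => ?_, h1.2⟩
    · by_contra h0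
      have h2 : Nat.find hex = 0 := by omega
      rw [h2] at h1
      exact h1.2 (hB a ha).2.2.2.2.1
    · by_contra hi'
      exact Nat.find_min hex hi ⟨hi.trans h1.1, hi'⟩
  obtain ⟨St, hSt⟩ : ∃ St : ℕ → Finset Λ,
      ∀ t a, a ∈ St t ↔ a ∈ S ∧ (∀ i, i < t → H i ∈ B a) ∧ H t ∉ B a :=
    ⟨fun t => S.filter fun a => (∀ i, i < t → H i ∈ B a) ∧ H t ∉ B a,
      fun t a => Finset.mem_filter⟩
  have hsub : ∀ t, ∀ a ∈ St t, a ∈ S := fun t a ha => ((hSt t a).1 ha).1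
  have hd : ∀ t, t < l → ((H t).totalDegree : ℝ) ≤ δ t := fun t ht =>
    (Nat.cast_le.2 (hHd t)).trans (hdeg t ht)
  have hclass : ∀ t ∈ Finset.Ico 1 l, HB (⨅ a ∈ St t, r a) (D * φ * Y) j := by
    intro t ht
    obtain ⟨ht1, htl⟩ := Finset.mem_Ico.1 ht
    have hb' : HB (⨅ a ∈ St t, (B a).comap (rename some : MvPolynomial τ K →ₐ[K] _)) φ
        (j + 1) := by
      refine hb.mono ?_ le_rfl
      refine le_iInf₂ fun a ha => ?_
      rw [(hB a (hsub t a ha)).2.2.1]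
      exact iInf₂_le a (hsub t a ha)
    have hφY := mul_nonneg hφ hY
    rcases le_or_gt (δ 0 * δ t) Y with hs | hs
    · refine (hb_two_cuts (St t) B r (fun a ha => (hB a (hsub t a ha)).1)
        (fun a ha => (hB a (hsub t a ha)).2.1) (fun a ha => (hB a (hsub t a ha)).2.2.2.2.1)
        (fun a ha => (hB a (hsub t a ha)).2.2.2.2.2) (fun a ha => hHr a (hsub t a ha) t htl)
        (fun a ha => ((hSt t a).1 ha).2.2) (hδ 0) (hδ t) (hd 0 hl) (hd t htl) hb').mono le_rfl ?_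
      have h1 := mul_le_mul_of_nonneg_left hs (show (0 : ℝ) ≤ 2 ^ (2 * j + 4) * φ by positivity)
      have h2 : (0 : ℝ) ≤ 2 ^ (j + 1) * ((j : ℝ) + 1 + 1) ^ (j + 1) * (φ * Y) := by positivity
      rw [hD]
      linarith
    obtain ⟨n0, n1, n2, n3⟩ := hlast t ht1 htl hs
    obtain ⟨E, b, -, hc0, hbd, hF⟩ := exists_rel F p u hu k n2
    rw [← hρ] at hb'
    have hgro : Gro (⨅ a ∈ St t, B a) (Fintype.card ρ) := by
      simp only [hBdef]
      exact gro_Br (St t) r hc.lift (fun a ha => hrp a (hsub t a ha))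
        (fun a ha => dn_of_isAlgClosed (hrp a (hsub t a ha))) (fun a ha => hg a (hsub t a ha))
        (fun a ha => hJ a (hsub t a ha))
    have hcov := root_coverM (St t) B (fun a ha => (hB a (hsub t a ha)).1)
      (fun a ha => ⟨_, (hB a (hsub t a ha)).2.2.2.1⟩) hb'
      (fun a ha => ⟨H 0, (hB a (hsub t a ha)).2.2.2.2⟩) n0 ?_ E k _ b hc0
      (fun a ha hm => (n3 a (hsub t a ha)).1 (by rw [← (hB a (hsub t a ha)).2.2.1]; exact hm))
      hbd (fun a ha => ?_) hgro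
    · rw [hρ] at hcov
      refine (hb_cut_family (St t) B r (fun a ha => (hB a (hsub t a ha)).1)
        (fun a ha => (hB a (hsub t a ha)).2.1) (fun a ha => hHr a (hsub t a ha) t htl)
        (fun a ha => ((hSt t a).1 ha).2.2) (hd t htl) (hδ t) hcov).mono le_rfl ?_
      push_cast
      have h1 := mul_le_mul_of_nonneg_left n1
        (show (0 : ℝ) ≤ 2 ^ (j + 1) * ((j : ℝ) + 1 + 1) ^ (j + 1) * φ by positivity)
      have h2 : (0 : ℝ) ≤ 2 ^ (2 * j + 4) * (φ * Y) := by positivity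
      rw [hD]
      linarith
    · intro a _ Ω _ _ x _ T hT
      rcases T.eq_empty_or_nonempty with rfl | ⟨w0, hw0⟩
      · rw [Finset.card_empty, Nat.cast_zero]
        exact n0
      obtain ⟨a0, ha0, hx0⟩ := hT w0 hw0
      obtain ⟨-, k3, k4, k5⟩ := hreal a0 (hsub t a0 ha0) Ω x w0 hx0
      have hR := (n3 a0 (hsub t a0 ha0)).2 Ω x _ k4
        (k5 t htl.le ((hSt t a0).1 ha0).2.1) (by rw [k3]; exact (hB a0 (hsub t a0 ha0)).2.1)
      have hinj : Set.InjOn (fun w : Ω => aeval x (1 : MvPolynomial τ K) / w) T := by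
        intro w _ w' _ hww
        simpa using hww
      rw [← Finset.card_image_of_injOn hinj]
      refine hR _ fun s hs => ?_
      obtain ⟨w, hw, rfl⟩ := Finset.mem_image.1 hs
      obtain ⟨a1, ha1, hx1⟩ := hT w hw
      exact (hreal a1 (hsub t a1 ha1) Ω x w hx1).2.2.2 t htl.le ((hSt t a1).1 ha1).2.1
    · obtain ⟨Ω, _, _, x, w, hx⟩ := hgen a (hsub t a ha)
      obtain ⟨k1, k3, -, k5⟩ := hreal a (hsub t a ha) Ω x w hx
      obtain ⟨q, hq⟩ := hdv
      rw [← k3, mem_kr, (hF Ω x _ k1).1, hq, map_mul,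
        (k5 t htl.le ((hSt t a).1 ha).2.1).2.1 0 ht1, zero_mul]
  refine (hb_iInf (Finset.Ico 1 l) (fun t => ⨅ a ∈ St t, r a) _ hclass).mono ?_ ?_
  · refine le_iInf₂ fun a ha => ?_
    obtain ⟨t, ht, h1⟩ := hcls a ha
    exact (iInf₂_le t ht).trans (iInf₂_le a ((hSt t a).2 ⟨ha, h1⟩))
  · rw [Finset.sum_const, Nat.card_Ico, nsmul_eq_mul]
    have h1 : ((l - 1 : ℕ) : ℝ) ≤ l := by exact_mod_cast Nat.sub_le l 1
    have h2 : (0 : ℝ) ≤ D * φ * Y := by positivity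
    calc _ ≤ (l : ℝ) * (D * φ * Y) := mul_le_mul_of_nonneg_right h1 h2
      _ = _ := by ring


end

end Vale.Agent.P054
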