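import Vale.Agent.P054.Step1
import Vale.Agent.P054.BrBase
import Vale.Agent.P054.CelM

namespace Vale.Agent.P054

open MvPolynomial

noncomputable section

variable {K : Type} [Field K] {σ κ : Type}

/-- the form of degree `k` in the expansion of `f` at `p`. -/
def ini (f : MvPolynomial σ K) (p : σ → K) (k : ℕ) : MvPolynomial σ K :=
  (rootBLine K (fun i => (C (p i) : MvPolynomial σ K)) X f).coeff k

/-- `f` vanishes at `a` to order at most `m`. -/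
def Ord (f : MvPolynomial σ K) (a : σ → K) (m : ℕ) : Prop := ∃ k, k ≤ m ∧ ini f a k ≠ 0

/-- the initial form of `f` at `a` has degree at most `m` and is nonzero at `b - a`. -/
def IniOK (f : MvPolynomial σ K) (a b : σ → K) (m : ℕ) : Prop :=
  ∃ k, k ≤ m ∧ (∀ i, i < k → ini f a i = 0) ∧ aeval (fun i => b i - a i) (ini f a k) ≠ 0

/-- the equation of the inverse parameter. -/
def relP {τ : Type} (c0 : MvPolynomial τ K) (b : ℕ → MvPolynomial τ K) (e : ℕ) :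
    MvPolynomial (Option τ) K :=
  rename some c0 * X none ^ e + ∑ i ∈ Finset.range e, rename some (b i) * X none ^ i

/-- good roots of any chain of the family. -/
def RtM [Fintype σ] (𝓙 : Finset κ) (g J : κ → ℕ → MvPolynomial σ K) (t : ℕ) {Ω : Type} [Field Ω]
    [Algebra K Ω] (p v : σ → Ω) : Set Ω := {s | ∃ j ∈ 𝓙, s ∈ Rt (g j) (J j) t p v}

def RtBM [Fintype σ] (𝓙 : Finset κ) (g J : κ → ℕ → MvPolynomial σ K) (t : ℕ) {Ω : Type}
    [Field Ω] [Algebra K Ω] (p v : σ → Ω) (μ : ℝ) : Prop :=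
  ∀ T : Finset Ω, (∀ s ∈ T, s ∈ RtM 𝓙 g J t p v) → (T.card : ℝ) ≤ μ

def RBM [Fintype σ] (𝓙 : Finset κ) (g J : κ → ℕ → MvPolynomial σ K) (t : ℕ) {Ω : Type}
    [Field Ω] [Algebra K Ω] (p q : σ → Ω) (μ : ℝ) : Prop :=
  ∀ T : Finset Ω, (∀ s ∈ T, s ≠ 1 ∧ s ∈ RtM 𝓙 g J t p (fun k => q k - p k)) → (T.card : ℝ) ≤ μ

/-- the open conditions multiplied by a filter. -/
def hJ (h : κ → MvPolynomial σ K) (J : κ → ℕ → MvPolynomial σ K) : κ → ℕ → MvPolynomial σ K :=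
  fun j r => h j * J j r

/-- base change of a family of chains. -/
def mp {K' : Type} [Field K'] (φ : K →+* K') (g : κ → ℕ → MvPolynomial σ K) :
    κ → ℕ → MvPolynomial σ K' := fun j i => map φ (g j i)

/-- the root with ideal `r` persists at level `l` over the generic point of `b`. -/
def Pers0 {τ : Type} (g : ℕ → MvPolynomial σ K) (l : ℕ) (p : σ → K) (u : σ → MvPolynomial τ K)
    (b : Ideal (MvPolynomial τ K)) (r : Ideal (MvPolynomial (Option τ) K)) : Prop :=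
  ∃ (Ω : Type) (_ : Field Ω) (_ : Algebra K Ω) (x : τ → Ω) (s : Ω), kr K x = b ∧ s ≠ 0 ∧
    (∀ i, i < l → aeval (lp (am Ω p) (fun k => aeval x (u k)) s) (g i) = 0) ∧
    kr K (wpt (1 : MvPolynomial τ K) x s) ≤ r

/-- normalised direction from `p` to `a`. -/
def dirv [DecidableEq σ] (i0 : σ) (p a : σ → K) : Ne0 i0 → K :=
  fun k => (a k - p k) / (a i0 - p i0)

/-- the point `a` persists at level `l` along the curve of directions given by `γ`. -/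
def PersD [DecidableEq σ] {ι : Type} (i0 : σ) (g : ℕ → MvPolynomial σ K) (l : ℕ) (p a : σ → K)
    (γ : ι → MvPolynomial (Ne0 i0) K) : Prop :=
  Pers0 g l p (step1U K i0) (Br (Set.range γ) (kr K (dirv i0 p a)))
    (kr K (wpt (1 : MvPolynomial (Ne0 i0) K) (dirv i0 p a) (a i0 - p i0)))

/-- root bound for a generic apex of level `s` of the chain `b` at `a` and a generic point of
level `t` of the chain `b'` at `a'`. -/
def GenM [Fintype σ] (b b' : ℕ → MvPolynomial σ K) (𝓙 : Finset κ)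
    (g J : κ → ℕ → MvPolynomial σ K) (t s : ℕ) (μ : ℝ) (a a' : σ → K) : Prop :=
  ∀ (K' Ω : Type) [Field K'] [IsAlgClosed K'] [Field Ω] [Algebra K K'] [Algebra K Ω]
    [Algebra K' Ω] [IsScalarTower K K' Ω] (p : σ → K') (q : σ → Ω),
    kr K p = Br (Set.range (gs b s)) (kr K a) →
    kr K' q = Br (Set.range fun i => map (algebraMap K K') (gs b' t i)) (kr K' (am K' a')) →
    RBM 𝓙 g J t (am Ω p) q μ

/-- root bound for a generic apex of level `s` of the chain `b` at `a` and all arcs of level `t`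
of the chain `b'` at `a'`. -/
def BdM [Fintype σ] (b b' : ℕ → MvPolynomial σ K) (𝓙 : Finset κ)
    (g J : κ → ℕ → MvPolynomial σ K) (t s : ℕ) (μ : ℝ) (a a' : σ → K) : Prop :=
  ∀ (K' Ω : Type) [Field K'] [IsAlgClosed K'] [Field Ω] [Algebra K K'] [Algebra K Ω]
    [Algebra K' Ω] [IsScalarTower K K' Ω] (p : σ → K') (q : σ → Ω),
    kr K p = Br (Set.range (gs b s)) (kr K a) → kr K' q ≤ kr K' (am K' a') →
    (∀ i, i < t → aeval q (b' i) = 0) → RBM 𝓙 g J t (am Ω p) q μ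

/-- the line through `a` and `a'` is transverse to `f` at `a` and to `f'` at `a'`. -/
def NT2 [Fintype σ] (f f' : MvPolynomial σ K) (a a' : σ → K) : Prop :=
  dg f a (fun k => a' k - a k) ≠ 0 ∧ dg f' a' (fun k => a' k - a k) ≠ 0

/-- all root bounds below the level `l` for the pair `a`, `a'`. -/
def Low [Fintype σ] (b b' : ℕ → MvPolynomial σ K) (𝓙 : Finset κ)
    (g J : κ → ℕ → MvPolynomial σ K) (δ ν : ℕ → ℝ) (X0 : ℝ) (m d l : ℕ) (a a' : σ → K) : Prop :=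
  Ord (∏ j ∈ 𝓙, g j 0) a m ∧ Ord (∏ j ∈ 𝓙, g j 0) a' m ∧
    ∀ t, 1 ≤ t → t < l → X0 < δ 0 * δ t → IniOK (∏ j ∈ 𝓙, g j 0) a a' m ∧
      ∀ s, t ≤ s → s ≤ d → BdM b b' 𝓙 g J t s (ν t) a a' ∧ BdM b' b 𝓙 g J t s (ν t) a' a

/-- a partition of a point set into concentrated pieces. -/
structure Pcs [Fintype σ] (A α : ℝ) (d : ℕ) (P : Finset (σ → ℝ)) (κ : Type) where
  pc : (σ → ℝ) → κ
  Q : κ → Finset (σ → ℝ)
  mem : ∀ j a, a ∈ Q j ↔ a ∈ P ∧ pc a = j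
  D : ∀ j, Cel A α d (fun a : σ → ℝ => kr ℂ (cx a)) (Q j)
  c : (r : ℕ) → Fin r → σ
  hc : ∀ j, (D j).c = c
  real : ∀ j i, ∃ g0 : MvPolynomial σ ℝ, (D j).g i = map (algebraMap ℝ ℂ) g0

section Pcs

variable [Fintype σ] {A α : ℝ} {d : ℕ} {P : Finset (σ → ℝ)}

def Pcs.g (𝓟 : Pcs A α d P κ) : κ → ℕ → MvPolynomial σ ℂ := fun j => (𝓟.D j).g

def Pcs.J (𝓟 : Pcs A α d P κ) : κ → ℕ → MvPolynomial σ ℂ := fun j => Jc (𝓟.D j).g 𝓟.c

def Pcs.δ (𝓟 : Pcs A α d P κ) : κ → ℕ → ℝ := fun j => (𝓟.D j).δ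

/-- the degrees of all pieces agree up to the factor `y`. -/
def Pcs.Cmpr (𝓟 : Pcs A α d P κ) (y : ℝ) : Prop := ∀ i j t, t < d → 𝓟.δ i t ≤ y * 𝓟.δ j t

theorem Pcs.mem_pc (𝓟 : Pcs A α d P κ) {a : σ → ℝ} (ha : a ∈ P) : a ∈ 𝓟.Q (𝓟.pc a) :=
  (𝓟.mem _ a).2 ⟨ha, rfl⟩

theorem Pcs.zero (𝓟 : Pcs A α d P κ) {a : σ → ℝ} (ha : a ∈ P) {i : ℕ} (hi : i < d) :
    aeval (cx a) (𝓟.g (𝓟.pc a) i) = 0 := (𝓟.D _).mem i hi a (𝓟.mem_pc ha)

theorem Pcs.jac (𝓟 : Pcs A α d P κ) {a : σ → ℝ} (ha : a ∈ P) {r : ℕ} (hr : r ≤ d) :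
    aeval (cx a) (𝓟.J (𝓟.pc a) r) ≠ 0 := by
  have h := (𝓟.D _).jac r hr a (𝓟.mem_pc ha)
  rw [𝓟.hc] at h
  exact h

end Pcs

end

end Vale.Agent.P054
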