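import Vale.Agent.P054.MStep
import Vale.Agent.P054.MOwn
import Vale.Agent.P054.InductAux

namespace Vale.Agent.P054

open MvPolynomial

noncomputable section

section alg

variable {K : Type} [Field K] {σ κ : Type} [Fintype σ] {𝓙 : Finset κ}
  {g J : κ → ℕ → MvPolynomial σ K} {b b' : ℕ → MvPolynomial σ K}

theorem gen_of_bdM [CharZero K] {t s : ℕ} {μ : ℝ} {a a' : σ → K} {cs : Fin s → σ}
    {ct : Fin t → σ} (hg : ∀ i, i < s → aeval a (b i) = 0) (hJ : aeval a (Jac (gs b s) cs) ≠ 0)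
    (hg' : ∀ i, i < t → aeval a' (b' i) = 0) (hJ' : aeval a' (Jac (gs b' t) ct) ≠ 0)
    (hts : t ≤ s) (h : BdM b' b 𝓙 g J t t μ a' a) : GenM b b' 𝓙 g J t s μ a a' := by
  intro K' Ω _ _ _ _ _ _ _ p q hp hq
  have h1 := brb_kr_comp (IsScalarTower.toAlgHom K' Ω (AlgebraicClosure Ω))
    (algebraMap Ω (AlgebraicClosure Ω)).injective q
  obtain ⟨F, hF, q', e1, e2, e3⟩ := pair_swap (fun i : Fin s => hg i i.2) hJ
    (fun i : Fin t => hg' i i.2) hJ' hp (h1.trans hq)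
  have h2 := h F (AlgebraicClosure Ω) q' (fun k => algebraMap K' _ (p k)) e2
    (e3.le.trans (ind_Br_le (g := fun i => map (algebraMap K F) (b i)) fun i hi => by
      rw [brb_aeval_pt, hg i hi, map_zero]))
    (fun i hi => by
      have := aeval_algebraMap_apply (AlgebraicClosure Ω) p (b i)
      rw [ind_zero_of_Br hp (hi.trans_le hts), map_zero] at this
      exact this)
  refine RBM.of_algHom (IsScalarTower.toAlgHom K Ω (AlgebraicClosure Ω)) ?_
  have e4 : (fun k => IsScalarTower.toAlgHom K Ω (AlgebraicClosure Ω) (q k)) =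
      am (AlgebraicClosure Ω) q' := funext fun k => (e1 k).symm
  have e5 : (fun k => IsScalarTower.toAlgHom K Ω (AlgebraicClosure Ω) (am Ω p k)) =
      fun k => algebraMap K' (AlgebraicClosure Ω) (p k) :=
    funext fun k => (IsScalarTower.algebraMap_apply K' Ω (AlgebraicClosure Ω) (p k)).symm
  rw [e4, e5]
  exact h2.swap

theorem GenM.swap [CharZero K] {t : ℕ} {μ : ℝ} {a a' : σ → K} {c c' : Fin t → σ}
    (hg : ∀ i, i < t → aeval a (b i) = 0) (hJ : aeval a (Jac (gs b t) c) ≠ 0)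
    (hg' : ∀ i, i < t → aeval a' (b' i) = 0) (hJ' : aeval a' (Jac (gs b' t) c') ≠ 0)
    (h : GenM b' b 𝓙 g J t t μ a' a) : GenM b b' 𝓙 g J t t μ a a' := by
  intro K' Ω _ _ _ _ _ _ _ p q hp hq
  have h1 := brb_kr_comp (IsScalarTower.toAlgHom K' Ω (AlgebraicClosure Ω))
    (algebraMap Ω (AlgebraicClosure Ω)).injective q
  obtain ⟨F, hF, q', e1, e2, e3⟩ := pair_swap (fun i : Fin t => hg i i.2) hJ
    (fun i : Fin t => hg' i i.2) hJ' hp (h1.trans hq)
  have h2 := h F (AlgebraicClosure Ω) q' (fun k => algebraMap K' _ (p k)) e2 e3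
  refine RBM.of_algHom (IsScalarTower.toAlgHom K Ω (AlgebraicClosure Ω)) ?_
  have e4 : (fun k => IsScalarTower.toAlgHom K Ω (AlgebraicClosure Ω) (q k)) =
      am (AlgebraicClosure Ω) q' := funext fun k => (e1 k).symm
  have e5 : (fun k => IsScalarTower.toAlgHom K Ω (AlgebraicClosure Ω) (am Ω p k)) =
      fun k => algebraMap K' (AlgebraicClosure Ω) (p k) :=
    funext fun k => (IsScalarTower.algebraMap_apply K' Ω (AlgebraicClosure Ω) (p k)).symm
  rw [e4, e5]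
  exact h2.swap

theorem ind_arcM {l s : ℕ} {μ : ℝ} {a a' : σ → K} {F : Type} [Field F] [Algebra K F] {p : σ → F}
    (hu : ∀ (L : Type) [Field L] [Algebra K L] [IsAlgClosed L] (p' : σ → L),
      kr K p' = Br (Set.range (gs b s)) (kr K a) → ∃ f : F →ₐ[K] L, ∀ k, f (p k) = p' k)
    (h : ¬ BdM b b' 𝓙 g J l s μ a a') :
    ∃ (Ω : Type) (_ : Field Ω) (_ : Algebra F Ω) (q : σ → Ω), kr F q ≤ kr F (am F a') ∧
      (∀ i, i < l → aeval q (map (algebraMap K F) (b' i)) = 0) ∧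
      ¬ RBM 𝓙 (mp (algebraMap K F) g) (mp (algebraMap K F) J) l (am Ω p) q μ := by
  by_contra hne
  apply h
  intro K' Ω _ _ _ _ _ _ _ p' q hp' hq hz
  obtain ⟨f, hf⟩ := hu K' p' hp'
  letI : Algebra F K' := f.toRingHom.toAlgebra
  letI : Algebra F Ω := ((algebraMap K' Ω).comp f.toRingHom).toAlgebra
  haveI : IsScalarTower F K' Ω := IsScalarTower.of_algebraMap_eq fun _ => rfl
  haveI : IsScalarTower K F K' := IsScalarTower.of_algebraMap_eq fun x => (f.commutes x).symm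
  haveI : IsScalarTower K F Ω := IsScalarTower.of_algebraMap_eq fun x => by
    rw [IsScalarTower.algebraMap_apply K K' Ω, ← f.commutes x]; rfl
  by_contra hRB
  refine hne ⟨Ω, inferInstance, inferInstance, q, fun h hh => ?_, fun i hi => ?_, fun h' => ?_⟩
  · have h1 : map (algebraMap F K') h ∈ kr K' q := by
      rw [mem_kr, brb_aeval_map]; exact hh
    have h2 := hq h1
    have e : am K' a' = fun k => algebraMap F K' (am F a' k) :=
      funext fun k => IsScalarTower.algebraMap_apply K F K' _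
    rw [mem_kr, e, brb_aeval_pt] at h2
    exact (algebraMap F K').injective (h2.trans (map_zero _).symm)
  · rw [brb_aeval_map]; exact hz i hi
  · have e : am Ω p = am Ω p' := funext fun k => congrArg (algebraMap K' Ω) (hf k)
    rw [RBM_map, e] at h'
    exact hRB h'

end alg

/-- one application of the step for a fixed apex. -/
theorem ind_keyM (d l : ℕ) (hl : 1 ≤ l) (hld : l < d) (A α θ : ℝ) (hA : 1 ≤ A) (hα : 0 < α)
    (hθ : 0 < θ) : ∃ L0 L1 : ℝ, 1 ≤ L0 ∧ 1 ≤ L1 ∧ ∀ (σ κ : Type) [Fintype σ] (P : Finset (σ → ℝ))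
    (D : Cel A α d (fun a : σ → ℝ => kr ℂ (cx a)) P) (𝓙 : Finset κ)
    (g J : κ → ℕ → MvPolynomial σ ℂ) (h : (σ → ℝ) → κ → MvPolynomial σ ℂ) (δ ν : ℕ → ℝ)
    (b : ℕ → MvPolynomial σ ℂ) (s : ℕ) (cs : Fin s → σ) (a : σ → ℂ) (m : ℕ) (X Y μ : ℝ)
    (S : Finset (σ → ℝ)), Fintype.card σ = d → (∀ i, 1 ≤ δ i) →
    (∀ j ∈ 𝓙, ∀ i, i < l → ((g j i).totalDegree : ℝ) ≤ δ i) → 0 ≤ X → 𝓙.card * X ≤ Y →
    (𝓙.card * δ 0) ^ 2 ≤ Y → 4 ≤ μ → L0 * Y ≤ μ * D.δ l → (∀ i, i < s → aeval a (b i) = 0) →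
    aeval a (Jac (gs b s) cs) ≠ 0 →
    (∀ t, 1 ≤ t → t < l → X < δ 0 * δ t → 0 ≤ ν t ∧ (ν t + m + 1) * δ t ≤ X ∧ L1 * m ≤ D.δ 0 ∧
      ∀ a' ∈ S, Ord (∏ j ∈ 𝓙, g j 0) a m ∧ BdM b D.g 𝓙 g J t s (ν t) a (cx a')) → S ⊆ P →
    (∀ a' ∈ S, GenM b D.g 𝓙 g (hJ (h a') J) l s (μ / 2) a (cx a') ∧
      ¬ BdM b D.g 𝓙 g (hJ (h a') J) l s μ a (cx a')) →
    (S.card : ℝ) ≤ θ * P.card := by
  obtain ⟨C, hC, H1⟩ := stepM d l hl hld
  obtain ⟨κ0, hκ, -, H2⟩ := cel_small A α (θ / 2) hA hα (half_pos hθ)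
  obtain ⟨L1, hL1, H3⟩ := hyp_count d (by omega) A α (θ / 2) hA hα (half_pos hθ)
  refine ⟨max 1 (C * (2 ^ d * (2 ^ d * A) ^ l) / κ0), L1, le_max_left _ _, hL1, ?_⟩
  intro σ κ _ P D 𝓙 g J h δ ν b s cs a m X Y μ S hσ hδ1 hdg hX hXY hY hμ hL hb hbJ hlow hS hh
  classical
  have hg : ∀ x ∈ P, ∀ i, i < d → aeval (cx x) (D.g i) = 0 := fun x hx i hi => D.mem i hi x hx
  have hJ0 : ∀ x ∈ P, ∀ r, r ≤ d → aeval (cx x) (Jac (gs D.g r) (D.c r)) ≠ 0 :=
    fun x hx r hr => D.jac r hr x hx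
  obtain ⟨F, _, _, _, p, hp, hu⟩ := exists_generic (Br (Set.range (gs b s)) (kr ℂ a))
    (Br_kr_isPrime (fun i : Fin s => hb i i.2) hbJ)
  haveI : CharZero F := charZero_of_injective_algebraMap (algebraMap ℂ F).injective
  have hpa : kr ℂ p ≤ kr ℂ a := hp.le.trans (ind_Br_le hb)
  have hP0 : (0 : ℝ) ≤ θ / 2 * P.card := by positivity
  obtain ⟨k, S', hS', hcard, hk⟩ : ∃ (k : ℕ) (S' : Finset (σ → ℝ)), S' ⊆ S ∧
      (S.card : ℝ) ≤ S'.card + θ / 2 * P.card ∧ ∀ t, 1 ≤ t → t < l → X < δ 0 * δ t → k ≤ m ∧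
        (∀ i, i < k → ini (map (algebraMap ℂ F) (∏ j ∈ 𝓙, g j 0)) p i = 0) ∧ ∀ x ∈ S',
          aeval (fun i => am F (cx x) i - p i)
            (ini (map (algebraMap ℂ F) (∏ j ∈ 𝓙, g j 0)) p k) ≠ 0 := by
    by_cases hex : ∃ t, 1 ≤ t ∧ t < l ∧ X < δ 0 * δ t
    · rcases S.eq_empty_or_nonempty with rfl | ⟨x0, hx0⟩
      · exact ⟨0, ∅, subset_rfl, by simpa using hP0, fun t _ _ _ =>
          ⟨Nat.zero_le _, fun i hi => absurd hi (Nat.not_lt_zero _), by simp⟩⟩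
      obtain ⟨t, h1, h2, h3⟩ := hex
      obtain ⟨-, -, hm, ho⟩ := hlow t h1 h2 h3
      obtain ⟨k, hkm, hk0, hk1⟩ := ((ho x0 hx0).1.gen hpa).exists_min
      obtain ⟨G, hG0, hGd, hG⟩ := ini_shift hk1
      have h4 := H3 σ P D F G m (S.filter fun x => aeval (am F (cx x)) G = 0) hσ hG0
        (hGd.trans hkm) hm ((Finset.filter_subset _ _).trans hS)
        fun x hx => (Finset.mem_filter.1 hx).2
      refine ⟨k, S.filter fun x => ¬ aeval (am F (cx x)) G = 0, Finset.filter_subset _ _, ?_,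
        fun _ _ _ _ => ⟨hkm, hk0, fun x hx => ?_⟩⟩
      · have h5 := Finset.card_filter_add_card_filter_not (s := S)
          fun x => aeval (am F (cx x)) G = 0
        have h6 : (S.card : ℝ) = (S.filter fun x => aeval (am F (cx x)) G = 0).card +
            (S.filter fun x => ¬ aeval (am F (cx x)) G = 0).card := by exact_mod_cast h5.symm
        linarith
      · rw [← hG]
        exact (Finset.mem_filter.1 hx).2
    · exact ⟨0, S, subset_rfl, by linarith, fun t h1 h2 h3 => absurd ⟨t, h1, h2, h3⟩ hex⟩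
  have hS'P : S' ⊆ P := hS'.trans hS
  have hδ : ∀ i, 1 ≤ A * D.δ i := fun i => one_le_mul_of_one_le_of_one_le hA (D.one_le i)
  have hdeg : ∀ i, i < l → ((map (algebraMap ℂ F) (D.g i)).totalDegree : ℝ) ≤ A * D.δ i :=
    fun i hi => le_trans (Nat.cast_le.2 (Finset.sup_mono (support_map_subset _ (D.g i))))
      (D.deg i (hi.trans hld))
  have hgF : ∀ x ∈ S', ∀ i, i < l → aeval (am F (cx x)) (map (algebraMap ℂ F) (D.g i)) = 0 :=
    fun x hx i hi => by rw [brb_aeval_pt, hg x (hS'P hx) i (hi.trans hld), map_zero]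
  have hJF : ∀ x ∈ S', aeval (am F (cx x))
      (Jac (gs (fun i => map (algebraMap ℂ F) (D.g i)) l) (D.c l)) ≠ 0 :=
    fun x hx => brb_hJ (hJ0 x (hS'P hx) l hld.le)
  have h1 := t1_gen S' (fun x => kr F (am F (cx x))) (gs (fun i => map (algebraMap ℂ F) (D.g i)) l)
    (fun i => A * D.δ i) (fun _ _ => kr_isPrime _) (fun _ _ => dn_kr _)
    (fun x hx i => hgF x hx i i.2) (fun x hx => sm_of_jac (kr_isPrime _) (hJF x hx))
    (fun i => hdeg i i.2) fun i => hδ i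
  rw [hσ, Fintype.card_fin] at h1
  have h2 := H1 F σ (σ → ℝ) κ 𝓙 (mp (algebraMap ℂ F) g) (mp (algebraMap ℂ F) J)
    (fun x j => map (algebraMap ℂ F) (h x j)) (gs (fun i => map (algebraMap ℂ F) (D.g i)) l)
    (D.c l) δ ν p S' (fun x => am F (cx x)) (map (algebraMap ℂ F) (∏ j ∈ 𝓙, g j 0)) k _ X Y μ
    hσ hδ1
    (fun j hj i hi => le_trans (Nat.cast_le.2 (Finset.sup_mono (support_map_subset _ (g j i))))
      (hdg j hj i hi))
    (fun j hj => map_dvd (map (algebraMap ℂ F)) (Finset.dvd_prod_of_mem (fun j => g j 0) hj))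
    hX hXY hY hμ (fun x hx => ⟨fun i => hgF x hx i i.2, hJF x hx⟩) h1
    (fun t h3 h4 h5 => by
      obtain ⟨h6, h7, -, h8⟩ := hlow t h3 h4 h5
      obtain ⟨h9, h10, h11⟩ := hk t h3 h4 h5
      have h12 : (k : ℝ) ≤ m := Nat.cast_le.2 h9
      have h13 := hδ1 t
      refine ⟨h6, le_trans (by gcongr) h7, h10, fun x hx => ⟨h11 x hx, fun Ω _ _ q hq => ?_⟩⟩
      letI : Algebra ℂ Ω := ((algebraMap F Ω).comp (algebraMap ℂ F)).toAlgebra
      haveI : IsScalarTower ℂ F Ω := IsScalarTower.of_algebraMap_eq fun _ => rfl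
      rw [RBM_map]
      refine (h8 x (hS' hx)).2 F Ω p q hp (hq.le.trans (ind_Br_le (hgF x hx))) fun i hi => ?_
      rw [← brb_aeval_map (K' := F)]
      exact ind_zero_of_Br hq (hi.trans h4))
    (fun x hx Ω _ _ q hq => by
      letI : Algebra ℂ Ω := ((algebraMap F Ω).comp (algebraMap ℂ F)).toAlgebra
      haveI : IsScalarTower ℂ F Ω := IsScalarTower.of_algebraMap_eq fun _ => rfl
      rw [← mp_hJ, RBM_map]
      exact (hh x (hS' hx)).1 F Ω p q hp hq)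
    fun x hx => by
      obtain ⟨Ω, _, _, q, h3, h4, h5⟩ := ind_arcM hu (hh x (hS' hx)).2
      rw [mp_hJ] at h5
      exact ⟨Ω, inferInstance, inferInstance, q, h3, fun i => h4 i i.2, h5⟩
  have hY0 : 0 ≤ Y := le_trans (sq_nonneg _) hY
  have h3 := H2 ℂ σ (σ → ℝ) d _ P D (l + 1) hld S' hS'P
    (C * (2 ^ d * ∏ i : Fin l, 2 ^ d * (A * D.δ i)) * Y / μ) (by
      have e : ∏ i : Fin l, 2 ^ d * (A * D.δ i) = (2 ^ d * A) ^ l * fp D.δ l := by
        simp only [← mul_assoc]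
        rw [Finset.prod_mul_distrib, Finset.prod_const, Finset.card_univ, Fintype.card_fin, fp,
          Finset.prod_range]
      have h3 := fp_pos D.one_le l
      have hL' := (mul_le_mul_of_nonneg_right (le_max_right 1 _) hY0).trans hL
      rw [e, fp_succ, div_le_iff₀ (by linarith)]
      rw [div_mul_eq_mul_div, div_le_iff₀ hκ] at hL'
      calc _ = fp D.δ l * (C * (2 ^ d * (2 ^ d * A) ^ l) * Y) := by ring
        _ ≤ fp D.δ l * (μ * D.δ l * κ0) := by gcongr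
        _ = _ := by ring)
    fun n hn => by
      rw [hσ, ← Nat.sub_sub]
      exact le_trans (by exact_mod_cast hf_points_baseChange (K' := F) S' cx n) (h2 n hn)
  linarith


end

end Vale.Agent.P054
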