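import Vale.Agent.P054.MTrisec
import Vale.Agent.P054.MRoot
import Vale.Agent.P054.Linear

namespace Vale.Agent.P054

open MvPolynomial

noncomputable section

open Module

variable {σ κ : Type} [Fintype σ]

/-- the real affine forms on the level `t` branch at a point. -/
def Pcs.Lf {A α : ℝ} {d : ℕ} {P : Finset (σ → ℝ)} (𝓟 : Pcs A α d P κ) (t : ℕ) (a : σ → ℝ) :
    Submodule ℝ (ℝ × (σ → ℝ)) :=
  LinR (Br (Set.range (gs (𝓟.g (𝓟.pc a)) t)) (kr ℂ (cx a)))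

theorem mlin_part {g : ℕ → MvPolynomial σ ℂ}
    (hreal : ∀ i, ∃ g0 : MvPolynomial σ ℝ, g i = map (algebraMap ℝ ℂ) g0) {t : ℕ} {c : Fin t → σ}
    {b : σ → ℝ} (hg : ∀ i, gs g t i ∈ kr ℂ (cx b)) (hJ : Jac (gs g t) c ∉ kr ℂ (cx b))
    {l : σ → ℂ} {a : σ → ℝ} (h : linF l (cx a) ∈ Br (Set.range (gs g t)) (kr ℂ (cx b)))
    (φ : ℂ →ₗ[ℝ] ℝ) : (-∑ k, φ (l k) * a k, fun k => φ (l k)) ∈
      LinR (Br (Set.range (gs g t)) (kr ℂ (cx b))) := by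
  choose g0 hg0 using hreal
  obtain rfl : g = fun i => map (algebraMap ℝ ℂ) (g0 i) := funext hg0
  exact lin_part (γ := gs g0 t) (fun i => (celReal_mem b _).1 (hg i))
    (fun h' => hJ ((jac_map (algebraMap ℝ ℂ) (gs g0 t) c).symm ▸ (celReal_mem b _).2 h')) h φ

/-- a pair with many generic roots spans a flat containing many branches. -/
theorem lin_pairM {A α : ℝ} {d : ℕ} {P : Finset (σ → ℝ)} (𝓟 : Pcs A α d P κ) {t : ℕ} (ht : 2 ≤ t)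
    (htd : t ≤ d) {ρ : Type} [Fintype ρ] {e : ρ → σ} (hc : Compl (𝓟.c t) e) {a a' : σ → ℝ}
    (ha : a ∈ P) (ha' : a' ∈ P)
    (hnt : NT2 (𝓟.g (𝓟.pc a) 0) (𝓟.g (𝓟.pc a') 0) (cx a) (cx a')) {μ : ℝ} (hμ : 1 ≤ μ)
    {𝓙 : Finset κ} {h : κ → MvPolynomial σ ℂ}
    (hgen : ¬ GenM (𝓟.g (𝓟.pc a)) (𝓟.g (𝓟.pc a')) 𝓙 𝓟.g (hJ h 𝓟.J) t t μ (cx a) (cx a')) :
    t ≤ finrank ℝ (𝓟.Lf t a ⊓ 𝓟.Lf t a' : Submodule ℝ _) + 1 ∧
    ∃ (Ω : Type) (T : Finset Ω) (M : Ω → Ideal (MvPolynomial σ ℂ)), μ < T.card ∧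
      (∀ s ∈ T, (∃ j, M s ∈ linB (gs (𝓟.g j) t) (𝓟.c t) e ∧ h j ∉ M s) ∧
        𝓟.Lf t a ⊓ 𝓟.Lf t a' ≤ LinR (M s)) ∧
      ∀ s ∈ T, ∀ s' ∈ T, s ≠ s' → LinR (M s) ⊓ LinR (M s') ≤ 𝓟.Lf t a ⊓ 𝓟.Lf t a' := by
  simp only [GenM, RBM, not_forall, not_le] at hgen
  obtain ⟨K', Ω, _, _, _, _, _, _, _, p, q, hp, hq, T, hT, hμT⟩ := hgen
  have hz : ∀ b ∈ P, ∀ i, gs (𝓟.g (𝓟.pc b)) t i ∈ kr ℂ (cx b) := fun b hb i =>
    𝓟.zero hb (i.2.trans_le htd)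
  have hj : ∀ b ∈ P, Jac (gs (𝓟.g (𝓟.pc b)) t) (𝓟.c t) ∉ kr ℂ (cx b) := fun b hb =>
    𝓟.jac hb htd
  have hT' : ∀ s ∈ T, ∃ j, s ∈ Rt (𝓟.g j) (𝓟.J j) t (am Ω p) (fun k => q k - am Ω p k) ∧
      aeval (lp (am Ω p) (fun k => q k - am Ω p k) s) (h j) ≠ 0 := fun s hs => by
    obtain ⟨j, -, hj⟩ := (hT s hs).2
    exact ⟨j, mem_Rt_hJ.1 hj⟩
  choose ch hch hch' using hT'
  have htri := fun s hs => trisec3 (g3 := gs (𝓟.g (ch s hs)) t) hc ⟨0, by omega⟩ (hz a ha)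
    (hz a' ha') (hj a ha) (hj a' ha') hnt hp hq (hch s hs).1 (hT s hs).1
    (fun i => (hch s hs).2.1 i i.2) ((hch s hs).2.2.1 t le_rfl) (hch s hs).2.2.2
  have hp' : kr ℂ (am Ω p) = Br (Set.range (gs (𝓟.g (𝓟.pc a)) t)) (kr ℂ (cx a)) :=
    (brb_kr_comp (IsScalarTower.toAlgHom ℂ K' Ω) (algebraMap K' Ω).injective p).trans hp
  have hq' := kr_of_kr_base (hz a' ha') (hj a' ha') hq
  unfold Pcs.Lf
  refine ⟨?_, Ω, T, fun s => kr ℂ (lp (am Ω p) (fun k => q k - am Ω p k) s), hμT,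
    fun s hs => ⟨⟨ch s hs, ⟨kr_isPrime _, fun i => (hch s hs).2.1 i i.2,
      (hch s hs).2.2.1 t le_rfl, (htri s hs).2⟩, hch' s hs⟩, fun φ hφ => ?_⟩,
    fun s hs s' hs' hss φ hφ => ?_⟩
  · obtain ⟨s, hs⟩ : T.Nonempty :=
      Finset.card_pos.1 (Nat.cast_pos.1 ((one_pos.trans_le hμ).trans hμT))
    obtain ⟨H, hH, hl⟩ := (htri s hs).1
    have h1 := lin_dim H _ fun l hl' φ => ⟨_, Submodule.mem_inf.2
      ⟨mlin_part (𝓟.real _) (hz a ha) (hj a ha) (hl l hl').1 φ,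
        mlin_part (𝓟.real _) (hz a' ha') (hj a' ha') (hl l hl').2 φ⟩⟩
    have h2 := hc.card_add
    rw [Fintype.card_fin] at h2
    exact (fun n (h : Fintype.card σ ≤ finrank ℂ H + n) => (by omega : t ≤ n + 1)) _ h1
  · rw [← hp', ← hq'] at hφ
    rw [lin_mem, mem_kr, lin_lp, mem_kr.1 hφ.1, mem_kr.1 hφ.2, mul_zero, mul_zero, add_zero]
  · have h1 := (lin_lp _ _ _ φ).symm.trans (mem_kr.1 hφ.1)
    have h2 := (lin_lp _ _ _ φ).symm.trans (mem_kr.1 hφ.2)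
    rw [← hp', ← hq']
    refine ⟨mem_kr.2 (mul_left_cancel₀ (sub_ne_zero.2 hss) ?_),
      mem_kr.2 (mul_left_cancel₀ (sub_ne_zero.2 hss) ?_)⟩
    · linear_combination s * h2 - s' * h1
    · linear_combination (1 - s') * h1 - (1 - s) * h2

/-- few pairs are tangent. -/
theorem pcs_nt {A α H : ℝ} {d : ℕ} {P : Finset (σ → ℝ)} (𝓟 : Pcs A α d P κ) (hd : 1 ≤ d)
    (hH : HypB P H) : ∃ Bad : Finset ((σ → ℝ) × (σ → ℝ)), (Bad.card : ℝ) ≤ 2 * (P.card * H) ∧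
      ∀ a ∈ P, ∀ a' ∈ P, (a, a') ∉ Bad →
        NT2 (𝓟.g (𝓟.pc a) 0) (𝓟.g (𝓟.pc a') 0) (cx a) (cx a') := by
  classical
  obtain ⟨N, hN⟩ : ∃ N : (σ → ℝ) → Finset (σ → ℝ), N = fun a => P.filter fun b =>
      dg (𝓟.g (𝓟.pc a) 0) (cx a) (fun k => cx b k - cx a k) = 0 := ⟨_, rfl⟩
  have h1 : ∀ a ∈ P, ((N a).card : ℝ) ≤ H := fun a ha => by
    refine hH.complex (fun k => aeval (cx a) (pderiv k (𝓟.g (𝓟.pc a) 0)))
      (∑ k, aeval (cx a) (pderiv k (𝓟.g (𝓟.pc a) 0)) * a k) (fun h0 => ?_) _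
      (hN ▸ Finset.filter_subset _ _) fun b hb => ?_
    · apply 𝓟.jac ha hd
      unfold Pcs.J Jc
      rw [jac_unique]
      exact congrFun h0 _
    · rw [hN] at hb
      have := (Finset.mem_filter.1 hb).2
      simp only [dg, mul_sub, Finset.sum_sub_distrib] at this
      exact sub_eq_zero.1 this
  obtain ⟨B1, hB1⟩ : ∃ B1 : Finset ((σ → ℝ) × (σ → ℝ)),
      B1 = (P ×ˢ P).filter fun x => x.2 ∈ N x.1 := ⟨_, rfl⟩
  obtain ⟨B2, hB2⟩ : ∃ B2 : Finset ((σ → ℝ) × (σ → ℝ)),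
      B2 = (P ×ˢ P).filter fun x => x.1 ∈ N x.2 := ⟨_, rfl⟩
  have b1 : (B1.card : ℝ) ≤ P.card * H := by
    refine lin_cover' B1 P (fun a => {a}) N (fun x hx => ?_) fun a ha => by simpa using h1 a ha
    rw [hB1] at hx
    obtain ⟨hx, h⟩ := Finset.mem_filter.1 hx
    exact ⟨x.1, (Finset.mem_product.1 hx).1, Finset.mem_singleton_self _, h⟩
  have b2 : (B2.card : ℝ) ≤ P.card * H := by
    refine lin_cover' B2 P N (fun a => {a}) (fun x hx => ?_) fun a ha => by simpa using h1 a ha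
    rw [hB2] at hx
    obtain ⟨hx, h⟩ := Finset.mem_filter.1 hx
    exact ⟨x.2, (Finset.mem_product.1 hx).2, h, Finset.mem_singleton_self _⟩
  refine ⟨B1 ∪ B2, ?_, fun a ha a' ha' hn => ⟨fun h0 => hn ?_, fun h0 => hn ?_⟩⟩
  · have h3 : ((B1 ∪ B2).card : ℝ) ≤ B1.card + B2.card := by
      exact_mod_cast Finset.card_union_le B1 B2
    linarith
  · refine Finset.mem_union_left _ ?_
    rw [hB1, hN]
    exact Finset.mem_filter.2 ⟨Finset.mem_product.2 ⟨ha, ha'⟩, Finset.mem_filter.2 ⟨ha', h0⟩⟩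
  · refine Finset.mem_union_right _ ?_
    rw [hB2, hN]
    refine Finset.mem_filter.2 ⟨Finset.mem_product.2 ⟨ha, ha'⟩, Finset.mem_filter.2 ⟨ha, ?_⟩⟩
    simp only [dg, mul_sub, Finset.sum_sub_distrib, sub_eq_zero] at h0 ⊢
    exact h0.symm

theorem mlin_num {C0 C1 n H y θ f W : ℝ} {d : ℕ} (hd : 3 ≤ d) (hC0 : 0 < C0) (hC1 : 0 ≤ C1)
    (hH : 0 ≤ H) (hy : 1 ≤ y) (hn : H * y ^ (6 * d) ≤ n) (h0 : 0 ≤ f * W)
    (h : f * W ≤ C1 * (y ^ d * y ^ 2) * n) (hθ : 2 + 2 * C0 * C1 ^ 2 + C0 + C1 ≤ θ * y) :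
    2 * (n * H) + C0 * (W ^ 2 * f ^ 2 / y ^ (4 * d) + 1 / y ^ (4 * d) * W ^ 2 * f ^ 2 +
      H ^ 2 / (1 / y ^ (4 * d)) ^ 2) + f * (y ^ (4 * d) * W * H) ≤ θ * n ^ 2 := by
  have h3 : y ^ 3 ≤ y ^ d := pow_le_pow_right₀ hy hd
  rw [pow_mul' y 4 d]
  rw [pow_mul' y 6 d] at hn
  generalize y ^ d = u at h3 hn h ⊢
  have hy0 : 0 < y := one_pos.trans_le hy
  have hy3 : y ≤ y ^ 3 := le_self_pow₀ hy (by norm_num)
  have hu : 1 ≤ u := hy.trans (hy3.trans h3)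
  have hu0 : 0 < u := one_pos.trans_le hu
  have hyu : y ≤ u := hy3.trans h3
  have hn0 : 0 ≤ n := le_trans (by positivity) hn
  obtain ⟨G, hG⟩ : ∃ G, G = f * W := ⟨_, rfl⟩
  have e : 2 * (n * H) + C0 * (W ^ 2 * f ^ 2 / u ^ 4 + 1 / u ^ 4 * W ^ 2 * f ^ 2 +
      H ^ 2 / (1 / u ^ 4) ^ 2) + f * (u ^ 4 * W * H) =
      2 * (n * H) + 2 * C0 * (G ^ 2 / u ^ 4) + C0 * (H ^ 2 * u ^ 8) + G * u ^ 4 * H := by
    rw [hG]
    field_simp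
    ring
  rw [e]
  rw [← hG] at h h0
  have b1 : n * H * y ≤ n ^ 2 := by
    calc n * H * y ≤ n * H * u ^ 6 := by
          gcongr
          exact hyu.trans (le_self_pow₀ hu (by norm_num))
      _ = n * (H * u ^ 6) := by ring
      _ ≤ n * n := by gcongr
      _ = n ^ 2 := by ring
  have b2 : G ^ 2 / u ^ 4 * y ≤ C1 ^ 2 * n ^ 2 := by
    rw [div_mul_eq_mul_div, div_le_iff₀ (by positivity)]
    have h5 : y ^ 5 ≤ u ^ 2 := by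
      calc y ^ 5 ≤ y ^ 6 := pow_le_pow_right₀ hy (by norm_num)
        _ = (y ^ 3) ^ 2 := by ring
        _ ≤ u ^ 2 := by gcongr
    calc G ^ 2 * y ≤ (C1 * (u * y ^ 2) * n) ^ 2 * y := by gcongr
      _ = C1 ^ 2 * n ^ 2 * u ^ 2 * y ^ 5 := by ring
      _ ≤ C1 ^ 2 * n ^ 2 * u ^ 2 * u ^ 2 := by gcongr
      _ = _ := by ring
  have b3 : H ^ 2 * u ^ 8 * y ≤ n ^ 2 := by
    calc H ^ 2 * u ^ 8 * y ≤ H ^ 2 * u ^ 8 * u ^ 4 := by
          gcongr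
          exact hyu.trans (le_self_pow₀ hu (by norm_num))
      _ = (H * u ^ 6) ^ 2 := by ring
      _ ≤ n ^ 2 := by gcongr
  have b4 : G * u ^ 4 * H * y ≤ C1 * n ^ 2 := by
    calc G * u ^ 4 * H * y ≤ C1 * (u * y ^ 2) * n * u ^ 4 * H * y := by gcongr
      _ = C1 * n * H * u ^ 5 * y ^ 3 := by ring
      _ ≤ C1 * n * H * u ^ 5 * u := by gcongr
      _ = C1 * n * (H * u ^ 6) := by ring
      _ ≤ C1 * n * n := by gcongr
      _ = _ := by ring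
  refine le_of_mul_le_mul_right ?_ hy0
  have b5 := mul_le_mul_of_nonneg_left b2 (show 0 ≤ 2 * C0 by positivity)
  have b6 := mul_le_mul_of_nonneg_left b3 hC0.le
  have b7 := mul_le_mul_of_nonneg_right hθ (sq_nonneg n)
  linarith

theorem mlin_H {P : Finset (σ → ℝ)} {H : ℝ} (hH : HypB P H) (h : 0 < Fintype.card σ) : 0 ≤ H := by
  obtain ⟨k⟩ : Nonempty σ := Fintype.card_pos_iff.1 h
  simpa using hH (fun _ => 1) 0 ∅ (fun h => one_ne_zero (congrFun h k)) (Finset.empty_subset _)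
    (by simp)

/-- the crude count of pairs spanning a flat with many branches. -/
theorem pcs_comb (d : ℕ) (hd : 3 ≤ d) (A θ : ℝ) (hA : 1 ≤ A) (hθ : 0 < θ) : ∃ y0 : ℝ,
    ∀ (α : ℝ) (σ κ ρ : Type) [Fintype σ] [Fintype κ] [Fintype ρ] (P : Finset (σ → ℝ))
    (𝓟 : Pcs A α d P κ) (H y : ℝ) (t : ℕ) (e : ρ → σ) (E : Finset ((σ → ℝ) × (σ → ℝ))),
    Fintype.card σ = d → y0 ≤ y → (Fintype.card κ : ℝ) ≤ y → 𝓟.Cmpr y → HypB P H →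
    H * y ^ (6 * d) ≤ P.card → 2 ≤ t → t ≤ d → Compl (𝓟.c t) e →
    (∀ x ∈ E, x.1 ∈ P ∧ x.2 ∈ P ∧
      t ≤ finrank ℝ (𝓟.Lf t x.1 ⊓ 𝓟.Lf t x.2 : Submodule ℝ _) + 1 ∧
      ∃ (Ω : Type) (T : Finset Ω) (M : Ω → Submodule ℝ (ℝ × (σ → ℝ))), y ^ (4 * d) < T.card ∧
        (∀ s ∈ T, (∃ j, ∃ 𝔶 ∈ linB (gs (𝓟.g j) t) (𝓟.c t) e, M s = LinR 𝔶) ∧
          𝓟.Lf t x.1 ⊓ 𝓟.Lf t x.2 ≤ M s) ∧
        ∀ s ∈ T, ∀ s' ∈ T, s ≠ s' → M s ⊓ M s' ≤ 𝓟.Lf t x.1 ⊓ 𝓟.Lf t x.2) →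
    (E.card : ℝ) ≤ θ * (P.card : ℝ) ^ 2 := by
  classical
  obtain ⟨C0, hC0, hcomb⟩ := lin_comb
  obtain ⟨C1, hC1⟩ : ∃ C1 : ℝ, C1 = d.factorial * 2 ^ d * (2 ^ d * (2 ^ d) ^ d) *
    (2 ^ d * A) ^ d * A := ⟨_, rfl⟩
  have hC1' : 0 ≤ C1 := by
    rw [hC1]
    positivity
  refine ⟨max 1 ((2 + 2 * C0 * C1 ^ 2 + C0 + C1) / θ), ?_⟩
  intro α σ κ ρ _ _ _ P 𝓟 H y t e E hσ hy hκ hcm hH hHy ht htd hc hE
  subst hσ
  have hy1 : 1 ≤ y := (le_max_left _ _).trans hy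
  have hy2 : 2 + 2 * C0 * C1 ^ 2 + C0 + C1 ≤ θ * y := by
    have := (le_max_right _ _).trans hy
    rwa [div_le_iff₀' hθ] at this
  have hH0 : 0 ≤ H := mlin_H hH (by omega)
  rcases E.eq_empty_or_nonempty with rfl | ⟨x0, hx0⟩
  · rw [Finset.card_empty, Nat.cast_zero]
    positivity
  obtain ⟨j0, -⟩ : ∃ j0 : κ, j0 = 𝓟.pc x0.1 := ⟨_, rfl⟩
  obtain ⟨δ, hδe⟩ : ∃ δ : ℕ → ℝ, δ = fun i => A * (y * 𝓟.δ j0 i) := ⟨_, rfl⟩
  have hδ : ∀ i, 1 ≤ δ i := fun i => hδe ▸ one_le_mul_of_one_le_of_one_le hA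
    (one_le_mul_of_one_le_of_one_le hy1 ((𝓟.D j0).one_le i))
  have hdeg : ∀ j i, i < Fintype.card σ → ((𝓟.g j i).totalDegree : ℝ) ≤ δ i := fun j i hi =>
    ((𝓟.D j).deg i hi).trans (hδe ▸ mul_le_mul_of_nonneg_left (hcm j j0 i hi) (by linarith))
  have hz : ∀ b ∈ P, ∀ i, gs (𝓟.g (𝓟.pc b)) t i ∈ kr ℂ (cx b) := fun b hb i =>
    𝓟.zero hb (i.2.trans_le htd)
  have hj : ∀ b ∈ P, Jac (gs (𝓟.g (𝓟.pc b)) t) (𝓟.c t) ∉ kr ℂ (cx b) := fun b hb =>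
    𝓟.jac hb htd
  choose S hS hSf using fun j => lin_count hc (fun i : Fin t => δ i)
    (γ := gs (𝓟.g j) t) (fun i => hdeg j i (i.2.trans_le htd)) fun i => hδ i
  have hcard := hc.card_add
  rw [Fintype.card_fin] at hcard
  obtain ⟨f0, hf0⟩ : ∃ f0 : ℝ, f0 = (Fintype.card ρ).factorial *
    (2 ^ Fintype.card σ * ∏ i : Fin t, (2 ^ Fintype.card σ * δ i)) := ⟨_, rfl⟩
  obtain ⟨W0, hW0⟩ : ∃ W0 : ℝ, W0 = 2 ^ Fintype.card σ * (2 ^ Fintype.card σ) ^ t *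
      ∏ i ∈ Finset.Ico t (Fintype.card σ), (2 ^ Fintype.card σ * δ i) := ⟨_, rfl⟩
  rw [← hf0] at hSf
  have hf00 : 0 ≤ f0 := (Nat.cast_nonneg _).trans (hSf j0)
  have hW00 : 0 ≤ W0 := hW0 ▸ mul_nonneg (by positivity) (Finset.prod_nonneg fun i _ =>
      mul_nonneg (by positivity) (zero_le_one.trans (hδ i)))
  have hmem : ∀ j 𝔶, 𝔶 ∈ linB (gs (𝓟.g j) t) (𝓟.c t) e →
      LinR 𝔶 ∈ (Finset.univ.biUnion S).image LinR := fun j 𝔶 h =>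
    Finset.mem_image_of_mem _ (Finset.mem_biUnion.2 ⟨j, Finset.mem_univ _, (hS j 𝔶).2 h⟩)
  have htr : ∀ L ∈ (Finset.univ.biUnion S).image LinR, ∀ φ ∈ L,
      (∀ k, k ∉ Set.range e → φ.2 k = 0) → φ = 0 := fun L hL => by
    obtain ⟨𝔶, h, rfl⟩ := Finset.mem_image.1 hL
    obtain ⟨j, -, h⟩ := Finset.mem_biUnion.1 h
    exact lin_trans hc.2.1 ((hS j 𝔶).1 h).2.2.2
  have hsum : ∀ {β : Type} [DecidableEq β] (U : κ → Finset β) (M : ℝ), 0 ≤ M →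
      (∀ j, ((U j).card : ℝ) ≤ M) → ((Finset.univ.biUnion U).card : ℝ) ≤ y * M := by
    intro β _ U M hM hU
    have h1 : ((Finset.univ.biUnion U).card : ℝ) ≤ ∑ j, ((U j).card : ℝ) := by
      exact_mod_cast Finset.card_biUnion_le
    refine h1.trans ((Finset.sum_le_card_nsmul _ _ M fun j _ => hU j).trans ?_)
    rw [nsmul_eq_mul, Finset.card_univ]
    exact mul_le_mul_of_nonneg_right hκ hM
  have hμ : 1 ≤ y ^ (4 * Fintype.card σ) := one_le_pow₀ hy1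
  refine (hcomb σ ρ e t P ((Finset.univ.biUnion S).image LinR) (𝓟.Lf t) E (y * f0) (y * W0) H
    (y ^ (4 * Fintype.card σ)) (1 / y ^ (4 * Fintype.card σ)) hc.2.1 hcard ht
    (fun L hL => ⟨(lin_basis hc (htr L hL)).1.trans_eq (Fintype.card_fin t), htr L hL⟩)
    (le_trans (Nat.cast_le.2 Finset.card_image_le) (hsum S f0 hf00 hSf)) (fun a ha => ?_)
    (fun L hL hr => ?_) (by positivity) hH hH0 hμ (by positivity)
    ((div_le_one (by positivity)).2 hμ) fun x hx => ?_).trans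
    (mlin_num hd hC0 hC1' hH0 hy1 hHy (by positivity) ?_ hy2)
  · obtain ⟨h1, h2⟩ := lin_Br hc (hz a ha) (hj a ha)
    refine ⟨hmem _ _ h2, fun φ hφ => ?_⟩
    have h3 := (lin_aeval _ φ).symm.trans (mem_kr.1 (h1 hφ))
    simp only [Algebra.algebraMap_self, RingHom.id_apply] at h3
    exact_mod_cast h3
  · choose φ hφ hφ' using (lin_basis hc (htr L hL)).2 (hr.trans (Fintype.card_fin t).symm)
    refine le_trans (Nat.cast_le.2 (Finset.card_le_card (t := Finset.univ.biUnion fun j =>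
      (𝓟.Q j).filter fun a => 𝓟.Lf t a = L) fun a ha => ?_)) (hsum _ W0 hW00 fun j => ?_)
    · obtain ⟨ha, ha'⟩ := Finset.mem_filter.1 ha
      exact Finset.mem_biUnion.2 ⟨𝓟.pc a, Finset.mem_univ _,
        Finset.mem_filter.2 ⟨𝓟.mem_pc ha, ha'⟩⟩
    · rw [hW0]
      refine lin_weight _ cx
        (fun a _ b _ h => funext fun k => Complex.ofReal_injective (congrFun h k))
        (𝓟.g j) δ htd (c := 𝓟.c t) (c' := 𝓟.c _)
        (fun a ha i hi => (𝓟.D j).mem i hi a (Finset.mem_filter.1 ha).1)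
        (fun a ha => 𝓟.hc j ▸ (𝓟.D j).jac t htd a (Finset.mem_filter.1 ha).1)
        (fun a ha => 𝓟.hc j ▸ (𝓟.D j).jac _ le_rfl a (Finset.mem_filter.1 ha).1) (hdeg j) hδ φ hφ'
        fun a ha i => ?_
      obtain ⟨h1, h2⟩ := Finset.mem_filter.1 ha
      rw [← ((𝓟.mem j a).1 h1).2]
      exact (h2.symm ▸ hφ i : φ i ∈ 𝓟.Lf t a)
  · obtain ⟨h1, h2, h5, Ω, T, M, h6, h7, h8⟩ := hE x hx
    refine ⟨h1, h2, h5, Ω, T, M, h6, fun s hs => ⟨?_, (h7 s hs).2⟩, h8⟩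
    obtain ⟨j, 𝔶, h9, h10⟩ := (h7 s hs).1
    exact h10 ▸ hmem j 𝔶 h9
  · have h1 := Finset.prod_range_mul_prod_Ico (fun i => 2 ^ Fintype.card σ * δ i) htd
    have h2 : ∏ i ∈ Finset.range (Fintype.card σ), 2 ^ Fintype.card σ * δ i =
        (2 ^ Fintype.card σ * A) ^ Fintype.card σ * y ^ Fintype.card σ *
          fp (𝓟.D j0).δ (Fintype.card σ) := by
      simp only [hδe, ← mul_assoc, fp, Pcs.δ]
      rw [Finset.prod_mul_distrib, Finset.prod_const, Finset.card_range, mul_pow]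
    rw [h2, ← Fin.prod_univ_eq_prod_range] at h1
    have h3 := fp_pos (𝓟.D j0).one_le (Fintype.card σ)
    have h4 : ((𝓟.Q j0).card : ℝ) ≤ P.card :=
      Nat.cast_le.2 (Finset.card_le_card fun a ha => ((𝓟.mem j0 a).1 ha).1)
    calc _ = y ^ 2 * ((Fintype.card ρ).factorial * 2 ^ Fintype.card σ *
          (2 ^ Fintype.card σ * (2 ^ Fintype.card σ) ^ t) *
          ((2 ^ Fintype.card σ * A) ^ Fintype.card σ * y ^ Fintype.card σ *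
            fp (𝓟.D j0).δ (Fintype.card σ))) := by
          rw [← h1, hf0, hW0]
          ring
      _ ≤ y ^ 2 * ((Fintype.card σ).factorial * 2 ^ Fintype.card σ *
          (2 ^ Fintype.card σ * (2 ^ Fintype.card σ) ^ Fintype.card σ) *
          ((2 ^ Fintype.card σ * A) ^ Fintype.card σ * y ^ Fintype.card σ * (A * P.card))) := by
          gcongr
          · omega
          · exact one_le_pow₀ one_le_two
          · exact (𝓟.D j0).le_card.trans (mul_le_mul_of_nonneg_left h4 (by linarith))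
      _ = _ := by
          rw [hC1]
          ring

/-- most pairs are transverse and have polynomially few generic roots. -/
theorem lin_crude (d : ℕ) (hd : 3 ≤ d) (A θ : ℝ) (hA : 1 ≤ A) (hθ : 0 < θ) : ∃ y0 : ℝ,
    ∀ (α : ℝ) (σ κ : Type) [Fintype σ] [Fintype κ] (P : Finset (σ → ℝ)) (𝓟 : Pcs A α d P κ)
    (H y : ℝ), Fintype.card σ = d → y0 ≤ y → (Fintype.card κ : ℝ) ≤ y → 𝓟.Cmpr y → HypB P H →
    H * y ^ (6 * d) ≤ P.card →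
    ∃ Bad : Finset ((σ → ℝ) × (σ → ℝ)), (Bad.card : ℝ) ≤ θ * (P.card : ℝ) ^ 2 ∧
      ∀ a ∈ P, ∀ a' ∈ P, (a, a') ∉ Bad →
        NT2 (𝓟.g (𝓟.pc a) 0) (𝓟.g (𝓟.pc a') 0) (cx a) (cx a') ∧
        ∀ t, 2 ≤ t → t ≤ d → GenM (𝓟.g (𝓟.pc a)) (𝓟.g (𝓟.pc a')) Finset.univ 𝓟.g 𝓟.J t t
          (y ^ (4 * d)) (cx a) (cx a') := by
  classical
  have hθ' : 0 < θ / (d + 2) := by positivity
  obtain ⟨y0, hy0⟩ := pcs_comb d hd A (θ / (d + 2)) hA hθ'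
  refine ⟨max y0 (max 1 (2 / (θ / (d + 2)))), ?_⟩
  intro α σ κ _ _ P 𝓟 H y hσ hy hκ hcm hH hHy
  have hy1 : 1 ≤ y := ((le_max_left _ _).trans (le_max_right _ _)).trans hy
  have hy2 : 2 ≤ θ / (d + 2) * y := by
    have := ((le_max_right _ _).trans (le_max_right _ _)).trans hy
    rwa [div_le_iff₀' hθ'] at this
  have hH0 : 0 ≤ H := mlin_H hH (by omega)
  obtain ⟨B, hB, hB'⟩ := pcs_nt 𝓟 (by omega) hH
  have hn : (0 : ℝ) ≤ P.card := Nat.cast_nonneg _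
  have b0 : (B.card : ℝ) ≤ θ / (d + 2) * (P.card : ℝ) ^ 2 := by
    have h1 : H * y ≤ P.card :=
      (mul_le_mul_of_nonneg_left (le_self_pow₀ hy1 (by omega)) hH0).trans hHy
    have h2 := mul_le_mul_of_nonneg_right hy2 (mul_nonneg hn hH0)
    have h3 := mul_le_mul_of_nonneg_left h1 (mul_nonneg hθ'.le hn)
    nlinarith
  obtain ⟨E, hE⟩ : ∃ E : ℕ → Finset ((σ → ℝ) × (σ → ℝ)), E = fun t => (P ×ˢ P).filter fun x =>
      NT2 (𝓟.g (𝓟.pc x.1) 0) (𝓟.g (𝓟.pc x.2) 0) (cx x.1) (cx x.2) ∧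
      ¬ GenM (𝓟.g (𝓟.pc x.1)) (𝓟.g (𝓟.pc x.2)) Finset.univ 𝓟.g 𝓟.J t t (y ^ (4 * d))
        (cx x.1) (cx x.2) := ⟨_, rfl⟩
  have b1 : ∀ t ∈ Finset.Icc 2 d, ((E t).card : ℝ) ≤ θ / (d + 2) * (P.card : ℝ) ^ 2 := by
    intro t ht
    obtain ⟨ht, htd⟩ := Finset.mem_Icc.1 ht
    rcases (E t).eq_empty_or_nonempty with h0 | ⟨x0, hx0⟩
    · rw [h0, Finset.card_empty, Nat.cast_zero]
      positivity
    have hx1 : x0.1 ∈ P := by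
      rw [hE] at hx0
      exact (Finset.mem_product.1 (Finset.mem_filter.1 hx0).1).1
    have hc := compl_free (inj_of_jac (g := gs (𝓟.g (𝓟.pc x0.1)) t) (c := 𝓟.c t) fun h =>
      𝓟.jac hx1 htd (by
        change aeval _ (Jac (gs (𝓟.g (𝓟.pc x0.1)) t) (𝓟.c t)) = 0
        rw [h, map_zero]))
    refine hy0 α σ κ _ P 𝓟 H y t _ (E t) hσ ((le_max_left _ _).trans hy) hκ hcm hH hHy ht htd hc
      fun x hx => ?_
    rw [hE] at hx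
    obtain ⟨hx, h3, h4⟩ := Finset.mem_filter.1 hx
    obtain ⟨h1, h2⟩ := Finset.mem_product.1 hx
    rw [← hJ_one (J := 𝓟.J)] at h4
    obtain ⟨h5, Ω, T, M, h6, h7, h8⟩ := lin_pairM 𝓟 ht htd hc h1 h2 h3 (one_le_pow₀ hy1) h4
    refine ⟨h1, h2, h5, Ω, T, fun s => LinR (M s), h6, fun s hs => ⟨?_, (h7 s hs).2⟩, h8⟩
    obtain ⟨j, hj, -⟩ := (h7 s hs).1
    exact ⟨j, M s, hj, rfl⟩
  refine ⟨B ∪ (Finset.Icc 2 d).biUnion E, ?_, fun a ha a' ha' hn' => ?_⟩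
  · have h1 : ((B ∪ (Finset.Icc 2 d).biUnion E).card : ℝ) ≤
        B.card + ∑ t ∈ Finset.Icc 2 d, ((E t).card : ℝ) := by
      exact_mod_cast (Finset.card_union_le _ _).trans (Nat.add_le_add_left Finset.card_biUnion_le _)
    have h2 := Finset.sum_le_card_nsmul _ _ _ b1
    rw [nsmul_eq_mul, Nat.card_Icc] at h2
    have h3 : ((d + 1 - 2 : ℕ) : ℝ) ≤ d + 1 := by exact_mod_cast (by omega : d + 1 - 2 ≤ d + 1)
    have h4 := mul_le_mul_of_nonneg_right h3 (mul_nonneg hθ'.le (sq_nonneg (P.card : ℝ)))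
    have h5 : ((d : ℝ) + 2) * (θ / (d + 2) * (P.card : ℝ) ^ 2) = θ * (P.card : ℝ) ^ 2 := by
      field_simp
    linarith
  · rw [Finset.mem_union, not_or] at hn'
    have h1 := hB' a ha a' ha' hn'.1
    refine ⟨h1, fun t ht htd => by_contra fun h2 => hn'.2 (Finset.mem_biUnion.2
      ⟨t, Finset.mem_Icc.2 ⟨ht, htd⟩, ?_⟩)⟩
    rw [hE]
    exact Finset.mem_filter.2 ⟨Finset.mem_product.2 ⟨ha, ha'⟩, h1, h2⟩


end

end Vale.Agent.P054
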