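import Vale.Agent.P054.MPair
import Vale.Agent.P054.MNc
import Vale.Agent.P054.MLin
import Vale.Agent.P054.MPieces
import Vale.Agent.P054.SepA
import Vale.Agent.P054.MNBAux

namespace Vale.Agent.P054

open MvPolynomial

noncomputable section

theorem mnb_lev {d : ℕ} (hd : 3 ≤ d) {A C0 y X w m L e0 et el e0' : ℝ} (hA : 1 ≤ A) (hC0 : 1 ≤ C0)
    (hy : 4 ≤ y) (hw : 1 ≤ w) (hwy : w ^ (2 * d) ≤ y) (hm : m ≤ y ^ 2 + 1) (hm0 : 0 ≤ m)
    (hL : L ≤ y) (h0 : 1 ≤ e0) (ht : 1 ≤ et) (htl : et ≤ el) (hX : el * y ^ (16 * d) ≤ X)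
    (h00 : e0 ≤ y * e0') (hlt : C0 * X < e0 * et * w ^ (2 * d)) :
    (y ^ (4 * d) + m + 1) * (A * et) ≤ A ^ 2 * (C0 * X) / w ^ (2 * d) ∧ L * m ≤ e0' := by
  have hy1 : 1 ≤ y := by linarith
  have hy0 : 0 < y := by linarith
  have hw0 : 0 < w ^ (2 * d) := by positivity
  have hel : 0 < el := by linarith
  have hX0 : 0 ≤ X := le_trans (by positivity) hX
  have hCX : X ≤ C0 * X := le_mul_of_one_le_left hX0 hC0
  constructor
  · rw [le_div_iff₀ hw0]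
    have h1 := mnb_num1 hy (show 2 ≤ 4 * d by omega) hm
    have h2 : y ^ (4 * d + 1) * y ≤ y ^ (16 * d) := by
      rw [← pow_succ]
      exact pow_le_pow_right₀ hy1 (by omega)
    have hA2 : A ≤ A ^ 2 := le_self_pow₀ hA (by norm_num)
    calc (y ^ (4 * d) + m + 1) * (A * et) * w ^ (2 * d)
        ≤ y ^ (4 * d + 1) * (A ^ 2 * el) * y := by gcongr
      _ = A ^ 2 * (el * (y ^ (4 * d + 1) * y)) := by ring
      _ ≤ A ^ 2 * (el * y ^ (16 * d)) := by gcongr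
      _ ≤ _ := mul_le_mul_of_nonneg_left (hX.trans hCX) (by positivity)
  · refine (mnb_num2 hy hm hm0 hL).trans ?_
    have he0' : 0 ≤ e0' := by
      by_contra hneg
      have := mul_neg_of_pos_of_neg hy0 (not_le.1 hneg)
      linarith
    have h1 : el * y ^ (16 * d) ≤ el * (y ^ 2 * e0') := by
      calc el * y ^ (16 * d) ≤ e0 * et * w ^ (2 * d) := by linarith
        _ ≤ (y * e0') * el * y := by gcongr
        _ = _ := by ring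
    have h2 := le_of_mul_le_mul_left h1 hel
    have h3 : y ^ 2 * y ^ (2 + 2) ≤ y ^ (16 * d) := by
      rw [← pow_add]
      exact pow_le_pow_right₀ hy1 (by omega)
    exact le_of_mul_le_mul_left (h3.trans h2) (by positivity)

theorem mnb_lt {A C w e0 et : ℝ} (hA : 1 ≤ A) (hw : 0 < w) (h : A ^ 2 * C / w < A * e0 * (A * et)) :
    C < e0 * et * w := by
  rw [div_lt_iff₀ hw] at h
  have hA2 : 0 < A ^ 2 := by positivity
  refine lt_of_mul_lt_mul_left (h.trans_le (le_of_eq ?_)) hA2.le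
  ring

open Classical in
/-- the case of small degrees. -/
theorem nb_case (d : ℕ) (hd : 3 ≤ d) (A α C0 : ℝ) (hA : 1 ≤ A) (hα : 0 < α) (hC0 : 1 ≤ C0) :
    ∃ C y0 : ℝ, 0 < C ∧ ∀ (σ κ : Type) [Fintype σ] [DecidableEq σ] [Fintype κ] (i0 : σ)
    (P : Finset (σ → ℝ)) (𝓟 : Pcs A α d P κ) (H y X : ℝ) (w : κ → ℝ), Fintype.card σ = d →
    y0 ≤ y → (∀ a ∈ P, ∀ b ∈ P, a ≠ b → a i0 ≠ b i0) → (Fintype.card κ : ℝ) ≤ y → 𝓟.Cmpr y →
    HypB P H → H * y ^ (6 * d) ≤ P.card →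
    (∀ j, 1 ≤ w j ∧ w j ^ (2 * d) ≤ y ∧ 𝓟.δ j 0 * 𝓟.δ j 1 * w j ^ (2 * d) ≤ C0 * X) →
    ∑ j, 1 / w j ^ d ≤ C0 →
    (∀ i j t, t < d → w j ≤ w i → C0 * X < 𝓟.δ j 0 * 𝓟.δ j t * w j ^ (2 * d) →
      𝓟.δ j t ≤ w j * 𝓟.δ i t) →
    (∀ j, 𝓟.δ j (d - 1) * y ^ (16 * d) ≤ X) →
    ∃ G : Finset ((σ → ℝ) × (σ → ℝ)), (P.card : ℝ) ^ 2 ≤ 4 * G.card ∧
      (∀ x ∈ G, x.1 ∈ P ∧ x.2 ∈ P ∧ x.1 ≠ x.2) ∧
      ∀ a ∈ P, NCa (d - 2) (P.filter fun b => (a, b) ∈ G) (fun b => dirv i0 (cx a) (cx b))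
        (C * X) := by
  obtain ⟨y1, hlin⟩ := lin_crude d hd A (1 / 8) hA (by norm_num)
  obtain ⟨Kc, L1, hKc, hL1, hpair⟩ := pair_good d (by omega) A α (1 / 8) hA hα (by norm_num)
  obtain ⟨Cn, hCn, hnc⟩ := mnb_piece d (by omega)
  have hA0 : 0 < A := by linarith
  refine ⟨Cn * ((Kc * A) ^ d * A ^ 2 * C0 * C0), max y1 (L1 * A + 4), by positivity, ?_⟩
  intro σ κ _ _ _ i0 P 𝓟 H y X w hσ hy hi0 hκ hC hH hHP hw hsum hwt hX
  have hy1 : y1 ≤ y := (le_max_left _ _).trans hy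
  have hy2 : L1 * A + 4 ≤ y := (le_max_right _ _).trans hy
  have hLA : L1 ≤ L1 * A := le_mul_of_one_le_right (by linarith) hA
  have hy4 : 4 ≤ y := by linarith
  have hy0 : 0 ≤ y := by linarith
  obtain ⟨B1, hB1, hB1'⟩ := hlin α σ κ P 𝓟 H y hσ hy1 hκ hC hH hHP
  obtain ⟨hm1, hm2⟩ := mnb_ceil (z := L1 * A * y) (by positivity) hy0 1 (L := L1 * A)
    (by linarith) (by ring)
  generalize ⌈L1 * A * y⌉₊ = m at hm1 hm2
  have hδ1 : ∀ j t, 1 ≤ 𝓟.δ j t := fun j t => (𝓟.D j).one_le t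
  have hδA : ∀ j t, 1 ≤ A * 𝓟.δ j t := fun j t => one_le_mul_of_one_le_of_one_le hA (hδ1 j t)
  have hw0 : ∀ j, 0 < w j := fun j => by linarith [(hw j).1]
  have hCX : ∀ j : κ, 0 ≤ C0 * X := fun j => by
    have := hδ1 j 0
    have := hδ1 j 1
    have := hw0 j
    exact le_trans (by positivity) (hw j).2.2
  have hL : ∀ i j, L1 * (1 * (A * 𝓟.δ j 0)) ≤ (m + 1) * 𝓟.δ i 0 := fun i j => by
    have := hδ1 i 0
    calc L1 * (1 * (A * 𝓟.δ j 0)) = L1 * A * 𝓟.δ j 0 := by ring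
      _ ≤ L1 * A * (y * 𝓟.δ i 0) := by gcongr; exact hC j i 0 (by omega)
      _ = L1 * A * y * 𝓟.δ i 0 := by ring
      _ ≤ _ := by gcongr; linarith
  have hpg : ∀ i j, ∃ (ν : ℕ → ℝ) (Bad : Finset ((σ → ℝ) × (σ → ℝ))),
      (Bad.card : ℝ) ≤ 1 / 8 * ((𝓟.Q i).card * (𝓟.Q j).card) ∧ (w j ≤ w i →
      (∀ t, 1 ≤ t → t < d → A ^ 2 * (C0 * X) / w j ^ (2 * d) < A * 𝓟.δ j 0 * (A * 𝓟.δ j t) →
        0 ≤ ν t ∧ (ν t + m + 1) * (A * 𝓟.δ j t) ≤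
          (Kc * 1 ^ 2 * (A * w j)) ^ d * (A ^ 2 * (C0 * X) / w j ^ (2 * d))) ∧
      ∀ a ∈ 𝓟.Q i, ∀ a' ∈ 𝓟.Q j, (a, a') ∉ Bad → (a, a') ∉ B1 →
        Low (𝓟.g i) (𝓟.g j) {j} 𝓟.g 𝓟.J (fun t => A * 𝓟.δ j t) ν
          (A ^ 2 * (C0 * X) / w j ^ (2 * d)) m d d (cx a) (cx a')) := by
    intro i j
    by_cases hij : w j ≤ w i
    swap
    · exact ⟨0, ∅, by simp only [Finset.card_empty, Nat.cast_zero]; positivity,
        fun h => absurd h hij⟩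
    have hwj : 0 < w j ^ (2 * d) := pow_pos (hw0 j) _
    obtain ⟨ν, Bad, h1, h2, h3⟩ := hpair σ κ (𝓟.Q i) (𝓟.Q j) (𝓟.D i) (𝓟.D j) {j} 𝓟.g 𝓟.J
      (fun t => A * 𝓟.δ j t) 1 (A * w j) (A ^ 2 * (C0 * X) / w j ^ (2 * d)) (y ^ (4 * d)) m d
      hσ le_rfl le_rfl (by simp) (one_le_mul_of_one_le_of_one_le hA (hw j).1) (by positivity)
      (hδA j) (fun j' hj' t ht => by
        rw [Finset.mem_singleton.1 hj']
        exact (𝓟.D j).deg t ht) (fun j' _ => mnb_g_ne 𝓟 (by omega) j') (by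
        rw [le_div_iff₀ hwj]
        have h01 : 𝓟.δ j 0 ≤ 𝓟.δ j 1 := (𝓟.D j).mono (by omega)
        have := hδ1 j 0
        calc (A * 𝓟.δ j 0) ^ 2 * w j ^ (2 * d)
            = A ^ 2 * (𝓟.δ j 0 * 𝓟.δ j 0 * w j ^ (2 * d)) := by ring
          _ ≤ A ^ 2 * (𝓟.δ j 0 * 𝓟.δ j 1 * w j ^ (2 * d)) := by gcongr
          _ ≤ _ := mul_le_mul_of_nonneg_left (hw j).2.2 (by positivity)) (hL i j) (hL j j) (by
        intro t ht htd hlt
        have hlt' := mnb_lt hA hwj hlt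
        have htl : 𝓟.δ j t ≤ 𝓟.δ j (d - 1) := (𝓟.D j).mono (by omega)
        have k1 := mnb_lev hd hA hC0 hy4 (hw j).1 (hw j).2.1 hm2 (Nat.cast_nonneg m)
          (L := L1) (by linarith) (hδ1 j 0) (hδ1 j t) htl (hX j) (hC j i 0 (by omega)) hlt'
        have k2 := mnb_lev hd hA hC0 hy4 (hw j).1 (hw j).2.1 hm2 (Nat.cast_nonneg m)
          (L := L1) (by linarith) (hδ1 j 0) (hδ1 j t) htl (hX j) (hC j j 0 (by omega)) hlt'
        refine ⟨?_, ?_, k1.1, k1.2, k2.2⟩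
        · rw [mul_assoc]
          exact mul_le_mul_of_nonneg_left (hwt i j t htd hij hlt') hA0.le
        · rw [mul_assoc]
          exact mul_le_mul_of_nonneg_left
            (le_mul_of_one_le_left (by linarith [hδ1 j t]) (hw j).1) hA0.le)
    refine ⟨ν, Bad, h1, fun _ => ⟨h2, fun a ha a' ha' hb hb1 => h3 a ha a' ha' hb ?_⟩⟩
    intro t ht htd hlt
    have hlt' := mnb_lt hA hwj hlt
    have ht2 : 2 ≤ t := by
      by_contra h
      have : t = 1 := by omega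
      subst this
      linarith [(hw j).2.2]
    obtain ⟨ha1, ha2⟩ := (𝓟.mem _ _).1 ha
    obtain ⟨ha1', ha2'⟩ := (𝓟.mem _ _).1 ha'
    have := ((hB1' a ha1 a' ha1' hb1).2 t ht2 htd.le).mono (Finset.subset_univ {j}) le_rfl
    rwa [ha2, ha2'] at this
  choose ν B hB hB' using hpg
  obtain ⟨B2, hB2, hB2'⟩ := 𝓟.glue B hB
  have hBad : (((B1 ∪ B2).card : ℕ) : ℝ) ≤ 1 / 4 * (P.card : ℝ) ^ 2 := by
    have : (((B1 ∪ B2).card : ℕ) : ℝ) ≤ B1.card + B2.card := by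
      exact_mod_cast Finset.card_union_le B1 B2
    linarith
  have hG := half_pairs P (fun a => w (𝓟.pc a)) (B1 ∪ B2) hBad
  obtain ⟨G, hGc, hGm⟩ : ∃ G : Finset ((σ → ℝ) × (σ → ℝ)), (P.card : ℝ) ^ 2 ≤ 4 * G.card ∧
      ∀ x ∈ G, x.1 ∈ P ∧ x.2 ∈ P ∧ w (𝓟.pc x.2) ≤ w (𝓟.pc x.1) ∧ x ∉ B1 ∧ x ∉ B2 := by
    refine ⟨_, hG, fun x hx => ?_⟩
    simp only [Finset.mem_filter, Finset.mem_product, Finset.mem_union, not_or] at hx
    exact ⟨hx.1.1, hx.1.2, hx.2.1, hx.2.2.1, hx.2.2.2⟩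
  refine ⟨G, hGc, fun x hx => ?_, fun a ha S γ c φ hS h1 h2 => ?_⟩
  · obtain ⟨k1, k2, _, k4, _⟩ := hGm x hx
    exact ⟨k1, k2, mnb_ne (hB1' _ k1 _ k2 k4).1⟩
  have hφ := h2.nonneg
  have hSG : ∀ b ∈ S, (a, b) ∈ G := fun b hb => (Finset.mem_filter.1 (hS hb)).2
  have key := mnb_split S 𝓟.pc (fun j => Cn * φ *
    ((Kc * 1 ^ 2 * (A * w j)) ^ d * (A ^ 2 * (C0 * X) / w j ^ (2 * d)))) (fun j => by
      have hwj := hw0 j
      have hCXj := hCX j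
      have hX0 : 0 ≤ A ^ 2 * (C0 * X) / w j ^ (2 * d) := by positivity
      rcases (S.filter fun b => 𝓟.pc b = j).eq_empty_or_nonempty with he | ⟨b0, hb0⟩
      · rw [he]
        simp only [Finset.card_empty, Nat.cast_zero]
        positivity
      obtain ⟨hb1, hb2⟩ := Finset.mem_filter.1 hb0
      have hij : w j ≤ w (𝓟.pc a) := hb2 ▸ (hGm _ (hSG b0 hb1)).2.2.1
      have hK : 1 ≤ (Kc * 1 ^ 2 * (A * w j)) ^ d := by
        refine one_le_pow₀ (one_le_mul_of_one_le_of_one_le (by linarith)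
          (one_le_mul_of_one_le_of_one_le hA (hw j).1))
      refine hnc σ κ A α i0 P 𝓟 a _ j {j} (fun t => A * 𝓟.δ j t) (ν (𝓟.pc a) j)
        (A ^ 2 * (C0 * X) / w j ^ (2 * d)) _ φ m d γ c hσ (by omega) le_rfl ha
        (Finset.mem_singleton_self j) (hδA j) (𝓟.D j).deg (by positivity)
        (le_mul_of_one_le_left hX0 hK) (hB' _ j hij).1 (fun b hb => ?_)
        (h2.mono (biInf_mono fun b hb => (Finset.mem_filter.1 hb).1) le_rfl)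
      obtain ⟨hb3, hb4⟩ := Finset.mem_filter.1 hb
      obtain ⟨_, k2, _, k4, k5⟩ := hGm _ (hSG b hb3)
      have k6 := (hB1' _ ha _ k2 k4).1
      have k7 := hi0 a ha b k2 (mnb_ne k6)
      have hc : Function.Injective c := inj_of_jac (g := γ) fun h0 => (h1 b hb3).2 (by
        rw [h0, map_zero])
      refine ⟨k2, hb4, k7, k6, (h1 b hb3).1, (h1 b hb3).2, ?_,
        (hB' _ j hij).2 a (𝓟.mem_pc ha) b ((𝓟.mem _ _).2 ⟨k2, hb4⟩)
          (fun h => k5 (hB2' _ _ h)) k4⟩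
      exact not_persD_full hσ (c := 𝓟.c d) (mnb_rho hσ (by omega) hc) (compl_free hc)
        (fun i hi => 𝓟.zero k2 hi) (𝓟.jac k2 le_rfl)
        (fun h0 => k7 (Complex.ofReal_injective h0).symm) (h1 b hb3).1 (h1 b hb3).2)
  refine key.trans ?_
  have e1 : ∀ j, Cn * φ * ((Kc * 1 ^ 2 * (A * w j)) ^ d * (A ^ 2 * (C0 * X) / w j ^ (2 * d))) =
      Cn * φ * ((Kc * A) ^ d * A ^ 2 * (C0 * X)) * (1 / w j ^ d) := fun j => by
    have := hw0 j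
    rw [one_pow, mul_one, ← mul_assoc Kc, mul_pow (Kc * A), two_mul, pow_add]
    field_simp
  simp only [e1]
  rw [← Finset.mul_sum]
  have hCX' := hCX (𝓟.pc a)
  calc _ ≤ Cn * φ * ((Kc * A) ^ d * A ^ 2 * (C0 * X)) * C0 :=
        mul_le_mul_of_nonneg_left hsum (by positivity)
    _ = _ := by ring


end

end Vale.Agent.P054
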