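import Vale.Agent.P054.SepA
import Vale.Agent.P054.Homog
import Vale.Agent.P054.Geo

namespace Vale.Agent.P054

open MvPolynomial

noncomputable section

/-- correcting a polynomial so that it vanishes on a separated set. -/
theorem sepB_corr {K : Type} [Field K] {τ Λ : Type} (S : Finset Λ) (x : Λ → τ → K) {M : ℕ}
    (G : Λ → MvPolynomial τ K) (g1 : ∀ b ∈ S, (G b).totalDegree ≤ M)
    (g2 : ∀ b ∈ S, aeval (x b) (G b) ≠ 0) (g3 : ∀ b ∈ S, ∀ b' ∈ S, b' ≠ b → aeval (x b') (G b) = 0)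
    (F : MvPolynomial τ K) (hF : F.totalDegree ≤ M) :
    ∃ F' : MvPolynomial τ K, F'.totalDegree ≤ M ∧ (∀ b ∈ S, aeval (x b) F' = 0) ∧
      ∀ y : τ → K, (∀ b ∈ S, aeval y (G b) = 0) → aeval y F' = aeval y F := by
  refine ⟨F - ∑ b ∈ S, (aeval (x b) F / aeval (x b) (G b)) • G b,
    (totalDegree_sub _ _).trans (max_le hF (totalDegree_finsetSum_le fun b hb =>
      (totalDegree_smul_le _ _).trans (g1 b hb))), fun b hb => ?_, fun y hy => ?_⟩
  · rw [map_sub, map_sum, Finset.sum_eq_single_of_mem b hb fun b' hb' hne => by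
      rw [map_smul, g3 b' hb' b hb hne.symm, smul_zero], map_smul, smul_eq_mul,
      div_mul_cancel₀ _ (g2 b hb), sub_self]
  · rw [map_sub, map_sum, Finset.sum_eq_zero fun b hb => by rw [map_smul, hy b hb, smul_zero],
      sub_zero]

theorem sepB_sqrt (M : ℕ) : ∑ m ∈ Finset.range M, Real.sqrt ((M : ℝ) / ((m + 1 : ℕ) : ℝ)) ≤ 2 * M := by
  have h : ∀ N : ℕ, ∑ m ∈ Finset.range N, 1 / Real.sqrt ((m + 1 : ℕ) : ℝ) ≤ 2 * Real.sqrt N := by
    intro N
    induction N with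
    | zero => simp
    | succ N ih =>
      rw [Finset.sum_range_succ]
      have a1 : 0 < Real.sqrt ((N + 1 : ℕ) : ℝ) := by positivity
      have a2 : Real.sqrt ((N + 1 : ℕ) : ℝ) ^ 2 = N + 1 := by
        rw [Real.sq_sqrt (by positivity)]; push_cast; ring
      have a3 : Real.sqrt (N : ℝ) ^ 2 = N := Real.sq_sqrt (by positivity)
      have : 1 / Real.sqrt ((N + 1 : ℕ) : ℝ) ≤
          2 * Real.sqrt ((N + 1 : ℕ) : ℝ) - 2 * Real.sqrt N := by
        rw [div_le_iff₀ a1]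
        nlinarith [sq_nonneg (Real.sqrt ((N + 1 : ℕ) : ℝ) - Real.sqrt N)]
      linarith
  calc ∑ m ∈ Finset.range M, Real.sqrt ((M : ℝ) / ((m + 1 : ℕ) : ℝ)) =
        Real.sqrt M * ∑ m ∈ Finset.range M, 1 / Real.sqrt ((m + 1 : ℕ) : ℝ) := by
        rw [Finset.mul_sum]
        exact Finset.sum_congr rfl fun m _ => by rw [Real.sqrt_div (by positivity), mul_one_div]
    _ ≤ Real.sqrt M * (2 * Real.sqrt M) := by gcongr; exact h M
    _ = 2 * M := by rw [mul_left_comm, Real.mul_self_sqrt (by positivity)]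

theorem sepB_layer {Λ : Type} (R : Finset Λ) (κ : Λ → ℕ) (M : ℕ) (h : ∀ a ∈ R, κ a ≤ M) :
    ∑ a ∈ R, κ a = ∑ m ∈ Finset.range M, (R.filter fun a => m + 1 ≤ κ a).card := by
  simp only [Finset.card_filter]
  rw [Finset.sum_comm]
  refine Finset.sum_congr rfl fun a ha => ?_
  rw [← Finset.card_filter]
  have : (Finset.range M).filter (fun m => m + 1 ≤ κ a) = Finset.range (κ a) := by
    ext m
    have := h a ha
    simp only [Finset.mem_filter, Finset.mem_range]
    omega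
  rw [this, Finset.card_range]

/-- a point outside a separated set is killed at the cost of one more degree. -/
theorem sep_kill {K : Type} [Field K] {τ Λ : Type} [Fintype τ] (S : Finset Λ) (x : Λ → τ → K)
    {M : ℕ} (h : ∀ a ∈ S, ∃ F : MvPolynomial τ K, F.totalDegree < M ∧ aeval (x a) F ≠ 0 ∧
      ∀ b ∈ S, b ≠ a → aeval (x b) F = 0) (y : τ → K) (hy : ∀ b ∈ S, x b ≠ y) :
    ∃ F : MvPolynomial τ K, F.totalDegree ≤ M ∧ aeval y F ≠ 0 ∧ ∀ b ∈ S, aeval (x b) F = 0 := by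
  have h2 : ∀ b ∈ S, ∃ G : MvPolynomial τ K, G.totalDegree ≤ M ∧ aeval (x b) G ≠ 0 ∧
      (∀ b' ∈ S, b' ≠ b → aeval (x b') G = 0) ∧ aeval y G = 0 := fun b hb => by
    obtain ⟨F, h1, h2, h3⟩ := h b hb
    obtain ⟨j, hj⟩ := Function.ne_iff.1 (hy b hb)
    refine ⟨F * (X j - C (y j)), (totalDegree_mul _ _).trans ?_, ?_, fun b' hb' hne => ?_, ?_⟩
    · have := totalDegree_sub (X j : MvPolynomial τ K) (C (y j))
      rw [totalDegree_X, totalDegree_C] at this
      omega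
    · simpa [sub_eq_zero] using ⟨h2, hj⟩
    · rw [map_mul, h3 b' hb' hne, zero_mul]
    · simp
  choose! G g1 g2 g3 g4 using h2
  obtain ⟨F, h1, h2, h3⟩ := sepB_corr S x G g1 g2 g3 (1 : MvPolynomial τ K) (by simp)
  exact ⟨F, h1, by rw [h3 y g4]; simp, h2⟩

/-- a triangular system gives separators. -/
theorem sep_tri {K : Type} [Field K] {τ Λ : Type} (T : Finset Λ) (x : Λ → τ → K) (rk : Λ → ℕ)
    {M : ℕ} (h : ∀ a ∈ T, ∃ F : MvPolynomial τ K, F.totalDegree ≤ M ∧ aeval (x a) F ≠ 0 ∧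
      ∀ b ∈ T, b ≠ a → rk b ≤ rk a → aeval (x b) F = 0) :
    ∀ a ∈ T, ∃ F : MvPolynomial τ K, F.totalDegree ≤ M ∧ aeval (x a) F ≠ 0 ∧
      ∀ b ∈ T, b ≠ a → aeval (x b) F = 0 := by
  have key : ∀ N : ℕ, ∀ a ∈ T, T.sup rk - rk a < N → ∃ F : MvPolynomial τ K,
      F.totalDegree ≤ M ∧ aeval (x a) F ≠ 0 ∧ ∀ b ∈ T, b ≠ a → aeval (x b) F = 0 := by
    intro N
    induction N with
    | zero => intro a _ h; omega
    | succ N ih =>
      intro a ha hN
      have h2 : ∀ b ∈ T.filter (fun b => rk a < rk b), ∃ G : MvPolynomial τ K,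
          G.totalDegree ≤ M ∧ aeval (x b) G ≠ 0 ∧ ∀ b' ∈ T, b' ≠ b → aeval (x b') G = 0 :=
        fun b hb => by
        obtain ⟨b1, b2⟩ := Finset.mem_filter.1 hb
        have := Finset.le_sup (f := rk) b1
        exact ih b b1 (by omega)
      choose! G g1 g2 g3 using h2
      obtain ⟨F, f1, f2, f3⟩ := h a ha
      obtain ⟨F', h1, h2, h3⟩ := sepB_corr _ x G g1 g2
        (fun b hb b' hb' => g3 b hb b' (Finset.mem_filter.1 hb').1) F f1
      have h4 : ∀ b' ∈ T, rk b' ≤ rk a → aeval (x b') F' = aeval (x b') F := fun b' hb' hr =>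
        h3 _ fun b hb => g3 b hb b' hb' fun e => by
          have := (Finset.mem_filter.1 hb).2
          rw [e] at hr; omega
      refine ⟨F', h1, by rwa [h4 a ha le_rfl], fun b hb hne => ?_⟩
      by_cases hr : rk b ≤ rk a
      · rw [h4 b hb hr, f3 b hb hne hr]
      · exact h2 b (Finset.mem_filter.2 ⟨hb, not_le.1 hr⟩)
  exact fun a ha => key _ a ha (Nat.lt_succ_self _)

/-- a positive proportion of the points has separators of low degree. -/
theorem sep_all (k : ℕ) : ∃ C : ℝ, 1 ≤ C ∧ ∀ (K : Type) [Field K] [CharZero K] (τ Λ : Type)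
    [Fintype τ] (R : Finset Λ) (x : Λ → τ → K) (Y : ℝ), Fintype.card τ = k + 1 →
    1 ≤ Y → Set.InjOn x R → NCa k R x Y →
    ∃ T : Finset Λ, T ⊆ R ∧ R.card ≤ 2 * T.card ∧
      ∀ a ∈ T, ∃ F : MvPolynomial τ K, (F.totalDegree : ℝ) ≤ C * Y ∧ aeval (x a) F ≠ 0 ∧
        ∀ b ∈ T, b ≠ a → aeval (x b) F = 0 := by
  classical
  obtain ⟨C, hC, hp⟩ := sep_piece k
  refine ⟨5 * C ^ 2, by nlinarith, fun K _ _ τ Λ _ R x Y hτ hY hinj hN => ?_⟩
  have key : ∀ (N : ℕ) (R : Finset Λ), R.card < N → Set.InjOn x R → NCa k R x Y →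
      ∃ c rk : Λ → ℕ, (∀ a ∈ R, ∃ F : MvPolynomial τ K, (F.totalDegree : ℝ) ≤ C * Y + c a ∧
        aeval (x a) F ≠ 0 ∧ ∀ b ∈ R, b ≠ a → rk b ≤ rk a → aeval (x b) F = 0) ∧
        ((∑ a ∈ R, c a : ℕ) : ℝ) ≤ 2 * C ^ 2 * Y * R.card := by
    intro N
    induction N with
    | zero => intro R h; omega
    | succ N ih =>
      intro R hR hinj hN
      rcases R.eq_empty_or_nonempty with rfl | hne
      · exact ⟨fun _ => 0, fun _ => 0, by simp, by simp⟩
      obtain ⟨S, M, hS, hS0, -, hM, hsep, hT⟩ := hp K τ Λ R x Y hτ hne hY hinj hN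
      have hcard : (R \ S).card + S.card = R.card := Finset.card_sdiff_add_card_eq_card hS
      have hS1 := hS0.card_pos
      obtain ⟨c, rk, h1, h2⟩ := ih (R \ S) (by omega)
        (hinj.mono (Finset.coe_subset.2 Finset.sdiff_subset)) (hN.mono Finset.sdiff_subset le_rfl)
      have h3 : ∀ a ∈ R \ S, ∃ j : ℕ, (∃ G : MvPolynomial τ K, G.totalDegree ≤ j ∧
          aeval (x a) G ≠ 0 ∧ ∀ b ∈ S, aeval (x b) G = 0) ∧ j ≤ M ∧ ∀ G : MvPolynomial τ K,
          aeval (x a) G ≠ 0 → (∀ b ∈ S, aeval (x b) G = 0) → j ≤ G.totalDegree := fun a ha => by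
        obtain ⟨a1, a2⟩ := Finset.mem_sdiff.1 ha
        have hex := sep_kill S x hsep (x a) fun b hb e => a2 (hinj (hS hb) a1 e ▸ hb)
        have hex' : ∃ j : ℕ, ∃ G : MvPolynomial τ K, G.totalDegree ≤ j ∧
          aeval (x a) G ≠ 0 ∧ ∀ b ∈ S, aeval (x b) G = 0 := ⟨M, hex⟩
        exact ⟨Nat.find hex', Nat.find_spec hex', Nat.find_min' hex' hex,
          fun G g1 g2 => Nat.find_min' hex' ⟨G, le_rfl, g1, g2⟩⟩
      choose! κ k1 k2 k3 using h3
      refine ⟨fun a => if a ∈ S then 0 else c a + κ a, fun a => if a ∈ S then 0 else rk a + 1,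
        fun a ha => ?_, ?_⟩
      · by_cases haS : a ∈ S
        · obtain ⟨F, f1, f2, f3⟩ := hsep a haS
          refine ⟨F, ?_, f2, fun b _ hne hr => f3 b ?_ hne⟩
          · have : (F.totalDegree : ℝ) ≤ M := by exact_mod_cast f1.le
            simp only [if_pos haS, Nat.cast_zero]
            linarith
          · by_contra hb
            simp [haS, hb] at hr
        · have ha' : a ∈ R \ S := Finset.mem_sdiff.2 ⟨ha, haS⟩
          obtain ⟨F, f1, f2, f3⟩ := h1 a ha'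
          obtain ⟨G, g1, g2, g3⟩ := k1 a ha'
          refine ⟨F * G, ?_, by rw [map_mul]; exact mul_ne_zero f2 g2, fun b hb hne hr => ?_⟩
          · have : (((F * G).totalDegree : ℕ) : ℝ) ≤ F.totalDegree + κ a := by
              exact_mod_cast (totalDegree_mul F G).trans (Nat.add_le_add_left g1 _)
            simp only [if_neg haS, Nat.cast_add]
            linarith
          · rw [map_mul]
            by_cases hbS : b ∈ S
            · rw [g3 b hbS, mul_zero]
            · simp only [if_neg haS, if_neg hbS] at hr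
              rw [f3 b (Finset.mem_sdiff.2 ⟨hb, hbS⟩) hne (by omega), zero_mul]
      · have e1 : ∑ a ∈ R, (if a ∈ S then 0 else c a + κ a) =
            ∑ a ∈ R \ S, c a + ∑ a ∈ R \ S, κ a := by
          rw [← Finset.sum_sdiff hS, Finset.sum_eq_zero (s := S) fun a ha => if_pos ha, add_zero,
            ← Finset.sum_add_distrib]
          exact Finset.sum_congr rfl fun a ha => if_neg (Finset.mem_sdiff.1 ha).2
        have e2 : ((∑ a ∈ R \ S, κ a : ℕ) : ℝ) ≤ C * S.card * (2 * M) := by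
          rw [sepB_layer _ κ M k2, Nat.cast_sum]
          refine le_trans (Finset.sum_le_sum fun m hm => hT (m + 1) _ (by omega)
            (Finset.mem_range.1 hm) ((Finset.filter_subset _ _).trans Finset.sdiff_subset)
            fun F f1 f2 a ha => ?_) ?_
          · by_contra f3
            obtain ⟨a1, a2⟩ := Finset.mem_filter.1 ha
            have := k3 a a1 F f3 f2
            omega
          · rw [← Finset.mul_sum]
            exact mul_le_mul_of_nonneg_left (sepB_sqrt M) (by positivity)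
        have e3 : C * S.card * (2 * M) ≤ C * S.card * (2 * (C * Y)) := by gcongr
        rw [e1, ← hcard, Nat.cast_add, Nat.cast_add]
        linarith
  obtain ⟨c, rk, h1, h2⟩ := key _ R (Nat.lt_succ_self _) hinj hN
  have hCY : 0 < C ^ 2 * Y := by positivity
  refine ⟨R.filter fun a => (c a : ℝ) ≤ 4 * (C ^ 2 * Y), Finset.filter_subset _ _, ?_, ?_⟩
  · have a1 := Finset.card_filter_add_card_filter_not (s := R)
      fun a => (c a : ℝ) ≤ 4 * (C ^ 2 * Y)
    have a2 : (R.filter fun a => ¬(c a : ℝ) ≤ 4 * (C ^ 2 * Y)).card • (4 * (C ^ 2 * Y)) ≤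
        ∑ a ∈ R, (c a : ℝ) :=
      (Finset.card_nsmul_le_sum _ _ _ fun a ha => (not_le.1 (Finset.mem_filter.1 ha).2).le).trans
        (Finset.sum_le_sum_of_subset_of_nonneg (Finset.filter_subset _ _) fun _ _ _ => by
          positivity)
    rw [nsmul_eq_mul, ← Nat.cast_sum] at a2
    have a3 : 2 * ((R.filter fun a => ¬(c a : ℝ) ≤ 4 * (C ^ 2 * Y)).card : ℝ) ≤ R.card :=
      le_of_mul_le_mul_right (by linarith) (by positivity : 0 < 2 * (C ^ 2 * Y))
    have a4 : 2 * (R.filter fun a => ¬(c a : ℝ) ≤ 4 * (C ^ 2 * Y)).card ≤ R.card := by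
      exact_mod_cast a3
    omega
  · intro a ha
    obtain ⟨F, f1, f2⟩ := sep_tri _ x rk (M := ⌊5 * C ^ 2 * Y⌋₊) (fun a ha => by
      obtain ⟨a1, a2⟩ := Finset.mem_filter.1 ha
      obtain ⟨F, f1, f2, f3⟩ := h1 a a1
      have : C * Y ≤ C ^ 2 * Y :=
        mul_le_mul_of_nonneg_right (le_self_pow₀ hC (by norm_num)) (by linarith)
      exact ⟨F, Nat.le_floor (by linarith), f2,
        fun b hb => f3 b (Finset.mem_filter.1 hb).1⟩) a ha
    exact ⟨F, (Nat.le_floor_iff (by positivity)).1 f1, f2⟩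

/-- the projective form. -/
theorem exists_classL (d : ℕ) (hd : 2 ≤ d) :
    ∃ C : ℝ, 1 ≤ C ∧ ∀ (σ Λ : Type) [Fintype σ] [DecidableEq σ] (i0 : σ) (R : Finset Λ)
    (u : Λ → σ → ℂ) (Y : ℝ), Fintype.card σ = d → 1 ≤ Y → (∀ a ∈ R, u a i0 ≠ 0) →
    Set.InjOn (fun a => fun k : Ne0 i0 => u a k / u a i0) R →
    NCa (d - 2) R (fun a => fun k : Ne0 i0 => u a k / u a i0) Y →
    ∃ S : Finset Λ, S ⊆ R ∧ HSep S u (C * Y) ∧ R.card ≤ 2 * S.card := by
  obtain ⟨C, hC, h⟩ := sep_all (d - 2)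
  refine ⟨C, hC, fun σ Λ _ _ i0 R u Y hσ hY hu hinj hN => ?_⟩
  have hcard : Fintype.card (Ne0 i0) = d - 2 + 1 := by
    rw [Fintype.card_subtype_compl, hσ, Fintype.card_unique]
    omega
  obtain ⟨L, hL, hc, hs⟩ := h ℂ (Ne0 i0) Λ R _ Y hcard hY hinj hN
  refine ⟨L, hL, fun a ha => ?_, hc⟩
  obtain ⟨F, hF1, hF2, hF3⟩ := hs a ha
  obtain ⟨G, hG1, hG2⟩ := exists_homog F (le_refl F.totalDegree)
  have hev : ∀ b ∈ R, aeval (u b) (rename (fun o : Option (Ne0 i0) => o.elim i0 Subtype.val) G) =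
      u b i0 ^ F.totalDegree * aeval (fun k : Ne0 i0 => u b k / u b i0) F := by
    intro b hb
    rw [aeval_rename, ← hG2 ℂ]
    congr 2
    funext o
    cases o with
    | none => rfl
    | some k =>
      simp only [Function.comp, Option.elim]
      rw [mul_div_cancel₀ _ (hu b hb)]
  refine ⟨F.totalDegree, rename (fun o : Option (Ne0 i0) => o.elim i0 Subtype.val) G, hF1,
    hG1.rename_isHomogeneous, ?_, fun b hb hba => ?_⟩
  · rw [hev a (hL ha)]
    exact mul_ne_zero (pow_ne_zero _ (hu a (hL ha))) hF2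
  · rw [hev b (hL hb), hF3 b hb hba, mul_zero]

end

end Vale.Agent.P054
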