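import Vale.Agent.P054.MNB
import Vale.Agent.P054.MB
import Vale.Agent.P054.MCells
import Vale.Agent.P054.SepB
import Vale.Agent.P054.ThmC
import Vale.Agent.P054.FinGeom

namespace Vale.Agent.P054

open MvPolynomial

noncomputable section

theorem mnc_pow {d : ℕ} (hd : 3 ≤ d) {y : ℝ} (hy : 0 ≤ y) :
    (y ^ (128 * d ^ 4)) ^ ((2 : ℝ) / d) = y ^ (256 * d ^ 3) := by
  have hD : (0 : ℝ) < d := Nat.cast_pos.2 (by omega)
  rw [← Real.rpow_natCast, ← Real.rpow_mul hy, ← Real.rpow_natCast]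
  refine congrArg _ ?_
  push_cast
  field_simp
  ring

theorem mnc_num {d : ℕ} (hd : 3 ≤ d) {y p H : ℝ} (hy : 1 ≤ y) (hp : y ^ (128 * d ^ 4) ≤ p * y)
    (hH : H ≤ (y ^ (128 * d ^ 4)) ^ (1 - 1 / (2 * (d : ℝ)))) :
    H * y ^ (6 * d) ≤ p ∧ y ≤ p ∧ H ≤ p ^ (1 - 1 / (4 * (d : ℝ))) := by
  have hD : (3 : ℝ) ≤ d := by exact_mod_cast hd
  have hy0 : 0 < y := by linarith
  have e1 : y ^ (128 * d ^ 4) = y ^ (128 * (d : ℝ) ^ 4) := by
    rw [← Real.rpow_natCast]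
    push_cast
    rfl
  have e2 : y ^ (6 * d) = y ^ (6 * (d : ℝ)) := by
    rw [← Real.rpow_natCast]
    push_cast
    rfl
  generalize (d : ℝ) = D at *
  rw [e1, ← Real.rpow_mul hy0.le,
    show 128 * D ^ 4 * (1 - 1 / (2 * D)) = 128 * D ^ 4 - 64 * D ^ 3 by field_simp; ring] at hH
  rw [e1, ← div_le_iff₀ hy0, ← Real.rpow_sub_one hy0.ne'] at hp
  have h3 : 9 * D ≤ D ^ 3 := by nlinarith [mul_nonneg (sub_nonneg.2 hD) (sq_nonneg D)]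
  refine ⟨?_, le_trans ?_ hp, hH.trans (le_trans ?_ (Real.rpow_le_rpow (by positivity) hp ?_))⟩
  · refine (mul_le_mul_of_nonneg_right hH (by positivity)).trans (le_trans ?_ hp)
    rw [e2, ← Real.rpow_add hy0]
    exact Real.rpow_le_rpow_of_exponent_le hy (by linarith)
  · refine Real.self_le_rpow_of_one_le hy ?_
    have := one_le_pow₀ (n := 4) (show 1 ≤ D by linarith)
    linarith
  · rw [← Real.rpow_mul hy0.le, show (128 * D ^ 4 - 1) * (1 - 1 / (4 * D)) =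
      128 * D ^ 4 - 32 * D ^ 3 - 1 + 1 / (4 * D) by field_simp; ring]
    have : 0 < 1 / (4 * D) := by positivity
    exact Real.rpow_le_rpow_of_exponent_le hy (by linarith)
  · rw [sub_nonneg, div_le_one (by positivity)]
    linarith

open Classical in
/-- many pairs with few directions on curves. -/
theorem thm_nc (d : ℕ) (hd : 3 ≤ d) : ∃ C c N0 : ℝ, 1 ≤ C ∧ 0 < c ∧
    ∀ (σ : Type) [Fintype σ] [DecidableEq σ] (i0 : σ) (P : Finset (σ → ℝ)) (H : ℝ),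
    Fintype.card σ = d → N0 ≤ P.card → (∀ a ∈ P, ∀ b ∈ P, a ≠ b → a i0 ≠ b i0) → HypB P H →
    H ≤ (P.card : ℝ) ^ (1 - 1 / (2 * (d : ℝ))) → (nd P : ℝ) ≤ (P.card : ℝ) ^ ((2 : ℝ) / d) →
    ∃ G : Finset ((σ → ℝ) × (σ → ℝ)), c * (P.card : ℝ) ^ 2 ≤ G.card ∧
      (∀ x ∈ G, x.1 ∈ P ∧ x.2 ∈ P ∧ x.1 ≠ x.2) ∧
      ∀ a ∈ P, NCa (d - 2) (P.filter fun b => (a, b) ∈ G) (fun b => dirv i0 (cx a) (cx b))
        (C * (P.card : ℝ) ^ ((2 : ℝ) / d)) := by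
  have hD : (0 : ℝ) < d := Nat.cast_pos.2 (by omega)
  have hα : (0 : ℝ) < 1 / (1024 * d ^ 4 * (d + 1)) := by positivity
  obtain ⟨A, c, hA, hc, hP⟩ := exists_pieces d (by omega) _ hα
  obtain ⟨M, y1, hM⟩ := cells_num d hd A hA
  obtain ⟨C1, y2, -, h1⟩ := nb_case d hd A _ (2 * A) hA hα (by linarith)
  obtain ⟨C2, y3, y4, -, h2⟩ := b_case d hd A _ (1 / (4 * d)) hA hα (by positivity)
  set B : ℝ := Fintype.card (Fin d → Fin M × Fin M) + 1 with hB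
  have hB0 : 0 < B := by positivity
  obtain ⟨Y, hY⟩ : ∃ Y : ℝ, 1 ≤ Y ∧ A ≤ Y ∧ B / c ≤ Y ∧ y1 ≤ Y ∧ y2 ≤ Y ∧ y3 ≤ Y ∧ y4 ≤ Y :=
    ⟨max 1 (max A (max (B / c) (max y1 (max y2 (max y3 y4))))), by simp⟩
  refine ⟨max 1 (max C1 C2), (c / B) ^ 2 / 4, Y ^ (128 * d ^ 4), le_max_left _ _, by positivity,
    fun σ _ _ i0 P H hσ hN hi hHB hH hnd => ?_⟩
  have hk : 128 * d ^ 4 ≠ 0 := by positivity
  obtain ⟨y, hy0, hy⟩ : ∃ y : ℝ, 0 ≤ y ∧ y ^ (128 * d ^ 4) = P.card :=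
    ⟨_, by positivity, Real.rpow_inv_natCast_pow (Nat.cast_nonneg _) hk⟩
  have hYy : Y ≤ y := le_of_pow_le_pow_left₀ hk hy0 (hN.trans hy.ge)
  have hy1 : 1 ≤ y := hY.1.trans hYy
  have hn : (0 : ℝ) < P.card := by rw [← hy]; positivity
  obtain ⟨P', κ, _, 𝓟, k1, k2, k3⟩ := hP σ P (y ^ (128 * d ^ 3)) hσ
    (Finset.card_pos.1 (Nat.cast_pos.1 hn)) (one_le_pow₀ hy1)
    (by rw [← hy, ← pow_mul]; exact le_of_eq (congrArg _ (by ring)))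
  have k4 : (P'.card : ℝ) ≤ y ^ (128 * d ^ 4) := hy ▸ Nat.cast_le.2 (Finset.card_le_card k1)
  have k5 : ∀ j, fp (𝓟.δ j) d ≤ A * y ^ (128 * d ^ 4) := fun j =>
    (𝓟.D j).le_card.trans (mul_le_mul_of_nonneg_left (le_trans (Nat.cast_le.2
      (Finset.card_le_card fun a ha => ((𝓟.mem j a).1 ha).1)) k4) (by linarith))
  obtain ⟨k6, typ, w, k7, k8, k9⟩ := hM κ 𝓟.δ (fun j => (𝓟.Q j).card) y (hY.2.2.2.1.trans hYy)
    (fun j => (𝓟.D j).one_le) (fun j => (𝓟.D j).mono) k5 (fun j => Nat.cast_nonneg _)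
    (𝓟.sum_card.trans_le k4) fun j => by
      have := k3 j
      rwa [← hy, show 1 / (1024 * (d : ℝ) ^ 4 * (d + 1)) * (d * (d + 1)) = 1 / (1024 * d ^ 3) by
        field_simp] at this
  obtain ⟨R, κ', _, 𝓡, f, l1, l2, l3, l4, l5⟩ := 𝓟.sub
    (Finset.card_pos.1 (Nat.cast_pos.1 ((mul_pos hc hn).trans_le k2))) typ
  have l6 : c / B * P.card ≤ R.card := by
    rw [div_mul_eq_mul_div, div_le_iff₀ hB0, hB]
    linarith [(Nat.cast_nonneg R.card : (0 : ℝ) ≤ _)]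
  have l7 : y ^ (128 * d ^ 4) ≤ R.card * y := by
    refine le_trans ?_ (mul_le_mul l6 (hY.2.2.1.trans hYy) (by positivity) (Nat.cast_nonneg _))
    rw [hy]
    exact le_of_eq (by field_simp)
  obtain ⟨m1, m2, m3⟩ := mnc_num hd hy1 l7 (hy ▸ hH)
  have e : (P.card : ℝ) ^ ((2 : ℝ) / d) = y ^ (256 * d ^ 3) := by rw [← hy, mnc_pow hd hy0]
  have hR := l1.trans k1
  have m4 : ∀ a ∈ R, ∀ b ∈ R, a ≠ b → a i0 ≠ b i0 := fun a ha b hb => hi a (hR ha) b (hR hb)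
  have m5 : (Fintype.card κ' : ℝ) ≤ y :=
    (Nat.cast_le.2 (Fintype.card_le_of_injective f l3)).trans k6
  have m6 : 𝓡.Cmpr y := fun i j t ht => by
    rw [l4, l4]
    exact (k9 _ _ (l5 i j) t ht).1
  have m7 : HypB R H := fun l b S hl hS => hHB l b S hl (hS.trans hR)
  obtain ⟨C, hC, G, g1, g2, g3⟩ : ∃ C, C ≤ max 1 (max C1 C2) ∧
      ∃ G : Finset ((σ → ℝ) × (σ → ℝ)), (R.card : ℝ) ^ 2 ≤ 4 * G.card ∧
      (∀ x ∈ G, x.1 ∈ R ∧ x.2 ∈ R ∧ x.1 ≠ x.2) ∧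
      ∀ a ∈ R, NCa (d - 2) (R.filter fun b => (a, b) ∈ G) (fun b => dirv i0 (cx a) (cx b))
        (C * y ^ (256 * d ^ 3)) := by
    by_cases hb : ∀ j, 𝓡.δ j (d - 1) * y ^ (16 * d) ≤ y ^ (256 * d ^ 3)
    · refine ⟨C1, by simp, h1 σ κ' i0 R 𝓡 H y _ (fun j => w (f j)) hσ (hY.2.2.2.2.1.trans hYy) m4
        m5 m6 m7 m1 (fun j => l4 j ▸ k7 (f j)) (le_trans ?_ k8) (fun i j t ht => ?_) hb⟩
      · rw [← Finset.sum_image (f := fun j => 1 / w j ^ d) l3.injOn]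
        exact Finset.sum_le_univ_sum_of_nonneg fun j => by have := (k7 j).1; positivity
      · rw [l4, l4]
        exact (k9 _ _ (l5 i j) t ht).2
    · obtain ⟨j, hj⟩ := not_forall.1 hb
      obtain ⟨l, X0, w1, w2, w3, w4, w5, w6⟩ := window_num d hd A hA (𝓡.δ j) y (hY.2.1.trans hYy)
        (𝓡.D j).one_le (𝓡.D j).mono (l4 j ▸ k5 _) (not_le.1 hj)
      exact ⟨C2, by simp, h2 σ κ' i0 R 𝓡 H y _ X0 j l hσ (hY.2.2.2.2.2.1.trans hYy)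
        ((hY.2.2.2.2.2.2.trans hYy).trans m2) m4 m5 m6 m7 m1 m3
        ((Nat.cast_le.2 (nd_mono hR)).trans (hnd.trans e.le)) w1 w2 w3 w4 w5 w6⟩
  refine ⟨G, ?_, fun x hx => ⟨hR (g2 x hx).1, hR (g2 x hx).2.1, (g2 x hx).2.2⟩, fun a _ => ?_⟩
  · have := pow_le_pow_left₀ (by positivity) l6 2
    rw [mul_pow] at this
    linarith
  · rw [e]
    by_cases ha : a ∈ R
    · refine (g3 a ha).mono (fun b hb => ?_) (mul_le_mul_of_nonneg_right hC (by positivity))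
      have := (Finset.mem_filter.1 hb).2
      exact Finset.mem_filter.2 ⟨(g2 _ this).2.1, this⟩
    · intro S γ c φ hS _ hφ
      rw [Finset.eq_empty_of_forall_notMem fun b hb => ha (g2 _ (Finset.mem_filter.1 (hS hb)).2).1,
        Finset.card_empty, Nat.cast_zero]
      have := hφ.nonneg
      positivity


end

end Vale.Agent.P054
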