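import Vale.Agent.P054.MKey

namespace Vale.Agent.P054

open MvPolynomial

noncomputable section

open Classical in
/-- number of pairs with a property. -/
def mpCnt {β : Type} (P Q : Finset β) (R : β → β → Prop) : ℝ :=
  ((P ×ˢ Q).filter fun x => R x.1 x.2).card

section cnt

variable {β : Type} {P Q : Finset β} {R R₁ R₂ : β → β → Prop}

theorem mpCnt_or (h : ∀ a ∈ P, ∀ b ∈ Q, R a b → R₁ a b ∨ R₂ a b) :
    mpCnt P Q R ≤ mpCnt P Q R₁ + mpCnt P Q R₂ := by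
  classical
  unfold mpCnt
  rw [← Nat.cast_add, Nat.cast_le]
  refine le_trans (Finset.card_le_card fun x hx => ?_) (Finset.card_union_le _ _)
  simp only [Finset.mem_filter, Finset.mem_product, Finset.mem_union] at hx ⊢
  exact (h _ hx.1.1 _ hx.1.2 hx.2).imp (fun a => ⟨hx.1, a⟩) fun a => ⟨hx.1, a⟩

theorem mpCnt_mono (h : ∀ a ∈ P, ∀ b ∈ Q, R a b → R₁ a b) : mpCnt P Q R ≤ mpCnt P Q R₁ := by
  classical
  unfold mpCnt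
  rw [Nat.cast_le]
  refine Finset.card_le_card fun x hx => ?_
  simp only [Finset.mem_filter, Finset.mem_product] at hx ⊢
  exact ⟨hx.1, h _ hx.1.1 _ hx.1.2 hx.2⟩

theorem mpCnt_swap (P Q : Finset β) (R : β → β → Prop) :
    mpCnt P Q (fun a b => R b a) ≤ mpCnt Q P R := by
  classical
  unfold mpCnt
  rw [Nat.cast_le]
  refine Finset.card_le_card_of_injOn Prod.swap (fun x hx => ?_) Prod.swap_injective.injOn
  simp only [Finset.coe_filter, Finset.mem_product, Set.mem_ofPred_eq] at hx ⊢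
  exact ⟨⟨hx.1.2, hx.1.1⟩, hx.2⟩

theorem mpCnt_fib {c : ℝ}
    (h : ∀ a ∈ P, ∀ S : Finset β, S ⊆ Q → (∀ b ∈ S, R a b) → (S.card : ℝ) ≤ c) :
    mpCnt P Q R ≤ P.card * c := by
  classical
  unfold mpCnt
  rw [Finset.card_filter, Finset.sum_product, Nat.cast_sum, ← nsmul_eq_mul]
  refine Finset.sum_le_card_nsmul _ _ _ fun a ha => ?_
  rw [← Finset.card_filter]
  exact h a ha _ (Finset.filter_subset _ _) fun a' ha' => (Finset.mem_filter.1 ha').2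

theorem mpCnt_false : mpCnt P Q (fun _ _ => False) = 0 := by simp [mpCnt]

theorem mpCnt_ex {T : Finset ℕ} {U : ℕ → β → β → Prop} {c : ℝ}
    (h : ∀ s ∈ T, mpCnt P Q (U s) ≤ c) :
    mpCnt P Q (fun a b => ∃ s ∈ T, U s a b) ≤ T.card * c := by
  induction T using Finset.induction_on with
  | empty => simp [mpCnt]
  | insert s T hs ih =>
    have h1 := ih fun t ht => h t (Finset.mem_insert_of_mem ht)
    have h2 := h s (Finset.mem_insert_self _ _)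
    have h3 : mpCnt P Q (fun a b => ∃ t ∈ insert s T, U t a b) ≤
        mpCnt P Q (U s) + mpCnt P Q fun a b => ∃ t ∈ T, U t a b :=
      mpCnt_or fun a _ b _ hx => by simpa using hx
    rw [Finset.card_insert_of_notMem hs]
    push_cast
    linarith

end cnt

/-- the root bounds below the level `t`. -/
def MPLv {σ κ : Type} [Fintype σ] (b b' : ℕ → MvPolynomial σ ℂ) (𝓙 : Finset κ)
    (g J : κ → ℕ → MvPolynomial σ ℂ) (δ ν : ℕ → ℝ) (X0 : ℝ) (d t : ℕ) (a a' : σ → ℂ) : Prop :=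
  ∀ u, 1 ≤ u → u < t → X0 < δ 0 * δ u → ∀ s, u ≤ s → s ≤ d →
    BdM b b' 𝓙 g J u s (ν u) a a' ∧ BdM b' b 𝓙 g J u s (ν u) a' a

/-- the statement proved by induction on the level. -/
def MPSt (d t : ℕ) (A α θ Kc L1 : ℝ) : Prop :=
  ∀ (σ κ : Type) [Fintype σ] (P1 P2 : Finset (σ → ℝ))
    (D1 : Cel A α d (fun a : σ → ℝ => kr ℂ (cx a)) P1)
    (D2 : Cel A α d (fun a : σ → ℝ => kr ℂ (cx a)) P2) (𝓙 : Finset κ)
    (g J : κ → ℕ → MvPolynomial σ ℂ) (δ : ℕ → ℝ) (s0 r X0 μ0 : ℝ) (m : ℕ),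
    Fintype.card σ = d → 1 ≤ s0 → (𝓙.card : ℝ) ≤ s0 → 1 ≤ r → 0 ≤ μ0 → (∀ i, 1 ≤ δ i) →
    (∀ j ∈ 𝓙, ∀ i, i < d → ((g j i).totalDegree : ℝ) ≤ δ i) → δ 0 ^ 2 ≤ X0 →
    (∀ u, 1 ≤ u → u < t → X0 < δ 0 * δ u → δ u ≤ r * D1.δ u ∧ δ u ≤ r * D2.δ u ∧
      (μ0 + m + 1) * δ u ≤ X0 ∧ L1 * m ≤ D1.δ 0 ∧ L1 * m ≤ D2.δ 0) →
    ∃ ν : ℕ → ℝ, (∀ u, 1 ≤ u → u < t → X0 < δ 0 * δ u →
        0 ≤ ν u ∧ (ν u + m + 1) * δ u ≤ (Kc * s0 ^ 2 * r) ^ t * X0) ∧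
      mpCnt P1 P2 (fun a a' => (Ord (∏ j ∈ 𝓙, g j 0) (cx a) m ∧ Ord (∏ j ∈ 𝓙, g j 0) (cx a') m ∧
        ∀ u, 1 ≤ u → u < t → X0 < δ 0 * δ u → GenM D1.g D2.g 𝓙 g J u u μ0 (cx a) (cx a')) ∧
        ¬ MPLv D1.g D2.g 𝓙 g J δ ν X0 d t (cx a) (cx a')) ≤ θ * (P1.card * P2.card)

theorem mp_le1 {L L1 x y : ℝ} (hL : 1 ≤ L) (hx : 0 ≤ x) (h : (L + L1) * x ≤ y) : L1 * x ≤ y := by
  nlinarith

theorem mp_le2 {L L1 x y : ℝ} (hL : 1 ≤ L1) (hx : 0 ≤ x) (h : (L + L1) * x ≤ y) : L * x ≤ y := by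
  nlinarith

theorem mp_le3 {s : ℝ} (hs : 1 ≤ s) : s ≤ s ^ 2 := by nlinarith

theorem mp_le4 {d x θ y : ℝ} (hd : 0 ≤ d) (h : 0 ≤ θ * y) (hx : x ≤ θ * y) :
    x ≤ (2 * d + 3) * θ * y := by nlinarith

theorem mp_base (d : ℕ) (A α : ℝ) {θ : ℝ} (hθ : 0 < θ) : MPSt d 1 A α θ 1 1 := by
  intro σ κ _ P1 P2 D1 D2 𝓙 g J δ s0 r X0 μ0 m _ _ _ _ _ _ _ _ _
  refine ⟨fun _ => 0, fun u h1 h2 => absurd h2 (by omega), ?_⟩
  refine (mpCnt_mono (R₁ := fun _ _ => False) fun a _ b _ h =>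
    h.2 fun u h1 h2 => absurd h2 (by omega)).trans ?_
  rw [mpCnt_false]
  positivity

theorem mp_step {d t : ℕ} (ht : 1 ≤ t) (htd : t < d) {A α θ K L : ℝ} (hA : 1 ≤ A)
    (hα : 0 < α) (hθ : 0 < θ) (hK : 1 ≤ K) (hL : 1 ≤ L) (ih : MPSt d t A α θ K L) :
    ∃ K' L' : ℝ, 1 ≤ K' ∧ 1 ≤ L' ∧ MPSt d (t + 1) A α ((2 * d + 3) * θ) K' L' := by
  obtain ⟨L0, L1, hL0, hL1, key⟩ := ind_keyM d t ht htd A α θ hA hα hθ
  refine ⟨K + 9 + 2 * L0, L + L1, by linarith, by linarith, ?_⟩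
  intro σ κ _ P1 P2 D1 D2 𝓙 g J δ s0 r X0 μ0 m hσ hs0 hcard hr hμ0 hδ hdeg hX0 hlev
  have hm0 : (0 : ℝ) ≤ m := Nat.cast_nonneg _
  have hn : (0 : ℝ) ≤ θ * (P1.card * P2.card) := by positivity
  have hd0 : (0 : ℝ) ≤ d := Nat.cast_nonneg _
  obtain ⟨ν, hν, hbad⟩ := ih σ κ P1 P2 D1 D2 𝓙 g J δ s0 r X0 μ0 m hσ hs0 hcard hr hμ0 hδ hdeg hX0
    fun u h1 h2 h3 => by
      obtain ⟨e1, e2, e3, e4, e5⟩ := hlev u h1 (by omega) h3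
      exact ⟨e1, e2, e3, mp_le2 hL1 hm0 e4, mp_le2 hL1 hm0 e5⟩
  have hX1 : 1 ≤ X0 := (one_le_pow₀ (hδ 0)).trans hX0
  have hs2 : 1 ≤ s0 ^ 2 := one_le_pow₀ hs0
  have hsr : 1 ≤ s0 ^ 2 * r := one_le_mul_of_one_le_of_one_le hs2 hr
  have hq : 1 ≤ K * s0 ^ 2 * r := by rw [mul_assoc]; exact one_le_mul_of_one_le_of_one_le hK hsr
  obtain ⟨X, hX⟩ : ∃ X, X = (K * s0 ^ 2 * r) ^ t * X0 := ⟨_, rfl⟩
  rw [← hX] at hν
  have hXX : X0 ≤ X := by rw [hX]; exact le_mul_of_one_le_left (by linarith) (one_le_pow₀ hq)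
  have hX00 : 0 ≤ X := by linarith only [hXX, hX1]
  have hgrow : (9 + 2 * L0) * (s0 ^ 2 * r) * X ≤ ((K + 9 + 2 * L0) * s0 ^ 2 * r) ^ (t + 1) * X0 := by
    rw [hX, pow_succ ((K + 9 + 2 * L0) * s0 ^ 2 * r)]
    have e1 : (K * s0 ^ 2 * r) ^ t ≤ ((K + 9 + 2 * L0) * s0 ^ 2 * r) ^ t := by
      gcongr; linarith
    have e2 : (9 + 2 * L0) * (s0 ^ 2 * r) ≤ (K + 9 + 2 * L0) * s0 ^ 2 * r := by
      rw [mul_assoc (K + 9 + 2 * L0)]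
      exact mul_le_mul_of_nonneg_right (by linarith only [hK]) (by linarith only [hsr])
    calc _ = (K * s0 ^ 2 * r) ^ t * ((9 + 2 * L0) * (s0 ^ 2 * r)) * X0 := by ring
      _ ≤ _ := by gcongr
  have hXg : X ≤ ((K + 9 + 2 * L0) * s0 ^ 2 * r) ^ (t + 1) * X0 :=
    le_trans (le_mul_of_one_le_left (by linarith)
      (one_le_mul_of_one_le_of_one_le (by linarith) hsr)) hgrow
  by_cases hnt : X0 < δ 0 * δ t
  swap
  · have hlt : ∀ u, u < t + 1 → X0 < δ 0 * δ u → u < t := fun u h2 h3 =>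
      lt_of_le_of_ne (by omega) fun e => hnt (e ▸ h3)
    refine ⟨ν, fun u h1 h2 h3 => ?_, ?_⟩
    · obtain ⟨e1, e2⟩ := hν u h1 (hlt u h2 h3) h3
      exact ⟨e1, e2.trans hXg⟩
    · refine le_trans (mpCnt_mono fun a _ b _ h => ?_) (mp_le4 hd0 hn hbad)
      exact ⟨⟨h.1.1, h.1.2.1, fun u h1 h2 h3 => h.1.2.2 u h1 (by omega) h3⟩,
        fun hh => h.2 fun u h1 h2 h3 => hh u h1 (hlt u h2 h3) h3⟩
  obtain ⟨hd1, hd2, hmu, hm1, hm2⟩ := hlev t ht (by omega) hnt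
  have hδt := hδ t
  obtain ⟨z, hz⟩ : ∃ z, z * δ t = L0 * (s0 ^ 2 * X) * r :=
    ⟨L0 * (s0 ^ 2 * X) * r / δ t, div_mul_cancel₀ _ (by linarith)⟩
  have hY0 : 0 ≤ L0 * (s0 ^ 2 * X) := by positivity
  have hz0 : 0 ≤ z := by
    refine le_of_mul_le_mul_right ?_ (lt_of_lt_of_le one_pos hδt)
    rw [hz, zero_mul]
    positivity
  obtain ⟨μ, hμ⟩ : ∃ μ, μ = 2 * μ0 + 4 + z := ⟨_, rfl⟩
  have hμ4 : 4 ≤ μ := by linarith only [hμ, hμ0, hz0]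
  have hμz : z ≤ μ := by linarith only [hμ, hμ0, hz0]
  have hμh : μ0 ≤ μ / 2 := by linarith only [hμ, hμ0, hz0]
  have hμ2 : μ ≤ 2 * μ := by linarith only [hμ4]
  have hμ3 : μ ≤ 2 * μ / 2 := by linarith only [hμ4]
  have kf : ∀ (P P' : Finset (σ → ℝ)) (D : Cel A α d (fun a : σ → ℝ => kr ℂ (cx a)) P)
      (D' : Cel A α d (fun a : σ → ℝ => kr ℂ (cx a)) P') (μ' : ℝ) (s : ℕ)
      (R : (σ → ℝ) → (σ → ℝ) → Prop), δ t ≤ r * D'.δ t → (L + L1) * m ≤ D'.δ 0 → μ ≤ μ' →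
      t ≤ s → s ≤ d →
      (∀ a ∈ P, ∀ a' ∈ P', R a a' → Ord (∏ j ∈ 𝓙, g j 0) (cx a) m ∧
        MPLv D.g D'.g 𝓙 g J δ ν X0 d t (cx a) (cx a') ∧
        GenM D.g D'.g 𝓙 g J t s (μ' / 2) (cx a) (cx a') ∧
        ¬ BdM D.g D'.g 𝓙 g J t s μ' (cx a) (cx a')) →
      mpCnt P P' R ≤ θ * (P.card * P'.card) := by
    intro P P' D D' μ' s R e1 e2 e3 hs hsd hR
    refine (mpCnt_fib (c := θ * P'.card) fun a ha S hS hh => ?_).trans (le_of_eq (by ring))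
    have hD := D'.one_le t
    refine key σ κ P' D' 𝓙 g J (fun _ _ => 1) δ ν D.g s (D.c s) (cx a) m X (s0 ^ 2 * X) μ' S hσ hδ
      (fun j hj i hi => hdeg j hj i (hi.trans htd)) hX00 ?_ ?_ (hμ4.trans e3) ?_
      (fun i hi => D.mem i (hi.trans_le hsd) a ha) (D.jac s hsd a ha) (fun u h1 h2 h3 => ?_) hS
      fun a' ha' => ?_
    · exact mul_le_mul_of_nonneg_right (hcard.trans (mp_le3 hs0)) hX00
    · rw [mul_pow]
      exact mul_le_mul (pow_le_pow_left₀ (Nat.cast_nonneg _) hcard 2) (hX0.trans hXX)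
        (sq_nonneg _) (sq_nonneg _)
    · have f1 : L0 * (s0 ^ 2 * X) ≤ z * D'.δ t := by
        refine le_of_mul_le_mul_right ?_ (lt_of_lt_of_le one_pos hr)
        rw [← hz]
        calc z * δ t ≤ z * (r * D'.δ t) := mul_le_mul_of_nonneg_left e1 hz0
          _ = _ := by ring
      exact f1.trans (mul_le_mul_of_nonneg_right (hμz.trans e3) (zero_le_one.trans hD))
    · have h4 := hXX.trans_lt h3
      obtain ⟨f1, f2⟩ := hν u h1 h2 h4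
      refine ⟨f1, f2, mp_le1 hL hm0 e2, fun a' ha' => ?_⟩
      obtain ⟨g1, g2, -⟩ := hR a ha a' (hS ha') (hh a' ha')
      exact ⟨g1, (g2 u h1 h2 h4 s (by omega) hsd).1⟩
    · rw [hJ_one]
      exact (hR a ha a' (hS ha') (hh a' ha')).2.2
  have hsw : ∀ {a a' : σ → ℂ}, MPLv D1.g D2.g 𝓙 g J δ ν X0 d t a a' →
      MPLv D2.g D1.g 𝓙 g J δ ν X0 d t a' a :=
    fun h u h1 h2 h3 s h4 h5 => (h u h1 h2 h3 s h4 h5).symm
  obtain ⟨Ok, hOk⟩ : ∃ Ok : (σ → ℝ) → (σ → ℝ) → Prop, Ok = fun a a' =>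
      Ord (∏ j ∈ 𝓙, g j 0) (cx a) m ∧ Ord (∏ j ∈ 𝓙, g j 0) (cx a') m ∧
        MPLv D1.g D2.g 𝓙 g J δ ν X0 d t (cx a) (cx a') := ⟨_, rfl⟩
  have hg1 : ∀ b ∈ P1, ∀ s, s ≤ d → ∀ i, i < s → aeval (cx b) (D1.g i) = 0 :=
    fun b hb s hs i hi => D1.mem i (hi.trans_le hs) b hb
  have hg2 : ∀ b ∈ P2, ∀ s, s ≤ d → ∀ i, i < s → aeval (cx b) (D2.g i) = 0 :=
    fun b hb s hs i hi => D2.mem i (hi.trans_le hs) b hb
  have hJ1 : ∀ b ∈ P1, ∀ s, s ≤ d → aeval (cx b) (Jac (gs D1.g s) (D1.c s)) ≠ 0 :=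
    fun b hb s hs => D1.jac s hs b hb
  have hJ2 : ∀ b ∈ P2, ∀ s, s ≤ d → aeval (cx b) (Jac (gs D2.g s) (D2.c s)) ≠ 0 :=
    fun b hb s hs => D2.jac s hs b hb
  have hA1 := kf P1 P2 D1 D2 μ t (fun a a' => Ok a a' ∧
      GenM D1.g D2.g 𝓙 g J t t μ0 (cx a) (cx a') ∧ ¬ BdM D1.g D2.g 𝓙 g J t t μ (cx a) (cx a'))
    hd2 hm2 le_rfl le_rfl htd.le fun a _ a' _ h => by
      rw [hOk] at h
      exact ⟨h.1.1, h.1.2.2, h.2.1.mono subset_rfl hμh, h.2.2⟩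
  have hA2 := (mpCnt_swap P1 P2 _).trans (kf P2 P1 D2 D1 μ t (fun a' a => Ok a a' ∧
      GenM D1.g D2.g 𝓙 g J t t μ0 (cx a) (cx a') ∧ ¬ BdM D2.g D1.g 𝓙 g J t t μ (cx a') (cx a))
    hd1 hm1 le_rfl le_rfl htd.le fun a' ha' a ha h => by
      rw [hOk] at h
      exact ⟨h.1.2.1, hsw h.1.2.2, (GenM.swap (hg2 a' ha' t htd.le) (hJ2 a' ha' t htd.le)
        (hg1 a ha t htd.le) (hJ1 a ha t htd.le) h.2.1).mono subset_rfl hμh, h.2.2⟩)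
  have hB1 := mpCnt_ex (T := Finset.Icc t d) fun s hs => kf P1 P2 D1 D2 (2 * μ) s
    (fun a a' => Ok a a' ∧ BdM D2.g D1.g 𝓙 g J t t μ (cx a') (cx a) ∧
      ¬ BdM D1.g D2.g 𝓙 g J t s (2 * μ) (cx a) (cx a')) hd2 hm2 hμ2
    (Finset.mem_Icc.1 hs).1 (Finset.mem_Icc.1 hs).2 fun a ha a' ha' h => by
      rw [hOk] at h
      exact ⟨h.1.1, h.1.2.2, (gen_of_bdM (hg1 a ha s (Finset.mem_Icc.1 hs).2)
        (hJ1 a ha s (Finset.mem_Icc.1 hs).2) (hg2 a' ha' t htd.le) (hJ2 a' ha' t htd.le)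
        (Finset.mem_Icc.1 hs).1 h.2.1).mono subset_rfl hμ3, h.2.2⟩
  have hB2 := (mpCnt_swap P1 P2 _).trans (mpCnt_ex (T := Finset.Icc t d) fun s hs =>
    kf P2 P1 D2 D1 (2 * μ) s
    (fun a' a => Ok a a' ∧ BdM D1.g D2.g 𝓙 g J t t μ (cx a) (cx a') ∧
      ¬ BdM D2.g D1.g 𝓙 g J t s (2 * μ) (cx a') (cx a)) hd1 hm1 hμ2
    (Finset.mem_Icc.1 hs).1 (Finset.mem_Icc.1 hs).2 fun a' ha' a ha h => by
      rw [hOk] at h
      exact ⟨h.1.2.1, hsw h.1.2.2, (gen_of_bdM (hg2 a' ha' s (Finset.mem_Icc.1 hs).2)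
        (hJ2 a' ha' s (Finset.mem_Icc.1 hs).2) (hg1 a ha t htd.le) (hJ1 a ha t htd.le)
        (Finset.mem_Icc.1 hs).1 h.2.1).mono subset_rfl hμ3, h.2.2⟩)
  have hc : ((Finset.Icc t d).card : ℝ) ≤ d := by
    rw [Nat.card_Icc]
    exact_mod_cast (by omega)
  rw [mul_comm (P2.card : ℝ)] at hA2 hB2
  have hB3 := hB1.trans (mul_le_mul_of_nonneg_right hc hn)
  have hB4 := hB2.trans (mul_le_mul_of_nonneg_right hc hn)
  have hC1 := (mpCnt_or (R := fun a b => _ ∨ _) fun a _ b _ hx => hx).trans (add_le_add hA1 hA2)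
  have hC2 := (mpCnt_or (R := fun a b => _ ∨ _) fun a _ b _ hx => hx).trans (add_le_add hB3 hB4)
  have hC3 := (mpCnt_or (R := fun a b => _ ∨ _) fun a _ b _ hx => hx).trans (add_le_add hC1 hC2)
  refine ⟨fun u => if u = t then 2 * μ else ν u, fun u h1 h2 h3 => ?_, ?_⟩
  · beta_reduce
    split_ifs with h
    · refine ⟨by linarith only [hμ4], le_trans ?_ hgrow⟩
      rw [h, hμ]
      have f1 : X0 ≤ s0 ^ 2 * r * X := hXX.trans (le_mul_of_one_le_left hX00 hsr)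
      have f2 : (4 * μ0 + 8 + m + 1) * δ t ≤ 9 * ((μ0 + m + 1) * δ t) := by
        rw [← mul_assoc]
        exact mul_le_mul_of_nonneg_right (by linarith only [hμ0, hm0]) (zero_le_one.trans hδt)
      calc (2 * (2 * μ0 + 4 + z) + m + 1) * δ t = (4 * μ0 + 8 + m + 1) * δ t + 2 * (z * δ t) := by
            ring
        _ ≤ 9 * (s0 ^ 2 * r * X) + 2 * (L0 * (s0 ^ 2 * X) * r) := by
            rw [hz]; linarith only [f1, f2, hmu]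
        _ = _ := by ring
    · obtain ⟨e1, e2⟩ := hν u h1 (by omega) h3
      exact ⟨e1, e2.trans hXg⟩
  · refine ((mpCnt_or fun a _ a' _ hx => ?_).trans (add_le_add hbad hC3)).trans (le_of_eq (by ring))
    by_cases h0 : MPLv D1.g D2.g 𝓙 g J δ ν X0 d t (cx a) (cx a')
    swap
    · exact Or.inl ⟨⟨hx.1.1, hx.1.2.1, fun u h1 h2 h3 => hx.1.2.2 u h1 (by omega) h3⟩, h0⟩
    have hok : Ok a a' := by rw [hOk]; exact ⟨hx.1.1, hx.1.2.1, h0⟩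
    have hgen := hx.1.2.2 t ht (by omega) hnt
    refine Or.inr ?_
    by_cases h1 : BdM D1.g D2.g 𝓙 g J t t μ (cx a) (cx a')
    swap
    · exact Or.inl (Or.inl ⟨hok, hgen, h1⟩)
    by_cases h2 : BdM D2.g D1.g 𝓙 g J t t μ (cx a') (cx a)
    swap
    · exact Or.inl (Or.inr ⟨hok, hgen, h2⟩)
    refine Or.inr ?_
    by_contra hne
    refine hx.2 fun u a1 a2 a3 s a4 a5 => ?_
    beta_reduce
    split_ifs with h
    · subst h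
      refine ⟨?_, ?_⟩
      · by_contra hb
        exact hne (Or.inl ⟨s, Finset.mem_Icc.2 ⟨a4, a5⟩, hok, h2, hb⟩)
      · by_contra hb
        exact hne (Or.inr ⟨s, Finset.mem_Icc.2 ⟨a4, a5⟩, hok, h1, hb⟩)
    · exact h0 u a1 (by omega) a3 s a4 a5

theorem mp_main {d : ℕ} {A α : ℝ} (hA : 1 ≤ A) (hα : 0 < α) (t : ℕ) (ht : 1 ≤ t) :
    t ≤ d → ∀ θ : ℝ, 0 < θ → ∃ K L : ℝ, 1 ≤ K ∧ 1 ≤ L ∧ MPSt d t A α θ K L := by
  induction t, ht using Nat.le_induction with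
  | base => exact fun _ θ hθ => ⟨1, 1, le_rfl, le_rfl, mp_base d A α hθ⟩
  | succ t ht ih =>
    intro htd θ hθ
    have h1 : 0 < θ / (2 * d + 3) := by positivity
    obtain ⟨K, L, hK, hL, h⟩ := ih (by omega) _ h1
    have h2 := mp_step ht (by omega) hA hα h1 hK hL h
    rwa [mul_div_cancel₀ _ (by positivity)] at h2

/-- constants that work for all levels. -/
theorem mp_unif {d : ℕ} {A α θ : ℝ} (hA : 1 ≤ A) (hα : 0 < α) (hθ : 0 < θ) :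
    ∃ K L : ℝ, 1 ≤ K ∧ 1 ≤ L ∧ ∀ t, 1 ≤ t → t ≤ d →
      ∃ K' L' : ℝ, 1 ≤ K' ∧ K' ≤ K ∧ 1 ≤ L' ∧ L' ≤ L ∧ MPSt d t A α θ K' L' := by
  have h : ∀ t : ℕ, ∃ K L : ℝ, 1 ≤ K ∧ 1 ≤ L ∧ (1 ≤ t → t ≤ d → MPSt d t A α θ K L) := by
    intro t
    by_cases h : 1 ≤ t ∧ t ≤ d
    · obtain ⟨K, L, hK, hL, h'⟩ := mp_main hA hα t h.1 h.2 θ hθ
      exact ⟨K, L, hK, hL, fun _ _ => h'⟩
    · exact ⟨1, 1, le_rfl, le_rfl, fun a b => absurd ⟨a, b⟩ h⟩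
  choose K L hK hL h using h
  have e : ∀ (f : ℕ → ℝ), (∀ t, 1 ≤ f t) → ∀ t, t ≤ d → f t ≤ ∑ i ∈ Finset.range (d + 1), f i :=
    fun f hf t ht => Finset.single_le_sum (fun i _ => zero_le_one.trans (hf i))
      (Finset.mem_range.2 (by omega))
  exact ⟨∑ i ∈ Finset.range (d + 1), K i, ∑ i ∈ Finset.range (d + 1), L i,
    (hK 0).trans (e K hK 0 (Nat.zero_le _)), (hL 0).trans (e L hL 0 (Nat.zero_le _)),
    fun t h1 h2 => ⟨K t, L t, hK t, e K hK t h2, hL t, e L hL t h2, h t h1 h2⟩⟩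

/-- most pairs of points of two pieces satisfy the root bounds below the level `l`. -/
theorem pair_good (d : ℕ) (hd : 1 ≤ d) (A α θ : ℝ) (hA : 1 ≤ A) (hα : 0 < α) (hθ : 0 < θ) :
    ∃ Kc L1 : ℝ, 1 ≤ Kc ∧ 1 ≤ L1 ∧ ∀ (σ κ : Type) [Fintype σ] (P1 P2 : Finset (σ → ℝ))
    (D1 : Cel A α d (fun a : σ → ℝ => kr ℂ (cx a)) P1)
    (D2 : Cel A α d (fun a : σ → ℝ => kr ℂ (cx a)) P2) (𝓙 : Finset κ)
    (g J : κ → ℕ → MvPolynomial σ ℂ) (δ : ℕ → ℝ) (s0 r X0 μ0 : ℝ) (m l : ℕ),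
    Fintype.card σ = d → l ≤ d → 1 ≤ s0 → (𝓙.card : ℝ) ≤ s0 → 1 ≤ r → 0 ≤ μ0 → (∀ i, 1 ≤ δ i) →
    (∀ j ∈ 𝓙, ∀ i, i < d → ((g j i).totalDegree : ℝ) ≤ δ i) → (∀ j ∈ 𝓙, g j 0 ≠ 0) →
    δ 0 ^ 2 ≤ X0 → L1 * (s0 * δ 0) ≤ (m + 1) * D1.δ 0 → L1 * (s0 * δ 0) ≤ (m + 1) * D2.δ 0 →
    (∀ t, 1 ≤ t → t < l → X0 < δ 0 * δ t → δ t ≤ r * D1.δ t ∧ δ t ≤ r * D2.δ t ∧
      (μ0 + m + 1) * δ t ≤ X0 ∧ L1 * m ≤ D1.δ 0 ∧ L1 * m ≤ D2.δ 0) →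
    ∃ (ν : ℕ → ℝ) (Bad : Finset ((σ → ℝ) × (σ → ℝ))),
      (Bad.card : ℝ) ≤ θ * (P1.card * P2.card) ∧
      (∀ t, 1 ≤ t → t < l → X0 < δ 0 * δ t →
        0 ≤ ν t ∧ (ν t + m + 1) * δ t ≤ (Kc * s0 ^ 2 * r) ^ d * X0) ∧
      ∀ a ∈ P1, ∀ a' ∈ P2, (a, a') ∉ Bad →
        (∀ t, 1 ≤ t → t < l → X0 < δ 0 * δ t → GenM D1.g D2.g 𝓙 g J t t μ0 (cx a) (cx a')) →
        Low D1.g D2.g 𝓙 g J δ ν X0 m d l (cx a) (cx a') := by
  classical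
  have hθ4 : 0 < θ / 4 := by positivity
  obtain ⟨K, L, hK, hL, hst⟩ := mp_unif (d := d) hA hα hθ4
  obtain ⟨La, hLa, hord⟩ := ord_count d hd A α _ hA hα hθ4
  obtain ⟨Lb, hLb, hhyp⟩ := hyp_count d hd A α _ hA hα hθ4
  refine ⟨K, L + La + Lb, hK, by linarith, ?_⟩
  intro σ κ _ P1 P2 D1 D2 𝓙 g J δ s0 r X0 μ0 m l hσ hld hs0 hcard hr hμ0 hδ hdeg hne hX0 ho1 ho2
    hlev
  have hm0 : (0 : ℝ) ≤ m := Nat.cast_nonneg _
  have hX1 : 1 ≤ X0 := (one_le_pow₀ (hδ 0)).trans hX0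
  have hlt : ∀ u, 1 ≤ u → u < max l 1 → u < l := fun u h1 h2 => by omega
  obtain ⟨K', L', hK1, hK2, hL1, hL2, hs⟩ := hst (max l 1) (le_max_right _ _) (max_le hld hd)
  obtain ⟨ν, hν, hbad⟩ := hs σ κ P1 P2 D1 D2 𝓙 g J δ s0 r X0 μ0 m hσ hs0 hcard hr hμ0 hδ hdeg hX0
    fun u h1 h2 h3 => by
      obtain ⟨e1, e2, e3, e4, e5⟩ := hlev u h1 (hlt u h1 h2) h3
      exact ⟨e1, e2, e3, by nlinarith, by nlinarith⟩
  obtain ⟨F, hF⟩ : ∃ F, F = ∏ j ∈ 𝓙, g j 0 := ⟨_, rfl⟩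
  have hF0 : F ≠ 0 := by rw [hF]; exact Finset.prod_ne_zero_iff.2 hne
  have hΔ : 1 ≤ s0 * δ 0 := one_le_mul_of_one_le_of_one_le hs0 (hδ 0)
  have hFd : (F.totalDegree : ℝ) ≤ s0 * δ 0 := by
    have e1 : (F.totalDegree : ℝ) ≤ ∑ j ∈ 𝓙, ((g j 0).totalDegree : ℝ) := by
      rw [hF]
      exact_mod_cast totalDegree_finsetProd 𝓙 fun j => g j 0
    refine e1.trans ((Finset.sum_le_card_nsmul _ _ _ fun j hj => hdeg j hj 0 hd).trans ?_)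
    rw [nsmul_eq_mul]
    exact mul_le_mul_of_nonneg_right hcard (zero_le_one.trans (hδ 0))
  have h1 : mpCnt P1 P2 (fun _ a' => ¬ Ord F (cx a') m) ≤ P1.card * (θ / 4 * P2.card) :=
    mpCnt_fib fun a _ S hS hh => hord σ P2 D2 F m _ S hσ hF0 hFd hΔ (by nlinarith) hS hh
  have h2 : mpCnt P1 P2 (fun a _ => ¬ Ord F (cx a) m) ≤ P2.card * (θ / 4 * P1.card) :=
    (mpCnt_swap P1 P2 fun _ a => ¬ Ord F (cx a) m).trans
      (mpCnt_fib fun a _ S hS hh => hord σ P1 D1 F m _ S hσ hF0 hFd hΔ (by nlinarith) hS hh)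
  have h3 : mpCnt P1 P2 (fun a a' => Ord F (cx a) m ∧ (∃ u, 1 ≤ u ∧ u < l ∧ X0 < δ 0 * δ u) ∧
      ¬ IniOK F (cx a) (cx a') m) ≤ P1.card * (θ / 4 * P2.card) := by
    refine mpCnt_fib fun a _ S hS hh => ?_
    rcases S.eq_empty_or_nonempty with rfl | ⟨b, hb⟩
    · rw [Finset.card_empty, Nat.cast_zero]
      positivity
    obtain ⟨e1, ⟨u, e2, e3, e4⟩, -⟩ := hh b hb
    obtain ⟨k, hk, hk0, hk1⟩ := e1.exists_min
    obtain ⟨G, hG0, hGd, hG⟩ := ini_shift hk1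
    have e5 := (hlev u e2 e3 e4).2.2.2.2
    refine hhyp σ P2 D2 ℂ G m S hσ hG0 (hGd.trans hk) (by nlinarith) hS fun a' ha' => ?_
    by_contra hz
    exact (hh a' ha').2.2 ⟨k, hk, hk0, fun h0 => hz ((hG (cx a')).trans h0)⟩
  have hC1 := (mpCnt_or (R := fun a b => _ ∨ _) fun a _ b _ hx => hx).trans (add_le_add h1 h2)
  have hC2 := (mpCnt_or (R := fun a b => _ ∨ _) fun a _ b _ hx => hx).trans (add_le_add h3 hbad)
  have hC3 := (mpCnt_or (R := fun a b => _ ∨ _) fun a _ b _ hx => hx).trans (add_le_add hC1 hC2)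
  obtain ⟨R, hR⟩ : ∃ R : (σ → ℝ) → (σ → ℝ) → Prop, R = fun a a' =>
      ¬ ((∀ t, 1 ≤ t → t < l → X0 < δ 0 * δ t → GenM D1.g D2.g 𝓙 g J t t μ0 (cx a) (cx a')) →
        Low D1.g D2.g 𝓙 g J δ ν X0 m d l (cx a) (cx a')) := ⟨_, rfl⟩
  have hC4 : mpCnt P1 P2 R ≤ θ * (P1.card * P2.card) := by
    refine ((mpCnt_mono fun a _ a' _ hx => ?_).trans hC3).trans (le_of_eq (by ring))
    rw [hR] at hx
    by_contra hn
    simp only [not_or, not_not, not_and] at hn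
    obtain ⟨⟨e1, e2⟩, e3, e4⟩ := hn
    refine hx fun hgen => ?_
    have e5 := e4 ⟨hF ▸ e2, hF ▸ e1, fun u a1 a2 a3 => hgen u a1 (hlt u a1 a2) a3⟩
    exact ⟨hF ▸ e2, hF ▸ e1, fun u a1 a2 a3 => ⟨hF ▸ e3 e2 ⟨u, a1, a2, a3⟩,
      e5 u a1 (by omega) a3⟩⟩
  refine ⟨ν, (P1 ×ˢ P2).filter fun x => R x.1 x.2, ?_, fun u a1 a2 a3 => ?_, fun a ha a' ha' hb => ?_⟩
  · unfold mpCnt at hC4
    refine le_trans (le_of_eq ?_) hC4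
    congr
  · obtain ⟨e1, e2⟩ := hν u a1 (by omega) a3
    refine ⟨e1, e2.trans (mul_le_mul_of_nonneg_right ?_ (by linarith))⟩
    have hsr : 1 ≤ s0 ^ 2 * r := one_le_mul_of_one_le_of_one_le (one_le_pow₀ hs0) hr
    have hq : 1 ≤ K * s0 ^ 2 * r := by
      rw [mul_assoc]; exact one_le_mul_of_one_le_of_one_le hK hsr
    calc (K' * s0 ^ 2 * r) ^ max l 1 ≤ (K * s0 ^ 2 * r) ^ max l 1 := by gcongr
      _ ≤ _ := pow_le_pow_right₀ hq (max_le hld hd)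
  · by_contra hn
    exact hb (Finset.mem_filter.2 ⟨Finset.mem_product.2 ⟨ha, ha'⟩, by rw [hR]; exact hn⟩)


end

end Vale.Agent.P054
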