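import Vale.Agent.P054.MCover
import Vale.Agent.P054.MPersist

namespace Vale.Agent.P054

open MvPolynomial

noncomputable section

section Aux

variable {K : Type} [Field K] {σ κ : Type}

/-- many roots on the arc do not persist. -/
theorem stepM_roots [CharZero K] [IsAlgClosed K] [Fintype σ] {𝓙 : Finset κ}
    {g J : κ → ℕ → MvPolynomial σ K} {l : ℕ} (hl : 1 ≤ l) {γ : Fin l → MvPolynomial σ K}
    {c : Fin l → σ} {p a : σ → K} {μ : ℝ} (hμ : 4 ≤ μ)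
    (hg : ∀ i, aeval a (γ i) = 0) (hJ : aeval a (Jac γ c) ≠ 0)
    (hgen : ∀ (Ω : Type) [Field Ω] [Algebra K Ω] (q : σ → Ω),
      kr K q = Br (Set.range γ) (kr K a) → RBM 𝓙 g J l (am Ω p) q (μ / 2))
    {Ω : Type} [Field Ω] [Algebra K Ω] {q : σ → Ω} (hq : kr K q ≤ kr K a)
    (hgq : ∀ i, aeval q (γ i) = 0) (hn : ¬ RBM 𝓙 g J l (am Ω p) q μ) :
    aeval q (Jac γ c) ≠ 0 ∧ Br (Set.range γ) (kr K q) = Br (Set.range γ) (kr K a) ∧
      ∃ (t : Fin ⌈μ / 4⌉₊ → Ω) (ch : Fin ⌈μ / 4⌉₊ → κ), Function.Injective t ∧ ∀ i, ch i ∈ 𝓙 ∧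
        t i ∈ Rt (g (ch i)) (J (ch i)) l (am Ω p)
          (fun k => aeval q (X k - C (p k) : MvPolynomial σ K)) ∧
        ¬ Pers0 (g (ch i)) l p (fun k => X k - C (p k)) (Br (Set.range γ) (kr K q))
          (kr K (wpt (1 : MvPolynomial σ K) q (t i))) := by
  classical
  have hJq : aeval q (Jac γ c) ≠ 0 := fun h0 => hJ (mem_kr.1 (hq (mem_kr.2 h0)))
  have hγq : ∀ f ∈ Set.range γ, f ∈ kr K q := by
    rintro _ ⟨i, rfl⟩
    exact hgq i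
  have hB : Br (Set.range γ) (kr K q) = Br (Set.range γ) (kr K a) :=
    Br_eq_of_le (kr_isPrime q) (Br_kr_isPrime hg hJ) (kr_isPrime a) hγq hq
  refine ⟨hJq, hB, ?_⟩
  have hc : Function.Injective c := inj_of_jac (g := γ) fun h0 => hJ (by rw [h0, map_zero])
  unfold RBM at hn
  push Not at hn
  obtain ⟨T, hT, hcard⟩ := hn
  obtain ⟨Q, hQ⟩ : ∃ Q : Ω → Prop, ∀ s, Q s ↔ ∃ j ∈ 𝓙, s ∈ Rt (g j) (J j) l (am Ω p)
      (fun k => aeval q (X k - C (p k) : MvPolynomial σ K)) ∧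
      Pers0 (g j) l p (fun k => X k - C (p k)) (Br (Set.range γ) (kr K q))
        (kr K (wpt (1 : MvPolynomial σ K) q s)) := ⟨_, fun _ => Iff.rfl⟩
  obtain ⟨Ω', _, _, x', T', hx', hc', hT'⟩ := persist_countM (𝓙 := 𝓙) (g := g) (J := J) hl
    (p := p) (u := fun k => X k - C (p k))
    (fun k => (totalDegree_sub_C_le _ _).trans (totalDegree_X k).le)
    (compl_free hc) hgq hJq (T.filter Q) fun s hs => (hQ s).1 (Finset.mem_filter.1 hs).2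
  rw [step1_u] at hT'
  have h1 := (hgen Ω' x' (hx'.trans hB)).rtB' T' hT'
  have h2 : ((T.filter Q).card : ℝ) + (T.filter fun s => ¬ Q s).card = T.card := by
    exact_mod_cast Finset.card_filter_add_card_filter_not (s := T) Q
  have h3 : ⌈μ / 4⌉₊ ≤ (T.filter fun s => ¬ Q s).card := by
    rw [Nat.ceil_le]
    rw [hc'] at h1
    linarith
  obtain ⟨T2, hT2, hc2⟩ := Finset.exists_subset_card_eq h3
  have h5 : ∀ i : Fin ⌈μ / 4⌉₊, ∃ j, j ∈ 𝓙 ∧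
      ((T2.equivFinOfCardEq hc2).symm i : Ω) ∈ Rt (g j) (J j) l (am Ω p)
        (fun k => aeval q (X k - C (p k) : MvPolynomial σ K)) ∧
      ¬ Pers0 (g j) l p (fun k => X k - C (p k)) (Br (Set.range γ) (kr K q))
        (kr K (wpt (1 : MvPolynomial σ K) q ((T2.equivFinOfCardEq hc2).symm i : Ω))) := by
    intro i
    have h4 := Finset.mem_filter.1 (hT2 ((T2.equivFinOfCardEq hc2).symm i).2)
    obtain ⟨j, hj, hr⟩ := (hT _ h4.1).2
    rw [← step1_u] at hr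
    exact ⟨j, hj, hr, fun h5 => h4.2 ((hQ _).2 ⟨j, hj, hr, h5⟩)⟩
  choose ch hch using h5
  exact ⟨fun i => (T2.equivFinOfCardEq hc2).symm i, ch,
    fun i j hij => (T2.equivFinOfCardEq hc2).symm.injective (Subtype.ext hij), hch⟩

theorem stepM_shift (p a : σ → K) (f : MvPolynomial σ K) :
    aeval a (aeval (fun k => (X k - C (p k) : MvPolynomial σ K)) f) =
      aeval (fun i => a i - p i) f := by
  rw [comp_aeval_apply, step1_u]
  rfl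

theorem stepM_split [Fintype σ] [DecidableEq κ] {A : Type} {Z : Finset A} {ch : A → κ}
    {𝓙 : Finset κ} {r : A → Ideal (MvPolynomial σ K)} {ψ : ℝ} {j : ℕ}
    (hch : ∀ z ∈ Z, ch z ∈ 𝓙) (h : ∀ i ∈ 𝓙, HB (⨅ z ∈ Z.filter (fun z => ch z = i), r z) ψ j) :
    HB (⨅ z ∈ Z, r z) (𝓙.card * ψ) j := by
  refine (hb_iInf 𝓙 (fun i => ⨅ z ∈ Z.filter (fun z => ch z = i), r z) (fun _ => ψ) h).mono
    (le_iInf₂ fun z hz => ?_) ?_
  · have h1 : z ∈ Z.filter (fun z' => ch z' = ch z) := Finset.mem_filter.2 ⟨hz, rfl⟩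
    exact (iInf₂_le (ch z) (hch z hz)).trans (iInf₂_le z h1)
  · rw [Finset.sum_const, nsmul_eq_mul]

theorem stepM_final {τ : Type} {I : Ideal (MvPolynomial σ K)} {I' : Ideal (MvPolynomial τ K)}
    {C0 φ Y μ D : ℝ} {j : ℕ} (hC0 : 0 < C0) (hφ : 0 ≤ φ) (hμ : 4 ≤ μ) (hμD : μ ≤ D)
    (hD : D ^ 2 ≤ Y) (hI : HB I φ (j + 1)) (hmain : HB I' (C0 * φ * Y) j)
    (hlag : ∀ m, ⌈μ / 4⌉₊ * hf I m ≤ hf I' (m + ⌈μ / 4⌉₊)) :
    HB I ((1 + 4 * 2 ^ j * C0) * φ * Y / μ) j := by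
  have hY0 : 0 ≤ Y := (sq_nonneg _).trans hD
  have hμ0 : 0 < μ := by linarith
  intro m hm
  have hmj : (0 : ℝ) ≤ (m : ℝ) ^ j := by positivity
  rw [div_mul_eq_mul_div, le_div_iff₀ hμ0]
  rcases lt_or_ge m ⌈μ / 4⌉₊ with hlt | hge
  · have h1 : (m : ℝ) < μ / 4 := Nat.lt_ceil.1 hlt
    have h2 : (hf I m : ℝ) ≤ φ * (m : ℝ) ^ (j + 1) := hI m hm
    have h3 : (m : ℝ) * μ ≤ Y := by nlinarith
    have h4 : 0 ≤ 4 * 2 ^ j * C0 * φ * Y * (m : ℝ) ^ j := by positivity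
    calc (hf I m : ℝ) * μ ≤ φ * (m : ℝ) ^ (j + 1) * μ :=
          mul_le_mul_of_nonneg_right h2 hμ0.le
      _ = φ * (m : ℝ) ^ j * (m * μ) := by ring
      _ ≤ φ * (m : ℝ) ^ j * Y := mul_le_mul_of_nonneg_left h3 (mul_nonneg hφ hmj)
      _ ≤ (1 + 4 * 2 ^ j * C0) * φ * Y * (m : ℝ) ^ j := by linarith
  · have h1 : μ / 4 ≤ (⌈μ / 4⌉₊ : ℝ) := Nat.le_ceil _
    have h2 : (⌈μ / 4⌉₊ : ℝ) * hf I m ≤ C0 * φ * Y * ((m + ⌈μ / 4⌉₊ : ℕ) : ℝ) ^ j :=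
      le_trans (by exact_mod_cast hlag m) (hmain _ (by omega))
    have h3 : ((m + ⌈μ / 4⌉₊ : ℕ) : ℝ) ^ j ≤ 2 ^ j * (m : ℝ) ^ j := by
      rw [← mul_pow]
      refine pow_le_pow_left₀ (Nat.cast_nonneg _) ?_ j
      have h4 : (⌈μ / 4⌉₊ : ℝ) ≤ m := by exact_mod_cast hge
      push_cast
      linarith
    have h5 : (0 : ℝ) ≤ hf I m := Nat.cast_nonneg _
    have h6 : 0 ≤ φ * Y * (m : ℝ) ^ j := by positivity
    calc (hf I m : ℝ) * μ ≤ 4 * ((⌈μ / 4⌉₊ : ℝ) * hf I m) := by nlinarith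
      _ ≤ 4 * (C0 * φ * Y * (2 ^ j * (m : ℝ) ^ j)) :=
          mul_le_mul_of_nonneg_left
            (h2.trans (mul_le_mul_of_nonneg_left h3 (by positivity))) (by norm_num)
      _ ≤ (1 + 4 * 2 ^ j * C0) * φ * Y * (m : ℝ) ^ j := by linarith

end Aux

/-- points with an arc carrying many more roots than the generic point have small degree. -/
theorem stepM (d l : ℕ) (hl : 1 ≤ l) (hld : l < d) : ∃ C : ℝ, 0 < C ∧ ∀ (K : Type) [Field K]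
    [CharZero K] [IsAlgClosed K] (σ Λ κ : Type) [Fintype σ] (𝓙 : Finset κ)
    (g J : κ → ℕ → MvPolynomial σ K) (h : Λ → κ → MvPolynomial σ K)
    (γ : Fin l → MvPolynomial σ K) (c : Fin l → σ) (δ ν : ℕ → ℝ) (p : σ → K) (S : Finset Λ)
    (a : Λ → σ → K) (F : MvPolynomial σ K) (k : ℕ) (φ X Y μ : ℝ),
    Fintype.card σ = d → (∀ i, 1 ≤ δ i) →
    (∀ j ∈ 𝓙, ∀ i, i < l → ((g j i).totalDegree : ℝ) ≤ δ i) → (∀ j ∈ 𝓙, g j 0 ∣ F) → 0 ≤ X →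
    𝓙.card * X ≤ Y → (𝓙.card * δ 0) ^ 2 ≤ Y → 4 ≤ μ →
    (∀ s ∈ S, (∀ i, aeval (a s) (γ i) = 0) ∧ aeval (a s) (Jac γ c) ≠ 0) →
    HB (⨅ s ∈ S, Br (Set.range γ) (kr K (a s))) φ (d - l) →
    (∀ t, 1 ≤ t → t < l → X < δ 0 * δ t → 0 ≤ ν t ∧ (ν t + k + 1) * δ t ≤ X ∧
      (∀ i, i < k → ini F p i = 0) ∧ ∀ s ∈ S,
        aeval (fun i => a s i - p i) (ini F p k) ≠ 0 ∧
        ∀ (Ω : Type) [Field Ω] [Algebra K Ω] (q : σ → Ω),
          kr K q = Br (Set.range γ) (kr K (a s)) → RBM 𝓙 g J t (am Ω p) q (ν t)) →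
    (∀ s ∈ S, ∀ (Ω : Type) [Field Ω] [Algebra K Ω] (q : σ → Ω),
      kr K q = Br (Set.range γ) (kr K (a s)) → RBM 𝓙 g (hJ (h s) J) l (am Ω p) q (μ / 2)) →
    (∀ s ∈ S, ∃ (Ω : Type) (_ : Field Ω) (_ : Algebra K Ω) (q : σ → Ω), kr K q ≤ kr K (a s) ∧
      (∀ i, aeval q (γ i) = 0) ∧ ¬ RBM 𝓙 g (hJ (h s) J) l (am Ω p) q μ) →
    HB (⨅ s ∈ S, kr K (a s)) (C * φ * Y / μ) (d - l - 1) := by
  classical
  obtain ⟨C0, hC0, hcov⟩ := cover1 (d - l - 1) l hl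
  refine ⟨1 + 4 * 2 ^ (d - l - 1) * C0, by positivity, ?_⟩
  intro K _ _ _ σ Λ κ _ 𝓙 g J h γ c δ ν p S a F k φ X' Y μ hσ hδ hdeg hF hX0 hXY hX hμ ha hb
    hν hgen harc
  have hφ : 0 ≤ φ := hb.nonneg
  have hY0 : 0 ≤ Y := (sq_nonneg _).trans hX
  have hμ0 : 0 < μ := by linarith
  rcases S.eq_empty_or_nonempty with rfl | ⟨s0, hs0⟩
  · intro m _
    have h := hf_iInf_le (∅ : Finset Λ) (fun s => kr K (a s)) m
    rw [Finset.sum_empty, Nat.le_zero] at h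
    rw [h, Nat.cast_zero]
    positivity
  have hc : Function.Injective c :=
    inj_of_jac (g := γ) fun h0 => (ha s0 hs0).2 (by rw [h0, map_zero])
  have hρ : Fintype.card {k // k ∉ Set.range c} = d - l - 1 + 1 := by
    have h := (compl_free hc).card_add
    rw [Fintype.card_fin, hσ] at h
    omega
  have hγa : ∀ s ∈ S, ∀ f ∈ Set.range γ, f ∈ kr K (a s) := by
    rintro s hs _ ⟨i, rfl⟩
    exact (ha s hs).1 i
  have hμδ : μ ≤ 𝓙.card * δ 0 := by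
    obtain ⟨Ω, _, _, q, -, -, hn⟩ := harc s0 hs0
    refine not_lt.1 fun h1 => hn ?_
    exact (rBM_deg hl _ _ fun j hj => hdeg j hj 0 hl).mono (Finset.Subset.refl _) le_rfl h1.le
  have hκ : Nonempty κ := by
    rcases 𝓙.eq_empty_or_nonempty with h0 | ⟨j, -⟩
    · rw [h0, Finset.card_empty, Nat.cast_zero, zero_mul] at hμδ
      linarith
    · exact ⟨j⟩
  have hex : ∀ s ∈ S, ∃ (r : Fin ⌈μ / 4⌉₊ → Ideal (MvPolynomial (Option σ) K))
      (ch : Fin ⌈μ / 4⌉₊ → κ),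
      ∃ (Ω : Type) (_ : Field Ω) (_ : Algebra K Ω) (q : σ → Ω) (t : Fin ⌈μ / 4⌉₊ → Ω),
        kr K q ≤ kr K (a s) ∧ (∀ i, aeval q (γ i) = 0) ∧ aeval q (Jac γ c) ≠ 0 ∧
        Br (Set.range γ) (kr K q) = Br (Set.range γ) (kr K (a s)) ∧
        Function.Injective t ∧ ∀ i,
          r i = kr K (wpt (1 : MvPolynomial σ K) q (t i)) ∧ ch i ∈ 𝓙 ∧
          t i ∈ Rt (g (ch i)) (J (ch i)) l (am Ω p)
            (fun k => aeval q (X k - C (p k) : MvPolynomial σ K)) ∧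
          ¬ Pers0 (g (ch i)) l p (fun k => X k - C (p k)) (Br (Set.range γ) (kr K q))
            (kr K (wpt (1 : MvPolynomial σ K) q (t i))) := by
    intro s hs
    obtain ⟨Ω, _, _, q, hq, hgq, hn⟩ := harc s hs
    obtain ⟨h2, h3, t, ch, ht, h4⟩ := stepM_roots hl hμ (ha s hs).1 (ha s hs).2
      (hgen s hs) hq hgq hn
    exact ⟨_, ch, Ω, _, _, q, t, hq, hgq, h2, h3, ht,
      fun i => ⟨rfl, (h4 i).1, (mem_Rt_hJ.1 (h4 i).2.1).1, (h4 i).2.2⟩⟩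
  choose! r ch hr using hex
  have hBr : ∀ s ∈ S, ∀ i, Br (Set.range γ)
      ((r s i).comap (rename some : MvPolynomial σ K →ₐ[K] _)) =
        Br (Set.range γ) (kr K (a s)) := by
    intro s hs i
    obtain ⟨Ω, _, _, q, t, -, -, -, h3, -, h4⟩ := hr s hs
    rw [(h4 i).1, step1_comap, h3]
  have hj : d - l = d - l - 1 + 1 := by omega
  have hone : ∀ j ∈ 𝓙, HB (⨅ z ∈ (S ×ˢ (Finset.univ : Finset (Fin ⌈μ / 4⌉₊))).filter
      (fun z => ch z.1 z.2 = j), r z.1 z.2) (C0 * φ * X') (d - l - 1) := by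
    intro j hjJ
    have hS : ∀ z ∈ (S ×ˢ (Finset.univ : Finset (Fin ⌈μ / 4⌉₊))).filter
        (fun z => ch z.1 z.2 = j), z.1 ∈ S ∧ ch z.1 z.2 = j := fun z hz =>
      ⟨(Finset.mem_product.1 (Finset.mem_filter.1 hz).1).1, (Finset.mem_filter.1 hz).2⟩
    refine hcov K σ σ (Fin l) {k // k ∉ Set.range c} (Λ × Fin ⌈μ / 4⌉₊) (g j) (J j) δ
      (fun t => ν t + 1) p (fun k => X k - C (p k)) γ c Subtype.val _
      (fun z => r z.1 z.2) F k φ X' hρ (compl_free hc) hδ (hdeg j hjJ)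
      (fun k => (totalDegree_sub_C_le _ _).trans (totalDegree_X k).le) hX0 (hF j hjJ)
      (fun z hz => ?_) (fun z hz => ?_) ?_ (fun t h1 h2 h3 => ?_)
    · obtain ⟨Ω, _, _, q, t, -, hgq, h2, -, -, h4⟩ := hr z.1 (hS z hz).1
      refine ⟨Ω, _, _, q, t z.2, (h4 z.2).1, ?_, hgq, h2⟩
      rw [← (hS z hz).2]
      exact (h4 z.2).2.2.1
    · obtain ⟨Ω, _, _, q, t, -, -, -, -, -, h4⟩ := hr z.1 (hS z hz).1
      rw [(h4 z.2).1, step1_comap, ← (hS z hz).2]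
      exact (h4 z.2).2.2.2
    · rw [← hj]
      refine hb.mono (le_iInf₂ fun z hz => ?_) le_rfl
      rw [hBr z.1 (hS z hz).1]
      exact iInf₂_le z.1 (hS z hz).1
    · obtain ⟨n1, n2, n3, n4⟩ := hν t h1 h2 h3
      refine ⟨by linarith, by linarith, n3, fun z hz => ⟨?_, ?_⟩⟩
      · rw [hBr z.1 (hS z hz).1]
        intro h5
        have h6 := Br_le (kr_isPrime _) (hγa z.1 (hS z hz).1) le_rfl h5
        rw [mem_kr, stepM_shift] at h6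
        exact (n4 z.1 (hS z hz).1).1 h6
      · intro Ω _ _ x s hx _ _
        rw [hBr z.1 (hS z hz).1] at hx
        rw [step1_u]
        exact (((n4 z.1 (hS z hz).1).2 Ω x hx).rb hjJ).rtB'
  have hmain : HB (⨅ z ∈ S ×ˢ (Finset.univ : Finset (Fin ⌈μ / 4⌉₊)), r z.1 z.2)
      (C0 * φ * Y) (d - l - 1) := by
    refine (stepM_split (ch := fun z : Λ × Fin ⌈μ / 4⌉₊ => ch z.1 z.2)
      (r := fun z : Λ × Fin ⌈μ / 4⌉₊ => r z.1 z.2) (fun z hz => ?_) hone).mono le_rfl ?_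
    · obtain ⟨Ω, _, _, q, t, -, -, -, -, -, h4⟩ := hr z.1 (Finset.mem_product.1 hz).1
      exact (h4 z.2).2.1
    · calc (𝓙.card : ℝ) * (C0 * φ * X') = C0 * φ * (𝓙.card * X') := by ring
        _ ≤ C0 * φ * Y := mul_le_mul_of_nonneg_left hXY (mul_nonneg hC0.le hφ)
  have hlag := step1_lagrange S (fun s => kr K (a s)) r fun s hs => by
    obtain ⟨Ω, _, _, q, t, hq, -, -, -, ht, h4⟩ := hr s hs
    refine ⟨Ω, _, _, q, fun i => aeval q (1 : MvPolynomial σ K) / t i,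
      fun i j hij => ht ?_, hq, fun i => (h4 i).1⟩
    have h5 : aeval q (1 : MvPolynomial σ K) / t i = aeval q (1 : MvPolynomial σ K) / t j := hij
    rw [map_one, one_div, one_div] at h5
    exact inv_injective h5
  refine stepM_final hC0 hφ hμ hμδ hX ?_ hmain hlag
  rw [← hj]
  exact hb.mono (iInf₂_mono fun s hs => Br_le (kr_isPrime _) (hγa s hs) le_rfl) le_rfl

end

end Vale.Agent.P054
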