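import Vale.Agent.P054.TrisecAux

/-! The power series part of the trisecant lemma for three systems. -/

namespace Vale.Agent.P054

open MvPolynomial

noncomputable section

variable {K : Type} [Field K] {σ : Type} [Fintype σ] {ι ρ : Type} [Fintype ι] [DecidableEq ι]
  [Fintype ρ] [DecidableEq ρ] {g1 g2 g3 : ι → MvPolynomial σ K} {c : ι → σ} {e : ρ → σ}

/-- the trisecant lemma for power series. -/
theorem mtrisec_ps [CharZero K] (hc : Compl c e) (i1 : ι) {P Q : σ → MvPowerSeries (ρ ⊕ ρ) K}
    {S : MvPowerSeries (ρ ⊕ ρ) K} {p0 q0 : ρ → K}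
    (hP : ∀ i, aeval P (g1 i) = 0) (hQ : ∀ i, aeval Q (g2 i) = 0)
    (hY : ∀ i, aeval (lp P (fun k => Q k - P k) S) (g3 i) = 0)
    (JP : aeval P (Jac g1 c) ≠ 0) (JQ : aeval Q (Jac g2 c) ≠ 0)
    (JY : MvPowerSeries.constantCoeff (aeval (lp P (fun k => Q k - P k) S) (Jac g3 c)) ≠ 0)
    (fP : ∀ k, P (e k) = MvPowerSeries.C (p0 k) + MvPowerSeries.X (Sum.inl k))
    (fQ : ∀ k, Q (e k) = MvPowerSeries.C (q0 k) + MvPowerSeries.X (Sum.inr k))
    (hS0 : MvPowerSeries.constantCoeff S ≠ 0) (hS1 : MvPowerSeries.constantCoeff (1 - S) ≠ 0)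
    (dP : MvPowerSeries.constantCoeff (dg (g1 i1) P fun k => Q k - P k) ≠ 0)
    (dQ : MvPowerSeries.constantCoeff (dg (g2 i1) Q fun k => Q k - P k) ≠ 0) :
    (∃ H : Submodule K (σ → K), Module.finrank K H ≤ Fintype.card ρ + 1 ∧
      ∀ l : σ → K, (∀ v ∈ H, ∑ k, l k * v k = 0) → ∃ c0 : K,
        ∑ k, MvPowerSeries.C (l k) * P k = MvPowerSeries.C c0 ∧
        ∑ k, MvPowerSeries.C (l k) * Q k = MvPowerSeries.C c0) ∧
    ∀ R : MvPolynomial ρ K, aeval (fun k => lp P (fun k => Q k - P k) S (e k)) R = 0 → R = 0 := by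
  have : IsDomain (MvPowerSeries (ρ ⊕ ρ) K) := NoZeroDivisors.to_isDomain _
  have tang : ∀ {g : ι → MvPolynomial σ K} (Z : σ → MvPowerSeries (ρ ⊕ ρ) K),
      (∀ i, aeval Z (g i) = 0) →
      ∀ t i, dg (g i) Z (fun j => MvPowerSeries.pderiv K t (Z j)) = 0 := by
    intro g Z hZ t i
    rw [← trisec_dg_deriv, hZ, map_zero]
  have P0 : ∀ k j, MvPowerSeries.pderiv K (Sum.inr k) (P j) = 0 := fun k =>
    taninj_of_jac hc (aeval P) JP _
      (fun k' => by simp [fP, MvPowerSeries.pderiv_X_of_ne]) (tang P hP _)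
  have Q0 : ∀ k j, MvPowerSeries.pderiv K (Sum.inl k) (Q j) = 0 := fun k =>
    taninj_of_jac hc (aeval Q) JQ _
      (fun k' => by simp [fQ, MvPowerSeries.pderiv_X_of_ne]) (tang Q hQ _)
  have JY' : aeval (lp P (fun k => Q k - P k) S) (Jac g3 c) ≠ 0 := fun h => JY (by rw [h, map_zero])
  have vL : ∀ k j, MvPowerSeries.pderiv K (Sum.inl k) (lp P (fun k => Q k - P k) S j) =
      (1 - S) * MvPowerSeries.pderiv K (Sum.inl k) (P j) +
        MvPowerSeries.pderiv K (Sum.inl k) S * (Q j - P j) := by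
    intro k j
    simp only [lp, map_add, Derivation.leibniz, map_sub, Q0, smul_eq_mul]
    ring
  have vR : ∀ k j, MvPowerSeries.pderiv K (Sum.inr k) (lp P (fun k => Q k - P k) S j) =
      S * MvPowerSeries.pderiv K (Sum.inr k) (Q j) +
        MvPowerSeries.pderiv K (Sum.inr k) S * (Q j - P j) := by
    intro k j
    simp only [lp, map_add, Derivation.leibniz, map_sub, P0, smul_eq_mul]
    ring
  have tY := tang _ hY
  generalize lp P (fun k => Q k - P k) S = Y at *
  have BL := trisec_key hc (g1 i1) (P := P) (D := fun k => Q k - P k)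
    (u := fun k j => MvPowerSeries.pderiv K (Sum.inl k) (P j))
    (v := fun k j => MvPowerSeries.pderiv K (Sum.inl k) (Y j)) JY (fun k i => tY _ i) vL hS1
    (fun k => tang P hP _ i1)
    (fun k k' => by
      by_cases h : k = k'
      · simp [fP, h]
      · simp [fP, h, MvPowerSeries.pderiv_X_of_ne, Ne.symm h]) dP
  have BR := trisec_key hc (g2 i1) (P := Q) (D := fun k => Q k - P k)
    (u := fun k j => MvPowerSeries.pderiv K (Sum.inr k) (Q j))
    (v := fun k j => MvPowerSeries.pderiv K (Sum.inr k) (Y j)) JY (fun k i => tY _ i) vR hS0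
    (fun k => tang Q hQ _ i1)
    (fun k k' => by
      by_cases h : k = k'
      · simp [fQ, h]
      · simp [fQ, h, MvPowerSeries.pderiv_X_of_ne, Ne.symm h]) dQ
  refine ⟨?_, fun R hR => trisec_ind _ (fun k => MvPowerSeries.pderiv K (Sum.inl k))
    (fun h => BL (by rw [h, map_zero])) R hR⟩
  have wM : ∀ k, (fun j => MvPowerSeries.pderiv K (Sum.inr k) (Q j)) ∈
      Submodule.span (MvPowerSeries (ρ ⊕ ρ) K) (insert (fun k => Q k - P k)
        (Set.range fun k j => MvPowerSeries.pderiv K (Sum.inl k) (P j))) := by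
    intro k
    obtain ⟨b, hb⟩ := trisec_span hc JY' (fun k i => tY _ i) BL (tY (Sum.inr k))
    exact trisec_mem vL hb (vR k) (MvPowerSeries.isUnit_iff_constantCoeff.2 (Ne.isUnit hS0))
  have uM : ∀ k, (fun j => MvPowerSeries.pderiv K (Sum.inl k) (P j)) ∈
      Submodule.span (MvPowerSeries (ρ ⊕ ρ) K) (insert (fun k => Q k - P k)
        (Set.range fun k j => MvPowerSeries.pderiv K (Sum.inr k) (Q j))) := by
    intro k
    obtain ⟨b, hb⟩ := trisec_span hc JY' (fun k i => tY _ i) BR (tY (Sum.inl k))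
    exact trisec_mem vR hb (vL k) (MvPowerSeries.isUnit_iff_constantCoeff.2 (Ne.isUnit hS1))
  have MM : Submodule.span (MvPowerSeries (ρ ⊕ ρ) K) (insert (fun k => Q k - P k)
        (Set.range fun k j => MvPowerSeries.pderiv K (Sum.inl k) (P j))) =
      Submodule.span (MvPowerSeries (ρ ⊕ ρ) K) (insert (fun k => Q k - P k)
        (Set.range fun k j => MvPowerSeries.pderiv K (Sum.inr k) (Q j))) := by
    refine le_antisymm (Submodule.span_le.2 ?_) (Submodule.span_le.2 ?_)
    · rintro _ (rfl | ⟨k, rfl⟩)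
      · exact Submodule.subset_span (Set.mem_insert _ _)
      · exact uM k
    · rintro _ (rfl | ⟨k, rfl⟩)
      · exact Submodule.subset_span (Set.mem_insert _ _)
      · exact wM k
  have hst : ∀ t, ∀ x ∈ Submodule.span (MvPowerSeries (ρ ⊕ ρ) K) (insert (fun k => Q k - P k)
        (Set.range fun k j => MvPowerSeries.pderiv K (Sum.inl k) (P j))),
      (fun j => MvPowerSeries.pderiv K t (x j)) ∈
        Submodule.span (MvPowerSeries (ρ ⊕ ρ) K) (insert (fun k => Q k - P k)
          (Set.range fun k j => MvPowerSeries.pderiv K (Sum.inl k) (P j))) := by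
    rintro (t | t)
    · rw [MM]
      refine trisec_stable _ ?_
      rintro _ (rfl | ⟨k, rfl⟩)
      · have : (fun j => MvPowerSeries.pderiv K (Sum.inl t) (Q j - P j)) =
            -fun j => MvPowerSeries.pderiv K (Sum.inl t) (P j) := _root_.funext fun j => by simp [Q0]
        rw [this]
        exact Submodule.neg_mem _ (uM t)
      · have : (fun j => MvPowerSeries.pderiv K (Sum.inl t)
            (MvPowerSeries.pderiv K (Sum.inr k) (Q j))) = 0 := _root_.funext fun j => by
          rw [trisec_comm Sum.inl_ne_inr, Q0, map_zero, Pi.zero_apply]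
        rw [this]
        exact Submodule.zero_mem _
    · refine trisec_stable _ ?_
      rintro _ (rfl | ⟨k, rfl⟩)
      · have : (fun j => MvPowerSeries.pderiv K (Sum.inr t) (Q j - P j)) =
            fun j => MvPowerSeries.pderiv K (Sum.inr t) (Q j) := _root_.funext fun j => by simp [P0]
        rw [this]
        exact wM t
      · have : (fun j => MvPowerSeries.pderiv K (Sum.inr t)
            (MvPowerSeries.pderiv K (Sum.inl k) (P j))) = 0 := _root_.funext fun j => by
          rw [trisec_comm Sum.inr_ne_inl, P0, map_zero, Pi.zero_apply]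
        rw [this]
        exact Submodule.zero_mem _
  refine ⟨Submodule.span K (Set.range fun (o : Option ρ) j => MvPowerSeries.constantCoeff
    (o.elim (Q j - P j) fun k => MvPowerSeries.pderiv K (Sum.inl k) (P j))), ?_, fun l hl => ?_⟩
  · exact (finrank_range_le_card _).trans (Fintype.card_option).le
  have hk := trisec_kill hst l (by
    rintro _ (rfl | ⟨k, rfl⟩)
    · exact hl _ (Submodule.subset_span ⟨none, rfl⟩)
    · exact hl _ (Submodule.subset_span ⟨some k, rfl⟩))
  have h1 : ∑ k, MvPowerSeries.C (l k) * P k =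
      MvPowerSeries.C (MvPowerSeries.constantCoeff (∑ k, MvPowerSeries.C (l k) * P k)) := by
    refine MvPowerSeries.pderiv.ext ?_ (MvPowerSeries.constantCoeff_C _).symm
    rintro (t | t)
    · have := hk _ (Submodule.subset_span (Set.mem_insert_of_mem _ ⟨t, rfl⟩))
      rw [MvPowerSeries.pderiv_C, ← this]
      simp [map_sum]
    · rw [MvPowerSeries.pderiv_C]
      simp [map_sum, P0]
  have h2 := hk _ (Submodule.subset_span (Set.mem_insert _ _))
  refine ⟨_, h1, ?_⟩
  rw [← h1]
  simp only [mul_sub, Finset.sum_sub_distrib] at h2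
  exact sub_eq_zero.1 h2

end

end Vale.Agent.P054
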