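import Vale.Agent.P054.RootDefs
import Vale.Agent.P054.Taylor
import Vale.Agent.P054.Chain

/-! The power series part of the trisecant lemma. -/

namespace Vale.Agent.P054

open MvPolynomial

noncomputable section

variable {K : Type} [Field K] {σ : Type} [Fintype σ]

theorem trisec_dg_deriv {A : Type} [CommRing A] [Algebra K A] (D : Derivation K A A) (x : σ → A)
    (f : MvPolynomial σ K) : D (aeval x f) = dg f x fun k => D (x k) := by
  rw [deriv_algHom (aeval x) D f]
  simp only [dg, aeval_X]

theorem trisec_dg_map {A B : Type} [CommRing A] [Algebra K A] [CommRing B] [Algebra K B]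
    (φ : A →ₐ[K] B) (f : MvPolynomial σ K) (x v : σ → A) :
    φ (dg f x v) = dg f (fun k => φ (x k)) fun k => φ (v k) := by
  simp only [dg, map_sum, map_mul]
  refine Finset.sum_congr rfl fun k _ => ?_
  rw [← AlgHom.comp_apply, comp_aeval]

theorem trisec_dg_cc {τ : Type} [Fintype τ] (f : MvPolynomial σ K) (x v : σ → MvPowerSeries τ K) :
    MvPowerSeries.constantCoeff (dg f x v) =
      dg f (fun k => MvPowerSeries.constantCoeff (x k))
        fun k => MvPowerSeries.constantCoeff (v k) := by
  simp only [dg, map_sum, map_mul]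
  refine Finset.sum_congr rfl fun k _ => ?_
  rw [taylor_const_aeval (fun _ => rfl)]

theorem trisec_dg_sum {A ρ : Type} [CommRing A] [Algebra K A] [Fintype ρ] (f : MvPolynomial σ K)
    (x : σ → A) (b : ρ → A) (v : ρ → σ → A) :
    dg f x (fun j => ∑ k, b k * v k j) = ∑ k, b k * dg f x (v k) := by
  simp only [dg, Finset.mul_sum]
  rw [Finset.sum_comm]
  exact Finset.sum_congr rfl fun k _ => Finset.sum_congr rfl fun j _ => by ring

theorem trisec_dg_lin {A : Type} [CommRing A] [Algebra K A] (f : MvPolynomial σ K)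
    (x u w : σ → A) (a b : A) :
    dg f x (fun j => a * u j + b * w j) = a * dg f x u + b * dg f x w := by
  simp only [dg, Finset.mul_sum, ← Finset.sum_add_distrib]
  exact Finset.sum_congr rfl fun j _ => by ring

theorem trisec_comm {τ : Type} {i j : τ} (h : i ≠ j) (f : MvPowerSeries τ K) :
    MvPowerSeries.pderiv K i (MvPowerSeries.pderiv K j f) =
      MvPowerSeries.pderiv K j (MvPowerSeries.pderiv K i f) := by
  ext n
  simp only [MvPowerSeries.coeff_pderiv, Finsupp.add_apply, Finsupp.single_eq_of_ne h,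
    Finsupp.single_eq_of_ne h.symm, add_zero]
  rw [add_right_comm]
  ring

omit [Fintype σ] in
theorem trisec_deg {k : σ} {f : MvPolynomial σ K} (h : pderiv k f ≠ 0) :
    (pderiv k f).totalDegree < f.totalDegree := by
  classical
  obtain ⟨m, hm, he⟩ := Finset.exists_mem_eq_sup _ (support_nonempty.2 h)
    fun s : σ →₀ ℕ => s.sum fun _ e => e
  have h1 : m + Finsupp.single k 1 ∈ f.support := by
    rw [mem_support_iff] at hm ⊢
    rw [coeff_pderiv] at hm
    exact left_ne_zero_of_mul hm
  have h2 := le_totalDegree h1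
  rw [Finsupp.sum_add_index' (fun _ => rfl) (fun _ _ _ => rfl), Finsupp.sum_single_index rfl] at h2
  rw [totalDegree, he]
  omega

omit [Fintype σ] in
theorem trisec_const [CharZero K] {f : MvPolynomial σ K} (hc : ∀ p, pderiv p f = 0) :
    f = C (coeff 0 f) := by
  classical
  ext d
  rw [coeff_C]
  split_ifs with hd
  · rw [hd]
  · obtain ⟨k, m, rfl⟩ := chain_split (Ne.symm hd)
    have h1 := congrArg (coeff m) (hc k)
    rw [coeff_pderiv, coeff_zero] at h1
    exact (mul_eq_zero.1 h1).resolve_right (Nat.cast_add_one_ne_zero _)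

/-- Jacobian criterion for independence. -/
theorem trisec_ind [CharZero K] {A ρ : Type} [CommRing A] [IsDomain A] [Algebra K A] [Fintype ρ]
    [DecidableEq ρ] (x : ρ → A) (D : ρ → Derivation K A A)
    (h : (Matrix.of fun k k' => D k (x k')).det ≠ 0) (R : MvPolynomial ρ K)
    (hR : aeval x R = 0) : R = 0 := by
  induction hn : R.totalDegree using Nat.strong_induction_on generalizing R with
  | _ n ih =>
  have h1 : (Matrix.of fun k k' => D k (x k')).mulVec (fun k' => aeval x (pderiv k' R)) = 0 := by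
    funext k
    have h2 := trisec_dg_deriv (D k) x R
    rw [hR, map_zero] at h2
    simp only [Matrix.mulVec, dotProduct, Matrix.of_apply, Pi.zero_apply]
    rw [h2, dg]
    exact Finset.sum_congr rfl fun k' _ => mul_comm _ _
  have h3 := Matrix.eq_zero_of_mulVec_eq_zero h h1
  have h4 : ∀ k, pderiv k R = 0 := by
    intro k
    by_contra hne
    exact hne (ih _ (hn ▸ trisec_deg hne) _ (congrFun h3 k) rfl)
  have h5 := trisec_const h4
  rw [h5, aeval_C, map_eq_zero] at hR
  rw [h5, hR, map_zero]

variable {ι ρ τ : Type} [Fintype ι] [DecidableEq ι] [Fintype ρ] [DecidableEq ρ] [Fintype τ]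
  {g : ι → MvPolynomial σ K} {c : ι → σ} {e : ρ → σ}

theorem trisec_key (hc : Compl c e) (f : MvPolynomial σ K) {Y P D : σ → MvPowerSeries τ K}
    {u v : ρ → σ → MvPowerSeries τ K} {α : MvPowerSeries τ K} {β : ρ → MvPowerSeries τ K}
    (hJ : MvPowerSeries.constantCoeff (aeval Y (Jac g c)) ≠ 0)
    (hv : ∀ k i, dg (g i) Y (v k) = 0) (hvu : ∀ k j, v k j = α * u k j + β k * D j)
    (hα : MvPowerSeries.constantCoeff α ≠ 0) (hu : ∀ k, dg f P (u k) = 0)
    (hue : ∀ k k', u k (e k') = if k = k' then 1 else 0)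
    (hD : MvPowerSeries.constantCoeff (dg f P D) ≠ 0) :
    MvPowerSeries.constantCoeff (Matrix.of fun k k' => v k (e k')).det ≠ 0 := by
  rw [RingHom.map_det]
  intro h0
  obtain ⟨a, ha, hz⟩ := Matrix.exists_vecMul_eq_zero_iff.2 h0
  rw [taylor_const_aeval (fun _ => rfl)] at hJ
  have h1 : ∀ j, ∑ k, a k * MvPowerSeries.constantCoeff (v k j) = 0 := by
    refine taninj_of_jac hc (aeval fun k => MvPowerSeries.constantCoeff (Y k)) hJ _
      (fun k' => congrFun hz k') fun i => ?_
    refine (trisec_dg_sum (g i) _ a fun k j => MvPowerSeries.constantCoeff (v k j)).trans ?_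
    refine Finset.sum_eq_zero fun k _ => ?_
    rw [← trisec_dg_cc, hv, map_zero, mul_zero]
  have h2 : ∀ j, MvPowerSeries.constantCoeff α * ∑ k, a k * MvPowerSeries.constantCoeff (u k j) +
      (∑ k, a k * MvPowerSeries.constantCoeff (β k)) * MvPowerSeries.constantCoeff (D j) = 0 := by
    intro j
    rw [← h1 j, Finset.mul_sum, Finset.sum_mul, ← Finset.sum_add_distrib]
    refine Finset.sum_congr rfl fun k _ => ?_
    rw [hvu, map_add, map_mul, map_mul]
    ring
  have h3 := trisec_dg_lin f (fun k => MvPowerSeries.constantCoeff (P k))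
    (fun j => ∑ k, a k * MvPowerSeries.constantCoeff (u k j))
    (fun j => MvPowerSeries.constantCoeff (D j)) (MvPowerSeries.constantCoeff α)
    (∑ k, a k * MvPowerSeries.constantCoeff (β k))
  have h4 : dg f (fun k => MvPowerSeries.constantCoeff (P k))
      (fun j => ∑ k, a k * MvPowerSeries.constantCoeff (u k j)) = 0 := by
    refine (trisec_dg_sum f _ a fun k j => MvPowerSeries.constantCoeff (u k j)).trans ?_
    refine Finset.sum_eq_zero fun k _ => ?_
    rw [← trisec_dg_cc, hu, map_zero, mul_zero]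
  have h5 : ∑ k, a k * MvPowerSeries.constantCoeff (β k) = 0 := by
    rw [h4, ← trisec_dg_cc, mul_zero, zero_add] at h3
    simp only [h2, dg, mul_zero, Finset.sum_const_zero] at h3
    exact (mul_eq_zero.1 h3.symm).resolve_right hD
  apply ha
  funext k'
  have h6 := h2 (e k')
  rw [h5, zero_mul, add_zero] at h6
  have h7 := (mul_eq_zero.1 h6).resolve_left hα
  simpa [hue, apply_ite MvPowerSeries.constantCoeff] using h7

theorem trisec_span (hc : Compl c e) {Y : σ → MvPowerSeries τ K}
    {v : ρ → σ → MvPowerSeries τ K} (hJ : aeval Y (Jac g c) ≠ 0)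
    (hv : ∀ k i, dg (g i) Y (v k) = 0)
    (hB : MvPowerSeries.constantCoeff (Matrix.of fun k k' => v k (e k')).det ≠ 0)
    {w : σ → MvPowerSeries τ K} (hw : ∀ i, dg (g i) Y w = 0) :
    ∃ b : ρ → MvPowerSeries τ K, ∀ j, w j = ∑ k, b k * v k j := by
  have : IsDomain (MvPowerSeries τ K) := NoZeroDivisors.to_isDomain _
  have hU : IsUnit (Matrix.of fun k k' => v k (e k')).det :=
    MvPowerSeries.isUnit_iff_constantCoeff.2 (Ne.isUnit hB)
  refine ⟨Matrix.vecMul (fun k' => w (e k')) (Matrix.of fun k k' => v k (e k'))⁻¹, fun j => ?_⟩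
  have h1 : Matrix.vecMul (Matrix.vecMul (fun k' => w (e k'))
      (Matrix.of fun k k' => v k (e k'))⁻¹) (Matrix.of fun k k' => v k (e k')) =
      fun k' => w (e k') := by
    rw [Matrix.vecMul_vecMul, Matrix.nonsing_inv_mul _ hU, Matrix.vecMul_one]
  generalize Matrix.vecMul (fun k' => w (e k')) (Matrix.of fun k k' => v k (e k'))⁻¹ = b at h1
  have h2 := taninj_of_jac hc (aeval Y) hJ (fun j => 1 * w j + (-1) * ∑ k, b k * v k j)
    (fun k' => by
      have := congrFun h1 k'
      simp only [Matrix.vecMul, dotProduct, Matrix.of_apply] at this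
      rw [this]
      ring)
    (fun i => by
      refine (trisec_dg_lin (g i) Y w (fun j => ∑ k, b k * v k j) 1 (-1)).trans ?_
      rw [trisec_dg_sum, hw]
      simp [hv]) j
  linear_combination h2

omit [Fintype σ] in
/-- a generating family whose derivatives stay in the span spans a stable module. -/
theorem trisec_stable {A : Type} [CommRing A] [Algebra K A] (D : Derivation K A A)
    {G : Set (σ → A)} (hG : ∀ x ∈ G, (fun j => D (x j)) ∈ Submodule.span A G) :
    ∀ x ∈ Submodule.span A G, (fun j => D (x j)) ∈ Submodule.span A G := by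
  intro x hx
  induction hx using Submodule.span_induction with
  | mem x hx => exact hG x hx
  | zero =>
    have : (fun j => D ((0 : σ → A) j)) = 0 := _root_.funext fun j => by simp
    rw [this]
    exact Submodule.zero_mem _
  | add x y _ _ hx hy =>
    have : (fun j => D ((x + y) j)) = (fun j => D (x j)) + fun j => D (y j) :=
      _root_.funext fun j => by simp
    rw [this]
    exact Submodule.add_mem _ hx hy
  | smul a x hx' hx =>
    have : (fun j => D ((a • x) j)) = a • (fun j => D (x j)) + D a • x :=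
      _root_.funext fun j => by simp [mul_comm]
    rw [this]
    exact Submodule.add_mem _ (Submodule.smul_mem _ _ hx) (Submodule.smul_mem _ _ hx')

omit [Fintype σ] [DecidableEq ρ] in
theorem trisec_mem {A : Type} [CommRing A] {u v : ρ → σ → A} {D w w' : σ → A} {α γ δ : A}
    {β b : ρ → A} (hvu : ∀ k j, v k j = α * u k j + β k * D j) (hw : ∀ j, w' j = ∑ k, b k * v k j)
    (hw' : ∀ j, w' j = γ * w j + δ * D j) (hγ : IsUnit γ) :
    w ∈ Submodule.span A (insert D (Set.range u)) := by
  have hD : D ∈ Submodule.span A (insert D (Set.range u)) :=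
    Submodule.subset_span (Set.mem_insert _ _)
  have hu : ∀ k, u k ∈ Submodule.span A (insert D (Set.range u)) := fun k =>
    Submodule.subset_span (Set.mem_insert_of_mem _ ⟨k, rfl⟩)
  rw [← Submodule.smul_mem_iff_of_isUnit _ hγ]
  have : γ • w = ∑ k, b k • (α • u k + β k • D) - δ • D := by
    funext j
    simp only [Pi.smul_apply, Pi.sub_apply, Finset.sum_apply, Pi.add_apply, smul_eq_mul, ← hvu]
    rw [← hw, hw']
    ring
  rw [this]
  exact Submodule.sub_mem _ (Submodule.sum_mem _ fun k _ => Submodule.smul_mem _ _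
    (Submodule.add_mem _ (Submodule.smul_mem _ _ (hu k)) (Submodule.smul_mem _ _ hD)))
    (Submodule.smul_mem _ _ hD)

/-- linear forms killing the constant terms of a stable module kill the module. -/
theorem trisec_kill [CharZero K] {G : Set (σ → MvPowerSeries τ K)}
    (hG : ∀ t, ∀ x ∈ Submodule.span (MvPowerSeries τ K) G,
      (fun j => MvPowerSeries.pderiv K t (x j)) ∈ Submodule.span (MvPowerSeries τ K) G)
    (l : σ → K) (hl : ∀ x ∈ G, ∑ k, l k * MvPowerSeries.constantCoeff (x k) = 0) :
    ∀ x ∈ Submodule.span (MvPowerSeries τ K) G, ∑ k, MvPowerSeries.C (l k) * x k = 0 := by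
  intro x hx
  refine eq_zero_of_stable
    {y | ∃ x ∈ Submodule.span (MvPowerSeries τ K) G, ∑ k, MvPowerSeries.C (l k) * x k = y}
    ?_ ?_ _ ⟨x, hx, rfl⟩
  · rintro _ ⟨x, hx, rfl⟩
    simp only [map_sum, map_mul, MvPowerSeries.constantCoeff_C]
    induction hx using Submodule.span_induction with
    | mem x hx => exact hl x hx
    | zero => simp
    | add x y _ _ hx hy =>
      simp only [Pi.add_apply, map_add, mul_add, Finset.sum_add_distrib, hx, hy, add_zero]
    | smul a x _ hx =>
      simp only [Pi.smul_apply, smul_eq_mul, map_mul, mul_left_comm (l _)]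
      rw [← Finset.mul_sum, hx, mul_zero]
  · rintro _ ⟨x, hx, rfl⟩ t
    refine Ideal.subset_span ⟨_, hG t x hx, ?_⟩
    simp [map_sum]

/-- the trisecant lemma for power series. -/
theorem trisec_ps [CharZero K] (hc : Compl c e) (i1 : ι) {P Q : σ → MvPowerSeries (ρ ⊕ ρ) K}
    {S : MvPowerSeries (ρ ⊕ ρ) K} {p0 q0 : ρ → K}
    (hP : ∀ i, aeval P (g i) = 0) (hQ : ∀ i, aeval Q (g i) = 0)
    (hY : ∀ i, aeval (lp P (fun k => Q k - P k) S) (g i) = 0)
    (JP : aeval P (Jac g c) ≠ 0) (JQ : aeval Q (Jac g c) ≠ 0)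
    (JY : MvPowerSeries.constantCoeff (aeval (lp P (fun k => Q k - P k) S) (Jac g c)) ≠ 0)
    (fP : ∀ k, P (e k) = MvPowerSeries.C (p0 k) + MvPowerSeries.X (Sum.inl k))
    (fQ : ∀ k, Q (e k) = MvPowerSeries.C (q0 k) + MvPowerSeries.X (Sum.inr k))
    (hS0 : MvPowerSeries.constantCoeff S ≠ 0) (hS1 : MvPowerSeries.constantCoeff (1 - S) ≠ 0)
    (dP : MvPowerSeries.constantCoeff (dg (g i1) P fun k => Q k - P k) ≠ 0)
    (dQ : MvPowerSeries.constantCoeff (dg (g i1) Q fun k => Q k - P k) ≠ 0) :
    (∃ H : Submodule K (σ → K), Module.finrank K H ≤ Fintype.card ρ + 1 ∧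
      ∀ l : σ → K, (∀ v ∈ H, ∑ k, l k * v k = 0) → ∃ c0 : K,
        ∑ k, MvPowerSeries.C (l k) * P k = MvPowerSeries.C c0 ∧
        ∑ k, MvPowerSeries.C (l k) * Q k = MvPowerSeries.C c0) ∧
    ∀ R : MvPolynomial ρ K, aeval (fun k => lp P (fun k => Q k - P k) S (e k)) R = 0 → R = 0 := by
  have : IsDomain (MvPowerSeries (ρ ⊕ ρ) K) := NoZeroDivisors.to_isDomain _
  have tang : ∀ (Z : σ → MvPowerSeries (ρ ⊕ ρ) K), (∀ i, aeval Z (g i) = 0) →
      ∀ t i, dg (g i) Z (fun j => MvPowerSeries.pderiv K t (Z j)) = 0 := by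
    intro Z hZ t i
    rw [← trisec_dg_deriv, hZ, map_zero]
  have P0 : ∀ k j, MvPowerSeries.pderiv K (Sum.inr k) (P j) = 0 := fun k =>
    taninj_of_jac hc (aeval P) JP _
      (fun k' => by simp [fP, MvPowerSeries.pderiv_X_of_ne]) (tang P hP _)
  have Q0 : ∀ k j, MvPowerSeries.pderiv K (Sum.inl k) (Q j) = 0 := fun k =>
    taninj_of_jac hc (aeval Q) JQ _
      (fun k' => by simp [fQ, MvPowerSeries.pderiv_X_of_ne]) (tang Q hQ _)
  have JY' : aeval (lp P (fun k => Q k - P k) S) (Jac g c) ≠ 0 := fun h => JY (by rw [h, map_zero])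
  have vL : ∀ k j, MvPowerSeries.pderiv K (Sum.inl k) (lp P (fun k => Q k - P k) S j) =
      (1 - S) * MvPowerSeries.pderiv K (Sum.inl k) (P j) +
        MvPowerSeries.pderiv K (Sum.inl k) S * (Q j - P j) := by
    intro k j
    simp only [lp, map_add, Derivation.leibniz, map_sub, Q0, smul_eq_mul]
    ring
  have vR : ∀ k j, MvPowerSeries.pderiv K (Sum.inr k) (lp P (fun k => Q k - P k) S j) =
      S * MvPowerSeries.pderiv K (Sum.inr k) (Q j) +
        MvPowerSeries.pderiv K (Sum.inr k) S * (Q j - P j) := by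
    intro k j
    simp only [lp, map_add, Derivation.leibniz, map_sub, P0, smul_eq_mul]
    ring
  have tY := tang _ hY
  generalize lp P (fun k => Q k - P k) S = Y at *
  have BL := trisec_key hc (g i1) (P := P) (D := fun k => Q k - P k)
    (u := fun k j => MvPowerSeries.pderiv K (Sum.inl k) (P j))
    (v := fun k j => MvPowerSeries.pderiv K (Sum.inl k) (Y j)) JY (fun k i => tY _ i) vL hS1
    (fun k => tang P hP _ i1)
    (fun k k' => by
      by_cases h : k = k'
      · simp [fP, h]
      · simp [fP, h, MvPowerSeries.pderiv_X_of_ne, Ne.symm h]) dP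
  have BR := trisec_key hc (g i1) (P := Q) (D := fun k => Q k - P k)
    (u := fun k j => MvPowerSeries.pderiv K (Sum.inr k) (Q j))
    (v := fun k j => MvPowerSeries.pderiv K (Sum.inr k) (Y j)) JY (fun k i => tY _ i) vR hS0
    (fun k => tang Q hQ _ i1)
    (fun k k' => by
      by_cases h : k = k'
      · simp [fQ, h]
      · simp [fQ, h, MvPowerSeries.pderiv_X_of_ne, Ne.symm h]) dQ
  refine ⟨?_, fun R hR => trisec_ind _ (fun k => MvPowerSeries.pderiv K (Sum.inl k))
    (fun h => BL (by rw [h, map_zero])) R hR⟩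
  have wM : ∀ k, (fun j => MvPowerSeries.pderiv K (Sum.inr k) (Q j)) ∈
      Submodule.span (MvPowerSeries (ρ ⊕ ρ) K) (insert (fun k => Q k - P k)
        (Set.range fun k j => MvPowerSeries.pderiv K (Sum.inl k) (P j))) := by
    intro k
    obtain ⟨b, hb⟩ := trisec_span hc JY' (fun k i => tY _ i) BL (tY (Sum.inr k))
    exact trisec_mem vL hb (vR k) (MvPowerSeries.isUnit_iff_constantCoeff.2 (Ne.isUnit hS0))
  have uM : ∀ k, (fun j => MvPowerSeries.pderiv K (Sum.inl k) (P j)) ∈
      Submodule.span (MvPowerSeries (ρ ⊕ ρ) K) (insert (fun k => Q k - P k)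
        (Set.range fun k j => MvPowerSeries.pderiv K (Sum.inr k) (Q j))) := by
    intro k
    obtain ⟨b, hb⟩ := trisec_span hc JY' (fun k i => tY _ i) BR (tY (Sum.inl k))
    exact trisec_mem vR hb (vL k) (MvPowerSeries.isUnit_iff_constantCoeff.2 (Ne.isUnit hS1))
  have MM : Submodule.span (MvPowerSeries (ρ ⊕ ρ) K) (insert (fun k => Q k - P k)
        (Set.range fun k j => MvPowerSeries.pderiv K (Sum.inl k) (P j))) =
      Submodule.span (MvPowerSeries (ρ ⊕ ρ) K) (insert (fun k => Q k - P k)
        (Set.range fun k j => MvPowerSeries.pderiv K (Sum.inr k) (Q j))) := by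
    refine le_antisymm (Submodule.span_le.2 ?_) (Submodule.span_le.2 ?_)
    · rintro _ (rfl | ⟨k, rfl⟩)
      · exact Submodule.subset_span (Set.mem_insert _ _)
      · exact uM k
    · rintro _ (rfl | ⟨k, rfl⟩)
      · exact Submodule.subset_span (Set.mem_insert _ _)
      · exact wM k
  have hst : ∀ t, ∀ x ∈ Submodule.span (MvPowerSeries (ρ ⊕ ρ) K) (insert (fun k => Q k - P k)
        (Set.range fun k j => MvPowerSeries.pderiv K (Sum.inl k) (P j))),
      (fun j => MvPowerSeries.pderiv K t (x j)) ∈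
        Submodule.span (MvPowerSeries (ρ ⊕ ρ) K) (insert (fun k => Q k - P k)
          (Set.range fun k j => MvPowerSeries.pderiv K (Sum.inl k) (P j))) := by
    rintro (t | t)
    · rw [MM]
      refine trisec_stable _ ?_
      rintro _ (rfl | ⟨k, rfl⟩)
      · have : (fun j => MvPowerSeries.pderiv K (Sum.inl t) (Q j - P j)) =
            -fun j => MvPowerSeries.pderiv K (Sum.inl t) (P j) := _root_.funext fun j => by simp [Q0]
        rw [this]
        exact Submodule.neg_mem _ (uM t)
      · have : (fun j => MvPowerSeries.pderiv K (Sum.inl t)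
            (MvPowerSeries.pderiv K (Sum.inr k) (Q j))) = 0 := _root_.funext fun j => by
          rw [trisec_comm Sum.inl_ne_inr, Q0, map_zero, Pi.zero_apply]
        rw [this]
        exact Submodule.zero_mem _
    · refine trisec_stable _ ?_
      rintro _ (rfl | ⟨k, rfl⟩)
      · have : (fun j => MvPowerSeries.pderiv K (Sum.inr t) (Q j - P j)) =
            fun j => MvPowerSeries.pderiv K (Sum.inr t) (Q j) := _root_.funext fun j => by simp [P0]
        rw [this]
        exact wM t
      · have : (fun j => MvPowerSeries.pderiv K (Sum.inr t)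
            (MvPowerSeries.pderiv K (Sum.inl k) (P j))) = 0 := _root_.funext fun j => by
          rw [trisec_comm Sum.inr_ne_inl, P0, map_zero, Pi.zero_apply]
        rw [this]
        exact Submodule.zero_mem _
  refine ⟨Submodule.span K (Set.range fun (o : Option ρ) j => MvPowerSeries.constantCoeff
    (o.elim (Q j - P j) fun k => MvPowerSeries.pderiv K (Sum.inl k) (P j))), ?_, fun l hl => ?_⟩
  · exact (finrank_range_le_card _).trans (Fintype.card_option).le
  have hk := trisec_kill hst l (by
    rintro _ (rfl | ⟨k, rfl⟩)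
    · exact hl _ (Submodule.subset_span ⟨none, rfl⟩)
    · exact hl _ (Submodule.subset_span ⟨some k, rfl⟩))
  have h1 : ∑ k, MvPowerSeries.C (l k) * P k =
      MvPowerSeries.C (MvPowerSeries.constantCoeff (∑ k, MvPowerSeries.C (l k) * P k)) := by
    refine MvPowerSeries.pderiv.ext ?_ (MvPowerSeries.constantCoeff_C _).symm
    rintro (t | t)
    · have := hk _ (Submodule.subset_span (Set.mem_insert_of_mem _ ⟨t, rfl⟩))
      rw [MvPowerSeries.pderiv_C, ← this]
      simp [map_sum]
    · rw [MvPowerSeries.pderiv_C]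
      simp [map_sum, P0]
  have h2 := hk _ (Submodule.subset_span (Set.mem_insert _ _))
  refine ⟨_, h1, ?_⟩
  rw [← h1]
  simp only [mul_sub, Finset.sum_sub_distrib] at h2
  exact sub_eq_zero.1 h2

end

end Vale.Agent.P054
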