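import Vale.Agent.P054.RootB
import Vale.Agent.P054.BrBase
import Vale.Agent.P054.TrisecAux

namespace Vale.Agent.P054

open MvPolynomial

noncomputable section

section aux

variable {K : Type} [Field K] {σ ι ρ : Type}

theorem trisec_pderiv_rename {τ : Type} {f : σ → τ} {t : τ} (ht : ∀ k, f k ≠ t)
    (h : MvPolynomial σ K) : pderiv t (rename f h) = 0 := by
  induction h using MvPolynomial.induction_on with
  | C a => simp
  | add p q hp hq => simp [hp, hq]
  | mul_X p i hp => simp [hp, pderiv_X_of_ne (ht i)]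

theorem trisec_jac [Fintype ι] [DecidableEq ι] (g : ι → MvPolynomial σ K) (c : ι → σ) :
    Jac (Sum.elim (fun i => rename Sum.inl (g i)) (fun i => rename Sum.inr (g i)) :
      ι ⊕ ι → MvPolynomial (σ ⊕ σ) K) (Sum.map c c) =
      rename Sum.inl (Jac g c) * rename Sum.inr (Jac g c) := by
  have h : Jm (Sum.elim (fun i => rename Sum.inl (g i)) (fun i => rename Sum.inr (g i)) :
      ι ⊕ ι → MvPolynomial (σ ⊕ σ) K) (Sum.map c c) =
      Matrix.fromBlocks ((rename Sum.inl).mapMatrix (Jm g c)) 0 0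
        ((rename Sum.inr).mapMatrix (Jm g c)) := by
    ext1 i j
    rcases i with i | i <;> rcases j with j | j
    · exact pderiv_rename Sum.inl_injective _ _
    · exact trisec_pderiv_rename (fun _ => Sum.inl_ne_inr) _
    · exact trisec_pderiv_rename (fun _ => Sum.inr_ne_inl) _
    · exact pderiv_rename Sum.inr_injective _ _
  rw [Jac, h, Matrix.det_fromBlocks_zero₂₁, Jac, AlgHom.map_det, AlgHom.map_det]

theorem trisec_compl {c : ι → σ} {e : ρ → σ} (h : Compl c e) :
    Compl (Sum.map c c) (Sum.map e e) := by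
  refine ⟨h.1.sumMap h.1, h.2.1.sumMap h.2.1, ?_⟩
  rintro (k | k)
  · simpa using h.2.2 k
  · simpa using h.2.2 k

theorem trisec_hom {A B : Type} [CommRing A] [Algebra K A] [CommRing B] [Algebra K B]
    (φ : A →ₐ[K] B) (x : σ → A) (f : MvPolynomial σ K) :
    φ (aeval x f) = aeval (fun k => φ (x k)) f := by
  rw [← AlgHom.comp_apply, comp_aeval]

theorem trisec_lp {A B : Type} [CommRing A] [Algebra K A] [CommRing B] [Algebra K B]
    (φ : A →ₐ[K] B) (x y : σ → A) (t : A) :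
    (fun k => φ (lp x (fun k => y k - x k) t k)) =
      lp (fun k => φ (x k)) (fun k => φ (y k) - φ (x k)) (φ t) := by
  funext k
  simp [lp]

theorem trisec_ren {τ : Type} (j : σ → τ) (f : MvPolynomial σ K) :
    (rename some (rename j f) : MvPolynomial (Option τ) K) =
      aeval (fun k => (X (some (j k)) : MvPolynomial (Option τ) K)) f := by
  rw [rename_rename, rename_eq_aeval]
  rfl

theorem trisec_lin [Fintype σ] {Ω : Type} [CommRing Ω] [Algebra K Ω] {x : σ → Ω} {a l : σ → K}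
    {c0 : K} (hx : kr K x ≤ kr K a)
    (h : ∑ k, algebraMap K Ω (l k) * x k = algebraMap K Ω c0) : linF l a ∈ kr K x := by
  have h1 : (∑ k, C (l k) * X k - C c0 : MvPolynomial σ K) ∈ kr K x := by
    rw [mem_kr]
    simpa [sub_eq_zero] using h
  have h2 := hx h1
  rw [mem_kr] at h2
  have h3 : ∑ k, l k * a k = c0 := by simpa [sub_eq_zero] using h2
  have h4 : linF l a = ∑ k, C (l k) * X k - C c0 := by
    rw [linF, ← h3, map_sum, ← Finset.sum_sub_distrib]
    exact Finset.sum_congr rfl fun k _ => by rw [map_mul, mul_sub]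
  rwa [h4]

/-- a Taylor map at the generic configuration. -/
theorem trisec_tay [CharZero K] [IsAlgClosed K] [Fintype σ] [Fintype ι] [DecidableEq ι]
    [Fintype ρ] {g : ι → MvPolynomial σ K} {c : ι → σ} {e : ρ → σ} (hc : Compl c e) (i1 : ι)
    {Ω : Type} [Field Ω] [Algebra K Ω] {p q : σ → Ω} {s : Ω}
    (hp : ∀ i, aeval p (g i) = 0) (hq : ∀ i, aeval q (g i) = 0)
    (Jp : aeval p (Jac g c) ≠ 0) (Jq : aeval q (Jac g c) ≠ 0)
    (hy : aeval (lp p (fun k => q k - p k) s) (g i1) = 0)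
    (hyt : dg (g i1) (lp p (fun k => q k - p k) s) (fun k => q k - p k) ≠ 0)
    (hind : AlgebraicIndependent K (Sum.elim (fun k : ρ => p (e k)) fun k : ρ => q (e k)))
    {u : MvPolynomial (Option (σ ⊕ σ)) K}
    (hu : aeval (fun o : Option (σ ⊕ σ) => o.elim s (Sum.elim p q)) u ≠ 0) :
    ∃ (θ : MvPolynomial (Option (σ ⊕ σ)) K →ₐ[K] MvPowerSeries (ρ ⊕ ρ) K) (p0 q0 : ρ → K),
      MvPowerSeries.constantCoeff (θ u) ≠ 0 ∧
      (∀ k, θ (X (some (Sum.inl (e k)))) =
        MvPowerSeries.C (p0 k) + MvPowerSeries.X (Sum.inl k)) ∧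
      (∀ k, θ (X (some (Sum.inr (e k)))) =
        MvPowerSeries.C (q0 k) + MvPowerSeries.X (Sum.inr k)) ∧
      ∀ h, θ h = 0 ↔ aeval (fun o : Option (σ ⊕ σ) => o.elim s (Sum.elim p q)) h = 0 := by
  classical
  let z : Option (σ ⊕ σ) → Ω := fun o => o.elim s (Sum.elim p q)
  let F : MvPolynomial (Option (σ ⊕ σ)) K :=
    aeval (lp (fun k => (X (some (Sum.inl k)) : MvPolynomial (Option (σ ⊕ σ)) K))
      (fun k => X (some (Sum.inr k)) - X (some (Sum.inl k))) (X none)) (g i1)
  let g2 : ι ⊕ ι → MvPolynomial (σ ⊕ σ) K :=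
    Sum.elim (fun i => rename Sum.inl (g i)) (fun i => rename Sum.inr (g i))
  have eL : ∀ f : MvPolynomial σ K, aeval z (rename some (rename Sum.inl f)) = aeval p f := by
    intro f
    rw [aeval_rename, aeval_rename]
    rfl
  have eR : ∀ f : MvPolynomial σ K, aeval z (rename some (rename Sum.inr f)) = aeval q f := by
    intro f
    rw [aeval_rename, aeval_rename]
    rfl
  have eY : (fun k => aeval z (lp (fun k => (X (some (Sum.inl k)) :
      MvPolynomial (Option (σ ⊕ σ)) K)) (fun k => X (some (Sum.inr k)) - X (some (Sum.inl k)))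
      (X none) k)) = lp p (fun k => q k - p k) s := by
    rw [trisec_lp]
    simp [z]
  have hG : ∀ i, lift1 g2 F i ∈ kr K z := by
    rintro (_ | i | i)
    · change aeval z F = 0
      rw [trisec_hom, eY, hy]
    · exact (eL _).trans (hp i)
    · exact (eR _).trans (hq i)
  have hJ : Jac (lift1 g2 F) (Option.map (Sum.map c c)) ∉ kr K z := by
    rw [mem_kr, jac_lift1, trisec_jac, map_mul, map_mul, map_mul, eL, eR]
    refine mul_ne_zero ?_ (mul_ne_zero Jp Jq)
    rw [trisec_dg_deriv, trisec_dg_map, eY]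
    simpa [lp, z] using hyt
  have hI : Ind (kr K z) fun k : ρ ⊕ ρ => X (some (Sum.map e e k)) := by
    rw [brb_ind_iff z fun k : ρ ⊕ ρ => some (Sum.map e e k)]
    have : (fun k : ρ ⊕ ρ => z (some (Sum.map e e k))) =
        Sum.elim (fun k : ρ => p (e k)) fun k : ρ => q (e k) := by
      funext k
      rcases k with k | k <;> rfl
    rw [this]
    exact hind
  have hpr := kr_isPrime (K := K) z
  have hB := eq_Br_of_ind (trisec_compl hc).lift hpr (dn_of_isAlgClosed hpr) hpr hG le_rfl hJ _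
    rfl hI
  obtain ⟨π, θ, -, h1, -, hθ, hker⟩ :=
    exists_tay_prime (trisec_compl hc).lift hpr (dn_of_isAlgClosed hpr) hG hJ (s := u) hu
  refine ⟨θ, fun k => π (some (Sum.inl (e k))), fun k => π (some (Sum.inr (e k))), ?_,
    fun k => hθ.free (Sum.inl k), fun k => hθ.free (Sum.inr k), fun h => ?_⟩
  · rwa [hθ.const]
  · rw [← RingHom.mem_ker, hker, ← hB, mem_kr]

/-- the trisecant lemma over one field. -/
theorem trisec_field [CharZero K] [IsAlgClosed K] [Fintype σ] [Fintype ι] [DecidableEq ι]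
    [Fintype ρ] {g : ι → MvPolynomial σ K} {c : ι → σ} {e : ρ → σ} (hc : Compl c e) (i1 : ι)
    {Ω : Type} [Field Ω] [Algebra K Ω] {p' q : σ → Ω} {s : Ω} {a : σ → K}
    (lp' : kr K p' ≤ kr K a) (gp : ∀ i, aeval p' (g i) = 0) (gq : ∀ i, aeval q (g i) = 0)
    (Jp : aeval p' (Jac g c) ≠ 0) (Jq : aeval q (Jac g c) ≠ 0)
    (hind : AlgebraicIndependent K (Sum.elim (fun k : ρ => p' (e k)) fun k : ρ => q (e k)))
    (dp : dg (g i1) p' (fun k => q k - p' k) ≠ 0) (dq : dg (g i1) q (fun k => q k - p' k) ≠ 0)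
    (hs0 : s ≠ 0) (hs1 : s ≠ 1)
    (hy : ∀ i, aeval (lp p' (fun k => q k - p' k) s) (g i) = 0)
    (hyJ : aeval (lp p' (fun k => q k - p' k) s) (Jac g c) ≠ 0)
    (hyt : dg (g i1) (lp p' (fun k => q k - p' k) s) (fun k => q k - p' k) ≠ 0) :
    (∃ H : Submodule K (σ → K), Module.finrank K H ≤ Fintype.card ρ + 1 ∧
      ∀ l : σ → K, (∀ v ∈ H, ∑ k, l k * v k = 0) → linF l a ∈ kr K p' ∧ linF l a ∈ kr K q) ∧
    Ind (kr K (lp p' (fun k => q k - p' k) s)) (fun k => X (e k)) := by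
  classical
  let z : Option (σ ⊕ σ) → Ω := fun o => o.elim s (Sum.elim p' q)
  let xP : σ → MvPolynomial (Option (σ ⊕ σ)) K := fun k => X (some (Sum.inl k))
  let xQ : σ → MvPolynomial (Option (σ ⊕ σ)) K := fun k => X (some (Sum.inr k))
  have zP : (fun k => aeval z (xP k)) = p' := _root_.funext fun k => aeval_X _ _
  have zQ : (fun k => aeval z (xQ k)) = q := _root_.funext fun k => aeval_X _ _
  have zD : (fun k => aeval z (xQ k - xP k)) = fun k => q k - p' k :=
    _root_.funext fun k => by rw [map_sub, congrFun zP k, congrFun zQ k]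
  have zY : (fun k => aeval z (lp xP (fun k => xQ k - xP k) (X none) k)) =
      lp p' (fun k => q k - p' k) s := by
    rw [trisec_lp]
    simp [z, xP, xQ]
  obtain ⟨θ, p0, q0, h1, fP, fQ, hker⟩ := trisec_tay hc i1 gp gq Jp Jq (hy i1) hyt hind
    (u := X none * (1 - X none) * aeval (lp xP (fun k => xQ k - xP k) (X none)) (Jac g c) *
      dg (g i1) xP (fun k => xQ k - xP k) * dg (g i1) xQ (fun k => xQ k - xP k)) (by
      change aeval z _ ≠ 0
      rw [map_mul, map_mul, map_mul, map_mul, trisec_hom, trisec_dg_map, trisec_dg_map, zY, zP, zQ,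
        zD, map_sub, map_one, aeval_X]
      exact mul_ne_zero (mul_ne_zero (mul_ne_zero (mul_ne_zero hs0 (sub_ne_zero.2 hs1.symm)) hyJ)
        dp) dq)
  have hker' : ∀ (τ : Type) (x : τ → MvPolynomial (Option (σ ⊕ σ)) K) (f : MvPolynomial τ K),
      aeval (fun k => θ (x k)) f = 0 ↔ aeval (fun k => aeval z (x k)) f = 0 := by
    intro τ x f
    rw [← trisec_hom, ← trisec_hom]
    exact hker _
  simp only [map_mul, mul_ne_zero_iff] at h1
  obtain ⟨⟨⟨⟨n1, n2⟩, n3⟩, n4⟩, n5⟩ := h1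
  rw [map_sub θ, map_one θ] at n2
  rw [trisec_hom θ, trisec_lp] at n3
  rw [trisec_dg_map θ] at n4 n5
  simp only [map_sub θ] at n4 n5
  obtain ⟨⟨H, hH, hl⟩, hR⟩ := trisec_ps hc i1 (P := fun k => θ (xP k)) (Q := fun k => θ (xQ k))
    (S := θ (X none)) (fun i => by rw [hker', zP, gp]) (fun i => by rw [hker', zQ, gq])
    (fun i => by rw [← trisec_lp, hker', zY, hy]) (by rw [Ne, hker', zP]; exact Jp)
    (by rw [Ne, hker', zQ]; exact Jq) n3 fP fQ n1 n2 n4 n5
  refine ⟨⟨H, hH, fun l h => ?_⟩, fun R h => hR R ?_⟩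
  · obtain ⟨c0, e1, e2⟩ := hl l h
    have pull : ∀ x : σ → MvPolynomial (Option (σ ⊕ σ)) K,
        ∑ k, MvPowerSeries.C (l k) * θ (x k) = MvPowerSeries.C c0 →
        ∑ k, algebraMap K Ω (l k) * aeval z (x k) = algebraMap K Ω c0 := by
      intro x hx
      have h2 := (hker' σ x (∑ k, C (l k) * X k - C c0)).1 (by
        rw [map_sub, map_sum, aeval_C, sub_eq_zero]
        simp only [map_mul, aeval_C, aeval_X]
        exact hx)
      simpa [sub_eq_zero] using h2
    have a1 := pull xP e1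
    have a2 := pull xQ e2
    simp only [congrFun zP, congrFun zQ] at a1 a2
    have b1 := trisec_lin lp' a1
    refine ⟨b1, ?_⟩
    have b3 : ∑ k, algebraMap K Ω (l k) * p' k = algebraMap K Ω (∑ k, l k * a k) := by
      rw [mem_kr] at b1
      simpa [linF, mul_sub, sub_eq_zero] using b1
    rw [mem_kr]
    simpa [linF, mul_sub, sub_eq_zero] using a2.trans (a1.symm.trans b3)
  · rw [mem_kr, trisec_hom] at h
    simp only [aeval_X] at h
    have h2 := (hker' ρ (fun k => lp xP (fun k => xQ k - xP k) (X none) (e k)) R).2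
      (by simpa only [congrFun zY] using h)
    simpa only [congrFun (trisec_lp θ xP xQ (X none))] using h2


end aux

/-- trisecant lemma for branches. -/
theorem trisec {K : Type} [Field K] [CharZero K] [IsAlgClosed K] {σ ι ρ : Type} [Fintype σ]
    [Fintype ι] [DecidableEq ι] [Fintype ρ] {g : ι → MvPolynomial σ K} {c : ι → σ} {e : ρ → σ}
    (hc : Compl c e) (i1 : ι) {a a' : σ → K} (ha : ∀ i, aeval a (g i) = 0)
    (ha' : ∀ i, aeval a' (g i) = 0) (hJ : aeval a (Jac g c) ≠ 0) (hJ' : aeval a' (Jac g c) ≠ 0)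
    (hnt : NT (g i1) a a') {K' Ω : Type} [Field K'] [Field Ω] [Algebra K K'] [Algebra K Ω]
    [Algebra K' Ω] [IsScalarTower K K' Ω] {p : σ → K'} {q : σ → Ω}
    (hp : kr K p = Br (Set.range g) (kr K a))
    (hq : kr K' q = Br (Set.range fun i => map (algebraMap K K') (g i)) (kr K' (am K' a')))
    {s : Ω} (hs0 : s ≠ 0) (hs1 : s ≠ 1)
    (hy : ∀ i, aeval (lp (am Ω p) (fun k => q k - am Ω p k) s) (g i) = 0)
    (hyJ : aeval (lp (am Ω p) (fun k => q k - am Ω p k) s) (Jac g c) ≠ 0)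
    (hyt : dg (g i1) (lp (am Ω p) (fun k => q k - am Ω p k) s) (fun k => q k - am Ω p k) ≠ 0) :
    (∃ H : Submodule K (σ → K), Module.finrank K H ≤ Fintype.card ρ + 1 ∧
      ∀ l : σ → K, (∀ v ∈ H, ∑ k, l k * v k = 0) →
        linF l a ∈ Br (Set.range g) (kr K a) ∧ linF l a ∈ Br (Set.range g) (kr K a')) ∧
    Ind (kr K (lp (am Ω p) (fun k => q k - am Ω p k) s)) (fun k => X (e k)) := by
  classical
  have hq' := kr_of_kr_base ha' hJ' hq
  have hle : ∀ b : σ → K, (∀ i, aeval b (g i) = 0) → Br (Set.range g) (kr K b) ≤ kr K b :=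
    fun b hb => Br_le (kr_isPrime b) (by rintro _ ⟨i, rfl⟩; exact hb i) le_rfl
  have hp' : kr K (am Ω p) = Br (Set.range g) (kr K a) :=
    (brb_kr_comp (IsScalarTower.toAlgHom K K' Ω) (algebraMap K' Ω).injective p).trans hp
  have lp' : kr K (am Ω p) ≤ kr K a := hp' ▸ hle a ha
  have lq' : kr K q ≤ kr K a' := hq' ▸ hle a' ha'
  have gp : ∀ i, aeval (am Ω p) (g i) = 0 := fun i =>
    mem_kr.1 (hp' ▸ mem_Br_of_mem (kr_isPrime a) ⟨i, rfl⟩)
  have gq : ∀ i, aeval q (g i) = 0 := fun i =>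
    mem_kr.1 (hq' ▸ mem_Br_of_mem (kr_isPrime a') ⟨i, rfl⟩)
  have Jp : aeval (am Ω p) (Jac g c) ≠ 0 := fun h => hJ (lp' h)
  have Jq : aeval q (Jac g c) ≠ 0 := fun h => hJ' (lq' h)
  have hind := pair_ind hc ha hJ hc ha' hJ' hp hq
  have hspec := pair_spec (Ω := Ω) (p := p) (q := q) (a := a) (a' := a') (hp ▸ hle a ha)
    (hq ▸ Br_le (kr_isPrime _) (by rintro _ ⟨i, rfl⟩; exact brb_hg ha' i) le_rfl)
  have dp : dg (g i1) (am Ω p) (fun k => q k - am Ω p k) ≠ 0 := by
    intro h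
    have h1 : dg (g i1) (fun k => (X (Sum.inl k) : MvPolynomial (σ ⊕ σ) K))
        (fun k => X (Sum.inr k) - X (Sum.inl k)) ∈
        kr K (Sum.elim (fun k => algebraMap K' Ω (p k)) q) := by
      rw [mem_kr, trisec_dg_map]
      simpa using h
    have h2 := hspec h1
    rw [mem_kr, trisec_dg_map] at h2
    exact hnt.1 (by simpa using h2)
  have dq : dg (g i1) q (fun k => q k - am Ω p k) ≠ 0 := by
    intro h
    have h1 : dg (g i1) (fun k => (X (Sum.inr k) : MvPolynomial (σ ⊕ σ) K))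
        (fun k => X (Sum.inr k) - X (Sum.inl k)) ∈
        kr K (Sum.elim (fun k => algebraMap K' Ω (p k)) q) := by
      rw [mem_kr, trisec_dg_map]
      simpa using h
    have h2 := hspec h1
    rw [mem_kr, trisec_dg_map] at h2
    exact hnt.2 (by simpa using h2)
  rw [← hp', ← hq']
  exact trisec_field hc i1 lp' gp gq Jp Jq hind dp dq hs0 hs1 hy hyJ hyt

end

end Vale.Agent.P054
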