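import Vale.Agent.P054.Geo
import Vale.Agent.P054.Chain

namespace Vale.Agent.P054

open MvPolynomial

noncomputable section

variable {K : Type} [Field K] [CharZero K] {ε : Type} [Fintype ε] {ρ : Type} [Fintype ρ]

namespace PerpAux

/-- the split form as a bilinear map -/
def BB (ε A : Type) [Fintype ε] [CommRing A] : LinearMap.BilinForm A (ε ⊕ ε → A) :=
  LinearMap.mk₂ A bil
    (fun _ _ _ => by
      simp only [bil, Pi.add_apply, ← Finset.sum_add_distrib]
      exact Finset.sum_congr rfl fun i _ => by ring)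
    (fun _ _ _ => by
      simp only [bil, Pi.smul_apply, smul_eq_mul, Finset.mul_sum]
      exact Finset.sum_congr rfl fun i _ => by ring)
    (fun _ _ _ => by
      simp only [bil, Pi.add_apply, ← Finset.sum_add_distrib]
      exact Finset.sum_congr rfl fun i _ => by ring)
    (fun _ _ _ => by
      simp only [bil, Pi.smul_apply, smul_eq_mul, Finset.mul_sum]
      exact Finset.sum_congr rfl fun i _ => by ring)

section Ring

variable {A : Type} [CommRing A]

theorem BB_apply (v w : ε ⊕ ε → A) : BB ε A v w = bil v w := rfl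

theorem BB_comm (v w : ε ⊕ ε → A) : BB ε A v w = BB ε A w v :=
  Finset.sum_congr rfl fun _ _ => add_comm _ _

theorem BB_self (v : ε ⊕ ε → A) : BB ε A v v = 2 * ∑ i, v (Sum.inl i) * v (Sum.inr i) := by
  rw [BB_apply, bil, Finset.sum_add_distrib, two_mul]

theorem BB_map {A' : Type} [CommRing A'] (f : A →+* A') (v w : ε ⊕ ε → A) :
    f (BB ε A v w) = BB ε A' (fun b => f (v b)) fun b => f (w b) := by
  simp only [BB_apply, bil, map_sum, map_add, map_mul]

omit [CharZero K] in
theorem BB_deriv [Algebra K A] (D : Derivation K A A) (v w : ε ⊕ ε → A) :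
    D (BB ε A v w) = BB ε A (fun b => D (v b)) w + BB ε A v fun b => D (w b) := by
  simp only [BB_apply, bil, map_sum, map_add, Derivation.leibniz, smul_eq_mul,
    ← Finset.sum_add_distrib]
  exact Finset.sum_congr rfl fun i _ => by ring

end Ring

/-- coordinatewise derivative -/
def dv (k : ρ) (w : ε ⊕ ε → MvPowerSeries ρ K) : ε ⊕ ε → MvPowerSeries ρ K :=
  fun b => MvPowerSeries.pderiv K k (w b)

/-- iterated derivative -/
def dl (l : List ρ) (w : ε ⊕ ε → MvPowerSeries ρ K) : ε ⊕ ε → MvPowerSeries ρ K :=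
  l.foldr dv w

omit [CharZero K] [Fintype ρ] in
theorem BB_dv (k : ρ) (v w : ε ⊕ ε → MvPowerSeries ρ K) :
    MvPowerSeries.pderiv K k (BB ε _ v w) = BB ε _ (dv k v) w + BB ε _ v (dv k w) :=
  BB_deriv _ v w

omit [CharZero K] [Fintype ρ] [Fintype ε] in
theorem dv_comm (j k : ρ) (w : ε ⊕ ε → MvPowerSeries ρ K) : dv j (dv k w) = dv k (dv j w) := by
  classical
  funext b
  ext n
  simp only [dv, MvPowerSeries.coeff_pderiv, Finsupp.add_apply]
  rw [add_right_comm n]
  by_cases h : j = k
  · rw [h]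
  · rw [Finsupp.single_eq_of_ne h, Finsupp.single_eq_of_ne (Ne.symm h)]
    simp only [add_zero]
    ring

omit [CharZero K] [Fintype ρ] [Fintype ε] in
theorem dv_smul (j : ρ) (a : MvPowerSeries ρ K) (w : ε ⊕ ε → MvPowerSeries ρ K) :
    dv j (a • w) = a • dv j w + MvPowerSeries.pderiv K j a • w := by
  funext b
  simp only [dv, Pi.smul_apply, Pi.add_apply, smul_eq_mul, Derivation.leibniz]
  ring

omit [CharZero K] [Fintype ρ] [Fintype ε] in
theorem dv_sum {ι : Type} (s : Finset ι) (j : ρ) (w : ι → ε ⊕ ε → MvPowerSeries ρ K) :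
    dv j (∑ i ∈ s, w i) = ∑ i ∈ s, dv j (w i) := by
  funext b
  simp only [dv, Finset.sum_apply, map_sum]

/-- span of the derivatives of order at most `N` -/
def MM (ξ : ε ⊕ ε → MvPowerSeries ρ K) (N : ℕ) :
    Submodule (MvPowerSeries ρ K) (ε ⊕ ε → MvPowerSeries ρ K) :=
  Submodule.span _ {w | ∃ l : List ρ, l.length ≤ N ∧ w = dl l ξ}

omit [CharZero K] [Fintype ρ] [Fintype ε] in
theorem MM_dv {ξ w : ε ⊕ ε → MvPowerSeries ρ K} {N : ℕ} (h : w ∈ MM ξ N) :
    w ∈ MM ξ (N + 1) ∧ ∀ j, dv j w ∈ MM ξ (N + 1) := by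
  induction h using Submodule.span_induction with
  | mem w hw =>
    obtain ⟨l, hl, rfl⟩ := hw
    exact ⟨Submodule.subset_span ⟨l, by omega, rfl⟩,
      fun j => Submodule.subset_span ⟨j :: l, by simpa using hl, rfl⟩⟩
  | zero =>
    refine ⟨zero_mem _, fun j => ?_⟩
    have : dv j (0 : ε ⊕ ε → MvPowerSeries ρ K) = 0 := funext fun b => map_zero _
    rw [this]
    exact zero_mem _
  | add x y _ _ hx hy =>
    refine ⟨add_mem hx.1 hy.1, fun j => ?_⟩
    have : dv j (x + y) = dv j x + dv j y := funext fun b => map_add _ _ _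
    rw [this]
    exact add_mem (hx.2 j) (hy.2 j)
  | smul a x _ hx =>
    refine ⟨Submodule.smul_mem _ _ hx.1, fun j => ?_⟩
    rw [dv_smul]
    exact add_mem (Submodule.smul_mem _ _ (hx.2 j)) (Submodule.smul_mem _ _ hx.1)

omit [CharZero K] [Fintype ε] in
theorem field_mem {ξ : ε ⊕ ε → MvPowerSeries ρ K} {a : ρ → MvPowerSeries ρ K}
    (h : ∑ k, a k • dv k ξ = 0) (l : List ρ) : ∑ k, a k • dv k (dl l ξ) ∈ MM ξ l.length := by
  induction l with
  | nil => exact h.symm ▸ zero_mem _
  | cons j l ih =>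
    have e : ∑ k, a k • dv k (dl (j :: l) ξ) = dv j (∑ k, a k • dv k (dl l ξ)) -
        ∑ k, MvPowerSeries.pderiv K j (a k) • dv k (dl l ξ) := by
      rw [dv_sum, ← Finset.sum_sub_distrib]
      refine Finset.sum_congr rfl fun k _ => ?_
      rw [dv_smul, add_sub_cancel_right, dv_comm]
      rfl
    rw [e]
    exact sub_mem ((MM_dv ih).2 j) (Submodule.sum_mem _ fun k _ => Submodule.smul_mem _ _
      (Submodule.subset_span ⟨k :: l, le_rfl, rfl⟩))

omit [CharZero K] in
theorem coeff_low (a u : ρ → MvPowerSeries ρ K) (n : ρ →₀ ℕ)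
    (h : ∀ m < n, ∀ k, MvPowerSeries.coeff m (u k) = 0) :
    MvPowerSeries.coeff n (∑ k, a k * u k) =
      ∑ k, MvPowerSeries.constantCoeff (a k) * MvPowerSeries.coeff n (u k) := by
  classical
  rw [map_sum]
  refine Finset.sum_congr rfl fun k _ => ?_
  rw [MvPowerSeries.coeff_mul, Finset.sum_eq_single (0, n)]
  · rw [MvPowerSeries.coeff_zero_eq_constantCoeff]
  · rintro ⟨i, j⟩ hp hne
    have e : i + j = n := Finset.HasAntidiagonal.mem_antidiagonal.1 hp
    rw [h j (lt_of_le_of_ne (e ▸ le_add_self) ?_), mul_zero]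
    rintro rfl
    exact hne (by rw [add_eq_right.1 e])
  · intro hn
    exact absurd (Finset.HasAntidiagonal.mem_antidiagonal.2 (zero_add n)) hn

omit [Fintype ε] in
theorem exists_dl (n : ρ →₀ ℕ) : ∃ (l : List ρ) (c : K), c ≠ 0 ∧
    ∀ w : ε ⊕ ε → MvPowerSeries ρ K, (fun b => MvPowerSeries.constantCoeff (dl l w b)) =
      c • fun b => MvPowerSeries.coeff n (w b) := by
  induction n using WellFoundedLT.induction with
  | ind n ih =>
    rcases eq_or_ne n 0 with rfl | hn
    · exact ⟨[], 1, one_ne_zero, fun w => by rw [one_smul]; rfl⟩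
    · obtain ⟨j, hj⟩ : ∃ j, n j ≠ 0 := by
        by_contra hc
        exact hn (Finsupp.ext fun j => not_not.1 fun h => hc ⟨j, h⟩)
      have e := Finsupp.sub_add_single_one_cancel hj
      obtain ⟨l, c, hc, h⟩ := ih (n - Finsupp.single j 1) (by
        refine lt_of_lt_of_eq (lt_add_of_pos_right _ ?_) e
        exact pos_iff_ne_zero.2 (Finsupp.single_ne_zero.2 one_ne_zero))
      refine ⟨l ++ [j], c * (((n - Finsupp.single j 1 : ρ →₀ ℕ) j : K) + 1),
        mul_ne_zero hc (Nat.cast_add_one_ne_zero _), fun w => ?_⟩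
      have e2 : dl (l ++ [j]) w = dl l (dv j w) := List.foldr_append
      rw [e2, h]
      funext b
      simp only [dv, Pi.smul_apply, smul_eq_mul, MvPowerSeries.coeff_pderiv, e]
      ring

omit [CharZero K] in
theorem nondeg : (BB ε K).Nondegenerate := by
  classical
  have h : ∀ v : ε ⊕ ε → K, (∀ w, BB ε K v w = 0) → v = 0 := fun v hv => by
    funext b
    rcases b with i | i
    · simpa [BB_apply, bil, Pi.single_apply] using hv (Pi.single (Sum.inr i) 1)
    · simpa [BB_apply, bil, Pi.single_apply] using hv (Pi.single (Sum.inl i) 1)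
  exact ⟨h, fun v hv => h v fun w => (BB_comm v w).trans (hv w)⟩

/-- null vectors orthogonal to an isotropic subspace of corank one -/
theorem two_sub {V : Type} [AddCommGroup V] [Module K V] [FiniteDimensional K V]
    {B : LinearMap.BilinForm K V} (hs : ∀ x y, B x y = B y x) (hB : B.Nondegenerate) {e : ℕ}
    (hV : Module.finrank K V = e + e) (L : Submodule K V) (hd : Module.finrank K L + 1 = e)
    (hL : L ≤ B.orthogonal L) :
    ∃ U1 U2 : Submodule K V, Module.finrank K U1 ≤ e ∧ Module.finrank K U2 ≤ e ∧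
      ∀ v ∈ B.orthogonal L, B v v = 0 → v ∈ U1 ∨ v ∈ U2 := by
  have hle : Module.finrank K L ≤ e := hd ▸ Nat.le_succ _
  by_cases h1 : ∀ v ∈ B.orthogonal L, B v v = 0 → v ∈ L
  · exact ⟨L, L, hle, hle, fun v hv h => Or.inl (h1 v hv h)⟩
  push Not at h1
  obtain ⟨v1, o1, n1, m1⟩ := h1
  have d1 := (Submodule.finrank_sup_span_singleton m1).trans hd
  by_cases h2 : ∀ v ∈ B.orthogonal L, B v v = 0 → v ∈ L ⊔ K ∙ v1
  · exact ⟨L ⊔ K ∙ v1, L, d1.le, hle, fun v hv h => Or.inl (h2 v hv h)⟩
  push Not at h2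
  obtain ⟨v2, o2, n2, m2⟩ := h2
  have d2 := (Submodule.finrank_sup_span_singleton (p := L) (v := v2)
    fun h => m2 (Submodule.mem_sup_left h)).trans hd
  have d3 := Submodule.finrank_sup_span_singleton m2
  have d4 : Module.finrank K (B.orthogonal L) = e + 1 := by
    rw [LinearMap.BilinForm.finrank_orthogonal hB L, hV, ← hd]
    exact Nat.sub_eq_of_eq_add (by ring)
  have he : (L ⊔ K ∙ v1) ⊔ K ∙ v2 = B.orthogonal L :=
    Submodule.eq_of_le_of_finrank_le (sup_le (sup_le hL
      ((Submodule.span_singleton_le_iff_mem _ _).2 o1))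
      ((Submodule.span_singleton_le_iff_mem _ _).2 o2)) (by rw [d4, d3, d1])
  have dec : ∀ v ∈ B.orthogonal L, ∃ x ∈ L, ∃ a b : K, x + a • v1 + b • v2 = v :=
    fun v hv => by
      obtain ⟨y, hy, z, hz, e1⟩ := Submodule.mem_sup.1 (he.ge hv)
      obtain ⟨x, hx, w, hw, e2⟩ := Submodule.mem_sup.1 hy
      obtain ⟨a, e3⟩ := Submodule.mem_span_singleton.1 hw
      obtain ⟨b, e4⟩ := Submodule.mem_span_singleton.1 hz
      exact ⟨x, hx, a, b, by rw [e3, e4, e2, e1]⟩
  have h12 : B v2 v1 ≠ 0 := fun h => m1 (by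
    rw [← LinearMap.BilinForm.orthogonal_orthogonal hB (fun x y hxy => (hs y x).trans hxy) L]
    intro v hv
    obtain ⟨x, hx, a, b, rfl⟩ := dec v hv
    simp only [map_add, map_smul, LinearMap.add_apply, LinearMap.smul_apply, o1 x hx, n1, h,
      smul_zero, add_zero])
  refine ⟨L ⊔ K ∙ v1, L ⊔ K ∙ v2, d1.le, d2.le, fun v hv h => ?_⟩
  obtain ⟨x, hx, a, b, rfl⟩ := dec v hv
  simp only [map_add, map_smul, LinearMap.add_apply, LinearMap.smul_apply, o1 x hx, o2 x hx,
    hL hx x hx, (hs v1 x).trans (o1 x hx), (hs v2 x).trans (o2 x hx), hs v1 v2, n1, n2,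
    smul_eq_mul, mul_zero, add_zero, zero_add] at h
  have h' : 2 * (a * b) * B v2 v1 = 0 := by linear_combination h
  rcases mul_eq_zero.1 ((mul_eq_zero.1 ((mul_eq_zero.1 h').resolve_right h12)).resolve_left
    two_ne_zero) with rfl | rfl
  · refine Or.inr ?_
    rw [zero_smul, add_zero]
    exact Submodule.add_mem_sup hx (Submodule.smul_mem _ _ (Submodule.mem_span_singleton_self _))
  · refine Or.inl ?_
    rw [zero_smul, add_zero]
    exact Submodule.add_mem_sup hx (Submodule.smul_mem _ _ (Submodule.mem_span_singleton_self _))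

end PerpAux

open PerpAux in
/-- two transverse foliations by flats have orthogonal parameter spaces. -/
theorem perp {S1 S2 : Type} [Fintype S1] [Fintype S2] (ξ1 ξ2 : ε ⊕ ε → MvPowerSeries ρ K)
    (a1 : S1 → ρ → MvPowerSeries ρ K) (a2 : S2 → ρ → MvPowerSeries ρ K)
    (h1 : ∀ s b, ∑ k, a1 s k * MvPowerSeries.pderiv K k (ξ1 b) = 0)
    (h2 : ∀ s b, ∑ k, a2 s k * MvPowerSeries.pderiv K k (ξ2 b) = 0)
    (hspan : ∀ w : ρ → K, (∀ s, ∑ k, MvPowerSeries.constantCoeff (a1 s k) * w k = 0) →
      (∀ s, ∑ k, MvPowerSeries.constantCoeff (a2 s k) * w k = 0) → w = 0)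
    (hb : bil ξ1 ξ2 = 0) (n n' : ρ →₀ ℕ) :
    bil (fun b => MvPowerSeries.coeff n (ξ1 b)) (fun b => MvPowerSeries.coeff n' (ξ2 b)) = 0 := by
  have f1 : ∀ s, ∑ k, a1 s k • dv k ξ1 = 0 := fun s => funext fun b => by
    rw [Finset.sum_apply]
    exact h1 s b
  have f2 : ∀ s, ∑ k, a2 s k • dv k ξ2 = 0 := fun s => funext fun b => by
    rw [Finset.sum_apply]
    exact h2 s b
  have s1 : ∀ N, ∀ l : List ρ, l.length ≤ N → BB ε _ (dl l ξ1) ξ2 = 0 := by
    intro N
    induction N with
    | zero =>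
      intro l hl
      rw [List.length_eq_zero_iff.1 (Nat.le_zero.1 hl)]
      exact hb
    | succ N ih =>
      intro l hl
      rcases l with _ | ⟨j, l⟩
      · exact hb
      have hl' : l.length ≤ N := by simpa using hl
      have hM : MM ξ1 l.length ≤ LinearMap.ker ((BB ε _).flip ξ2) :=
        Submodule.span_le.2 (by
          rintro _ ⟨l', h, rfl⟩
          exact ih l' (h.trans hl'))
      have u1 : ∀ s, ∑ k, a1 s k * BB ε _ (dv k (dl l ξ1)) ξ2 = 0 := fun s => by
        have := hM (field_mem (f1 s) l)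
        simp only [LinearMap.mem_ker, map_sum, map_smul, smul_eq_mul] at this
        exact this
      have u2 : ∀ s, ∑ k, a2 s k * BB ε _ (dv k (dl l ξ1)) ξ2 = 0 := fun s => by
        have e : ∀ k, BB ε _ (dv k (dl l ξ1)) ξ2 = -BB ε _ (dl l ξ1) (dv k ξ2) := fun k => by
          rw [eq_neg_iff_add_eq_zero, ← BB_dv, ih l hl', map_zero]
        have := congrArg (BB ε _ (dl l ξ1)) (f2 s)
        simp only [map_sum, map_smul, smul_eq_mul, map_zero] at this
        simp only [e, mul_neg, Finset.sum_neg_distrib, this, neg_zero]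
      have u3 : ∀ m : ρ →₀ ℕ, ∀ k, MvPowerSeries.coeff m (BB ε _ (dv k (dl l ξ1)) ξ2) = 0 := by
        intro m
        induction m using WellFoundedLT.induction with
        | ind m ihm =>
          exact congrFun (hspan _ (fun s => by rw [← coeff_low _ _ m ihm, u1, map_zero])
            fun s => by rw [← coeff_low _ _ m ihm, u2, map_zero])
      exact MvPowerSeries.ext fun m => u3 m j
  have s2 : ∀ l' l : List ρ, BB ε _ (dl l ξ1) (dl l' ξ2) = 0 := by
    intro l'
    induction l' with
    | nil => exact fun l => s1 _ l le_rfl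
    | cons j l' ih =>
      intro l
      have e := BB_dv j (dl l ξ1) (dl l' ξ2)
      rw [ih l, map_zero, show dv j (dl l ξ1) = dl (j :: l) ξ1 from rfl, ih, zero_add] at e
      exact e.symm
  obtain ⟨l, c, hc, h⟩ := exists_dl (K := K) (ε := ε) n
  obtain ⟨l', c', hc', h'⟩ := exists_dl (K := K) (ε := ε) n'
  have e := BB_map MvPowerSeries.constantCoeff (dl l ξ1) (dl l' ξ2)
  rw [s2, map_zero, h, h', map_smul, map_smul, LinearMap.smul_apply] at e
  exact (smul_eq_zero.1 ((smul_eq_zero.1 e.symm).resolve_left hc')).resolve_left hc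

open PerpAux in
/-- null vectors orthogonal to a large family of null vectors lie in two small subspaces. -/
theorem lam (ξ : ε ⊕ ε → MvPowerSeries ρ K) (hn : Nul ξ)
    (hdim : Fintype.card ε ≤ Module.finrank K (Submodule.span K
      (insert (fun b => MvPowerSeries.constantCoeff (ξ b))
        (Set.range fun k : ρ => fun b => MvPowerSeries.coeff (Finsupp.single k 1) (ξ b)))) + 1) :
    ∃ U1 U2 : Submodule K (ε ⊕ ε → K), Module.finrank K U1 ≤ Fintype.card ε ∧
      Module.finrank K U2 ≤ Fintype.card ε ∧ ∀ v : ε ⊕ ε → K, Nul v →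
        bil (fun b => (MvPowerSeries.C (v b) : MvPowerSeries ρ K)) ξ = 0 → v ∈ U1 ∨ v ∈ U2 := by
  let L := Submodule.span K (Set.range fun n : ρ →₀ ℕ => fun b => MvPowerSeries.coeff n (ξ b))
  have hv : ∀ v : ε ⊕ ε → K, bil (fun b => (MvPowerSeries.C (v b) : MvPowerSeries ρ K)) ξ = 0 →
      v ∈ (BB ε K).orthogonal L := fun v h w hw => by
    have : L ≤ LinearMap.ker (BB ε K v) := Submodule.span_le.2 (by
      rintro _ ⟨n, rfl⟩
      have e := congrArg (MvPowerSeries.coeff n) h
      simp only [bil, map_sum, map_add, map_zero, MvPowerSeries.coeff_C_mul,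
        MvPowerSeries.coeff_mul_C] at e
      exact e)
    exact (BB_comm w v).trans (this hw)
  have hV : Module.finrank K (ε ⊕ ε → K) = Fintype.card ε + Fintype.card ε := by
    rw [Module.finrank_fintype_fun_eq_card, Fintype.card_sum]
  by_cases hd : Fintype.card ε ≤ Module.finrank K L
  · have d4 := LinearMap.BilinForm.finrank_orthogonal nondeg L
    exact ⟨(BB ε K).orthogonal L, (BB ε K).orthogonal L, by omega, by omega,
      fun v _ h => Or.inl (hv v h)⟩
  set L0 := Submodule.span K (insert (fun b => MvPowerSeries.constantCoeff (ξ b))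
    (Set.range fun k : ρ => fun b => MvPowerSeries.coeff (Finsupp.single k 1) (ξ b))) with hL0
  have hle : L0 ≤ L := Submodule.span_mono (by
    rintro _ (rfl | ⟨k, rfl⟩)
    · exact ⟨0, rfl⟩
    · exact ⟨_, rfl⟩)
  have hfin := Submodule.finrank_mono hle
  have heq : L0 = L := Submodule.eq_of_le_of_finrank_le hle (by omega)
  have b0 : BB ε _ ξ ξ = 0 := by rw [BB_self, hn, mul_zero]
  have b1 : ∀ k, BB ε _ (dv k ξ) ξ = 0 := fun k => by
    have e := BB_dv k ξ ξ
    rw [b0, map_zero, BB_comm ξ, ← two_smul K] at e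
    exact (smul_eq_zero.1 e.symm).resolve_left two_ne_zero
  have c1 : ∀ k, (fun b => MvPowerSeries.constantCoeff (dv k ξ b)) =
      fun b => MvPowerSeries.coeff (Finsupp.single k 1) (ξ b) := fun k => funext fun b => by
    rw [← MvPowerSeries.coeff_zero_eq_constantCoeff_apply, dv, MvPowerSeries.coeff_pderiv]
    simp
  have o0 : L0 ≤ LinearMap.ker ((BB ε K).flip fun b => MvPowerSeries.constantCoeff (ξ b)) :=
    Submodule.span_le.2 (by
      rintro _ (rfl | ⟨k, rfl⟩)
      · exact (BB_map _ ξ ξ).symm.trans (by rw [b0, map_zero])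
      · have e := BB_map MvPowerSeries.constantCoeff (dv k ξ) ξ
        rw [b1, map_zero, c1] at e
        exact e.symm)
  have o1 : ∀ k, L0 ≤ LinearMap.ker ((BB ε K).flip
      fun b => MvPowerSeries.coeff (Finsupp.single k 1) (ξ b)) := fun k =>
    Submodule.span_le.2 (by
      rintro _ (rfl | ⟨j, rfl⟩)
      · have e : BB ε K (fun b => MvPowerSeries.coeff (Finsupp.single k 1) (ξ b))
            (fun b => MvPowerSeries.constantCoeff (ξ b)) = 0 :=
          o0 (Submodule.subset_span (Or.inr ⟨k, rfl⟩))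
        exact (BB_comm _ _).trans e
      · have e := congrArg MvPowerSeries.constantCoeff (BB_dv k (dv j ξ) ξ)
        have m2 : (fun b => MvPowerSeries.constantCoeff (dv k (dv j ξ) b)) ∈ L0 := by
          have e2 : (fun b => MvPowerSeries.constantCoeff (dv k (dv j ξ) b)) =
              (((Finsupp.single k 1 : ρ →₀ ℕ) j : K) + 1) • fun b =>
                MvPowerSeries.coeff (Finsupp.single k 1 + Finsupp.single j 1) (ξ b) :=
            funext fun b => by
              rw [← MvPowerSeries.coeff_zero_eq_constantCoeff_apply]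
              simp [dv, MvPowerSeries.coeff_pderiv, mul_comm]
          rw [e2, heq]
          exact Submodule.smul_mem _ _ (Submodule.subset_span ⟨_, rfl⟩)
        have e3 : BB ε K (fun b => MvPowerSeries.constantCoeff (dv k (dv j ξ) b))
            (fun b => MvPowerSeries.constantCoeff (ξ b)) = 0 := o0 m2
        rw [b1, map_zero, map_zero, map_add, BB_map, BB_map, e3, zero_add, c1, c1] at e
        exact e.symm)
  have hiso : L0 ≤ (BB ε K).orthogonal L0 := Submodule.span_le.2 (by
    rintro _ (rfl | ⟨k, rfl⟩)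
    · exact fun w hw => o0 hw
    · exact fun w hw => o1 k hw)
  rw [heq] at hiso
  obtain ⟨U1, U2, d1, d2, h⟩ := two_sub BB_comm nondeg hV L (by omega) hiso
  exact ⟨U1, U2, d1, d2, fun v h1 h2 => h v (hv v h2) (by rw [BB_self, h1, mul_zero])⟩

end

end Vale.Agent.P054
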