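import Vale.Agent.P054.Defs

namespace Vale.Agent.P054

open MvPolynomial

noncomputable section

/-- two affine functions changing order meet strictly in between. -/
theorem planar_root {m c m' c' s t : ℝ} (hst : s < t) (h1 : m * s + c < m' * s + c')
    (h2 : m' * t + c' < m * t + c) : ∃ r, s < r ∧ r < t ∧ m * r + c = m' * r + c' := by
  have hm : 0 < m - m' := by nlinarith
  refine ⟨(c' - c) / (m - m'), ?_, ?_, ?_⟩
  · rw [lt_div_iff₀ hm]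
    linarith
  · rw [div_lt_iff₀ hm]
    linarith
  · field_simp
    ring

/-- every edge is a top edge at one of its ends or lies directly below a vertex. -/
theorem planar_class {V : Finset (ℝ × ℝ)} {E : Finset ((ℝ × ℝ) × (ℝ × ℝ))}
    {m c : (ℝ × ℝ) × (ℝ × ℝ) → ℝ} (hinj : Set.InjOn Prod.fst (V : Set (ℝ × ℝ)))
    (hE : ∀ e ∈ E, e.1 ∈ V ∧ e.2 ∈ V ∧ e.1.1 < e.2.1)
    (hl : ∀ e ∈ E, e.1.2 = m e * e.1.1 + c e) (hr : ∀ e ∈ E, e.2.2 = m e * e.2.1 + c e)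
    (hV : ∀ e ∈ E, ∀ v ∈ V, e.1.1 < v.1 → v.1 < e.2.1 → v.2 ≠ m e * v.1 + c e)
    (hX : ∀ e ∈ E, ∀ e' ∈ E, ∀ t, e.1.1 < t → t < e.2.1 → e'.1.1 < t → t < e'.2.1 →
      m e * t + c e = m e' * t + c e' → e = e') {e : (ℝ × ℝ) × (ℝ × ℝ)} (he : e ∈ E) :
    (∀ e' ∈ E, e'.1 = e.1 → m e' ≤ m e) ∨ (∀ e' ∈ E, e'.2 = e.2 → m e ≤ m e') ∨
      ∃ u ∈ V, e.1.1 < u.1 ∧ u.1 < e.2.1 ∧ m e * u.1 + c e < u.2 ∧
        ∀ e' ∈ E, e'.1.1 < u.1 → u.1 < e'.2.1 → m e' * u.1 + c e' < u.2 →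
          m e' * u.1 + c e' ≤ m e * u.1 + c e := by
  classical
  have nc : ∀ f ∈ E, ∀ f' ∈ E, ∀ s t : ℝ, s < t → f.1.1 ≤ s → f'.1.1 ≤ s → t ≤ f.2.1 →
      t ≤ f'.2.1 → m f' * t + c f' < m f * t + c f → m f' * s + c f' ≤ m f * s + c f := by
    intro f hf f' hf' s t hst a1 a2 a3 a4 h2
    by_contra! h1
    obtain ⟨r, r1, r2, r3⟩ := planar_root hst h1 h2
    rw [hX f hf f' hf' r (a1.trans_lt r1) (r2.trans_le a3) (a2.trans_lt r1) (r2.trans_le a4) r3]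
      at h1
    exact lt_irrefl _ h1
  by_cases hA : ∀ e' ∈ E, e'.1 = e.1 → m e' ≤ m e
  · exact Or.inl hA
  right
  push Not at hA
  obtain ⟨g, hg, gmin⟩ := (E.filter fun f => f.1 = e.1 ∧ m e < m f).exists_min_image m (by
    obtain ⟨f, h1, h2, h3⟩ := hA
    exact ⟨f, Finset.mem_filter.2 ⟨h1, h2, h3⟩⟩)
  obtain ⟨hg, g1, g2⟩ := Finset.mem_filter.1 hg
  have l1 := hl e he
  have l2 := hl g hg
  rw [g1] at l2
  have e3 := (hE e he).2.2
  have g3 := (hE g hg).2.2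
  rw [g1] at g3
  have up : ∀ t, e.1.1 < t → m e * t + c e < m g * t + c g := fun t ht => by nlinarith
  obtain ⟨u, hu, umin⟩ := (V.filter fun u => e.1.1 < u.1 ∧ u.1 ≤ e.2.1 ∧ u.1 ≤ g.2.1 ∧
      m e * u.1 + c e ≤ u.2 ∧ u.2 ≤ m g * u.1 + c g).exists_min_image Prod.fst (by
    rcases le_total e.2.1 g.2.1 with h | h
    · exact ⟨e.2, Finset.mem_filter.2 ⟨(hE e he).2.1, e3, le_rfl, h, (hr e he).ge,
        (hr e he).trans_le (up _ e3).le⟩⟩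
    · exact ⟨g.2, Finset.mem_filter.2 ⟨(hE g hg).2.1, g3, h, le_rfl,
        (up _ g3).le.trans (hr g hg).ge, (hr g hg).le⟩⟩)
  obtain ⟨hu, u1, u2, u3, u4, u5⟩ := Finset.mem_filter.1 hu
  have key : ∀ f ∈ E, f.1.1 < u.1 → u.1 ≤ f.2.1 → m f * u.1 + c f < m g * u.1 + c g →
      (m e * u.1 + c e < m f * u.1 + c f ∨
        (m e * u.1 + c e = m f * u.1 + c f ∧ m f < m e)) → False := by
    intro f hf f1 f2 f3 f4
    have l3 := hl f hf
    have b : ∀ s, s < u.1 → e.1.1 ≤ s → f.1.1 ≤ s →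
        m e * s + c e ≤ m f * s + c f ∧ m f * s + c f ≤ m g * s + c g := fun s s1 s2 s3 => by
      refine ⟨?_, nc g hg f hf s u.1 s1 (g1 ▸ s2) s3 u3 f2 f3⟩
      rcases f4 with h | ⟨h, h'⟩
      · exact nc f hf e he s u.1 s1 s3 s2 f2 u2 h
      · nlinarith
    rcases lt_trichotomy e.1.1 f.1.1 with h | h | h
    · obtain ⟨b1, b2⟩ := b _ f1 h.le le_rfl
      exact absurd (umin f.1 (Finset.mem_filter.2 ⟨(hE f hf).1, h, f1.le.trans u2,
        f1.le.trans u3, b1.trans l3.ge, l3.trans_le b2⟩)) (not_le.2 f1)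
    · have h1 : f.1 = e.1 := hinj (hE f hf).1 (hE e he).1 h.symm
      rw [h1] at l3
      rcases f4 with h2 | ⟨h2, h3⟩
      · have := gmin f (Finset.mem_filter.2 ⟨hf, h1, by nlinarith⟩)
        nlinarith
      · nlinarith
    · obtain ⟨b1, b2⟩ := b _ u1 le_rfl h.le
      exact hV f hf e.1 (hE e he).1 h (u1.trans_le f2) (by linarith)
  rcases u2.eq_or_lt with h | h
  · refine Or.inl fun f hf h1 => ?_
    by_contra! h2
    have h3 : m e * u.1 + c e = m f * u.1 + c f := by rw [h, ← hr e he, ← h1, ← hr f hf]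
    exact key f hf (by rw [h, ← h1]; exact (hE f hf).2.2) (by rw [h, h1]) (h3 ▸ up _ u1)
      (Or.inr ⟨h3, h2⟩)
  · refine Or.inr ⟨u, hu, u1, h, lt_of_le_of_ne u4 (hV e he u hu u1 h).symm,
      fun f hf f1 f2 f3 => ?_⟩
    by_contra! h2
    exact key f hf f1 f2.le (f3.trans_le u5) (Or.inl h2)

theorem planar_abs {V : Finset (ℝ × ℝ)} {E : Finset ((ℝ × ℝ) × (ℝ × ℝ))}
    {m c : (ℝ × ℝ) × (ℝ × ℝ) → ℝ} (hinj : Set.InjOn Prod.fst (V : Set (ℝ × ℝ)))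
    (hE : ∀ e ∈ E, e.1 ∈ V ∧ e.2 ∈ V ∧ e.1.1 < e.2.1)
    (hl : ∀ e ∈ E, e.1.2 = m e * e.1.1 + c e) (hr : ∀ e ∈ E, e.2.2 = m e * e.2.1 + c e)
    (hV : ∀ e ∈ E, ∀ v ∈ V, e.1.1 < v.1 → v.1 < e.2.1 → v.2 ≠ m e * v.1 + c e)
    (hX : ∀ e ∈ E, ∀ e' ∈ E, ∀ t, e.1.1 < t → t < e.2.1 → e'.1.1 < t → t < e'.2.1 →
      m e * t + c e = m e' * t + c e' → e = e') :
    E.card ≤ 3 * V.card := by
  have h := Finset.card_le_card_of_forall_subsingleton (s := E)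
    (t := (Finset.univ : Finset (Fin 3)) ×ˢ V)
    (fun e z => (z.1 = 0 ∧ z.2 = e.1 ∧ ∀ e' ∈ E, e'.1 = e.1 → m e' ≤ m e) ∨
      (z.1 = 1 ∧ z.2 = e.2 ∧ ∀ e' ∈ E, e'.2 = e.2 → m e ≤ m e') ∨
      (z.1 = 2 ∧ e.1.1 < z.2.1 ∧ z.2.1 < e.2.1 ∧ m e * z.2.1 + c e < z.2.2 ∧
        ∀ e' ∈ E, e'.1.1 < z.2.1 → z.2.1 < e'.2.1 → m e' * z.2.1 + c e' < z.2.2 →
          m e' * z.2.1 + c e' ≤ m e * z.2.1 + c e)) (fun e he => ?_) ?_
  · simpa using h
  · rcases planar_class hinj hE hl hr hV hX he with h | h | ⟨u, hu, h⟩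
    · exact ⟨(0, e.1), by simpa using (hE e he).1, Or.inl ⟨rfl, rfl, h⟩⟩
    · exact ⟨(1, e.2), by simpa using (hE e he).2.1, Or.inr (Or.inl ⟨rfl, rfl, h⟩)⟩
    · exact ⟨(2, u), by simpa using hu, Or.inr (Or.inr ⟨rfl, h⟩)⟩
  · rintro ⟨k, u⟩ - e ⟨he, h⟩ f ⟨hf, h'⟩
    have e3 := (hE e he).2.2
    have f3 := (hE f hf).2.2
    rcases h with ⟨rfl, h1, h2⟩ | ⟨rfl, h1, h2⟩ | ⟨rfl, h1, h2, h3, h4⟩
    · obtain ⟨-, h3, h4⟩ := (h'.resolve_right (by simp))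
      have h5 : f.1 = e.1 := h3.symm.trans h1
      have h6 : m e = m f := le_antisymm (h4 e he h5.symm) (h2 f hf h5)
      have l1 := hl e he
      have l2 := hl f hf
      rw [h5] at l2 f3
      obtain ⟨t, t1, t2⟩ := exists_between (lt_min e3 f3)
      exact hX e he f hf t t1 (t2.trans_le (min_le_left _ _)) (h5 ▸ t1)
        (t2.trans_le (min_le_right _ _)) (by rw [h6] at l1 ⊢; linarith)
    · obtain ⟨-, h3, h4⟩ := ((h'.resolve_left (by simp)).resolve_right (by simp))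
      have h5 : f.2 = e.2 := h3.symm.trans h1
      have h6 : m e = m f := le_antisymm (h2 f hf h5) (h4 e he h5.symm)
      have l1 := hr e he
      have l2 := hr f hf
      rw [h5] at l2 f3
      obtain ⟨t, t1, t2⟩ := exists_between (max_lt e3 f3)
      exact hX e he f hf t ((le_max_left _ _).trans_lt t1) t2 ((le_max_right _ _).trans_lt t1)
        (h5 ▸ t2) (by rw [h6] at l1 ⊢; linarith)
    · obtain ⟨-, h5, h6, h7, h8⟩ := ((h'.resolve_left (by simp)).resolve_left (by simp))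
      exact hX e he f hf _ h1 h2 h5 h6 (le_antisymm (h8 e he h1 h2 h3) (h4 f hf h5 h6 h7))

theorem planar_mem {a b : ℝ × ℝ} {t : ℝ} (h1 : a.1 < t) (h2 : t < b.1) :
    (t, (b.2 - a.2) / (b.1 - a.1) * t + (a.2 - (b.2 - a.2) / (b.1 - a.1) * a.1)) ∈
      openSegment ℝ a b := by
  have h : 0 < b.1 - a.1 := by linarith
  refine ⟨(b.1 - t) / (b.1 - a.1), (t - a.1) / (b.1 - a.1), div_pos (by linarith) h,
    div_pos (by linarith) h, ?_, Prod.ext ?_ ?_⟩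
  · field_simp
    ring
  · simp only [Prod.fst_add, Prod.smul_fst, smul_eq_mul]
    field_simp
    ring
  · simp only [Prod.snd_add, Prod.smul_snd, smul_eq_mul]
    field_simp
    ring

/-- a plane straight line graph has at most `3 n` edges. -/
theorem planar_edges (V : Finset (ℝ × ℝ)) (E : Finset ((ℝ × ℝ) × (ℝ × ℝ)))
    (hinj : Set.InjOn Prod.fst (V : Set (ℝ × ℝ)))
    (hE : ∀ e ∈ E, e.1 ∈ V ∧ e.2 ∈ V ∧ e.1.1 < e.2.1)
    (hV : ∀ e ∈ E, ∀ v ∈ V, v ∉ openSegment ℝ e.1 e.2)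
    (hX : ∀ e ∈ E, ∀ e' ∈ E, e ≠ e' →
      Disjoint (openSegment ℝ e.1 e.2) (openSegment ℝ e'.1 e'.2)) :
    E.card ≤ 3 * V.card := by
  refine planar_abs (m := fun e => (e.2.2 - e.1.2) / (e.2.1 - e.1.1))
    (c := fun e => e.1.2 - (e.2.2 - e.1.2) / (e.2.1 - e.1.1) * e.1.1) hinj hE
    (fun e _ => by ring) (fun e he => ?_) (fun e he v hv h1 h2 h3 => hV e he v hv ?_)
    fun e he f hf t h1 h2 h3 h4 h5 => ?_
  · have h : e.2.1 - e.1.1 ≠ 0 := sub_ne_zero.2 (hE e he).2.2.ne'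
    field_simp
    ring
  · have := planar_mem h1 h2
    rwa [← h3] at this
  · by_contra h
    have h6 := planar_mem h1 h2
    rw [h5] at h6
    exact Set.disjoint_left.1 (hX e he f hf h) h6 (planar_mem h3 h4)

end

end Vale.Agent.P054
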