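import Vale.Agent.P054.RootDefs
import Vale.Agent.P054.Homog
import Vale.Agent.P054.Chain

namespace Vale.Agent.P054

open MvPolynomial

set_option linter.unusedSectionVars false

noncomputable section

variable {K : Type} [Field K] {σ : Type} [Fintype σ] {g J : ℕ → MvPolynomial σ K}
  {Ω : Type} [Field Ω] [Algebra K Ω]

/-- restriction of a polynomial to a line. -/
def rootBLine (K : Type) [Field K] {σ A : Type} [CommRing A] [Algebra K A] (p v : σ → A) :
    MvPolynomial σ K →ₐ[K] Polynomial A :=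
  aeval fun k => Polynomial.C (p k) + Polynomial.X * Polynomial.C (v k)

theorem rootB_eval {A : Type} [CommRing A] [Algebra K A] (p v : σ → A) (s : A)
    (f : MvPolynomial σ K) : (rootBLine K p v f).eval s = aeval (lp p v s) f := by
  induction f using MvPolynomial.induction_on with
  | C a => simp [rootBLine]
  | add f g hf hg => simp only [map_add, Polynomial.eval_add, hf, hg]
  | mul_X f k hf => rw [map_mul, map_mul, Polynomial.eval_mul, hf]; simp [rootBLine, lp, mul_comm s]

theorem rootB_deriv {A : Type} [CommRing A] [Algebra K A] (p v : σ → A) (s : A)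
    (f : MvPolynomial σ K) : (rootBLine K p v f).derivative.eval s = dg f (lp p v s) v := by
  have h := deriv_algHom (rootBLine K p v) (Polynomial.derivative'.restrictScalars K) f
  rw [Derivation.restrictScalars_apply, Polynomial.derivative'_apply] at h
  rw [h, Polynomial.eval_finsetSum]
  refine Finset.sum_congr rfl fun k _ => ?_
  rw [Polynomial.eval_mul, rootB_eval]
  simp [rootBLine]

theorem rootB_natDegree (p v : σ → Ω) (f : MvPolynomial σ K) :
    (rootBLine K p v f).natDegree ≤ f.totalDegree := by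
  have h : rootBLine K p v f = aeval (fun k => Polynomial.C (p k) + Polynomial.X * Polynomial.C (v k))
      (map (algebraMap K Ω) f) := (aeval_map_algebraMap Ω _ f).symm
  have h2 : (map (algebraMap K Ω) f).totalDegree ≤ f.totalDegree :=
    Finset.sup_mono (support_map_subset _ _)
  rw [h, ← mul_one f.totalDegree]
  refine aeval_natDegree_le _ h2 _ fun k => ?_
  compute_degree

theorem rootB_map {A B : Type} [CommRing A] [Algebra K A] [CommRing B] [Algebra K B]
    (φ : A →ₐ[K] B) (p v : σ → A) (f : MvPolynomial σ K) (i : ℕ) :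
    φ ((rootBLine K p v f).coeff i) =
      (rootBLine K (fun k => φ (p k)) (fun k => φ (v k)) f).coeff i := by
  have h : (Polynomial.mapAlgHom φ).comp (rootBLine K p v) =
      rootBLine K (fun k => φ (p k)) (fun k => φ (v k)) := by
    ext1 k
    simp [rootBLine]
  rw [← h]
  simp

theorem rootB_coeff {τ : Type} (p : σ → K) (u : σ → MvPolynomial τ K)
    (hu : ∀ k, (u k).totalDegree ≤ 1) (f : MvPolynomial σ K) (i : ℕ) :
    ((rootBLine K (fun k => C (p k)) u f).coeff i).totalDegree ≤ i := by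
  induction f using MvPolynomial.induction_on generalizing i with
  | C a =>
    rw [algHom_C, Polynomial.algebraMap_apply, Polynomial.coeff_C]
    split_ifs <;> simp
  | add f g hf hg =>
    rw [map_add, Polynomial.coeff_add]
    exact (totalDegree_add _ _).trans (max_le (hf i) (hg i))
  | mul_X f k hf =>
    have h1 : rootBLine K (fun k => (C (p k) : MvPolynomial τ K)) u (X k) =
      Polynomial.C (C (p k)) + Polynomial.X * Polynomial.C (u k) := aeval_X _ _
    rw [map_mul, h1, mul_add, Polynomial.coeff_add, Polynomial.coeff_mul_C, ← mul_assoc,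
      Polynomial.coeff_mul_C]
    refine (totalDegree_add _ _).trans (max_le ((totalDegree_mul _ _).trans ?_) ?_)
    · simpa using hf i
    · rcases i with _ | i
      · simp
      · rw [Polynomial.coeff_mul_X]
        exact (totalDegree_mul _ _).trans (add_le_add (hf i) (hu k))

theorem rootB_am (p : σ → K) (f : MvPolynomial σ K) :
    aeval (am Ω p) f = algebraMap K Ω (aeval p f) := aeval_algebraMap_apply Ω p f

theorem rootB_dg_mul (f : MvPolynomial σ K) (x v : σ → Ω) (c : Ω) :
    dg f x (fun k => c * v k) = c * dg f x v := by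
  simp only [dg, Finset.mul_sum, mul_left_comm c]

theorem rootB_scale {t : ℕ} {p p' v v' : σ → Ω} {s s' c : Ω} (hs : s' ≠ 0) (hc : c ≠ 0)
    (hv : ∀ k, v' k = c * v k) (hl : lp p' v' s' = lp p v s) (h : s ∈ Rt g J t p v) :
    s' ∈ Rt g J t p' v' := by
  refine ⟨hs, hl ▸ h.2.1, hl ▸ h.2.2.1, ?_⟩
  rw [hl, funext hv, rootB_dg_mul]
  exact mul_ne_zero hc h.2.2.2

theorem rootB_erase (T : Finset Ω) [DecidableEq Ω] (s : Ω) {μ : ℝ}
    (h : ((T.erase s).card : ℝ) ≤ μ) : (T.card : ℝ) ≤ μ + 1 := by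
  have h1 : T.card ≤ (T.erase s).card + 1 := by
    have := Finset.pred_card_le_card_erase (s := T) (a := s)
    omega
  have h2 : (T.card : ℝ) ≤ (T.erase s).card + 1 := by exact_mod_cast h1
  linarith

theorem Rt_anti {t t' : ℕ} (h : t ≤ t') (p v : σ → Ω) : Rt g J t' p v ⊆ Rt g J t p v := by
  exact fun s hs => ⟨hs.1, fun i hi => hs.2.1 i (hi.trans_le h), fun r hr => hs.2.2.1 r (hr.trans h),
    hs.2.2.2⟩

theorem RB.mono {t t' : ℕ} {p q : σ → Ω} {μ μ' : ℝ} (h : RB g J t p q μ) (ht : t ≤ t')
    (hμ : μ ≤ μ') : RB g J t' p q μ' := by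
  exact fun T hT => (h T fun s hs => ⟨(hT s hs).1, Rt_anti ht _ _ (hT s hs).2⟩).trans hμ

theorem rtB_deg {t : ℕ} (ht : 1 ≤ t) (p v : σ → Ω) : RtB g J t p v (g 0).totalDegree := by
  intro T hT
  rcases T.eq_empty_or_nonempty with rfl | ⟨s0, hs0⟩
  · simp
  have h0 : rootBLine K p v (g 0) ≠ 0 := fun h => (hT s0 hs0).2.2.2 (by
    rw [← rootB_deriv, h]
    simp)
  exact_mod_cast (Polynomial.card_le_degree_of_subset_roots (p := rootBLine K p v (g 0))
    fun s hs => (Polynomial.mem_roots h0).2
      ((rootB_eval p v s _).trans ((hT s hs).2.1 0 ht))).trans (rootB_natDegree p v _)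

theorem rB_deg {t : ℕ} (ht : 1 ≤ t) (p q : σ → Ω) : RB g J t p q (g 0).totalDegree := by
  exact fun T hT => rtB_deg ht p _ T fun s hs => (hT s hs).2

theorem RB.swap {t : ℕ} {p q : σ → Ω} {μ : ℝ} (h : RB g J t p q μ) : RB g J t q p μ := by
  classical
  intro T hT
  rw [← Finset.card_image_of_injective T (sub_right_injective (b := (1 : Ω)))]
  refine h _ fun s' hs' => ?_
  obtain ⟨s, hs, rfl⟩ := Finset.mem_image.1 hs'
  refine ⟨fun h1 => (hT s hs).2.1 (by linear_combination -h1), rootB_scale (c := -1)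
    (sub_ne_zero.2 (hT s hs).1.symm) (by simp) (fun k => by ring) ?_ (hT s hs).2⟩
  funext k
  simp only [lp]
  ring

theorem RB.rtB {t : ℕ} {p v : σ → Ω} {s : Ω} (hs : s ≠ 0) {μ : ℝ}
    (h : RB g J t p (lp p v s) μ) : RtB g J t p v (μ + 1) := by
  classical
  intro T hT
  refine rootB_erase T s ?_
  rw [← Finset.card_image_of_injective _ (f := (· / s)) fun a b => (div_left_inj' hs).1]
  refine h _ fun s' hs' => ?_
  obtain ⟨r, hr, rfl⟩ := Finset.mem_image.1 hs'
  obtain ⟨hr1, hr2⟩ := Finset.mem_erase.1 hr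
  refine ⟨fun h1 => hr1 ((div_eq_one_iff_eq hs).1 h1), rootB_scale (c := s)
    (div_ne_zero (hT r hr2).1 hs) hs (fun k => by simp [lp]) ?_ (hT r hr2)⟩
  funext k
  simp only [lp]
  field_simp
  ring

theorem RB.rtB' {t : ℕ} {p q : σ → Ω} {μ : ℝ} (h : RB g J t p q μ) :
    RtB g J t p (fun k => q k - p k) (μ + 1) := by
  classical
  intro T hT
  exact rootB_erase T 1 (h _ fun s hs =>
    ⟨(Finset.mem_erase.1 hs).1, hT s (Finset.mem_erase.1 hs).2⟩)

theorem RB.of_algHom {Ω' : Type} [Field Ω'] [Algebra K Ω'] (f : Ω →ₐ[K] Ω') {t : ℕ}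
    {p q : σ → Ω} {μ : ℝ} (h : RB g J t (fun k => f (p k)) (fun k => f (q k)) μ) :
    RB g J t p q μ := by
  classical
  intro T hT
  have hf : Function.Injective f := f.injective
  rw [← Finset.card_image_of_injective T hf]
  refine h _ fun s' hs' => ?_
  obtain ⟨s, hs, rfl⟩ := Finset.mem_image.1 hs'
  obtain ⟨h1, h2, h3, h4, h5⟩ := hT s hs
  have e : ∀ F : MvPolynomial σ K, aeval (lp (fun k => f (p k)) (fun k => f (q k) - f (p k)) (f s))
      F = f (aeval (lp p (fun k => q k - p k) s) F) := fun F => by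
    rw [comp_aeval_apply]
    simp only [lp, map_add, map_mul, map_sub]
    rfl
  refine ⟨fun h => h1 (hf (h.trans (map_one f).symm)), (map_ne_zero f).2 h2,
    fun i hi => (e _).trans (by rw [h3 i hi, map_zero]),
    fun r hr => (e _).trans_ne ((map_ne_zero f).2 (h4 r hr)), fun h => (map_ne_zero f).2 h5 ?_⟩
  rw [← h]
  simp only [dg, e, map_sum, map_mul, map_sub]

theorem Rt_map {K' : Type} [Field K'] [Algebra K K'] [Algebra K' Ω] [IsScalarTower K K' Ω]
    (t : ℕ) (p v : σ → Ω) :
    Rt (fun i => map (algebraMap K K') (g i)) (fun i => map (algebraMap K K') (J i)) t p v =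
      Rt g J t p v := by
  simp only [Rt, dg, pderiv_map, aeval_map_algebraMap]

theorem RB_map {K' : Type} [Field K'] [Algebra K K'] [Algebra K' Ω] [IsScalarTower K K' Ω]
    (t : ℕ) (p q : σ → Ω) (μ : ℝ) :
    RB (fun i => map (algebraMap K K') (g i)) (fun i => map (algebraMap K K') (J i)) t p q μ ↔
      RB g J t p q μ := by
  simp only [RB, Rt_map]

omit [Fintype σ] in
theorem Jc_map {K' : Type} [Field K'] (φ : K →+* K') (g : ℕ → MvPolynomial σ K)
    (c : (r : ℕ) → Fin r → σ) : Jc (fun i => map φ (g i)) c = fun r => map φ (Jc g c r) := by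
  exact funext fun r => jac_map φ (gs g r) (c r)

theorem aeval_fone {τ : Type} (f : MvPolynomial σ K) (p : σ → K) (u : σ → MvPolynomial τ K)
    (x : τ → Ω) : aeval x (fone f p u) = dg f (am Ω p) (fun k => aeval x (u k)) := by
  simp only [fone, dg, map_sum, map_mul, aeval_C, rootB_am]

theorem rootB_lift {τ : Type} (p : σ → K) (u : σ → MvPolynomial τ K) (f1 : MvPolynomial τ K)
    (h : MvPolynomial (σ ⊕ σ) K) {e : ℕ} (he : h.totalDegree ≤ e) :
    ∃ H : MvPolynomial (Option τ) K,
      ((∀ k, (u k).totalDegree ≤ 1) → f1.totalDegree ≤ 1 → H.totalDegree ≤ 2 * e) ∧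
      ∀ (Ω : Type) [Field Ω] [Algebra K Ω] (x : τ → Ω) (s : Ω), s ≠ 0 →
        aeval (wpt f1 x s) H = (aeval x f1 / s) ^ e *
          aeval (Sum.elim (lp (am Ω p) (fun k => aeval x (u k)) s) fun k => aeval x (u k)) h := by
  obtain ⟨H, h1, h2⟩ := exists_homog h he
  refine ⟨aeval (fun o : Option (σ ⊕ σ) => o.elim (X none) (Sum.elim
    (fun k => X none * C (p k) + rename some f1 * rename some (u k))
    fun k => X none * rename some (u k))) H, fun hu hf => ?_, fun Ω _ _ x s hs => ?_⟩
  · refine (totalDegree_algHom_le _ (fun o => ?_) H).trans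
      (Nat.mul_le_mul_left 2 h1.totalDegree_le)
    have h3 := fun k => (totalDegree_rename_le (some : τ → Option τ) (u k)).trans (hu k)
    have h4 := (totalDegree_rename_le (some : τ → Option τ) f1).trans hf
    rw [aeval_X]
    rcases o with _ | k | k
    · simp
    · exact (totalDegree_add _ _).trans (max_le ((totalDegree_mul _ _).trans (by simp))
        ((totalDegree_mul _ _).trans (add_le_add h4 (h3 k))))
    · exact (totalDegree_mul _ _).trans (add_le_add (totalDegree_X _).le (h3 k))
  · rw [← h2, comp_aeval_apply]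
    refine congrArg (fun y => aeval y H) (funext fun o => ?_)
    have h3 : wpt f1 x s ∘ some = x := rfl
    rcases o with _ | k | k
    · simp [wpt]
    · simp only [Option.elim_some, Sum.elim_inl, map_add, map_mul, aeval_X, aeval_C, aeval_rename,
        h3, lp, wpt, Option.elim_none]
      field_simp
    · simp only [Option.elim_some, Sum.elim_inr, map_mul, aeval_X, aeval_rename, h3, wpt,
        Option.elim_none]

/-- a polynomial condition at the root as a polynomial in the lifted coordinates. -/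
theorem exists_lift {τ : Type} (p : σ → K) (u : σ → MvPolynomial τ K)
    (hu : ∀ k, (u k).totalDegree ≤ 1) (f1 : MvPolynomial τ K) (hf : f1.totalDegree ≤ 1)
    (h : MvPolynomial σ K) :
    ∃ H : MvPolynomial (Option τ) K, H.totalDegree ≤ 2 * h.totalDegree ∧
      ∀ (Ω : Type) [Field Ω] [Algebra K Ω] (x : τ → Ω) (s : Ω), s ≠ 0 → aeval x f1 ≠ 0 →
        (aeval (wpt f1 x s) H = 0 ↔ aeval (lp (am Ω p) (fun k => aeval x (u k)) s) h = 0) := by
  obtain ⟨H, h1, h2⟩ := rootB_lift p u f1 (rename Sum.inl h) (totalDegree_rename_le _ _)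
  refine ⟨H, h1 hu hf, fun Ω _ _ x s hs h0 => ?_⟩
  rw [h2 Ω x s hs, aeval_rename, Sum.elim_comp_inl, mul_eq_zero,
    or_iff_right (pow_ne_zero _ (div_ne_zero h0 hs))]

/-- specialisation of roots. -/
theorem spec_kr {τ : Type} (p : σ → K) (u : σ → MvPolynomial τ K) (f1 : MvPolynomial τ K)
    {Ω' : Type} [Field Ω'] [Algebra K Ω'] {x : τ → Ω} {s : Ω} {x' : τ → Ω'} {s' : Ω'}
    (hs : s ≠ 0) (hs' : s' ≠ 0) (hf' : aeval x' f1 ≠ 0)
    (h : kr K (wpt f1 x s) ≤ kr K (wpt f1 x' s')) :
    kr K (Sum.elim (lp (am Ω p) (fun k => aeval x (u k)) s) fun k => aeval x (u k)) ≤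
      kr K (Sum.elim (lp (am Ω' p) (fun k => aeval x' (u k)) s') fun k => aeval x' (u k)) := by
  intro F hF
  obtain ⟨H, -, h2⟩ := rootB_lift p u f1 F le_rfl
  have h3 : H ∈ kr K (wpt f1 x s) := by rw [mem_kr, h2 Ω x s hs, mem_kr.1 hF, mul_zero]
  have h4 := mem_kr.1 (h h3)
  rw [h2 Ω' x' s' hs'] at h4
  exact (mul_eq_zero.1 h4).resolve_left (pow_ne_zero _ (div_ne_zero hf' hs'))

/-- open conditions pass from a special root to a more general root. -/
theorem mem_Rt_of_spec {τ : Type} (p : σ → K) (u : σ → MvPolynomial τ K) (f1 : MvPolynomial τ K)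
    {Ω' : Type} [Field Ω'] [Algebra K Ω'] {x : τ → Ω} {s : Ω} {x' : τ → Ω'} {s' : Ω'} {t l : ℕ}
    (htl : t ≤ l) (hs : s ≠ 0) (hf' : aeval x' f1 ≠ 0)
    (h : kr K (wpt f1 x s) ≤ kr K (wpt f1 x' s'))
    (h' : s' ∈ Rt g J l (am Ω' p) fun k => aeval x' (u k))
    (hg : ∀ i, i < t → aeval (lp (am Ω p) (fun k => aeval x (u k)) s) (g i) = 0) :
    s ∈ Rt g J t (am Ω p) fun k => aeval x (u k) := by
  have h1 := spec_kr p u f1 hs h'.1 hf' h
  refine ⟨hs, hg, fun r hr h0 => h'.2.2.1 r (hr.trans htl) ?_, fun h0 => h'.2.2.2 ?_⟩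
  · have h2 := @h1 (rename Sum.inl (J r)) (by rwa [mem_kr, aeval_rename])
    rwa [mem_kr, aeval_rename] at h2
  · have h2 := @h1 (∑ k, rename Sum.inl (pderiv k (g 0)) * X (Sum.inr k))
      (by simp only [mem_kr, map_sum, map_mul, aeval_rename, aeval_X]; exact h0)
    simp only [mem_kr, map_sum, map_mul, aeval_rename, aeval_X] at h2
    exact h2

theorem rootB_sum (e : ℕ) (a : ℕ → Ω) {c s : Ω} (h0 : a 0 = 0) (h1 : a 1 = c) (hs : s ≠ 0)
    (hc : c ≠ 0) (m : ℕ → Ω) :
    c * s ^ (e + 1) * (m e * (c / s) ^ e +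
      ∑ i ∈ Finset.range e, m i * (c ^ (e - 1 - i) * a (e + 1 - i) * (c / s) ^ i)) =
      c ^ e * ∑ k ∈ Finset.range (e + 2), m (e + 1 - k) * a k * s ^ k := by
  rw [Finset.sum_range_succ', Finset.sum_range_succ', h0, zero_add, h1,
    ← Finset.sum_range_reflect, mul_zero, zero_mul, add_zero, mul_add, mul_add, add_comm,
    Finset.mul_sum, Finset.mul_sum, Nat.add_sub_cancel]
  refine congrArg₂ _ (Finset.sum_congr rfl fun j hj => ?_) ?_
  · obtain ⟨r, rfl⟩ := Nat.exists_eq_add_of_lt (Finset.mem_range.1 hj)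
    rw [show j + r + 1 - 1 - j = r by omega, show j + r + 1 - 1 - r = j by omega,
      show j + r + 1 + 1 - r = j + 1 + 1 by omega, show j + r + 1 + 1 - (j + 1 + 1) = r by omega,
      div_pow]
    field_simp
    ring
  · rw [div_pow]
    field_simp
    ring

/-- the monic equation of weight two satisfied by the roots. -/
theorem exists_monic {τ : Type} (f : MvPolynomial σ K) (p : σ → K) (hp : aeval p f = 0)
    (u : σ → MvPolynomial τ K) (hu : ∀ k, (u k).totalDegree ≤ 1) :
    ∃ (e : ℕ) (b : ℕ → MvPolynomial τ K), (∀ i, i < e → (b i).totalDegree ≤ 2 * (e - i)) ∧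
      ∀ (Ω : Type) [Field Ω] [Algebra K Ω] (x : τ → Ω) (s : Ω), s ≠ 0 →
        aeval x (fone f p u) ≠ 0 →
        (aeval (wpt (fone f p u) x s)
            (X none ^ e + ∑ i ∈ Finset.range e, rename some (b i) * X none ^ i) = 0 ↔
          aeval (lp (am Ω p) (fun k => aeval x (u k)) s) f = 0) ∧
        (aeval (lp (am Ω p) (fun k => aeval x (u k)) s) f = 0 →
          dg f (lp (am Ω p) (fun k => aeval x (u k)) s) (fun k => aeval x (u k)) ≠ 0 →
          aeval (wpt (fone f p u) x s) (pderiv none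
            (X none ^ e + ∑ i ∈ Finset.range e, rename some (b i) * X none ^ i)) ≠ 0) := by
  set G := rootBLine K (fun k => (C (p k) : MvPolynomial τ K)) u f
  set e := f.totalDegree
  refine ⟨e, fun i => fone f p u ^ (e - 1 - i) * G.coeff (e + 1 - i), fun i hi => ?_, ?_⟩
  · have h1 : (fone f p u).totalDegree ≤ 1 := totalDegree_finsetSum_le fun k _ =>
      (totalDegree_mul _ _).trans (by simpa using hu k)
    have h2 := (totalDegree_pow _ (e - 1 - i)).trans (Nat.mul_le_mul_left _ h1)
    have h3 := rootB_coeff p u hu f (e + 1 - i)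
    exact (totalDegree_mul _ _).trans ((add_le_add h2 h3).trans (by omega))
  intro Ω _ _ x s hs hc
  set P := rootBLine K (am Ω p) (fun k => aeval x (u k)) f
  have hP : ∀ i, aeval x (G.coeff i) = P.coeff i := fun i => by
    rw [rootB_map]
    simp only [aeval_C]
    rfl
  have hl : lp (am Ω p) (fun k => aeval x (u k)) 0 = am Ω p := funext fun k => by simp [lp]
  have h0 : P.coeff 0 = 0 := by
    rw [Polynomial.coeff_zero_eq_eval_zero, rootB_eval, hl, rootB_am, hp, map_zero]
  have h1 : P.coeff 1 = aeval x (fone f p u) := by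
    rw [aeval_fone, ← hl, ← rootB_deriv, ← Polynomial.coeff_zero_eq_eval_zero,
      Polynomial.coeff_derivative]
    simp [P]
  have hd : P.natDegree < e + 2 := (rootB_natDegree _ _ f).trans_lt (by omega)
  have hw : wpt (fone f p u) x s ∘ some = x := rfl
  have hn : wpt (fone f p u) x s none = aeval x (fone f p u) / s := rfl
  have k1 := rootB_sum e P.coeff h0 h1 hs hc fun _ => 1
  have k2 := rootB_sum e P.coeff h0 h1 hs hc fun i => i
  rw [← rootB_eval, ← rootB_deriv]
  simp only [one_mul, ← Polynomial.eval_eq_sum_range' hd] at k1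
  refine ⟨?_, fun e1 e2 e3 => ?_⟩
  · simp only [map_add, map_pow, map_sum, map_mul, aeval_X, aeval_rename, hw, hn, hP]
    rw [← mul_right_inj' (mul_ne_zero hc (pow_ne_zero (e + 1) hs)), k1]
    simp [hc, P]
  · have hX : ∀ i : ℕ, (X none * pderiv none (X none ^ i) : MvPolynomial (Option τ) K) =
        (i : MvPolynomial (Option τ) K) * X none ^ i := fun i => by
      rcases i with _ | i
      · simp
      · rw [pderiv_pow, pderiv_X_self, Nat.add_sub_cancel]
        ring
    have e4 := congrArg (aeval (wpt (fone f p u) x s) (X none : MvPolynomial (Option τ) K) * ·) e3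
    simp only [← map_mul, mul_zero, map_add, map_sum, mul_add, Finset.mul_sum, Derivation.leibniz,
      homog_pderiv_rename, add_zero, smul_eq_mul, mul_left_comm (X none), hX] at e4
    simp only [map_pow, map_mul, aeval_X, aeval_rename, hw, hn, hP, map_natCast,
      mul_left_comm _ (Nat.cast _), ← mul_assoc] at e4
    have e5 : ∑ k ∈ Finset.range (e + 2), ((e + 1 - k : ℕ) : Ω) * P.coeff k * s ^ k =
        (e + 1) * P.eval s - s * P.derivative.eval s := by
      conv_rhs => rw [P.as_sum_range_C_mul_X_pow' hd]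
      simp only [map_sum, Polynomial.derivative_C_mul_X_pow, Polynomial.eval_finsetSum,
        Polynomial.eval_mul, Polynomial.eval_C, Polynomial.eval_pow, Polynomial.eval_X,
        Finset.mul_sum, ← Finset.sum_sub_distrib]
      refine Finset.sum_congr rfl fun k hk => ?_
      rw [Nat.cast_sub (Nat.le_of_lt_succ (Finset.mem_range.1 hk))]
      rcases k with _ | k
      · simp
      · simp only [Nat.add_sub_cancel, Nat.cast_add, Nat.cast_one]
        ring
    simp only [← mul_assoc] at k2
    rw [e4, e5, e1] at k2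
    simp [hc, hs, e2, P] at k2

/-- every lifted point with nonzero coordinates comes from a parameter. -/
theorem exists_wpt {τ : Type} (f1 : MvPolynomial τ K) (z : Option τ → Ω) (h0 : z none ≠ 0)
    (h1 : aeval (fun k => z (some k)) f1 ≠ 0) :
    ∃ s : Ω, s ≠ 0 ∧ z = wpt f1 (fun k => z (some k)) s := by
  refine ⟨aeval (fun k => z (some k)) f1 / z none, div_ne_zero h1 h0, funext fun o => ?_⟩
  rcases o with _ | k
  · exact (div_div_cancel₀ h1).symm
  · rfl

/-- complex form of the hyperplane bound. -/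
theorem HypB.complex {P : Finset (σ → ℝ)} {H : ℝ} (h : HypB P H) (l : σ → ℂ) (b : ℂ)
    (hl : l ≠ 0) (S : Finset (σ → ℝ)) (hS : S ⊆ P) (hb : ∀ a ∈ S, ∑ k, l k * (a k : ℂ) = b) :
    (S.card : ℝ) ≤ H := by
  by_cases h1 : (fun k => (l k).re) = 0
  · refine h (fun k => (l k).im) b.im S (fun h2 => hl (funext fun k => ?_)) hS fun a ha => ?_
    · exact Complex.ext (congrFun h1 k) (congrFun h2 k)
    · simp [← hb a ha]
  · exact h _ b.re S h1 hS fun a ha => by simp [← hb a ha]

end

end Vale.Agent.P054
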