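import Vale.Agent.P054.BaseCore
import Vale.Agent.P054.BaseSplit
import Vale.Agent.P054.HPairs
import Vale.Agent.P054.Heavy

namespace Vale.Agent.P054

open MvPolynomial

noncomputable section

theorem sm_Q {b N c a s : ℝ} (hb : 0 < b) (hb1 : b ≤ 1 / 100) (hN : 1 ≤ N) (hc : 1 ≤ c)
    (ha : 1 ≤ a) (hs : 0 ≤ s) (h : s ≤ c * a ^ 4 * N ^ (4 / 3 + 12 * b)) :
    s ^ (1 / (1 - b)) ≤ c ^ 2 * a ^ 6 * N ^ (4 / 3 + 18 * b) := by
  have h1 : 0 < 1 - b := by linarith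
  have hp0 : 0 ≤ 1 / (1 - b) := by positivity
  have hp : 1 / (1 - b) ≤ 3 / 2 := by rw [div_le_iff₀ h1]; linarith
  have hN0 : 0 ≤ N := by linarith
  have e1 : c ^ (1 / (1 - b)) ≤ c ^ 2 := by
    rw [← Real.rpow_natCast c 2]
    exact Real.rpow_le_rpow_of_exponent_le hc (by push_cast; linarith)
  have e2 : (a ^ 4) ^ (1 / (1 - b)) ≤ a ^ 6 := by
    rw [← Real.rpow_natCast a 4, ← Real.rpow_natCast a 6, ← Real.rpow_mul (by linarith)]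
    exact Real.rpow_le_rpow_of_exponent_le ha (by push_cast; linarith)
  have e3 : (N ^ (4 / 3 + 12 * b)) ^ (1 / (1 - b)) ≤ N ^ (4 / 3 + 18 * b) := by
    rw [← Real.rpow_mul hN0]
    refine Real.rpow_le_rpow_of_exponent_le hN ?_
    rw [mul_one_div, div_le_iff₀ h1]
    nlinarith
  calc s ^ (1 / (1 - b)) ≤ (c * a ^ 4 * N ^ (4 / 3 + 12 * b)) ^ (1 / (1 - b)) :=
        Real.rpow_le_rpow hs h hp0
    _ = c ^ (1 / (1 - b)) * (a ^ 4) ^ (1 / (1 - b)) * (N ^ (4 / 3 + 12 * b)) ^ (1 / (1 - b)) := by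
        rw [Real.mul_rpow (by positivity) (by positivity), Real.mul_rpow (by positivity) (by positivity)]
    _ ≤ _ := by gcongr

theorem sm_M {b : ℝ} (hb : 0 < b) : ∃ M : ℝ, 640 ≤ M ∧ ∀ L L2 : ℝ, 0 ≤ L2 → L2 * M ≤ L →
    L2 ^ b * 4 ≤ L ^ b := by
  refine ⟨max 640 (4 ^ (1 / b)), le_max_left _ _, fun L L2 h0 h => ?_⟩
  have h1 : (4 : ℝ) = (4 ^ (1 / b)) ^ b := by
    rw [← Real.rpow_mul (by norm_num), one_div_mul_cancel hb.ne', Real.rpow_one]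
  calc L2 ^ b * 4 = (L2 * 4 ^ (1 / b)) ^ b := by
        rw [Real.mul_rpow h0 (by positivity), ← h1]
    _ ≤ L ^ b := Real.rpow_le_rpow (by positivity)
        ((mul_le_mul_of_nonneg_left (le_max_right _ _) h0).trans h) hb.le

/-- the final numeric contradiction. -/
theorem sm_final {a A1 R C1 C3 N L w y z Q D H : ℝ} (ha : 1 ≤ a) (hA1 : 1 ≤ A1) (hR : 3 ≤ R)
    (hC1 : 1 ≤ C1) (hRC : 10 * C1 * C3 ≤ R) (hL : 0 < L) (hw : 0 < w)
    (hy : 1 ≤ y) (hyz : y ≤ z) (hNz : N ≤ z) (hwy : w ≤ A1 * a ^ 4 * y) (hH0 : 0 ≤ H)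
    (hQ : Q ≤ (3 * R * A1) ^ 2 * a ^ 6 * z)
    (hD : 2 / 5 * (a ^ 11 * L * (y * z)) ≤ D * w ^ 3)
    (hH : H * (R * (A1 * a ^ 4 * y)) ≤ C3 * (2 * (a ^ 11 * L * (y * z))))
    (h : D * w ^ 2 ≤ C1 * (L * (Q + R * (A1 * a ^ 4 * y) + N) + H)) :
    a ≤ 5 * C1 * (A1 * ((3 * R * A1) ^ 2 + R * A1 + 1)) := by
  set B := a ^ 11 * L * (y * z) with hB
  have hz : 1 ≤ z := hy.trans hyz
  have hB0 : 0 < B := by positivity
  have h1 : C1 * (H * w) ≤ B / 5 := by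
    have e1 : H * w * R ≤ C3 * (2 * B) := by
      refine le_trans ?_ hH
      have := mul_le_mul_of_nonneg_left hwy hH0
      nlinarith
    have e2 : C1 * (H * w) * R ≤ B / 5 * R := by
      have := mul_le_mul_of_nonneg_left e1 (by linarith : 0 ≤ C1)
      have := mul_le_mul_of_nonneg_left hRC hB0.le
      nlinarith
    exact le_of_mul_le_mul_right e2 (by linarith)
  have h2 : Q + R * (A1 * a ^ 4 * y) + N ≤ ((3 * R * A1) ^ 2 + R * A1 + 1) * a ^ 6 * z := by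
    have e1 : a ^ 4 * y ≤ a ^ 6 * z :=
      mul_le_mul (pow_le_pow_right₀ ha (by norm_num)) hyz (by linarith) (by positivity)
    have e2 : N ≤ a ^ 6 * z := hNz.trans (le_mul_of_one_le_left (by linarith) (one_le_pow₀ ha))
    have e3 := mul_le_mul_of_nonneg_left e1 (by positivity : 0 ≤ R * A1)
    nlinarith
  have h3 : (Q + R * (A1 * a ^ 4 * y) + N) * w ≤
      (((3 * R * A1) ^ 2 + R * A1 + 1) * a ^ 6 * z) * (A1 * a ^ 4 * y) :=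
    (mul_le_mul_of_nonneg_right h2 hw.le).trans
      (mul_le_mul_of_nonneg_left hwy (by positivity))
  have h4 := mul_le_mul_of_nonneg_right h hw.le
  have h5 := mul_le_mul_of_nonneg_left h3 (by positivity : 0 ≤ C1 * L)
  have h6 : a * (a ^ 10 * L * (y * z)) ≤
      5 * C1 * (A1 * ((3 * R * A1) ^ 2 + R * A1 + 1)) * (a ^ 10 * L * (y * z)) := by
    have e : a * (a ^ 10 * L * (y * z)) = B := by rw [hB]; ring
    rw [e]
    nlinarith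
  exact le_of_mul_le_mul_right h6 (by positivity)

theorem sm_pow {b N : ℝ} (hb : 0 < b) (hN : 1 ≤ N) {x y z e : ℝ} (hx : x = N ^ (2 / 3 + 10 * b))
    (hy : y = N ^ (2 / 3 + 12 * b)) (hz : z = N ^ (4 / 3 + 18 * b)) (he : e = N ^ ((2 : ℝ) / 3)) :
    N ^ (2 + 30 * b) = y * z ∧ x ^ 3 = y * z ∧ 1 ≤ x ∧ 1 ≤ e ∧ y ≤ z ∧ e ≤ y ∧ x ≤ y ∧ N ≤ z ∧
      N ≤ x ^ 2 ∧ N ^ 2 ≤ y * z ∧ N ^ (4 / 3 + 12 * b) = e * y := by
  have hN0 : 0 < N := by linarith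
  have hyz : N ^ (2 + 30 * b) = y * z := by
    rw [hy, hz, ← Real.rpow_add hN0]; congr 1; ring
  refine ⟨hyz, ?_, ?_, ?_, ?_, ?_, ?_, ?_, ?_, ?_, ?_⟩
  · rw [← hyz, hx, ← Real.rpow_natCast, ← Real.rpow_mul hN0.le]; congr 1; push_cast; ring
  · exact hx ▸ Real.one_le_rpow hN (by positivity)
  · exact he ▸ Real.one_le_rpow hN (by positivity)
  · exact hy ▸ hz ▸ Real.rpow_le_rpow_of_exponent_le hN (by linarith)
  · exact he ▸ hy ▸ Real.rpow_le_rpow_of_exponent_le hN (by linarith)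
  · exact hx ▸ hy ▸ Real.rpow_le_rpow_of_exponent_le hN (by linarith)
  · rw [hz]
    conv_lhs => rw [← Real.rpow_one N]
    exact Real.rpow_le_rpow_of_exponent_le hN (by linarith)
  · rw [hx, ← Real.rpow_natCast, ← Real.rpow_mul hN0.le]
    conv_lhs => rw [← Real.rpow_one N]
    exact Real.rpow_le_rpow_of_exponent_le hN (by push_cast; linarith)
  · rw [← hyz, ← Real.rpow_natCast]
    exact Real.rpow_le_rpow_of_exponent_le hN (by push_cast; linarith)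
  · rw [he, hy, ← Real.rpow_add hN0]; congr 1; ring

theorem sm_a {a N L w x T B : ℝ} (ha1 : 1 ≤ a) (hw0 : 0 < w) (hwn : w ≤ N) (hwL : w ≤ L)
    (hx1 : 1 ≤ x) (hx3 : x ^ 3 = T) (hN2 : N ^ 2 ≤ T) (hwx : a ^ 4 * x ≤ w)
    (hB : B = a ^ 11 * L * T) : N ^ 2 * L ≤ B ∧ 1 ≤ B / w ^ 3 ∧ B / w ^ 3 * a ≤ L := by
  have hw3 : 0 < w ^ 3 := by positivity
  have hL : 0 < L := by linarith
  have hN : 0 < N := by linarith
  have hLB : N ^ 2 * L ≤ B := by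
    have e1 : 1 ≤ a ^ 11 := one_le_pow₀ ha1
    calc N ^ 2 * L = 1 * L * N ^ 2 := by ring
      _ ≤ B := by rw [hB]; gcongr
  refine ⟨hLB, ?_, ?_⟩
  · rw [le_div_iff₀ hw3, one_mul]
    refine le_trans ?_ hLB
    calc w ^ 3 = w ^ 2 * w := by ring
      _ ≤ _ := by gcongr
  · rw [div_mul_eq_mul_div, div_le_iff₀ hw3]
    calc B * a = L * (a ^ 4 * x) ^ 3 := by rw [hB, ← hx3]; ring
      _ ≤ _ := by gcongr

theorem sm_b {a θ M L L2 G u : ℝ} (ha0 : 0 < a) (haM : 4 * M ≤ a * θ) (h0 : 0 ≤ L2)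
    (h1 : L2 * θ ≤ 2 * G) (h2 : G ≤ 2 * u) (h3 : u * a ≤ L) : L2 * M ≤ L := by
  have e1 := mul_le_mul_of_nonneg_left haM h0
  have e2 := mul_le_mul_of_nonneg_right
    (h1.trans (mul_le_mul_of_nonneg_left h2 (by norm_num))) ha0.le
  nlinarith

theorem sm_c {K θ C2 N L L2 w T B G Gc Gd : ℝ} (hθ : 0 < θ) (hK : 0 < K) (hw0 : 0 < w) (hL : 0 < L)
    (hC : 10 * C2 ≤ K * θ ^ 2) (hN2 : N ^ 2 ≤ T) (hB : B = K * L * T) (hL2 : L2 * 640 ≤ L)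
    (hc1 : Gc * (w / 4) ^ 3 ≤ K * L2 * T) (hG1 : B / w ^ 3 < G)
    (hsum : G ≤ C2 * N ^ 2 * L / (θ ^ 2 * w ^ 3) + Gc + 2 * Gd) : 2 / 5 * B ≤ Gd * w ^ 3 := by
  have hw3 : 0 < w ^ 3 := by positivity
  have hT : 0 ≤ T := (sq_nonneg N).trans hN2
  have hc2 : Gc ≤ B / w ^ 3 / 10 := by
    rw [le_div_iff₀ (by norm_num), le_div_iff₀ hw3]
    have e2 := mul_le_mul_of_nonneg_left hL2 (by positivity : 0 ≤ K * T)
    rw [hB]
    linarith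
  have hc3 : C2 * N ^ 2 * L / (θ ^ 2 * w ^ 3) ≤ B / w ^ 3 / 10 := by
    rw [div_div, div_le_div_iff₀ (by positivity) (by positivity)]
    have e1 : 10 * C2 * N ^ 2 ≤ K * θ ^ 2 * T :=
      mul_le_mul hC hN2 (by positivity) (by positivity)
    have e2 := mul_le_mul_of_nonneg_right e1 (by positivity : 0 ≤ L * w ^ 3)
    rw [hB]
    linarith
  have e1 : 2 / 5 * B / w ^ 3 ≤ Gd := by rw [mul_div_assoc]; linarith
  exact (div_le_iff₀ hw3).1 e1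

theorem sm_d {A θ x w : ℝ} (hθ : 0 < θ) (hx : 1 ≤ x) (h1 : 2 ≤ A * θ) (h2 : A * x ≤ w) :
    2 * x ≤ θ * w := by
  have e2 := mul_le_mul_of_nonneg_right h1 (by linarith : 0 ≤ x)
  have e3 := mul_le_mul_of_nonneg_left h2 hθ.le
  linarith

theorem sm_pos {G : ℕ} {w : ℝ} (h : 0 < (G : ℝ) * w ^ 3) : 0 < w ∧ 0 < G := by
  constructor
  · by_contra h1
    push Not at h1
    have : w ^ 3 ≤ 0 := Odd.pow_nonpos (by decide) h1
    nlinarith [(Nat.cast_nonneg G : (0 : ℝ) ≤ G)]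
  · by_contra h1
    have : G = 0 := by omega
    rw [this] at h
    simp at h

/-- the range just above the threshold. -/
theorem base_range (b A1 K1 : ℝ) (hb : 0 < b) (hb1 : b ≤ 1 / 100) (hA1 : 1 ≤ A1) :
    ∃ K A : ℝ, K1 ≤ K ∧ 1 ≤ K ∧ 2 ≤ A ∧
    ∀ (n : ℕ) (P : Finset Pt) (X : Finset (Pt × Pt)), Gen3 P → P.card ≤ n → X ⊆ P ×ˢ P →
      RB3 X (A1 * A * (n : ℝ) ^ (2 / 3 + 12 * b)) (K * X.card * (n : ℝ) ^ (2 + 30 * b)) →
      (∀ X2 : Finset (Pt × Pt), X2 ⊆ X → X2.card < X.card →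
        RB3 X2 (A * (n : ℝ) ^ (2 / 3 + 10 * b) * (X2.card : ℝ) ^ b)
          (K * X2.card * (n : ℝ) ^ (2 + 30 * b))) →
      RB3 X (A * (n : ℝ) ^ (2 / 3 + 10 * b) * (X.card : ℝ) ^ b)
        (K * X.card * (n : ℝ) ^ (2 + 30 * b)) := by
  obtain ⟨θ, C1, hθ, hθ1, hC1, Hc⟩ := base_core b hb (by linarith)
  obtain ⟨C2, hC2, Hs⟩ := base_split
  obtain ⟨C3, hC3, Hh⟩ := heavy_pairs
  obtain ⟨M, hM, HM⟩ := sm_M hb
  obtain ⟨R, hR, hRC⟩ : ∃ R : ℝ, 3 ≤ R ∧ 10 * C1 * C3 ≤ R :=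
    ⟨max _ _, le_max_left _ _, le_max_right _ _⟩
  obtain ⟨a, ha2, haK, haC, haM, ha5⟩ : ∃ a : ℝ, 2 ≤ a ∧ K1 ≤ a ∧ 10 * C2 / θ ^ 2 ≤ a ∧
      4 * M / θ ≤ a ∧ 5 * C1 * (A1 * ((3 * R * A1) ^ 2 + R * A1 + 1)) + 1 ≤ a :=
    ⟨max 2 (max K1 (max _ (max _ _))), le_max_left _ _, le_max_of_le_right (le_max_left _ _),
      le_max_of_le_right (le_max_of_le_right (le_max_left _ _)),
      le_max_of_le_right (le_max_of_le_right (le_max_of_le_right (le_max_left _ _))),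
      le_max_of_le_right (le_max_of_le_right (le_max_of_le_right (le_max_right _ _)))⟩
  have ha1 : 1 ≤ a := by linarith
  have ha0 : 0 < a := by linarith
  have hA : a ≤ a ^ 4 := le_self_pow₀ ha1 (by norm_num)
  have hK : a ≤ a ^ 11 := le_self_pow₀ ha1 (by norm_num)
  have haM' : 4 * M ≤ a * θ := (div_le_iff₀ hθ).1 haM
  have haC' : 10 * C2 ≤ a ^ 11 * θ ^ 2 :=
    ((div_le_iff₀ (by positivity)).1 haC).trans (mul_le_mul_of_nonneg_right hK (by positivity))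
  refine ⟨a ^ 11, a ^ 4, haK.trans hK, ha1.trans hK, ha2.trans hA, ?_⟩
  intro n P X hP hn hX H1 H2 w 𝓖 hw h𝓖
  by_cases hw1 : A1 * a ^ 4 * (n : ℝ) ^ (2 / 3 + 12 * b) ≤ w
  · exact H1 w 𝓖 hw1 h𝓖
  push Not at hw1
  by_contra hcon
  push Not at hcon
  obtain ⟨hw0, hG0⟩ := sm_pos (lt_of_le_of_lt (by positivity) hcon)
  obtain ⟨g0, hg0⟩ : 𝓖.Nonempty := Finset.card_pos.1 hG0
  have hPn : (P.card : ℝ) ≤ n := Nat.cast_le.2 hn
  have hwn : w ≤ n := (h𝓖 g0 hg0).2.le_card.trans ((Nat.cast_le.2 (card_gr_le hX g0)).trans hPn)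
  have hwL : w ≤ X.card := (h𝓖 g0 hg0).2.le_card.trans
    (Nat.cast_le.2 (Finset.card_le_card fun _ hy => (mem_gr.1 hy).1))
  have hN : (1 : ℝ) ≤ n := Nat.one_le_cast.2 (Nat.cast_pos.1 (hw0.trans_le hwn))
  have hL : (1 : ℝ) ≤ X.card := Nat.one_le_cast.2 (Nat.cast_pos.1 (hw0.trans_le hwL))
  generalize (n : ℝ) = N at *
  obtain ⟨x, hx⟩ : ∃ x, x = N ^ (2 / 3 + 10 * b) := ⟨_, rfl⟩
  obtain ⟨y, hy⟩ : ∃ y, y = N ^ (2 / 3 + 12 * b) := ⟨_, rfl⟩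
  obtain ⟨z, hz⟩ : ∃ z, z = N ^ (4 / 3 + 18 * b) := ⟨_, rfl⟩
  obtain ⟨e, he⟩ : ∃ e, e = N ^ ((2 : ℝ) / 3) := ⟨_, rfl⟩
  obtain ⟨hyz, hx3, hx1, he1, hyz', hey, hxy, hNz, hNx, hN2, hey2⟩ := sm_pow hb hN hx hy hz he
  have hy1 : 1 ≤ y := hx1.trans hxy
  rw [hyz] at H1 H2 hcon
  rw [← hx] at H2 hw
  rw [← hy] at H1 hw1
  obtain ⟨B, hB⟩ : ∃ B, B = a ^ 11 * (X.card : ℝ) * (y * z) := ⟨_, rfl⟩
  rw [← hB] at H1 hcon
  have hLb : 1 ≤ (X.card : ℝ) ^ b := Real.one_le_rpow hL hb.le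
  have hax : 0 ≤ a ^ 4 * x := by positivity
  have hwx : a ^ 4 * x ≤ w := (le_mul_of_one_le_right hax hLb).trans hw
  have hw3 : 0 < w ^ 3 := pow_pos hw0 3
  obtain ⟨hLB, hB1, hB2⟩ := sm_a ha1 hw0 hwn hwL hx1 hx3 hN2 hwx hB
  have hB0 : 0 ≤ B / w ^ 3 := zero_le_one.trans hB1
  obtain ⟨𝓗, h𝓗, hcard⟩ : ∃ 𝓗 ⊆ 𝓖, 𝓗.card = ⌊B / w ^ 3⌋₊ + 1 :=
    Finset.exists_subset_card_eq ((Nat.floor_lt hB0).2 ((div_lt_iff₀ hw3).2 hcon))
  have hG1 : B / w ^ 3 < 𝓗.card := by rw [hcard]; push_cast; exact Nat.lt_floor_add_one _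
  have hG2 : (𝓗.card : ℝ) ≤ 2 * (B / w ^ 3) := by
    rw [hcard]; push_cast
    linarith only [Nat.floor_le hB0, hB1]
  have hθw : 2 * x ≤ θ * w := sm_d hθ hx1
    (by linarith only [mul_le_mul_of_nonneg_right hA hθ.le, haM', hM]) hwx
  obtain ⟨X2, 𝓖c, 𝓖d, V, hX2, hX2c, hc, hF, hsum⟩ := Hs N w θ P X 𝓗 hPn hX hθ hθ1
    (by linarith only [hθw, hx1])
    (hNx.trans (pow_le_pow_left₀ (by linarith only [hx1]) (by linarith only [hθw, hx1]) 2))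
    fun g hg => h𝓖 g (h𝓗 hg)
  have hX20 : (0 : ℝ) ≤ X2.card := Nat.cast_nonneg _
  have hX2M : (X2.card : ℝ) * M ≤ X.card := sm_b ha0 haM' hX20 hX2c hG2 hB2
  have hX2M' : (X2.card : ℝ) * 640 ≤ X.card := (mul_le_mul_of_nonneg_left hM hX20).trans hX2M
  have hlt : X2.card < X.card := Nat.cast_lt (α := ℝ).1 (by linarith only [hX2M', hL, hX20])
  have hc1 : (𝓖c.card : ℝ) * (w / 4) ^ 3 ≤ a ^ 11 * X2.card * (y * z) :=
    H2 X2 hX2 hlt (w / 4) 𝓖c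
      (by linarith only [mul_le_mul_of_nonneg_left (HM X.card X2.card hX20 hX2M) hax, hw]) hc
  have hD := sm_c hθ (pow_pos ha0 11) hw0 (zero_lt_one.trans_le hL) haC' hN2 hB hX2M' hc1 hG1 hsum
  have hρy : y ≤ A1 * a ^ 4 * y := le_mul_of_one_le_left (zero_le_one.trans hy1)
    (one_le_mul_of_one_le_of_one_le hA1 (ha1.trans hA))
  have hρ3 : 3 * (A1 * a ^ 4 * y) ≤ R * (A1 * a ^ 4 * y) :=
    mul_le_mul_of_nonneg_right hR (by linarith only [hρy, hy1])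
  obtain ⟨Hv, hHv, hHP⟩ := Hh N (R * (A1 * a ^ 4 * y)) B P X hPn hX
    (by linarith only [hρ3, hρy, hy1])
    (by
      have e1 : (2 * x) ^ 2 ≤ (R * (A1 * a ^ 4 * y)) ^ 2 :=
        pow_le_pow_left₀ (by linarith only [hx1]) (by linarith only [hρ3, hρy, hxy, hx1]) 2
      linarith only [e1, hNx]) (H1.mono (by linarith only [hρ3]) le_rfl)
  have hcore := Hc N w (R * (A1 * a ^ 4 * y)) P X Hv 𝓖d V hN hP hPn hX hHP
    (by linarith only [hρ3, hρy, hy1]) (by linarith only [hθw, hx1]) hF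
  rw [← he] at hcore
  have hQ := sm_Q (s := e * (e + w + R * (A1 * a ^ 4 * y))) (c := 3 * R * A1) hb hb1 hN
    (one_le_mul_of_one_le_of_one_le (by linarith only [hR]) hA1) ha1
    (mul_nonneg (by linarith only [he1]) (by linarith only [he1, hw0, hρ3, hρy, hy1])) (by
      rw [hey2]
      calc e * (e + w + R * (A1 * a ^ 4 * y)) ≤ e * (3 * (R * (A1 * a ^ 4 * y))) :=
            mul_le_mul_of_nonneg_left (by linarith only [hey, hρy, hρ3, hw1, hy1])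
              (by linarith only [he1])
        _ = _ := by ring)
  rw [← hz] at hQ
  have := sm_final ha1 hA1 hR hC1 hRC (zero_lt_one.trans_le hL) hw0 hy1 hyz' hNz hw1.le
    (Nat.cast_nonneg _) hQ (hB ▸ hD) (hHv.trans (mul_le_mul_of_nonneg_left
      (by rw [← hB]; linarith only [hLB]) (zero_le_one.trans hC3))) hcore
  linarith only [this, ha5]

/-- the bound for rich motions. -/
theorem exists_SB (b : ℝ) (hb : 0 < b) (hb1 : b ≤ 1 / 100) :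
    ∃ K A : ℝ, 1 ≤ K ∧ 2 ≤ A ∧ ∀ n, SB K A b n := by
  obtain ⟨A1, K1, hA1, -, H1⟩ := heavy_range b hb
  obtain ⟨K, A, hK, hK1, hA, H2⟩ := base_range b A1 K1 hb hb1 hA1
  refine ⟨K, A, hK1, hA, fun n => ?_⟩
  induction n using Nat.strong_induction_on with
  | _ n ih =>
  intro P X hP hn
  induction hX : X.card using Nat.strong_induction_on generalizing X with
  | _ L ih2 =>
  intro hXP
  subst hX
  exact H2 n P X hP hn hXP (H1 K A n hK hA ih P X hP hn hXP) fun X2 h1 h2 =>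
    ih2 X2.card h2 X2 rfl (h1.trans hXP)

end

end Vale.Agent.P054
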