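import Vale.Agent.P054.BaseSplit

namespace Vale.Agent.P054

open MvPolynomial

noncomputable section

/-- a subfamily with small degrees. -/
theorem split_thin {α β : Type} [DecidableEq α] (𝓖 : Finset β) (V : β → Finset α) (τ s u : ℝ)
    (hτ : 0 < τ) (hu : 2 ≤ u) (hs : 0 ≤ s)
    (hV : ∀ g ∈ 𝓖, τ ≤ ((V g).card : ℝ) ∧ ((V g).card : ℝ) ≤ 2 * τ)
    (hdeg : ∀ (x : α) (𝓗 : Finset β), 𝓗 ⊆ 𝓖 → (∀ g ∈ 𝓗, x ∈ V g) → (𝓗.card : ℝ) ≤ s) :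
    ∃ (𝓗 : Finset β) (V' : β → Finset α), 𝓗 ⊆ 𝓖 ∧
      (∀ g ∈ 𝓗, V' g ⊆ V g ∧ τ / 2 ≤ ((V' g).card : ℝ)) ∧
      (∀ (x : α) (𝓚 : Finset β), 𝓚 ⊆ 𝓗 → (∀ g ∈ 𝓚, x ∈ V' g) → (𝓚.card : ℝ) ≤ u) ∧
      (𝓖.card : ℝ) ≤ (1 + 16 * s / u) * 𝓗.card := by
  classical
  obtain ⟨𝓗, h𝓗, hmax⟩ := Finset.exists_max_image (𝓖.powerset.filter fun 𝓗 : Finset β =>
    ∃ V' : β → Finset α, (∀ g ∈ 𝓗, V' g ⊆ V g ∧ τ / 2 ≤ ((V' g).card : ℝ)) ∧
      ∀ (x : α) (𝓚 : Finset β), 𝓚 ⊆ 𝓗 → (∀ g ∈ 𝓚, x ∈ V' g) → (𝓚.card : ℝ) ≤ u) Finset.card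
    ⟨∅, Finset.mem_filter.2 ⟨Finset.empty_mem_powerset _, V, by simp, fun x 𝓚 h _ => by
      rw [Finset.subset_empty.1 h, Finset.card_empty, Nat.cast_zero]
      linarith⟩⟩
  obtain ⟨h0, V', h1, h2⟩ := Finset.mem_filter.1 h𝓗
  have hsub : 𝓗 ⊆ 𝓖 := Finset.mem_powerset.1 h0
  refine ⟨𝓗, V', hsub, h1, h2, ?_⟩
  set Sat := (𝓗.biUnion V').filter
    fun x => u - 1 < ((𝓗.filter fun g => x ∈ V' g).card : ℝ) with hSat
  have a1 : (Sat.card : ℝ) * (u - 1) ≤ 𝓗.card * (2 * τ) :=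
    baseSplit_heavy _ 𝓗 V' (u - 1) (2 * τ) fun g hg =>
      (Nat.cast_le.2 (Finset.card_le_card (h1 g hg).1)).trans (hV g (hsub hg)).2
  have hns : ∀ x, x ∉ Sat → ((𝓗.filter fun g => x ∈ V' g).card : ℝ) ≤ u - 1 := by
    intro x hx
    by_contra h
    rw [not_le] at h
    refine hx (Finset.mem_filter.2 ⟨?_, h⟩)
    have : 0 < (𝓗.filter fun g => x ∈ V' g).card := by
      have : (0 : ℝ) < (𝓗.filter fun g => x ∈ V' g).card := by linarith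
      exact_mod_cast this
    obtain ⟨g, hg⟩ := Finset.card_pos.1 this
    exact Finset.mem_biUnion.2 ⟨g, Finset.mem_filter.1 hg⟩
  have a2 : ∀ g ∈ 𝓖 \ 𝓗, τ / 2 ≤ ((Sat.filter fun x => x ∈ V g).card : ℝ) := by
    intro g hg
    obtain ⟨hg1, hg2⟩ := Finset.mem_sdiff.1 hg
    by_contra hcon
    rw [not_le] at hcon
    have e : ((V g \ Sat).card : ℝ) + (V g ∩ Sat).card = (V g).card := by
      exact_mod_cast Finset.card_sdiff_add_card_inter (V g) Sat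
    rw [Finset.filter_mem_eq_inter, Finset.inter_comm] at hcon
    have hup : ∀ g' ∈ 𝓗, Function.update V' g (V g \ Sat) g' = V' g' := fun g' hg' =>
      Function.update_of_ne (ne_of_mem_of_not_mem hg' hg2) _ _
    have := hmax (insert g 𝓗) (Finset.mem_filter.2
      ⟨Finset.mem_powerset.2 (Finset.insert_subset hg1 hsub), Function.update V' g (V g \ Sat),
        fun g' hg' => ?_, fun x 𝓚 h3 h4 => ?_⟩)
    · rw [Finset.card_insert_of_notMem hg2] at this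
      omega
    · rcases Finset.mem_insert.1 hg' with rfl | hg'
      · rw [Function.update_self]
        exact ⟨Finset.sdiff_subset, by linarith [(hV g' hg1).1]⟩
      · rw [hup g' hg']
        exact h1 g' hg'
    · have h5 : 𝓚.erase g ⊆ 𝓗.filter fun g' => x ∈ V' g' := by
        intro g' hg'
        obtain ⟨b1, b2⟩ := Finset.mem_erase.1 hg'
        have b3 := (Finset.mem_insert.1 (h3 b2)).resolve_left b1
        exact Finset.mem_filter.2 ⟨b3, hup g' b3 ▸ h4 g' b2⟩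
      by_cases hgK : g ∈ 𝓚
      · have b1 := h4 g hgK
        rw [Function.update_self] at b1
        have b2 := hns x (Finset.mem_sdiff.1 b1).2
        have b3 : (𝓚.card : ℝ) ≤ (𝓗.filter fun g' => x ∈ V' g').card + 1 := by
          have := Finset.card_le_card h5
          rw [Finset.card_erase_of_mem hgK] at this
          exact_mod_cast (by omega : 𝓚.card ≤ (𝓗.filter fun g' => x ∈ V' g').card + 1)
        linarith
      · rw [Finset.erase_eq_of_notMem hgK] at h5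
        exact h2 x 𝓚 (h5.trans (Finset.filter_subset _ _)) fun g' hg' =>
          (Finset.mem_filter.1 (h5 hg')).2
  have a3 : ((𝓖 \ 𝓗).card : ℝ) * (τ / 2) ≤ Sat.card * s := by
    have b1 : ((𝓖 \ 𝓗).card : ℝ) * (τ / 2) ≤
        ∑ g ∈ 𝓖 \ 𝓗, ((Sat.filter fun x => x ∈ V g).card : ℝ) := by
      rw [← nsmul_eq_mul, ← Finset.sum_const]
      exact Finset.sum_le_sum a2
    have b2 : ∑ g ∈ 𝓖 \ 𝓗, (Sat.filter fun x => x ∈ V g).card =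
        ∑ x ∈ Sat, ((𝓖 \ 𝓗).filter fun g => x ∈ V g).card := by
      simp only [Finset.card_filter]
      exact Finset.sum_comm
    have b3 : ∑ x ∈ Sat, (((𝓖 \ 𝓗).filter fun g => x ∈ V g).card : ℝ) ≤ Sat.card * s := by
      rw [← nsmul_eq_mul, ← Finset.sum_const]
      exact Finset.sum_le_sum fun x _ => hdeg x _
        ((Finset.filter_subset _ _).trans Finset.sdiff_subset)
        fun g hg => (Finset.mem_filter.1 hg).2
    have b4 : ∑ g ∈ 𝓖 \ 𝓗, ((Sat.filter fun x => x ∈ V g).card : ℝ) =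
        ∑ x ∈ Sat, (((𝓖 \ 𝓗).filter fun g => x ∈ V g).card : ℝ) := by exact_mod_cast b2
    linarith
  have a4 : ((𝓖 \ 𝓗).card : ℝ) + 𝓗.card = 𝓖.card := by
    exact_mod_cast Finset.card_sdiff_add_card_eq_card hsub
  have hu0 : 0 < u := by linarith
  have a5 : ((𝓖 \ 𝓗).card : ℝ) * u ≤ 16 * s * 𝓗.card := by
    refine le_of_mul_le_mul_right ?_ hτ
    have c0 : (0 : ℝ) ≤ Sat.card := Nat.cast_nonneg _
    have c1 : (Sat.card : ℝ) * u ≤ 𝓗.card * (4 * τ) := by nlinarith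
    have c2 := mul_le_mul_of_nonneg_right a3 hu0.le
    have c3 := mul_le_mul_of_nonneg_right c1 hs
    have c4 : 0 ≤ s * 𝓗.card * τ := by positivity
    nlinarith
  have a6 : ((𝓖 \ 𝓗).card : ℝ) ≤ 16 * s / u * 𝓗.card := by
    rw [div_mul_eq_mul_div, le_div_iff₀ hu0]
    exact a5
  linarith

/-- splitting of a family of rich motions. -/
theorem base_splitL : ∃ C : ℝ, 1 ≤ C ∧ ∀ (n t θ σ s : ℝ) (P : Finset Pt) (X : Finset (Pt × Pt))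
    (𝓖 : Finset Mo), (P.card : ℝ) ≤ n → X ⊆ P ×ˢ P → 0 < θ → θ ≤ 1 / 4 → 0 < σ → σ ≤ 1 / 4 →
    0 < s → 2 ≤ θ * (σ * t) → n ≤ (θ * (σ * t)) ^ 2 → (∀ g ∈ 𝓖, Iso g ∧ Rich X g t) →
    ∃ (X2 : Finset (Pt × Pt)) (𝓖c 𝓖d : Finset Mo) (V : Mo → Finset (Pt × Pt)), X2 ⊆ X ∧
      (X2.card : ℝ) * s ≤ 2 * t * 𝓖.card ∧ (∀ g ∈ 𝓖c, Iso g ∧ Rich X2 g ((1 - 2 * σ) * t)) ∧
      Fam X 𝓖d V (σ * t) θ ∧
      (𝓖.card : ℝ) ≤ C * n ^ 2 * X.card / (θ ^ 2 * σ ^ 2 * t ^ 3) + 𝓖c.card +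
        2 * (1 + 16 * s / (θ * (σ * t))) * 𝓖d.card := by
  classical
  obtain ⟨C, hC, hR⟩ := rich_lines'
  refine ⟨C, hC, fun n t θ σ s P X 𝓖 hP hX hθ hθ4 hσ hσ4 hs h2 hn h𝓖 => ?_⟩
  have hσt0 : 0 < σ * t := by
    by_contra h
    have : θ * (σ * t) ≤ 0 := mul_nonpos_of_nonneg_of_nonpos hθ.le (not_lt.1 h)
    linarith
  have ht0 : 0 < t := (pos_iff_pos_of_mul_pos hσt0).1 hσ
  have hθt : θ * (σ * t) ≤ σ * t / 4 := by nlinarith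
  have hσt : σ * t ≤ t / 4 := by nlinarith
  set 𝓖a := 𝓖.filter fun g => ¬ LinB (gr X g) (θ * (σ * t)) with h𝓖a
  set 𝓖b := 𝓖.filter fun g => LinB (gr X g) (θ * (σ * t)) with h𝓖b
  have hab : (𝓖b.card : ℝ) + 𝓖a.card = 𝓖.card := by
    exact_mod_cast Finset.card_filter_add_card_filter_not (s := 𝓖)
      fun g => LinB (gr X g) (θ * (σ * t))
  have ha : (𝓖a.card : ℝ) ≤ C * n ^ 2 * X.card / (θ ^ 2 * σ ^ 2 * t ^ 3) := by
    have := hR n (θ * (σ * t)) t P X 𝓖a hP hX h2 hn fun g hg => by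
      obtain ⟨h1, h3⟩ := Finset.mem_filter.1 hg
      exact ⟨(h𝓖 g h1).1, (h𝓖 g h1).2, h3⟩
    rw [le_div_iff₀ (by positivity)]
    calc (𝓖a.card : ℝ) * (θ ^ 2 * σ ^ 2 * t ^ 3) = 𝓖a.card * t * (θ * (σ * t)) ^ 2 := by ring
      _ ≤ _ := this
  have hV0 : ∀ g : Mo, ∃ S : Finset (Pt × Pt), g ∈ 𝓖 → S ⊆ gr X g ∧ S.card = ⌈t⌉₊ := by
    intro g
    by_cases hg : g ∈ 𝓖
    · obtain ⟨S, h1, h3⟩ := Finset.exists_subset_card_eq (Nat.ceil_le.2 (h𝓖 g hg).2.le_card)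
      exact ⟨S, fun _ => ⟨h1, h3⟩⟩
    · exact ⟨∅, fun h => absurd h hg⟩
  choose V0 hV0 using hV0
  have hlo : ∀ g ∈ 𝓖, t ≤ ((V0 g).card : ℝ) := fun g hg => by
    rw [(hV0 g hg).2]; exact Nat.le_ceil t
  have hup : ∀ g ∈ 𝓖, ((V0 g).card : ℝ) ≤ 2 * t := fun g hg => by
    rw [(hV0 g hg).2]
    have := Nat.ceil_lt_add_one ht0.le
    linarith
  set X2 := X.filter fun x => s < ((𝓖.filter fun g => x ∈ V0 g).card : ℝ) with hX2
  have hX2c : (X2.card : ℝ) * s ≤ 2 * t * 𝓖.card :=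
    (baseSplit_heavy X 𝓖 V0 s (2 * t) hup).trans (le_of_eq (mul_comm _ _))
  set 𝓖c := 𝓖b.filter fun g => ((V0 g \ X2).card : ℝ) ≤ σ * t with h𝓖c
  set 𝓖r := 𝓖b.filter fun g => ¬ ((V0 g \ X2).card : ℝ) ≤ σ * t with h𝓖r
  have hcr : (𝓖c.card : ℝ) + 𝓖r.card = 𝓖b.card := by
    exact_mod_cast Finset.card_filter_add_card_filter_not (s := 𝓖b)
      fun g => ((V0 g \ X2).card : ℝ) ≤ σ * t
  have hr : ∀ g ∈ 𝓖r, g ∈ 𝓖 ∧ LinB (gr X g) (θ * (σ * t)) ∧ σ * t < ((V0 g \ X2).card : ℝ) := by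
    intro g hg
    obtain ⟨h1, h3⟩ := Finset.mem_filter.1 hg
    obtain ⟨h4, h5⟩ := Finset.mem_filter.1 h1
    exact ⟨h4, h5, not_le.1 h3⟩
  have hV1 : ∀ g : Mo, ∃ S : Finset (Pt × Pt), g ∈ 𝓖r → S ⊆ V0 g \ X2 ∧ S.card = ⌈σ * t⌉₊ := by
    intro g
    by_cases hg : g ∈ 𝓖r
    · obtain ⟨S, h1, h3⟩ := Finset.exists_subset_card_eq (Nat.ceil_le.2 (hr g hg).2.2.le)
      exact ⟨S, fun _ => ⟨h1, h3⟩⟩
    · exact ⟨∅, fun h => absurd h hg⟩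
  choose V1 hV1 using hV1
  have hsz : ∀ g ∈ 𝓖r, σ * t ≤ ((V1 g).card : ℝ) ∧ ((V1 g).card : ℝ) ≤ 2 * (σ * t) := by
    intro g hg
    rw [(hV1 g hg).2]
    have := Nat.ceil_lt_add_one hσt0.le
    exact ⟨Nat.le_ceil _, by linarith⟩
  obtain ⟨𝓖e, he1, he2, he3⟩ := baseSplit_det 𝓖r fun g hg => (h𝓖 g (hr g hg).1).1
  obtain ⟨𝓖d, V, hd1, hd2, hd3, hd4⟩ := split_thin 𝓖e V1 (σ * t) s (θ * (σ * t)) hσt0 h2 hs.le
    (fun g hg => hsz g (he1 hg)) (fun x 𝓗 h𝓗 hx => by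
      rcases 𝓗.eq_empty_or_nonempty with rfl | ⟨g0, hg0⟩
      · simp only [Finset.card_empty, Nat.cast_zero]
        exact hs.le
      · obtain ⟨h1, h3⟩ := Finset.mem_sdiff.1 ((hV1 g0 (he1 (h𝓗 hg0))).1 (hx g0 hg0))
        have hxX : x ∈ X := (mem_gr.1 ((hV0 g0 (hr g0 (he1 (h𝓗 hg0))).1).1 h1)).1
        have h4 : ((𝓖.filter fun g => x ∈ V0 g).card : ℝ) ≤ s := by
          by_contra h
          exact h3 (Finset.mem_filter.2 ⟨hxX, not_le.1 h⟩)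
        refine le_trans (Nat.cast_le.2 (Finset.card_le_card fun g hg => ?_)) h4
        exact Finset.mem_filter.2 ⟨(hr g (he1 (h𝓗 hg))).1,
          (Finset.mem_sdiff.1 ((hV1 g (he1 (h𝓗 hg))).1 (hx g hg))).1⟩)
  have hdr : ∀ g ∈ 𝓖d, g ∈ 𝓖r := fun g hg => he1 (hd1 hg)
  refine ⟨X2, 𝓖c, 𝓖d, V, Finset.filter_subset _ _, hX2c, fun g hg => ?_,
    ⟨fun g hg => (h𝓖 g (hr g (hdr g hg)).1).1,
      fun g hg => (hd2 g hg).1.trans ((hV1 g (hdr g hg)).1.trans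
        (Finset.sdiff_subset.trans (hV0 g (hr g (hdr g hg)).1).1)),
      fun g hg => (hd2 g hg).2,
      fun g hg => (Nat.cast_le.2 (Finset.card_le_card (hd2 g hg).1)).trans (hsz g (hdr g hg)).2,
      fun g hg => (hr g (hdr g hg)).2.1, fun g hg g' hg' => he2 g (hd1 hg) g' (hd1 hg'), hd3⟩,
    by linarith⟩
  obtain ⟨h1, h3⟩ := Finset.mem_filter.1 hg
  obtain ⟨h4, h5⟩ := Finset.mem_filter.1 h1
  have e : ((V0 g \ X2).card : ℝ) + (V0 g ∩ X2).card = (V0 g).card := by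
    exact_mod_cast Finset.card_sdiff_add_card_inter (V0 g) X2
  refine ⟨(h𝓖 g h4).1, rich_of_linB (S := V0 g ∩ X2) (l := θ * (σ * t)) (fun y hy => ?_)
    (h5.mono (Finset.inter_subset_left.trans (hV0 g h4).1) le_rfl) (by linarith [hlo g h4])⟩
  obtain ⟨h6, h7⟩ := Finset.mem_inter.1 hy
  exact mem_gr.2 ⟨h7, (mem_gr.1 ((hV0 g h4).1 h6)).2⟩

end

end Vale.Agent.P054
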