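import Vale.Agent.P054.ClassL
import Vale.Agent.P054.SplitL
import Vale.Agent.P054.HeavyL

namespace Vale.Agent.P054

open MvPolynomial

noncomputable section

theorem sml_rp {y : ℝ} (hy : 0 ≤ y) (m k : ℕ) {c : ℝ} (h : m * c = k) : (y ^ m) ^ c = y ^ k := by
  rw [← Real.rpow_natCast y m, ← Real.rpow_mul hy, h, Real.rpow_natCast]

theorem sml_root {y : ℝ} (hy : 0 ≤ y) (m : ℕ) {c : ℝ} (h : c * m = 1) : (y ^ c) ^ m = y := by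
  rw [← Real.rpow_natCast, ← Real.rpow_mul hy, h, Real.rpow_one]

theorem sml_x {N : ℝ} (hN : 1 ≤ N) : ∃ x : ℝ, 1 ≤ x ∧ N = x ^ 3 ∧ N ^ ((2 : ℝ) / 3) = x ^ 2 ∧
    ∀ K L : ℝ, 0 ≤ L → ∃ z : ℝ, 0 ≤ z ∧ (L / N ^ 2) ^ ((1 : ℝ) / 40) = z ∧ L = z ^ 40 * x ^ 6 ∧
      K * N ^ ((53 : ℝ) / 30) * L ^ ((19 : ℝ) / 20) = K * (x ^ 11 * z ^ 38) := by
  obtain ⟨y, hy1, rfl⟩ : ∃ y : ℝ, 1 ≤ y ∧ N = y ^ 30 :=
    ⟨N ^ ((1 : ℝ) / 30), Real.one_le_rpow hN (by norm_num),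
      (sml_root (by linarith) 30 (by norm_num)).symm⟩
  have hy0 : 0 < y := by linarith
  refine ⟨y ^ 10, one_le_pow₀ hy1, by ring, ?_, fun K L hL => ?_⟩
  · rw [sml_rp hy0.le 30 20 (by norm_num)]; ring
  · have h0 : 0 ≤ L / (y ^ 30) ^ 2 := by positivity
    have h1 := sml_root h0 40 (c := (1 : ℝ) / 40) (by norm_num)
    have h2 := Real.rpow_nonneg h0 ((1 : ℝ) / 40)
    refine ⟨_, h2, rfl, ?_⟩
    generalize (L / (y ^ 30) ^ 2) ^ ((1 : ℝ) / 40) = z at h1 h2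
    have h3 : L = (z ^ 2 * y ^ 3) ^ 20 := by
      rw [eq_div_iff (by positivity)] at h1
      rw [← h1]; ring
    refine ⟨by rw [h3]; ring, ?_⟩
    rw [h3, sml_rp hy0.le 30 53 (by norm_num), sml_rp (by positivity) 20 19 (by norm_num)]
    ring

theorem sml_z1 {x z : ℝ} (hx : 1 ≤ x) (h : z ^ 40 * x ^ 6 ≤ (x ^ 3) ^ 2) : z ≤ 1 := by
  have h1 : z ^ 40 * x ^ 6 ≤ 1 ^ 40 * x ^ 6 := by linarith
  exact le_of_pow_le_pow_left₀ (by norm_num) zero_le_one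
    (le_of_mul_le_mul_right h1 (by positivity))

theorem sml_zx {a x z v : ℝ} (ha : 1 ≤ a) (hx : 1 ≤ x) (hz : 0 ≤ z) (hv : 0 < v)
    (h1 : a ^ 2 * x ^ 2 * (1 + z) ≤ v ^ 2) (h2 : v ^ 2 ≤ z ^ 40 * x ^ 6) :
    a * x ≤ v ∧ 1 ≤ z ^ 10 * x := by
  have e0 : 0 ≤ a ^ 2 * x ^ 2 * z := by positivity
  have e1 : (a * x) ^ 2 ≤ v ^ 2 := by linarith
  refine ⟨le_of_pow_le_pow_left₀ two_ne_zero hv.le e1, ?_⟩
  have e2 : 1 * x ^ 2 ≤ a ^ 2 * x ^ 2 := mul_le_mul_of_nonneg_right (one_le_pow₀ ha) (by positivity)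
  have e3 : 1 ^ 4 * x ^ 2 ≤ (z ^ 10 * x) ^ 4 * x ^ 2 := by linarith
  exact le_of_pow_le_pow_left₀ (by norm_num) (by positivity)
    (le_of_mul_le_mul_right e3 (by positivity))

theorem sml_u {a x z v : ℝ} (ha : 1 ≤ a) (hx : 1 ≤ x) (hz : 0 ≤ z) (hz1 : z ≤ 1) (hv : 0 < v)
    (h1 : v ^ 2 ≤ x ^ 3) (h2 : v ^ 2 ≤ z ^ 40 * x ^ 6) : v ^ 5 ≤ a ^ 4 * (x ^ 11 * z ^ 38) := by
  have e1 : v ≤ x ^ 2 := by
    refine le_of_pow_le_pow_left₀ two_ne_zero (by positivity) (h1.trans ?_)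
    rw [← pow_mul]
    exact pow_le_pow_right₀ hx (by norm_num)
  have e2 : z ^ 40 ≤ z ^ 38 := pow_le_pow_of_le_one hz hz1 (by norm_num)
  have e3 : 1 ≤ a ^ 4 := one_le_pow₀ ha
  calc v ^ 5 = 1 * (v ^ 2 * v ^ 2 * v) := by ring
    _ ≤ a ^ 4 * (z ^ 40 * x ^ 6 * x ^ 3 * x ^ 2) := by gcongr
    _ ≤ a ^ 4 * (z ^ 38 * x ^ 6 * x ^ 3 * x ^ 2) := by gcongr
    _ = _ := by ring

theorem sml_t {a θ x z v : ℝ} (hθ : 0 < θ) (hx : 1 ≤ x) (hz : 0 < z) (hz1 : z ≤ 1)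
    (haθ : 16 ≤ a ^ 2 * θ) (h1 : a ^ 2 * x ^ 2 * (1 + z) ≤ v ^ 2) (hzx : 1 ≤ z ^ 10 * x) :
    2 ≤ θ * (z / 8 * v ^ 2) ∧ x ^ 3 ≤ (θ * (z / 8 * v ^ 2)) ^ 2 := by
  have e0 : 0 ≤ a ^ 2 * x ^ 2 * z := by positivity
  have e1 : a ^ 2 * x ^ 2 ≤ v ^ 2 := by linarith
  have e2 : 2 * (z * x ^ 2) ≤ θ * (z / 8 * v ^ 2) :=
    calc 2 * (z * x ^ 2) = 16 * (z / 8 * x ^ 2) := by ring
      _ ≤ a ^ 2 * θ * (z / 8 * x ^ 2) := by gcongr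
      _ = θ * (z / 8 * (a ^ 2 * x ^ 2)) := by ring
      _ ≤ _ := by gcongr
  have e3 : 1 ≤ z ^ 2 * x :=
    hzx.trans (mul_le_mul_of_nonneg_right (pow_le_pow_of_le_one hz.le hz1 (by norm_num))
      (by linarith))
  have e4 : x ^ 3 ≤ (z * x ^ 2) ^ 2 :=
    calc x ^ 3 = 1 * x ^ 3 := by ring
      _ ≤ z ^ 2 * x * x ^ 3 := by gcongr
      _ = _ := by ring
  have e5 : 1 ≤ z * x ^ 2 :=
    le_of_pow_le_pow_left₀ two_ne_zero (by positivity) (by linarith [one_le_pow₀ (n := 3) hx])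
  exact ⟨by linarith, e4.trans (pow_le_pow_left₀ (by linarith) (by linarith) 2)⟩

theorem sml_L2 {a x z y v G : ℝ} (ha : 4 * 2 ^ 40 ≤ a) (hx : 1 ≤ x) (hz : 0 < z)
    (hv : a * x ≤ v) (h1 : y ^ 40 * x ^ 6 * (v ^ 2 / z ^ 2) ≤ 2 * v ^ 2 * G)
    (h2 : G ≤ 2 * (a ^ 4 * (x ^ 11 * z ^ 38) / v ^ 5)) : 2 * y ≤ z := by
  have ha0 : 0 < a := lt_of_lt_of_le (by norm_num) ha
  have hv0 : 0 < v := lt_of_lt_of_le (by positivity) hv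
  have e1 : y ^ 40 * x ^ 6 ≤ 2 * G * z ^ 2 := by
    rw [← mul_div_assoc, div_le_iff₀ (by positivity)] at h1
    refine le_of_mul_le_mul_right ?_ (pow_pos hv0 2)
    linarith
  have e2 : G * v ^ 5 ≤ 2 * (a ^ 4 * (x ^ 11 * z ^ 38)) := by
    rwa [← mul_div_assoc, le_div_iff₀ (by positivity)] at h2
  have e3 : (2 * y) ^ 40 * (4 * a ^ 4 * x ^ 11) ≤ z ^ 40 * (4 * a ^ 4 * x ^ 11) :=
    calc (2 * y) ^ 40 * (4 * a ^ 4 * x ^ 11) = y ^ 40 * x ^ 6 * (4 * 2 ^ 40 * a ^ 4 * x ^ 5) := by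
          ring
      _ ≤ y ^ 40 * x ^ 6 * (a * a ^ 4 * x ^ 5) := by gcongr
      _ = y ^ 40 * x ^ 6 * (a * x) ^ 5 := by ring
      _ ≤ y ^ 40 * x ^ 6 * v ^ 5 := by gcongr
      _ ≤ 2 * G * z ^ 2 * v ^ 5 := mul_le_mul_of_nonneg_right e1 (by positivity)
      _ = 2 * z ^ 2 * (G * v ^ 5) := by ring
      _ ≤ 2 * z ^ 2 * (2 * (a ^ 4 * (x ^ 11 * z ^ 38))) :=
          mul_le_mul_of_nonneg_left e2 (by positivity)
      _ = _ := by ring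
  exact le_of_pow_le_pow_left₀ (by norm_num) hz.le (le_of_mul_le_mul_right e3 (by positivity))

theorem sml_th {c z y w : ℝ} (hc : 0 ≤ c) (hz : 0 ≤ z) (hz1 : z ≤ 1) (hy : 2 * y ≤ z)
    (h : c * (1 + z) ≤ w) : c * (1 + y) ≤ (1 - 2 * (z / 8)) * w := by
  have e1 : 1 + y ≤ (1 - 2 * (z / 8)) * (1 + z) := by
    linarith [mul_le_mul_of_nonneg_left hz1 hz]
  calc c * (1 + y) ≤ c * ((1 - 2 * (z / 8)) * (1 + z)) := mul_le_mul_of_nonneg_left e1 hc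
    _ = (1 - 2 * (z / 8)) * (c * (1 + z)) := by ring
    _ ≤ _ := mul_le_mul_of_nonneg_left h (by linarith)

theorem sml_five {z v : ℝ} (hz1 : z ≤ 1) (hv : 0 < v) :
    (v / 2) ^ 5 ≤ ((1 - 2 * (z / 8)) * v ^ 2) ^ ((5 : ℝ) / 2) := by
  rw [← sml_rp (by positivity : 0 ≤ v / 2) 2 5 (c := (5 : ℝ) / 2) (by norm_num)]
  refine Real.rpow_le_rpow (by positivity) ?_ (by norm_num)
  linarith [mul_le_mul_of_nonneg_right hz1 (sq_nonneg v), sq_nonneg v]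

theorem sml_D {K θ C2 x z y v G Gc Gd : ℝ} (hθ : 0 < θ) (hθ1 : θ ≤ 1 / 4) (hK : 0 < K)
    (hC : 640 * C2 ≤ K * θ ^ 2) (hx : 1 ≤ x) (hz : 0 < z) (hz1 : z ≤ 1) (hy : 0 ≤ y)
    (hyz : 2 * y ≤ z) (hv : x ≤ v) (hd : 0 ≤ Gd) (hc : Gc * (v / 2) ^ 5 ≤ K * (x ^ 11 * y ^ 38))
    (hG : K * (x ^ 11 * z ^ 38) / v ^ 5 < G)
    (hs : G ≤ C2 * (x ^ 3) ^ 2 * (z ^ 40 * x ^ 6) / (θ ^ 2 * (z / 8) ^ 2 * (v ^ 2) ^ 3) + Gc +
      2 * (1 + 16 * (v ^ 2 / z ^ 2) / (θ * (z / 8 * v ^ 2))) * Gd) :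
    θ * z ^ 3 * (K * (x ^ 11 * z ^ 38)) ≤ 323 * Gd * v ^ 5 := by
  have hv0 : 0 < v := by linarith
  have hv5 : 0 < v ^ 5 := by positivity
  have hx0 : 0 < x := by linarith
  have e1 : C2 * (x ^ 3) ^ 2 * (z ^ 40 * x ^ 6) / (θ ^ 2 * (z / 8) ^ 2 * (v ^ 2) ^ 3) ≤
      K * (x ^ 11 * z ^ 38) / v ^ 5 / 10 := by
    rw [div_div, div_le_div_iff₀ (by positivity) (by positivity)]
    calc _ = 640 * C2 * x * (x ^ 11 * z ^ 40 * v ^ 5 / 64) := by ring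
      _ ≤ K * θ ^ 2 * v * (x ^ 11 * z ^ 40 * v ^ 5 / 64) := by gcongr
      _ = _ := by ring
  have e2 : Gc ≤ K * (x ^ 11 * z ^ 38) / v ^ 5 / 10 := by
    rw [le_div_iff₀ (by norm_num), le_div_iff₀ hv5]
    have f1 : (2 * y) ^ 38 ≤ z ^ 38 := pow_le_pow_left₀ (by positivity) hyz 38
    have f2 := mul_le_mul_of_nonneg_left f1 (by positivity : 0 ≤ K * x ^ 11)
    have f3 : 0 ≤ K * (x ^ 11 * y ^ 38) := by positivity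
    linarith
  have e3 : θ * z ^ 3 ≤ 1 := mul_le_one₀ (by linarith) (by positivity) (pow_le_one₀ hz.le hz1)
  have e4 : θ * z ^ 3 * (2 * (1 + 16 * (v ^ 2 / z ^ 2) / (θ * (z / 8 * v ^ 2)))) ≤ 258 := by
    have : θ * z ^ 3 * (2 * (1 + 16 * (v ^ 2 / z ^ 2) / (θ * (z / 8 * v ^ 2)))) =
        2 * (θ * z ^ 3) + 256 := by field_simp; ring
    linarith
  have e5 : 4 / 5 * (K * (x ^ 11 * z ^ 38) / v ^ 5) ≤
      2 * (1 + 16 * (v ^ 2 / z ^ 2) / (θ * (z / 8 * v ^ 2))) * Gd := by linarith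
  have e6 := mul_le_mul_of_nonneg_left e5 (by positivity : 0 ≤ θ * z ^ 3)
  have e7 := mul_le_mul_of_nonneg_right e4 hd
  have e8 : θ * z ^ 3 * (K * (x ^ 11 * z ^ 38)) / v ^ 5 ≤ 323 * Gd := by
    rw [mul_div_assoc]
    linarith
  exact (div_le_iff₀ hv5).1 e8

theorem sml_rho {a b r x z : ℝ} (ha : 1 ≤ a) (hb : 1 ≤ b) (hr : 3 ≤ r) (hx : 1 ≤ x) (hz : 0 < z)
    (hz1 : z ≤ 1) : 9 * (b ^ 2 * a ^ 2 * x ^ 2) ≤ (r * b * a * x / z ^ 5) ^ 2 ∧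
      x ^ 2 ≤ b ^ 2 * a ^ 2 * x ^ 2 := by
  constructor
  · have e1 : 3 * (b * a * x) ≤ r * b * a * x / z ^ 5 := by
      rw [le_div_iff₀ (by positivity)]
      have := pow_le_one₀ (n := 5) hz.le hz1
      calc 3 * (b * a * x) * z ^ 5 ≤ r * (b * a * x) * 1 := by gcongr
        _ = _ := by ring
    calc 9 * (b ^ 2 * a ^ 2 * x ^ 2) = (3 * (b * a * x)) ^ 2 := by ring
      _ ≤ _ := pow_le_pow_left₀ (by positivity) e1 2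
  · exact le_mul_of_one_le_left (by positivity)
      (one_le_mul_of_one_le_of_one_le (one_le_pow₀ hb) (one_le_pow₀ ha))

theorem sml_e {x z : ℝ} (hx : 1 ≤ x) (hz : 0 < z) (hz1 : z ≤ 1) (hzx : 1 ≤ z ^ 10 * x) :
    1 ≤ z ^ 13 * x ^ 2 ∧ z ^ 40 * x ^ 6 ≤ (z ^ 13 * x ^ 2) ^ 3 := by
  have e1 : z ^ 20 ≤ z ^ 13 := pow_le_pow_of_le_one hz.le hz1 (by norm_num)
  have e2 : z ^ 40 ≤ z ^ 39 := pow_le_pow_of_le_one hz.le hz1 (by norm_num)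
  constructor
  · calc 1 ≤ (z ^ 10 * x) ^ 2 := one_le_pow₀ hzx
      _ = z ^ 20 * x ^ 2 := by ring
      _ ≤ _ := by gcongr
  · calc z ^ 40 * x ^ 6 ≤ z ^ 39 * x ^ 6 := by gcongr
      _ = _ := by ring

theorem sml_rhs {a b r x z v ρ : ℝ} (ha : 1 ≤ a) (hb : 1 ≤ b) (hr : 3 ≤ r) (hx : 1 ≤ x)
    (hz : 0 < z) (hz1 : z ≤ 1) (hzx : 1 ≤ z ^ 10 * x) (hv : v ^ 2 ≤ b ^ 2 * a ^ 2 * x ^ 2)
    (hρ : ρ = (r * b * a * x / z ^ 5) ^ 2) :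
    z ^ 40 * x ^ 6 * (z ^ 13 * x ^ 2 * (z ^ 13 * x ^ 2 + z / 8 * v ^ 2 + ρ) + ρ + x ^ 3) ≤
      5 * r ^ 2 * b ^ 2 * a ^ 2 * (z ^ 43 * x ^ 10) := by
  obtain ⟨h1, h2⟩ := sml_rho ha hb hr hx hz hz1
  rw [← hρ] at h1
  have h3 := (sml_e hx hz hz1 hzx).1
  have hx2 : 0 ≤ x ^ 2 := by positivity
  have h4 : z ^ 13 * x ^ 2 ≤ ρ := by
    linarith [mul_le_mul_of_nonneg_right (pow_le_one₀ (n := 13) hz.le hz1) hx2]
  have h5 : z / 8 * v ^ 2 ≤ ρ := by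
    linarith [mul_le_mul_of_nonneg_right hz1 (sq_nonneg v), sq_nonneg v]
  have h6 : ρ ≤ z ^ 13 * x ^ 2 * ρ := le_mul_of_one_le_left (by linarith) h3
  have e : z ^ 13 * x ^ 2 * ρ = r ^ 2 * b ^ 2 * a ^ 2 * (z ^ 3 * x) * x ^ 3 := by
    rw [hρ]; field_simp
  have h7 : x ^ 3 ≤ z ^ 13 * x ^ 2 * ρ := by
    rw [e]
    refine le_mul_of_one_le_left (by positivity) (one_le_mul_of_one_le_of_one_le
      (one_le_mul_of_one_le_of_one_le (one_le_mul_of_one_le_of_one_le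
        (one_le_pow₀ (by linarith)) (one_le_pow₀ hb)) (one_le_pow₀ ha)) ?_)
    exact hzx.trans (mul_le_mul_of_nonneg_right (pow_le_pow_of_le_one hz.le hz1 (by norm_num))
      (by linarith))
  have h8 : z ^ 13 * x ^ 2 * (z ^ 13 * x ^ 2 + z / 8 * v ^ 2 + ρ) ≤ z ^ 13 * x ^ 2 * (3 * ρ) :=
    mul_le_mul_of_nonneg_left (by linarith) (by linarith)
  calc _ ≤ z ^ 40 * x ^ 6 * (5 * (z ^ 13 * x ^ 2 * ρ)) :=
        mul_le_mul_of_nonneg_left (by linarith) (by positivity)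
    _ = _ := by rw [e]; ring

theorem sml_H {a b r x z : ℝ} (ha : 1 ≤ a) (hb : 1 ≤ b) (hr : 3 ≤ r) (hx : 1 ≤ x)
    (hz : 0 < z) (hz1 : z ≤ 1) :
    a ^ 4 * (x ^ 11 * z ^ 38) / Real.sqrt ((r * b * a * x / z ^ 5) ^ 2) +
      (x ^ 3) ^ 2 * (z ^ 40 * x ^ 6) / (r * b * a * x / z ^ 5) ^ 2 ≤
      (a ^ 3 / (r * b) + a ^ 2) * (z ^ 43 * x ^ 10) := by
  have hr0 : 0 < r := by linarith
  have hx0 : 0 < x := by linarith
  rw [Real.sqrt_sq (by positivity)]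
  have e1 : a ^ 4 * (x ^ 11 * z ^ 38) / (r * b * a * x / z ^ 5) =
      a ^ 3 / (r * b) * (z ^ 43 * x ^ 10) := by field_simp
  have e2 : (x ^ 3) ^ 2 * (z ^ 40 * x ^ 6) / (r * b * a * x / z ^ 5) ^ 2 =
      z ^ 7 / (r * b * a) ^ 2 * (z ^ 43 * x ^ 10) := by field_simp
  have e3 : z ^ 7 / (r * b * a) ^ 2 ≤ a ^ 2 := by
    refine le_trans ?_ (one_le_pow₀ ha)
    rw [div_le_one (by positivity)]
    exact (pow_le_one₀ hz.le hz1).trans (one_le_pow₀ (one_le_mul_of_one_le_of_one_le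
      (one_le_mul_of_one_le_of_one_le (by linarith) hb) ha))
  rw [e1, e2, add_mul]
  gcongr

/-- the final numeric contradiction. -/
theorem sml_final {a b r θ C1 C3 x z v D H Q : ℝ} (ha : 1 ≤ a) (hb : 1 ≤ b) (hr : 3 ≤ r)
    (hC1 : 1 ≤ C1) (hrC : 41344 * (C1 * C3) ≤ r * θ) (hx : 1 ≤ x)
    (hz : 0 < z) (hv0 : 0 < v) (hv : v ≤ b * a * x) (hD0 : 0 ≤ D)
    (hD : θ * z ^ 3 * (a ^ 4 * (x ^ 11 * z ^ 38)) ≤ 323 * D * v ^ 5)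
    (hQ : Q ≤ 5 * r ^ 2 * b ^ 2 * a ^ 2 * (z ^ 43 * x ^ 10))
    (hH : H ≤ C3 * ((a ^ 3 / (r * b) + a ^ 2) * (z ^ 43 * x ^ 10)))
    (h : D * (z / 8 * v ^ 2) ^ 2 ≤ C1 * (Q + H)) :
    a * θ ≤ 41344 * (b * (C1 * (5 * r ^ 2 * b ^ 2 + C3))) := by
  have hr0 : 0 < r := by linarith
  have hx0 : 0 < x := by linarith
  have hT : 0 < z ^ 43 * x ^ 10 := by positivity
  have e1 : θ * a ^ 3 * (z ^ 43 * x ^ 10) * (a * x) ≤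
      20672 * b * (D * (z / 8 * v ^ 2) ^ 2) * (a * x) :=
    calc θ * a ^ 3 * (z ^ 43 * x ^ 10) * (a * x)
        = z ^ 2 * (θ * z ^ 3 * (a ^ 4 * (x ^ 11 * z ^ 38))) := by ring
      _ ≤ z ^ 2 * (323 * D * v ^ 5) := mul_le_mul_of_nonneg_left hD (by positivity)
      _ = 20672 * (D * (z / 8 * v ^ 2) ^ 2) * v := by ring
      _ ≤ 20672 * (D * (z / 8 * v ^ 2) ^ 2) * (b * a * x) := by gcongr
      _ = _ := by ring
  have e2 := le_of_mul_le_mul_right e1 (by positivity)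
  have e3 : D * (z / 8 * v ^ 2) ^ 2 ≤ C1 * (5 * r ^ 2 * b ^ 2 * a ^ 2 +
      C3 * (a ^ 3 / (r * b) + a ^ 2)) * (z ^ 43 * x ^ 10) :=
    calc _ ≤ C1 * (Q + H) := h
      _ ≤ C1 * (5 * r ^ 2 * b ^ 2 * a ^ 2 * (z ^ 43 * x ^ 10) +
          C3 * ((a ^ 3 / (r * b) + a ^ 2) * (z ^ 43 * x ^ 10))) :=
          mul_le_mul_of_nonneg_left (add_le_add hQ hH) (by linarith)
      _ = _ := by ring
  have e4 := e2.trans (mul_le_mul_of_nonneg_left e3 (by positivity))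
  rw [← mul_assoc (20672 * b)] at e4
  have e5 := le_of_mul_le_mul_right e4 hT
  have e6 : 20672 * b * (C1 * (5 * r ^ 2 * b ^ 2 * a ^ 2 + C3 * (a ^ 3 / (r * b) + a ^ 2))) =
      20672 * (b * (C1 * (5 * r ^ 2 * b ^ 2 + C3))) * a ^ 2 + 20672 * (C1 * C3) / r * a ^ 3 := by
    field_simp; ring
  have e7 : 20672 * (C1 * C3) / r ≤ θ / 2 := by
    rw [div_le_iff₀ hr0]; linarith
  have e8 := mul_le_mul_of_nonneg_right e7 (by positivity : 0 ≤ a ^ 3)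
  refine le_of_mul_le_mul_right ?_ (by positivity : 0 < a ^ 2)
  linarith

theorem sml_pos {G : ℕ} {w : ℝ} (hw : 0 ≤ w) (h : 0 < (G : ℝ) * w ^ ((5 : ℝ) / 2)) :
    0 < w ∧ 0 < G := by
  constructor
  · refine lt_of_le_of_ne hw fun e => ?_
    rw [← e, Real.zero_rpow (by norm_num), mul_zero] at h
    exact lt_irrefl _ h
  · refine Nat.pos_of_ne_zero fun e => ?_
    rw [e, Nat.cast_zero, zero_mul] at h
    exact lt_irrefl _ h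

/-- the range just above the threshold. -/
theorem base_rangeL (A1 K1 : ℝ) (hA1 : 1 ≤ A1) :
    ∃ K A : ℝ, K1 ≤ K ∧ 1 ≤ K ∧ 2 ≤ A ∧
    ∀ (n : ℕ) (P : Finset Pt) (X : Finset (Pt × Pt)), Gen3 P → P.card ≤ n → X ⊆ P ×ˢ P →
      RB5 X (A1 * A * (n : ℝ) ^ ((2 : ℝ) / 3))
        (K * (n : ℝ) ^ ((53 : ℝ) / 30) * (X.card : ℝ) ^ ((19 : ℝ) / 20)) →
      (∀ X2 : Finset (Pt × Pt), X2 ⊆ X → X2.card < X.card →
        RB5 X2 (A * (n : ℝ) ^ ((2 : ℝ) / 3) *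
            (1 + ((X2.card : ℝ) / (n : ℝ) ^ 2) ^ ((1 : ℝ) / 40)))
          (K * (n : ℝ) ^ ((53 : ℝ) / 30) * (X2.card : ℝ) ^ ((19 : ℝ) / 20))) →
      RB5 X (A * (n : ℝ) ^ ((2 : ℝ) / 3) * (1 + ((X.card : ℝ) / (n : ℝ) ^ 2) ^ ((1 : ℝ) / 40)))
        (K * (n : ℝ) ^ ((53 : ℝ) / 30) * (X.card : ℝ) ^ ((19 : ℝ) / 20)) := by
  obtain ⟨θ, C1, hθ, hθ1, hC1, Hc⟩ := base_coreL
  obtain ⟨C2, -, Hs⟩ := base_splitL
  obtain ⟨C3, hC3, Hh⟩ := heavy_pairsL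
  obtain ⟨b, hb, rfl⟩ : ∃ b : ℝ, 1 ≤ b ∧ A1 = b ^ 2 :=
    ⟨Real.sqrt A1, Real.one_le_sqrt.2 hA1, (Real.sq_sqrt (by linarith)).symm⟩
  obtain ⟨r, hr, hrC⟩ : ∃ r : ℝ, 3 ≤ r ∧ 41344 * (C1 * C3) ≤ r * θ :=
    ⟨max _ (41344 * (C1 * C3) / θ), le_max_left _ _, (div_le_iff₀ hθ).1 (le_max_right _ _)⟩
  obtain ⟨a, haM, haK, haC, haθ, ha5⟩ : ∃ a : ℝ, 4 * 2 ^ 40 ≤ a ∧ K1 ≤ a ∧ 640 * C2 / θ ^ 2 ≤ a ∧
      16 / θ ≤ a ∧ (41344 * (b * (C1 * (5 * r ^ 2 * b ^ 2 + C3))) + 1) / θ ≤ a :=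
    ⟨max _ (max K1 (max _ (max _ _))), le_max_left _ _, le_max_of_le_right (le_max_left _ _),
      le_max_of_le_right (le_max_of_le_right (le_max_left _ _)),
      le_max_of_le_right (le_max_of_le_right (le_max_of_le_right (le_max_left _ _))),
      le_max_of_le_right (le_max_of_le_right (le_max_of_le_right (le_max_right _ _)))⟩
  have ha2 : 2 ≤ a := le_trans (by norm_num) haM
  have ha1 : 1 ≤ a := one_le_two.trans ha2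
  have ha0 : 0 < a := zero_lt_one.trans_le ha1
  have hA : a ≤ a ^ 2 := le_self_pow₀ ha1 (by norm_num)
  have hK : a ≤ a ^ 4 := le_self_pow₀ ha1 (by norm_num)
  have haC' : 640 * C2 ≤ a ^ 4 * θ ^ 2 :=
    ((div_le_iff₀ (by positivity)).1 haC).trans (mul_le_mul_of_nonneg_right hK (by positivity))
  have haθ' : 16 ≤ a ^ 2 * θ :=
    ((div_le_iff₀ hθ).1 haθ).trans (mul_le_mul_of_nonneg_right hA hθ.le)
  have ha5' := (div_le_iff₀ hθ).1 ha5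
  refine ⟨a ^ 4, a ^ 2, haK.trans hK, ha1.trans hK, ha2.trans hA, ?_⟩
  intro n P X hP hn hX H1 H2 w 𝓖 hw h𝓖
  by_cases hw1 : b ^ 2 * a ^ 2 * (n : ℝ) ^ ((2 : ℝ) / 3) ≤ w
  · exact H1 w 𝓖 hw1 h𝓖
  push Not at hw1
  by_contra hcon
  push Not at hcon
  obtain ⟨hw0, hG0⟩ := sml_pos (le_trans (by positivity) hw) (lt_of_le_of_lt (by positivity) hcon)
  obtain ⟨g0, hg0⟩ : 𝓖.Nonempty := Finset.card_pos.1 hG0
  have hPn : (P.card : ℝ) ≤ n := Nat.cast_le.2 hn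
  have hwn : w ≤ n := (h𝓖 g0 hg0).2.le_card.trans ((Nat.cast_le.2 (card_gr_le hX g0)).trans hPn)
  have hwL : w ≤ X.card := (h𝓖 g0 hg0).2.le_card.trans
    (Nat.cast_le.2 (Finset.card_le_card fun _ hy => (mem_gr.1 hy).1))
  have hN : (1 : ℝ) ≤ n := Nat.one_le_cast.2 (Nat.cast_pos.1 (hw0.trans_le hwn))
  have hLN : (X.card : ℝ) ≤ (n : ℝ) ^ 2 := by
    have e1 : X.card ≤ n ^ 2 := by
      refine (Finset.card_le_card hX).trans ?_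
      rw [Finset.card_product, sq]
      exact Nat.mul_le_mul hn hn
    exact_mod_cast e1
  generalize (n : ℝ) = N at *
  obtain ⟨x, hx, hN3, hN2, Hz⟩ := sml_x hN
  obtain ⟨z, hz0, hz, hL, hB⟩ := Hz (a ^ 4) X.card (Nat.cast_nonneg _)
  obtain ⟨v, hv, rfl⟩ : ∃ v : ℝ, 0 < v ∧ w = v ^ 2 :=
    ⟨Real.sqrt w, Real.sqrt_pos.2 hw0, (Real.sq_sqrt hw0.le).symm⟩
  rw [hB, sml_rp hv.le 2 5 (by norm_num)] at hcon
  rw [hB, hN2] at H1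
  rw [hz, hN2] at hw
  rw [hN2] at hw1 H2
  have hz1 : z ≤ 1 := sml_z1 hx (by rw [← hL, ← hN3]; exact hLN)
  obtain ⟨hav, hzx⟩ := sml_zx ha1 hx hz0 hv hw (hL ▸ hwL)
  have hzp : 0 < z := lt_of_le_of_ne hz0 fun e => by
    rw [← e] at hzx
    norm_num at hzx
  have hx0 : 0 < x := zero_lt_one.trans_le hx
  have hv5 : 0 < v ^ 5 := pow_pos hv 5
  have hB1 : 1 ≤ a ^ 4 * (x ^ 11 * z ^ 38) / v ^ 5 :=
    (one_le_div hv5).2 (sml_u ha1 hx hz0 hz1 hv (hN3 ▸ hwn) (hL ▸ hwL))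
  have hB0 : 0 ≤ a ^ 4 * (x ^ 11 * z ^ 38) / v ^ 5 := zero_le_one.trans hB1
  obtain ⟨𝓗, h𝓗, hcard⟩ : ∃ 𝓗 ⊆ 𝓖, 𝓗.card = ⌊a ^ 4 * (x ^ 11 * z ^ 38) / v ^ 5⌋₊ + 1 :=
    Finset.exists_subset_card_eq ((Nat.floor_lt hB0).2 ((div_lt_iff₀ hv5).2 hcon))
  have hG1 : a ^ 4 * (x ^ 11 * z ^ 38) / v ^ 5 < 𝓗.card := by
    rw [hcard]; push_cast; exact Nat.lt_floor_add_one _
  have hG2 : (𝓗.card : ℝ) ≤ 2 * (a ^ 4 * (x ^ 11 * z ^ 38) / v ^ 5) := by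
    rw [hcard]; push_cast
    linarith only [Nat.floor_le hB0, hB1]
  obtain ⟨ht1, ht2⟩ := sml_t hθ hx hzp hz1 haθ' hw hzx
  obtain ⟨X2, 𝓖c, 𝓖d, V, hX2, hX2c, hc, hF, hsum⟩ := Hs N (v ^ 2) θ (z / 8) (v ^ 2 / z ^ 2) P X 𝓗
    hPn hX hθ hθ1 (by positivity) (by linarith only [hz1]) (by positivity) ht1 (hN3 ▸ ht2)
    fun g hg => h𝓖 g (h𝓗 hg)
  obtain ⟨y, hy0, hy, hL2, hB2⟩ := Hz (a ^ 4) X2.card (Nat.cast_nonneg _)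
  have hyz : 2 * y ≤ z := sml_L2 haM hx hzp hav (hL2 ▸ hX2c) hG2
  have hlt : X2.card < X.card := Nat.cast_lt (α := ℝ).1 (by
    rw [hL, hL2]
    exact mul_lt_mul_of_pos_right (pow_lt_pow_left₀ (by linarith only [hyz, hy0, hzp]) hy0
      (by norm_num)) (pow_pos hx0 6))
  have H3 := H2 X2 hX2 hlt
  rw [hy, hB2] at H3
  have hc1 := (mul_le_mul_of_nonneg_left (sml_five hz1 hv) (Nat.cast_nonneg 𝓖c.card)).trans
    (H3 _ 𝓖c (sml_th (by positivity) hz0 hz1 hyz hw) hc)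
  have hxv : x ≤ v := (le_mul_of_one_le_left hx0.le ha1).trans hav
  rw [hL, hN3] at hsum
  have hD := sml_D hθ hθ1 (pow_pos ha0 4) haC' hx hzp hz1 hy0 hyz hxv (Nat.cast_nonneg _)
    hc1 hG1 hsum
  obtain ⟨hρ1, hρ2⟩ := sml_rho ha1 hb hr hx hzp hz1
  have hx2 : 1 ≤ x ^ 2 := one_le_pow₀ hx
  obtain ⟨Hv, hHv, hHP⟩ := Hh N ((r * b * a * x / z ^ 5) ^ 2) _ P X hPn hX
    (by linarith only [hρ1, hρ2, hx2])
    (by
      have e1 : (2 * x ^ 2) ^ 2 ≤ ((r * b * a * x / z ^ 5) ^ 2) ^ 2 :=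
        pow_le_pow_left₀ (by positivity) (by linarith only [hρ1, hρ2, hx2]) 2
      have e2 : x ^ 3 ≤ x ^ 4 := pow_le_pow_right₀ hx (by norm_num)
      linarith only [e1, e2, hN3]) (H1.mono (by linarith only [hρ1, hρ2, hx2]) le_rfl)
  obtain ⟨he1, he2⟩ := sml_e hx hzp hz1 hzx
  have hcore := Hc N (z ^ 13 * x ^ 2) (z / 8 * v ^ 2) ((r * b * a * x / z ^ 5) ^ 2) P X Hv 𝓖d V
    he1 (hL ▸ he2) hP hPn hX hHP (by linarith only [hρ1, hρ2, hx2]) (by linarith only [ht1]) hF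
  rw [hL, hN3] at hcore hHv
  have hvb : v ≤ b * a * x :=
    le_of_pow_le_pow_left₀ two_ne_zero (by positivity) (by linarith only [hw1])
  have := sml_final ha1 hb hr hC1 hrC hx hzp hv hvb (Nat.cast_nonneg _) hD
    (sml_rhs ha1 hb hr hx hzp hz1 hzx hw1.le rfl)
    (hHv.trans (mul_le_mul_of_nonneg_left (sml_H ha1 hb hr hx hzp hz1) (zero_le_one.trans hC3)))
    hcore
  linarith only [this, ha5']

/-- the bound for rich motions. -/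
theorem exists_SBL : ∃ K A : ℝ, 1 ≤ K ∧ 2 ≤ A ∧ ∀ n, SBL K A n := by
  obtain ⟨A1, K1, hA1, -, H1⟩ := heavy_rangeL
  obtain ⟨K, A, hK, hK1, hA, H2⟩ := base_rangeL A1 K1 hA1
  refine ⟨K, A, hK1, hA, fun n => ?_⟩
  induction n using Nat.strong_induction_on with
  | _ n ih =>
  intro P X hP hn
  induction hX : X.card using Nat.strong_induction_on generalizing X with
  | _ L ih2 =>
  intro hXP
  subst hX
  exact H2 n P X hP hn hXP (H1 K A n hK hA ih P X hP hn hXP) fun X2 h1 h2 =>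
    ih2 X2.card h2 X2 rfl (h1.trans hXP)

end

end Vale.Agent.P054
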