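import Vale.Agent.P054.Planar

namespace Vale.Agent.P054

open MvPolynomial

noncomputable section

open Classical in
/-- ordered crossing pairs -/
def stX (E : Finset ((ℝ × ℝ) × (ℝ × ℝ))) : Finset (((ℝ × ℝ) × (ℝ × ℝ)) × ((ℝ × ℝ) × (ℝ × ℝ))) :=
  (E ×ˢ E).filter fun x => x.1 ≠ x.2 ∧
    ¬ Disjoint (openSegment ℝ x.1.1 x.1.2) (openSegment ℝ x.2.1 x.2.2)

theorem mem_stX {E : Finset ((ℝ × ℝ) × (ℝ × ℝ))} {x} : x ∈ stX E ↔ (x.1 ∈ E ∧ x.2 ∈ E) ∧
    x.1 ≠ x.2 ∧ ¬ Disjoint (openSegment ℝ x.1.1 x.1.2) (openSegment ℝ x.2.1 x.2.2) := by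
  simp only [stX, Finset.mem_filter, Finset.mem_product]

theorem st_weak (V : Finset (ℝ × ℝ)) (E : Finset ((ℝ × ℝ) × (ℝ × ℝ)))
    (hinj : Set.InjOn Prod.fst (V : Set (ℝ × ℝ)))
    (hE : ∀ e ∈ E, e.1 ∈ V ∧ e.2 ∈ V ∧ e.1.1 < e.2.1)
    (hV : ∀ e ∈ E, ∀ v ∈ V, v ∉ openSegment ℝ e.1 e.2) :
    E.card ≤ 3 * V.card + (stX E).card := by
  classical
  have h := planar_edges V (E \ (stX E).image Prod.fst) hinj
    (fun e he => hE e (Finset.mem_sdiff.1 he).1) (fun e he => hV e (Finset.mem_sdiff.1 he).1)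
    fun e he e' he' hne => by
      by_contra hd
      exact (Finset.mem_sdiff.1 he).2 (Finset.mem_image.2 ⟨(e, e'), mem_stX.2
        ⟨⟨(Finset.mem_sdiff.1 he).1, (Finset.mem_sdiff.1 he').1⟩, hne, hd⟩, rfl⟩)
  have h1 := Finset.le_card_sdiff ((stX E).image Prod.fst) E
  have h2 := Finset.card_image_le (s := stX E) (f := Prod.fst)
  omega

theorem st_seg_fst {a b z : ℝ × ℝ} (h : a.1 < b.1) (hz : z ∈ openSegment ℝ a b) :
    a.1 < z.1 ∧ z.1 < b.1 := by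
  obtain ⟨s, t, hs, ht, hst, rfl⟩ := hz
  simp only [Prod.fst_add, Prod.smul_fst, smul_eq_mul]
  obtain rfl : s = 1 - t := by linarith
  constructor <;> nlinarith

theorem st_share {a b c z : ℝ × ℝ} (h1 : z ∈ openSegment ℝ a b) (h2 : z ∈ openSegment ℝ a c) :
    b = c ∨ b ∈ openSegment ℝ a c ∨ c ∈ openSegment ℝ a b := by
  have key : ∀ {b c : ℝ × ℝ} {s t : ℝ}, 0 < s → s < t →
      (1 - s) • a + s • b = (1 - t) • a + t • c → c ∈ openSegment ℝ a b := by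
    intro b c s t hs hst h
    have ht : 0 < t := hs.trans hst
    refine ⟨1 - s / t, s / t, by rw [sub_pos, div_lt_one ht]; exact hst, by positivity, by ring, ?_⟩
    have e1 := congrArg Prod.fst h
    have e2 := congrArg Prod.snd h
    simp only [Prod.fst_add, Prod.smul_fst, Prod.snd_add, Prod.smul_snd, smul_eq_mul] at e1 e2
    ext
    · simp only [Prod.fst_add, Prod.smul_fst, smul_eq_mul]
      field_simp
      linarith
    · simp only [Prod.snd_add, Prod.smul_snd, smul_eq_mul]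
      field_simp
      linarith
  obtain ⟨s', s, -, hs, hs', rfl⟩ := h1
  obtain ⟨t', t, -, ht, ht', h⟩ := h2
  obtain rfl : s' = 1 - s := by linarith
  obtain rfl : t' = 1 - t := by linarith
  rcases lt_trichotomy s t with h' | rfl | h'
  · exact Or.inr (Or.inr (key hs h' h.symm))
  · exact Or.inl (smul_right_injective _ hs.ne' (add_left_cancel h)).symm
  · exact Or.inr (Or.inl (key ht h' h))

theorem st_four {V : Finset (ℝ × ℝ)} {E : Finset ((ℝ × ℝ) × (ℝ × ℝ))}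
    (hE : ∀ e ∈ E, e.1 ∈ V ∧ e.2 ∈ V ∧ e.1.1 < e.2.1)
    (hV : ∀ e ∈ E, ∀ v ∈ V, v ∉ openSegment ℝ e.1 e.2) {x} (hx : x ∈ stX E) :
    ({x.1.1, x.1.2, x.2.1, x.2.2} : Finset (ℝ × ℝ)).card = 4 := by
  obtain ⟨⟨a, b⟩, c, d⟩ := x
  obtain ⟨⟨h1, h2⟩, hne, hd⟩ := mem_stX.1 hx
  obtain ⟨z, hz, hz'⟩ := Set.not_disjoint_iff.1 hd
  obtain ⟨ha, hb, hab⟩ := hE _ h1
  obtain ⟨hc, hd', hcd⟩ := hE _ h2
  have p1 := st_seg_fst hab hz
  have p2 := st_seg_fst hcd hz'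
  simp only at ha hb hab hc hd' hcd hz hz' p1 p2 hne ⊢
  have e1 : a ≠ b := by rintro rfl; exact lt_irrefl _ hab
  have e2 : c ≠ d := by rintro rfl; exact lt_irrefl _ hcd
  have e3 : a ≠ d := by rintro rfl; linarith [p1.1, p2.2]
  have e4 : b ≠ c := by rintro rfl; linarith [p1.2, p2.1]
  have e5 : a ≠ c := by
    rintro rfl
    rcases st_share hz hz' with h | h | h
    · exact hne (by rw [h])
    · exact hV _ h2 b hb h
    · exact hV _ h1 d hd' h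
  have e6 : b ≠ d := by
    rintro rfl
    rw [openSegment_symm] at hz hz'
    rcases st_share hz hz' with h | h | h
    · exact e5 h
    · exact hV _ h2 a ha (by rwa [openSegment_symm] at h)
    · exact hV _ h1 c hc (by rwa [openSegment_symm] at h)
  rw [Finset.card_insert_of_notMem (by simp [e1, e3, e5]),
    Finset.card_insert_of_notMem (by simp [e4, e6]), Finset.card_pair e2]

theorem st_weight {α : Type} [DecidableEq α] (V A : Finset α) (hA : A ⊆ V) (p : ℝ) :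
    ∑ S ∈ V.powerset, (if A ⊆ S then p ^ S.card * (1 - p) ^ (V \ S).card else 0) = p ^ A.card := by
  have h := Finset.prod_add (fun _ : α => p) (fun i => if i ∈ A then 0 else 1 - p) V
  have e : ∏ i ∈ V, (p + if i ∈ A then 0 else 1 - p) = p ^ A.card := by
    rw [← Finset.prod_const, ← Finset.prod_subset hA fun i _ hi => by simp [hi]]
    exact Finset.prod_congr rfl fun i hi => by simp [hi]
  rw [← e, h]
  refine Finset.sum_congr rfl fun S _ => ?_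
  split_ifs with hS
  · rw [Finset.prod_const, ← Finset.prod_const (1 - p)]
    congr 1
    exact Finset.prod_congr rfl fun i hi => (if_neg fun h => (Finset.mem_sdiff.1 hi).2 (hS h)).symm
  · obtain ⟨i, hi, hi'⟩ := Finset.not_subset.1 hS
    rw [Finset.prod_eq_zero (f := fun i => if i ∈ A then (0 : ℝ) else 1 - p)
      (Finset.mem_sdiff.2 ⟨hA hi, hi'⟩) (if_pos hi), mul_zero]

theorem st_avg {α ι : Type} [DecidableEq α] (V : Finset α) (I : Finset ι) (A : ι → Finset α)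
    (m : ℕ) (hA : ∀ i ∈ I, A i ⊆ V ∧ (A i).card = m) (p : ℝ) :
    ∑ S ∈ V.powerset, p ^ S.card * (1 - p) ^ (V \ S).card * ((I.filter fun i => A i ⊆ S).card : ℝ) =
      I.card * p ^ m := by
  simp only [Finset.card_filter, Nat.cast_sum, Finset.mul_sum]
  rw [Finset.sum_comm, Finset.card_eq_sum_ones, Nat.cast_sum, Finset.sum_mul]
  refine Finset.sum_congr rfl fun i hi => ?_
  rw [← (hA i hi).2, ← st_weight V (A i) (hA i hi).1, Nat.cast_one, one_mul]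
  exact Finset.sum_congr rfl fun S _ => by split_ifs <;> simp

theorem st_mean (V : Finset (ℝ × ℝ)) (E : Finset ((ℝ × ℝ) × (ℝ × ℝ)))
    (hinj : Set.InjOn Prod.fst (V : Set (ℝ × ℝ)))
    (hE : ∀ e ∈ E, e.1 ∈ V ∧ e.2 ∈ V ∧ e.1.1 < e.2.1)
    (hV : ∀ e ∈ E, ∀ v ∈ V, v ∉ openSegment ℝ e.1 e.2) {p : ℝ} (h0 : 0 ≤ p) (h1 : p ≤ 1) :
    E.card * p ^ 2 ≤ 3 * (V.card * p ^ 1) + (stX E).card * p ^ 4 := by
  classical
  rw [← st_avg V V (fun v => {v}) 1 (fun v hv => ⟨by simpa using hv, rfl⟩) p,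
    ← st_avg V E (fun e => {e.1, e.2}) 2 (fun e he => ⟨by
      simp [Finset.insert_subset_iff, (hE e he).1, (hE e he).2.1],
      Finset.card_pair fun h => (hE e he).2.2.ne (by rw [h])⟩) p,
    ← st_avg V (stX E) (fun x => {x.1.1, x.1.2, x.2.1, x.2.2}) 4 (fun x hx => ⟨by
      obtain ⟨⟨h1, h2⟩, -⟩ := mem_stX.1 hx
      simp [Finset.insert_subset_iff, (hE _ h1).1, (hE _ h1).2.1, (hE _ h2).1, (hE _ h2).2.1],
      st_four hE hV hx⟩) p, Finset.mul_sum, ← Finset.sum_add_distrib]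
  refine Finset.sum_le_sum fun S hS => ?_
  have hS' := Finset.mem_powerset.1 hS
  have h := st_weak S (E.filter fun e => ({e.1, e.2} : Finset (ℝ × ℝ)) ⊆ S) (hinj.mono hS')
    (fun e he => by
      obtain ⟨h1, h2⟩ := Finset.mem_filter.1 he
      exact ⟨h2 (by simp), h2 (by simp), (hE e h1).2.2⟩)
    fun e he v hv => hV e (Finset.mem_filter.1 he).1 v (hS' hv)
  have e1 : S.card ≤ (V.filter fun v => ({v} : Finset (ℝ × ℝ)) ⊆ S).card :=
    Finset.card_le_card fun v hv => Finset.mem_filter.2 ⟨hS' hv, by simpa using hv⟩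
  have e2 : (stX (E.filter fun e => ({e.1, e.2} : Finset (ℝ × ℝ)) ⊆ S)).card ≤
      ((stX E).filter fun x => ({x.1.1, x.1.2, x.2.1, x.2.2} : Finset (ℝ × ℝ)) ⊆ S).card := by
    refine Finset.card_le_card fun x hx => ?_
    obtain ⟨⟨h1, h2⟩, h3⟩ := mem_stX.1 hx
    rw [Finset.mem_filter] at h1 h2 ⊢
    refine ⟨mem_stX.2 ⟨⟨h1.1, h2.1⟩, h3⟩, ?_⟩
    exact Finset.insert_subset (h1.2 (by simp)) (Finset.insert_subset (h1.2 (by simp)) h2.2)
  have e3 : ((E.filter fun e => ({e.1, e.2} : Finset (ℝ × ℝ)) ⊆ S).card : ℝ) ≤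
      3 * ((V.filter fun v => ({v} : Finset (ℝ × ℝ)) ⊆ S).card : ℝ) +
      ((stX E).filter fun x => ({x.1.1, x.1.2, x.2.1, x.2.2} : Finset (ℝ × ℝ)) ⊆ S).card := by
    exact_mod_cast h.trans (by omega)
  have hw : 0 ≤ p ^ S.card * (1 - p) ^ (V \ S).card := by
    have := sub_nonneg.2 h1
    positivity
  nlinarith [mul_le_mul_of_nonneg_left e3 hw]

open Classical in
/-- crossing lemma for straight line drawings. -/
theorem crossing_lemma (V : Finset (ℝ × ℝ)) (E : Finset ((ℝ × ℝ) × (ℝ × ℝ)))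
    (hinj : Set.InjOn Prod.fst (V : Set (ℝ × ℝ)))
    (hE : ∀ e ∈ E, e.1 ∈ V ∧ e.2 ∈ V ∧ e.1.1 < e.2.1)
    (hV : ∀ e ∈ E, ∀ v ∈ V, v ∉ openSegment ℝ e.1 e.2) (h4 : 4 * V.card ≤ E.card) :
    (E.card : ℝ) ^ 3 ≤ 64 * (V.card : ℝ) ^ 2 *
      (((E ×ˢ E).filter fun x => x.1 ≠ x.2 ∧
        ¬ Disjoint (openSegment ℝ x.1.1 x.1.2) (openSegment ℝ x.2.1 x.2.2)).card : ℝ) := by
  change (E.card : ℝ) ^ 3 ≤ 64 * (V.card : ℝ) ^ 2 * (stX E).card
  rcases E.eq_empty_or_nonempty with rfl | ⟨e, he⟩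
  · rw [Finset.card_empty, Nat.cast_zero, zero_pow (by norm_num)]
    positivity
  have hn : (0 : ℝ) < V.card := by exact_mod_cast Finset.card_pos.2 ⟨_, (hE e he).1⟩
  have hm : (0 : ℝ) < E.card := by exact_mod_cast Finset.card_pos.2 ⟨_, he⟩
  have h4' : 4 * (V.card : ℝ) ≤ E.card := by exact_mod_cast h4
  have h := st_mean V E hinj hE hV (p := 4 * V.card / E.card) (by positivity)
    ((div_le_one hm).2 h4')
  generalize (V.card : ℝ) = n at *
  generalize (E.card : ℝ) = m at *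
  generalize ((stX E).card : ℝ) = X at *
  have e : m ^ 3 - 64 * n ^ 2 * X = m ^ 4 / (4 * n ^ 2) * (m * (4 * n / m) ^ 2 -
      (3 * (n * (4 * n / m) ^ 1) + X * (4 * n / m) ^ 4)) := by
    field_simp
    ring
  have := mul_nonpos_of_nonneg_of_nonpos (show 0 ≤ m ^ 4 / (4 * n ^ 2) by positivity)
    (sub_nonpos.2 h)
  linarith

open Classical in
/-- pairs of consecutive points of `P` on the line `l` -/
def stE (P : Finset (ℝ × ℝ)) (l : ℝ × ℝ) : Finset ((ℝ × ℝ) × (ℝ × ℝ)) :=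
  (P ×ˢ P).filter fun e => e.1.1 < e.2.1 ∧ e.1.2 = l.1 * e.1.1 + l.2 ∧ e.2.2 = l.1 * e.2.1 + l.2 ∧
    ∀ c ∈ P, c.2 = l.1 * c.1 + l.2 → c.1 ≤ e.1.1 ∨ e.2.1 ≤ c.1

theorem mem_stE {P : Finset (ℝ × ℝ)} {l : ℝ × ℝ} {e} : e ∈ stE P l ↔ (e.1 ∈ P ∧ e.2 ∈ P) ∧
    e.1.1 < e.2.1 ∧ e.1.2 = l.1 * e.1.1 + l.2 ∧ e.2.2 = l.1 * e.2.1 + l.2 ∧
    ∀ c ∈ P, c.2 = l.1 * c.1 + l.2 → c.1 ≤ e.1.1 ∨ e.2.1 ≤ c.1 := by
  simp only [stE, Finset.mem_filter, Finset.mem_product]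

theorem st_card {P : Finset (ℝ × ℝ)} (hinj : Set.InjOn Prod.fst (P : Set (ℝ × ℝ))) (l : ℝ × ℝ) :
    (P.filter fun x => x.2 = l.1 * x.1 + l.2).card ≤ (stE P l).card + 1 := by
  classical
  rcases (P.filter fun x => x.2 = l.1 * x.1 + l.2).eq_empty_or_nonempty with h | h
  · simp [h]
  obtain ⟨m, hm, hmax⟩ := Finset.exists_max_image _ Prod.fst h
  refine (Finset.card_le_card (t := insert m ((stE P l).image Prod.fst)) fun a ha => ?_).trans
    ((Finset.card_insert_le _ _).trans (Nat.add_le_add_right Finset.card_image_le 1))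
  rcases (hmax a ha).eq_or_lt with h1 | h1
  · rw [hinj (Finset.mem_filter.1 ha).1 (Finset.mem_filter.1 hm).1 h1]
    exact Finset.mem_insert_self _ _
  obtain ⟨b, hb, hmin⟩ := Finset.exists_min_image
    ((P.filter fun x => x.2 = l.1 * x.1 + l.2).filter fun x => a.1 < x.1) Prod.fst
    ⟨m, Finset.mem_filter.2 ⟨hm, h1⟩⟩
  simp only [Finset.mem_filter] at ha hb hmin
  refine Finset.mem_insert_of_mem (Finset.mem_image.2 ⟨(a, b), mem_stE.2
    ⟨⟨ha.1, hb.1.1⟩, hb.2, ha.2, hb.1.2, fun c hc hl => ?_⟩, rfl⟩)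
  exact (le_or_gt c.1 a.1).imp id fun h => hmin c ⟨⟨hc, hl⟩, h⟩

theorem st_line {l l' : ℝ × ℝ} {a b : ℝ} (h : a ≠ b) (h1 : l.1 * a + l.2 = l'.1 * a + l'.2)
    (h2 : l.1 * b + l.2 = l'.1 * b + l'.2) : l = l' := by
  have e : l.1 = l'.1 := mul_right_cancel₀ (sub_ne_zero.2 h) (by linarith)
  rw [e] at h1
  exact Prod.ext e (by linarith)

theorem st_on {P : Finset (ℝ × ℝ)} {l z : ℝ × ℝ} {e} (he : e ∈ stE P l)
    (hz : z ∈ openSegment ℝ e.1 e.2) : z.2 = l.1 * z.1 + l.2 ∧ e.1.1 < z.1 ∧ z.1 < e.2.1 := by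
  obtain ⟨-, h1, h2, h3, -⟩ := mem_stE.1 he
  refine ⟨?_, st_seg_fst h1 hz⟩
  obtain ⟨s, t, -, -, hst, rfl⟩ := hz
  simp only [Prod.fst_add, Prod.smul_fst, Prod.snd_add, Prod.smul_snd, smul_eq_mul, h2, h3]
  linear_combination l.2 * hst

theorem st_uniq {P : Finset (ℝ × ℝ)} (hinj : Set.InjOn Prod.fst (P : Set (ℝ × ℝ))) {l : ℝ × ℝ}
    {e e'} (he : e ∈ stE P l) (he' : e' ∈ stE P l) {t : ℝ} (h : e.1.1 < t ∧ t < e.2.1)
    (h' : e'.1.1 < t ∧ t < e'.2.1) : e = e' := by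
  obtain ⟨⟨a1, a2⟩, -, a4, a5, a6⟩ := mem_stE.1 he
  obtain ⟨⟨b1, b2⟩, -, b4, b5, b6⟩ := mem_stE.1 he'
  refine Prod.ext (hinj a1 b1 (le_antisymm ?_ ?_)) (hinj a2 b2 (le_antisymm ?_ ?_))
  · exact (b6 _ a1 a4).resolve_right (by linarith [h.1, h'.2])
  · exact (a6 _ b1 b4).resolve_right (by linarith [h.2, h'.1])
  · exact (a6 _ b2 b5).resolve_left (by linarith [h.1, h'.2])
  · exact (b6 _ a2 a5).resolve_left (by linarith [h.2, h'.1])

open Classical in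
theorem st_cross {P : Finset (ℝ × ℝ)} (hinj : Set.InjOn Prod.fst (P : Set (ℝ × ℝ)))
    (L : Finset (ℝ × ℝ)) : (stX (L.biUnion (stE P))).card ≤ L.card ^ 2 := by
  have hsub : stX (L.biUnion (stE P)) ⊆ (L ×ˢ L).biUnion fun l =>
      (stX (L.biUnion (stE P))).filter fun x => x.1 ∈ stE P l.1 ∧ x.2 ∈ stE P l.2 := by
    intro x hx
    obtain ⟨⟨h1, h2⟩, -⟩ := mem_stX.1 hx
    obtain ⟨l, hl, h1⟩ := Finset.mem_biUnion.1 h1
    obtain ⟨l', hl', h2⟩ := Finset.mem_biUnion.1 h2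
    exact Finset.mem_biUnion.2 ⟨(l, l'), Finset.mem_product.2 ⟨hl, hl'⟩,
      Finset.mem_filter.2 ⟨hx, h1, h2⟩⟩
  refine (Finset.card_le_card hsub).trans ((Finset.card_biUnion_le_card_mul _ _ 1
    fun l _ => Finset.card_le_one.2 fun x hx y hy => ?_).trans
      (by rw [Finset.card_product, mul_one, sq]))
  obtain ⟨hx, x1, x2⟩ := Finset.mem_filter.1 hx
  obtain ⟨hy, y1, y2⟩ := Finset.mem_filter.1 hy
  obtain ⟨-, hne, hd⟩ := mem_stX.1 hx
  obtain ⟨z, hz, hz'⟩ := Set.not_disjoint_iff.1 hd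
  obtain ⟨w, hw, hw'⟩ := Set.not_disjoint_iff.1 (mem_stX.1 hy).2.2
  have p1 := st_on x1 hz
  have p2 := st_on x2 hz'
  have q1 := st_on y1 hw
  have q2 := st_on y2 hw'
  have e : z.1 = w.1 := by
    by_contra h
    have hl := st_line h (p1.1.symm.trans p2.1) (q1.1.symm.trans q2.1)
    exact hne (st_uniq hinj x1 (hl ▸ x2) p1.2 p2.2)
  rw [← e] at q1 q2
  exact Prod.ext (st_uniq hinj x1 y1 p1.2 q1.2) (st_uniq hinj x2 y2 p2.2 q2.2)

/-- Szemeredi-Trotter for rich non vertical lines `y = a x + b` in the plane. -/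
theorem st_plane : ∃ C : ℝ, 0 < C ∧ ∀ (P L : Finset (ℝ × ℝ)) (k : ℕ), 2 ≤ k →
    Set.InjOn Prod.fst (P : Set (ℝ × ℝ)) →
    (∀ l ∈ L, k ≤ (P.filter fun x => x.2 = l.1 * x.1 + l.2).card) →
    (L.card : ℝ) ≤ C * ((P.card : ℝ) ^ 2 / (k : ℝ) ^ 3 + (P.card : ℝ) / k) := by
  classical
  refine ⟨512, by norm_num, fun P L k hk hinj hL => ?_⟩
  have h1 : (k - 1) * L.card ≤ (L.biUnion (stE P)).card := by
    rw [Finset.card_biUnion, mul_comm, ← smul_eq_mul]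
    · refine Finset.card_nsmul_le_sum _ _ _ fun l hl => ?_
      have := (hL l hl).trans (st_card hinj l)
      omega
    · intro l _ l' _ hne
      refine Finset.disjoint_left.2 fun e he he' => hne ?_
      obtain ⟨-, a3, a4, a5, -⟩ := mem_stE.1 he
      obtain ⟨-, -, b4, b5, -⟩ := mem_stE.1 he'
      exact st_line a3.ne (a4.symm.trans b4) (a5.symm.trans b5)
  have hk0 : (0 : ℝ) < k := by exact_mod_cast (by omega : 0 < k)
  have h2 : (k : ℝ) * L.card ≤ 2 * (L.biUnion (stE P)).card := by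
    have : k * L.card ≤ 2 * ((k - 1) * L.card) := by
      rw [← mul_assoc]
      exact Nat.mul_le_mul_right _ (by omega)
    exact_mod_cast this.trans (by omega)
  have p1 : 0 ≤ (P.card : ℝ) ^ 2 / (k : ℝ) ^ 3 := by positivity
  have p2 : 0 ≤ (P.card : ℝ) / k := by positivity
  rcases le_or_gt (4 * P.card) (L.biUnion (stE P)).card with h4 | h4
  · have h3 : ((L.biUnion (stE P)).card : ℝ) ^ 3 ≤
        64 * (P.card : ℝ) ^ 2 * (stX (L.biUnion (stE P))).card := by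
      refine crossing_lemma P _ hinj (fun e he => ?_) (fun e he v hv hs => ?_) h4
      · obtain ⟨l, -, h⟩ := Finset.mem_biUnion.1 he
        obtain ⟨⟨a1, a2⟩, a3, -⟩ := mem_stE.1 h
        exact ⟨a1, a2, a3⟩
      · obtain ⟨l, -, h⟩ := Finset.mem_biUnion.1 he
        obtain ⟨a1, a2, a3⟩ := st_on h hs
        rcases (mem_stE.1 h).2.2.2.2 v hv a1 with h' | h' <;> linarith
    have h5 : ((stX (L.biUnion (stE P))).card : ℝ) ≤ (L.card : ℝ) ^ 2 := by
      exact_mod_cast st_cross hinj L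
    have h6 : ((k : ℝ) * L.card) ^ 3 ≤ 512 * (P.card : ℝ) ^ 2 * (L.card : ℝ) ^ 2 :=
      calc ((k : ℝ) * L.card) ^ 3 ≤ (2 * ((L.biUnion (stE P)).card : ℝ)) ^ 3 := by gcongr
        _ = 8 * ((L.biUnion (stE P)).card : ℝ) ^ 3 := by ring
        _ ≤ 8 * (64 * (P.card : ℝ) ^ 2 * (L.card : ℝ) ^ 2) := by
          gcongr
          exact h3.trans (by gcongr)
        _ = _ := by ring
    have h7 : (L.card : ℝ) ≤ 512 * ((P.card : ℝ) ^ 2 / (k : ℝ) ^ 3) := by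
      rcases (Nat.cast_nonneg (α := ℝ) L.card).eq_or_lt with h | h
      · rw [← h]
        positivity
      · rw [← mul_div_assoc, le_div_iff₀ (by positivity)]
        refine le_of_mul_le_mul_right ?_ (show 0 < (L.card : ℝ) ^ 2 by positivity)
        linarith
    linarith
  · have h5 : ((L.biUnion (stE P)).card : ℝ) ≤ 4 * P.card := by exact_mod_cast h4.le
    have h7 : (L.card : ℝ) ≤ 8 * ((P.card : ℝ) / k) := by
      rw [← mul_div_assoc, le_div_iff₀ hk0]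
      linarith
    linarith

end

end Vale.Agent.P054
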