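import Vale.Agent.P054.Pencil
import Vale.Agent.P054.LemA

namespace Vale.Agent.P054

open MvPolynomial

noncomputable section

variable {K : Type} [Field K] [CharZero K] {ε : Type} [Fintype ε] [LinearOrder ε]

omit [CharZero K] in
theorem Core.mono {i0 : ε} {𝓒 : Finset (ε ⊕ ε → K)} {E E' : ℕ} (h : Core i0 𝓒 E) (hE : E' ≤ E) :
    Core i0 𝓒 E' := by
  intro η hη q hq
  exact h η hη q (hq.trans hE)

/-- passing to a subfamily that is closed under good neighbours. -/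
theorem Core.sub {i0 : ε} {𝓒 𝓒' : Finset (ε ⊕ ε → K)} {E e1 : ℕ} (h : Core i0 𝓒 E)
    (hN : ∀ η ∈ 𝓒, Nrm i0 η) (hsub : 𝓒' ⊆ 𝓒) {s : MvPolynomial (Pr ε) K}
    (hs : s.totalDegree ≤ e1) (he : e1 ≤ E) (h1 : ∀ η ∈ 𝓒', s ∉ IL η)
    (h2 : ∀ η ∈ 𝓒', ∀ η' ∈ 𝓒, s ∉ IL2 η η' → η' ∈ 𝓒') : Core i0 𝓒' (E - e1) := by
  intro η hη q hq hqn U1 U2 u1 u2
  have hP := IL_isPrime (hN η (hsub hη))
  obtain ⟨η', a1, a2, a3, a4, a5, a6⟩ := h η (hsub hη) (q * s)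
    ((totalDegree_mul q s).trans (by omega))
    (fun hm => (hP.mem_or_mem hm).elim hqn (h1 η hη)) U1 U2 u1 u2
  exact ⟨η', h2 η hη η' a1 fun hm => a6 (Ideal.mul_mem_left _ _ hm), a2, a3, a4, a5,
    fun hm => a6 (Ideal.mul_mem_right _ _ hm)⟩

omit [CharZero K] in
theorem Core.mem_of {i0 : ε} {𝓒 : Finset (ε ⊕ ε → K)} {E : ℕ} (h : Core i0 𝓒 E)
    {η : ε ⊕ ε → K} (hη : η ∈ 𝓒) {q : MvPolynomial (Pr ε) K} (hq : q.totalDegree ≤ E)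
    (hm : ∀ η' ∈ 𝓒, bil η η' = 0 → (∀ j, j ≠ i0 → η (Sum.inl j) ≠ η' (Sum.inl j)) →
      q ∈ IL2 η η') : q ∈ IL η := by
  by_contra hc
  obtain ⟨η', a1, a2, a3, -, -, a6⟩ := h η hη q hq hc ⊥ ⊥ (by simp) (by simp)
  exact a6 (hm η' a1 a2 a3)

/-- linear conditions in the pencil parameter split. -/
theorem Core.lin {i0 i1 : ε} (hi : i1 ≠ i0) {𝓒 : Finset (ε ⊕ ε → K)} {E : ℕ} (h : Core i0 𝓒 E)
    {r1 r0 : MvPolynomial (Pr ε) K} (h1 : r1.totalDegree ≤ E) (h0 : r0.totalDegree ≤ E)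
    (hm : ∀ η ∈ 𝓒, rename some r1 * X none + rename some r0 ∈ IH i1 η) :
    ∀ η ∈ 𝓒, r1 ∈ IL η ∧ r0 ∈ IL η := by
  intro η hη
  exact ⟨h.mem_of hη h1 fun η' a _ b => (two_root (b i1 hi) (hm η hη) (hm η' a)).1,
    h.mem_of hη h0 fun η' a _ b => (two_root (b i1 hi) (hm η hη) (hm η' a)).2⟩

theorem thmA1_words {i0 : ε} {𝓒 : Finset (ε ⊕ ε → K)} {D E C1 T : ℕ} (h2 : 1 < Fintype.card ε)
    (hN : ∀ η ∈ 𝓒, Nrm i0 η) {f g : MvPolynomial (Pr ε) K} (p0 : Pr ε) (hD : f.totalDegree ≤ D)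
    (hf : ∀ η ∈ 𝓒, f ∈ IL η) (hg : ∀ η ∈ 𝓒, g ∈ IL η) (hgD : g.totalDegree ≤ C1 * D)
    (h : Core i0 𝓒 E) (hE : (C1 + T) * D ≤ E) (w : List (Pr ε)) (hw : w.length < T) :
    ∀ η ∈ 𝓒, wd (fun _ : Unit => f) (fun _ => p0) w g ∈ IL η := by
  induction w with
  | nil => exact hg
  | cons k w ih =>
    have ih' := ih (by simp at hw; omega)
    intro η hη
    refine h.mem_of hη ((totalDegree_wd _ _ _ _).trans ?_) fun η' a _ b => ?_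
    · have := Nat.mul_le_mul hw.le hD
      rw [add_mul] at hE
      simp only [Finset.univ_unique, Finset.sum_singleton]
      omega
    · obtain ⟨j, hj⟩ := Fintype.exists_ne_of_one_lt_card h2 i0
      change Xv _ _ k (wd (fun _ : Unit => f) (fun _ => p0) w g) ∈ _
      rw [Xv_unique]
      exact minor_mem_IL2 (hN η hη) (hN η' a) ⟨j, b j hj⟩ (hf η hη) (hf η' a) (ih' η hη)
        (ih' η' a) p0 k

theorem thmA1_hb {i0 : ε} {𝓒 : Finset (ε ⊕ ε → K)} {D E C1 T j : ℕ} (h2 : 1 < Fintype.card ε)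
    (hj : Fintype.card (Pr ε) = j + 2) (hN : ∀ η ∈ 𝓒, Nrm i0 η) {f g : MvPolynomial (Pr ε) K}
    (p0 : Pr ε) (hpr : Prime f) (hD : f.totalDegree ≤ D) (hD1 : 1 ≤ D) (hC : 1 ≤ C1) (hT : 1 ≤ T)
    (hf : ∀ η ∈ 𝓒, f ∈ IL η) (hp0 : ∀ η ∈ 𝓒, pderiv p0 f ∉ IL η) (hg : ∀ η ∈ 𝓒, g ∈ IL η)
    (hgf : g ∉ Ideal.span {f}) (hgD : g.totalDegree ≤ C1 * D) (h : Core i0 𝓒 E)
    (hE : (C1 + T) * D ≤ E) : HB (⨅ η ∈ 𝓒, IL η) (((j + 1).factorial : ℝ) * 2 ^ (2 * j + 1) *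
      (2 ^ (j + 1 + 1) * 2 ^ (j + 1 + 1) * D) * (C1 * D : ℕ) / T) j := by
  classical
  have hc := compl_free (c := fun _ : Unit => p0) fun _ _ _ => rfl
  have hcard := hc.card_add
  have hP : ∀ η ∈ 𝓒, (IL η).IsPrime := fun η hη => IL_isPrime (hN η hη)
  have hr : Set.range (fun _ : Unit => f) = {f} := Set.range_const
  have h0 := hb_card (⊥ : Ideal (MvPolynomial (Pr ε) K))
  rw [hj] at h0
  refine lemA 𝓒 IL hc hP (fun η _ => dn_IL η) (fun η hη _ => hf η hη)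
    (fun η hη => by rw [jac_unique]; exact hp0 η hη) (by simp at hcard ⊢; omega)
    (hb_cut (G := f) bot_le ?_ ?_ (by exact_mod_cast hD) (by exact_mod_cast hD1) h0)
    (fun η hη => ?_) (by exact_mod_cast hgD) (by exact_mod_cast Nat.mul_pos hC hD1) hT
    fun η hη w hw => thmA1_words h2 hN p0 hD hf hg hgD h hE w hw η hη
  · simp only [Ideal.mem_iInf]
    exact fun η hη => mem_Br_of_mem (hP η hη) ⟨(), rfl⟩
  · intro q hq
    rw [Ideal.mem_bot] at hq ⊢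
    exact (mul_eq_zero.1 hq).resolve_left hpr.ne_zero
  · rwa [hr, Br_singleton hpr (hf η hη) (hP η hη)]

/-- a second equation forces an equation of half the degree. -/
theorem caseI (e C1 : ℕ) (he : 3 ≤ e) (hC : 1 ≤ C1) : ∃ T : ℕ, ∀ (K : Type) [Field K] [CharZero K]
    (ε : Type) [Fintype ε] [LinearOrder ε] (i0 : ε) (𝓒 : Finset (ε ⊕ ε → K)) (D E : ℕ)
    (f g : MvPolynomial (Pr ε) K) (p0 : Pr ε), Fintype.card ε = e → 𝓒.Nonempty →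
    (∀ η ∈ 𝓒, Nrm i0 η) → Prime f → f.totalDegree ≤ D → (∀ η ∈ 𝓒, f ∈ IL η) →
    (∀ η ∈ 𝓒, pderiv p0 f ∉ IL η) → (∀ η ∈ 𝓒, g ∈ IL η) → g ∉ Ideal.span {f} →
    g.totalDegree ≤ C1 * D → Core i0 𝓒 E → (C1 + T) * D ≤ E →
    ∃ f' : MvPolynomial (Pr ε) K, f' ≠ 0 ∧ (∀ η ∈ 𝓒, f' ∈ IL η) ∧ 2 * f'.totalDegree ≤ D := by
  have he3 : 6 ≤ e * (e - 1) := Nat.mul_le_mul he (by omega : 2 ≤ e - 1)
  obtain ⟨j, hj⟩ : ∃ j, e * (e - 1) / 2 = j + 2 := ⟨e * (e - 1) / 2 - 2, by omega⟩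
  obtain ⟨c, hc⟩ : ∃ c : ℕ, c = (j + 1).factorial * 2 ^ (2 * j + 1) *
    (2 ^ (j + 1 + 1) * 2 ^ (j + 1 + 1)) * C1 := ⟨_, rfl⟩
  refine ⟨(j + 2).factorial * c * 9 + 1, ?_⟩
  intro K _ _ ε _ _ i0 𝓒 D E f g p0 hε hne hN hpr hD hf hp0 hg hgf hgD h hE
  have hn : Fintype.card (Pr ε) = j + 2 := by
    have := card_Pr_eq (ε := ε)
    rw [hε] at this
    omega
  obtain ⟨η0, hη0⟩ := hne
  have hD1 : 1 ≤ D := by
    by_contra hc
    have h0 : f.totalDegree = 0 := by omega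
    refine hp0 η0 hη0 ?_
    rw [totalDegree_eq_zero_iff_eq_C.1 h0, pderiv_C]
    exact zero_mem _
  have hb := thmA1_hb (by omega) hn hN p0 hpr hD hD1 hC (by omega) hf hp0 hg hgf hgD h hE
  have e1 : ((j + 1).factorial : ℝ) * 2 ^ (2 * j + 1) * (2 ^ (j + 1 + 1) * 2 ^ (j + 1 + 1) * D) *
      (C1 * D : ℕ) = c * D ^ 2 := by rw [hc]; push_cast; ring
  rw [e1] at hb
  have f1 : (1 : ℝ) ≤ (j + 2).factorial := by exact_mod_cast Nat.factorial_pos (j + 2)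
  have c0 : (0 : ℝ) ≤ c := Nat.cast_nonneg c
  push_cast at hb
  rcases Nat.lt_or_ge D 2 with h2 | h2
  · have := hb.one_le fun ht => (IL_isPrime (hN η0 hη0)).ne_top
      (top_le_iff.1 (ht.ge.trans (iInf₂_le η0 hη0)))
    rw [show D = 1 by omega, le_div_iff₀ (by positivity)] at this
    push_cast at this
    nlinarith
  have m1 : 1 ≤ D / 2 := by omega
  have m3 : (D : ℝ) ≤ 3 * (D / 2 : ℕ) := by exact_mod_cast (by omega : D ≤ 3 * (D / 2))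
  have m0 : (0 : ℝ) < (D / 2 : ℕ) := by exact_mod_cast m1
  obtain ⟨f', a1, a2, a3⟩ := exists_ne_zero_of_lt (I := ⨅ η ∈ 𝓒, IL η) (m := D / 2) (by
    rw [hn]
    refine (mul_le_mul_of_nonneg_left (hb _ m1) (by positivity)).trans_lt ?_
    generalize ((D / 2 : ℕ) : ℝ) = m at m3 m0 ⊢
    rw [← mul_assoc, pow_add, mul_comm (m ^ j), ← mul_div_assoc]
    refine mul_lt_mul_of_pos_right ?_ (by positivity)
    rw [div_lt_iff₀ (by positivity)]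
    calc _ ≤ ((j + 2).factorial : ℝ) * (c * (3 * m) ^ 2) := by gcongr
      _ = m ^ 2 * ((j + 2).factorial * c * 9) := by ring
      _ < _ := by gcongr; linarith)
  simp only [Ideal.mem_iInf] at a1
  exact ⟨f', a2, a1, by omega⟩

end

end Vale.Agent.P054
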