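import Vale.Agent.P054.ThmB
import Vale.Agent.P054.CelM

namespace Vale.Agent.P054

open MvPolynomial

noncomputable section

theorem thmBL_low {δ : ℕ → ℝ} (h1 : ∀ i, 1 ≤ δ i) (hm : Monotone δ) (r e : ℕ) :
    fp δ r * δ r ^ e ≤ fp δ (r + e) := by
  induction e with
  | zero => simp
  | succ e ih =>
    rw [← add_assoc, fp_succ, pow_succ, ← mul_assoc]
    exact mul_le_mul ih (hm (Nat.le_add_right r e)) (zero_le_one.trans (h1 r)) (fp_pos h1 _).le

theorem thmBL_up {δ : ℕ → ℝ} (h1 : ∀ i, 1 ≤ δ i) {B : ℝ} (hB : 0 ≤ B) (r e : ℕ)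
    (h : ∀ i < r + e, δ i ≤ B) : fp δ (r + e) ≤ fp δ r * B ^ e := by
  induction e with
  | zero => simp
  | succ e ih =>
    rw [← add_assoc, fp_succ, pow_succ, ← mul_assoc]
    exact mul_le_mul (ih fun i hi => h i (by omega)) (h _ (by omega)) (zero_le_one.trans (h1 _))
      (mul_nonneg (fp_pos h1 _).le (pow_nonneg hB _))

theorem thmBL_root {x W Z : ℝ} {e : ℕ} (he : e ≠ 0) (hW : 1 ≤ W) (hZ : 0 ≤ Z)
    (h : x ^ e ≤ W * Z ^ e) : x ≤ W * Z := by
  refine le_of_pow_le_pow_left₀ he (by positivity) (h.trans ?_)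
  rw [mul_pow]
  exact mul_le_mul_of_nonneg_right (le_self_pow₀ hW he) (pow_nonneg hZ _)

theorem thmBL_step (d : ℕ) (hd : 3 ≤ d) (A α : ℝ) (hA : 1 ≤ A) (hα : 0 < α) : ∃ W : ℝ, 1 ≤ W ∧
    ∀ (K : Type) [Field K] [CharZero K] [IsAlgClosed K] (ε : Type) [Fintype ε] [LinearOrder ε]
    (i0 : ε) (L : Finset (ε ⊕ ε → K)) (X ρ Z : ℝ) (D : Cel A α (d - 1) IL L),
    Fintype.card ε = d → (∀ η ∈ L, Nrm i0 η) → 1 ≤ X → 0 ≤ ρ → HSep L id X →
    (∀ S : Finset (ε ⊕ ε → K), S ⊆ L → (∀ η ∈ S, ∀ η' ∈ S, bil η η' = 0) → (S.card : ℝ) ≤ ρ) →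
    X ≤ Z → ρ ≤ Z ^ (d - 2) → ∀ l, l + 1 ≤ d - 2 →
      D.δ (l + 1) ≤ W * D.δ l ∨ D.δ (l + 1) ≤ W * Z := by
  obtain ⟨n, hn⟩ : ∃ n, n = d * (d - 1) / 2 := ⟨_, rfl⟩
  have hdn : d ≤ n := by
    rw [hn, Nat.le_div_iff_mul_le two_pos]
    exact Nat.mul_le_mul_left _ (by omega)
  have hd0 : (0 : ℝ) < d := by positivity
  obtain ⟨κ, hκ, -, H1⟩ := cel_small A α (1 / (40 * d ^ 7)) hA hα (by positivity)
  obtain ⟨CR, hCR, HR⟩ := thmB_R d
  obtain ⟨G, hG1, hG⟩ : ∃ G : ℝ, 1 ≤ G ∧ 49 * 3 ^ n * A ^ 2 ≤ κ * G :=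
    ⟨_, le_max_left _ _, (div_le_iff₀' hκ).1 (le_max_right _ _)⟩
  obtain ⟨Q, hQ⟩ : ∃ Q, Q = CR * A ^ d + n.factorial * A := ⟨_, rfl⟩
  have hQ0 : 0 ≤ Q := by rw [hQ]; positivity
  have hW0 : 0 ≤ A * (10 * d ^ 4 * Q) := by positivity
  refine ⟨G + A * (10 * d ^ 4 * Q), by linarith,
    fun K _ _ _ ε _ _ i0 L X ρ Z D hε' hN' hX hρ hsep hb0 hXZ hρZ l hl => ?_⟩
  have hδ1 := D.one_le
  rcases le_total (D.δ (l + 1)) (G * D.δ l) with hl2 | hl2
  · exact Or.inl (hl2.trans (mul_le_mul_of_nonneg_right (by linarith) (by linarith [hδ1 l])))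
  refine Or.inr ?_
  have hc : Fintype.card (Pr ε) = n := by
    have := card_Pr_eq (ε := ε)
    rw [hε'] at this
    omega
  have hZ : 0 ≤ Z := by linarith
  have hAδ : ∀ i, 1 ≤ A * D.δ i := fun i => one_le_mul_of_one_le_of_one_le hA (hδ1 i)
  have hfp := fp_pos hδ1 (l + 1)
  have hg : ∀ η ∈ L, ∀ i, gs D.g (l + 1) i ∈ IL η := fun η hη i => D.mem i (by omega) η hη
  have hJ := D.jac (l + 1) (by omega)
  have hDl : ∀ i : Fin (l + 1), A * D.δ i ≤ A * D.δ l := fun i =>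
    mul_le_mul_of_nonneg_left (D.mono (Nat.lt_succ_iff.1 i.2)) (by linarith)
  have hdg : ∀ i : Fin (l + 1), ((gs D.g (l + 1) i).totalDegree : ℝ) ≤ A * D.δ i := fun i =>
    D.deg i (by omega)
  have hι : Fintype.card (Fin (l + 1)) + 2 ≤ d := by rw [Fintype.card_fin]; omega
  have hb1 := D.hb (l + 1) (by omega)
  rw [show Fintype.card (Pr ε) - (l + 1) = Fintype.card (Pr ε) - (l + 1 + 1) + 1 by omega] at hb1
  have hs1 := fun S' (hS' : S' ⊆ L) => H1 K (Pr ε) _ _ IL L D (l + 1 + 1) (by omega) S' hS'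
    (7 * 3 ^ (Fintype.card (Pr ε) - (l + 1 + 1) + 1) * (A * fp D.δ (l + 1)) * (7 * (A * D.δ l))) (by
      have k2 := hδ1 l
      rw [fp_succ _ (l + 1)]
      calc _ = 49 * 3 ^ (Fintype.card (Pr ε) - (l + 1 + 1) + 1) * A ^ 2 * D.δ l * fp D.δ (l + 1) := by
            ring
        _ ≤ 49 * 3 ^ n * A ^ 2 * D.δ l * fp D.δ (l + 1) := by gcongr; norm_num; omega
        _ ≤ κ * G * D.δ l * fp D.δ (l + 1) := by gcongr
        _ = κ * (fp D.δ (l + 1) * (G * D.δ l)) := by ring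
        _ ≤ _ := by gcongr)
  obtain ⟨i1, S, hS, hcS, hκS, hcase⟩ := thmB_type (i0 := i0) (by omega) (hAδ l)
    (fun i => (hdg i).trans (hDl i)) hN' hg fun η hη => sm_of_jac (IL_isPrime (hN' η hη)) (hJ η hη)
  have hb := hb1.mono (biInf_mono hS) le_rfl
  have hs := fun S' (hS' : S' ⊆ S) => hs1 S' (hS'.trans hS)
  have hfin : (S.card : ℝ) ≤ Q * (fp D.δ (l + 1) * Z ^ (d - 1 - (l + 1))) +
      4 * (d : ℝ) ^ 3 * (1 / (40 * d ^ 7) * L.card) := by
    rcases hcase with ⟨Φ, k1, k2, k3, k4⟩ | ⟨k1, k2⟩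
    · refine (HR K ε i0 i1 _ _ (D.c (l + 1)) 0 (fun i => A * D.δ i) Φ S X _ _ _ _ hε'
        hι (fun i => hAδ i) hdg k1 hX (fun η h => hN' η (hS h))
        (fun η h => hg η (hS h)) (fun η h => hJ η (hS h)) hκS k3 k4 (fun η h => ?_) (by positivity)
        hDl k2 hb hs).trans (add_le_add ?_ le_rfl)
      · obtain ⟨m, F, e1, e2, e3, e4⟩ := hsep η (hS h)
        exact ⟨m, F, e1, e2, e3, fun b hb => e4 b (hS hb)⟩
      · rw [Fintype.card_fin, Finset.prod_mul_distrib, Finset.prod_const, Finset.card_fin,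
          ← Finset.prod_range D.δ, ← fp]
        calc _ ≤ CR * (A ^ d * fp D.δ (l + 1)) * Z ^ (d - 1 - (l + 1)) := by gcongr; omega
          _ = CR * A ^ d * (fp D.δ (l + 1) * Z ^ (d - 1 - (l + 1))) := by ring
          _ ≤ _ := by
            rw [hQ]
            gcongr
            exact le_add_of_nonneg_right (by positivity)
    · rcases S.eq_empty_or_nonempty with rfl | hSne
      · rw [Finset.card_empty, Nat.cast_zero]
        positivity
      obtain rfl := k1 hSne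
      have k3 := thmB_P (ι := Fin 1) (g := gs D.g 1) (c := D.c 1) (by omega) (hAδ 0) (by positivity) hρ
        (hdg 0) (fun η h => hN' η (hS h)) (fun η h => hg η (hS h) 0) (fun η h => hJ η (hS h)) hκS k2
        hb hs fun S' h => hb0 S' (h.trans hS)
      rw [hε'] at k3
      refine k3.trans (add_le_add ?_ le_rfl)
      rw [show d - 1 - (0 + 1) = d - 2 by omega]
      calc _ ≤ n.factorial * (A * fp D.δ (0 + 1)) * Z ^ (d - 2) :=
            mul_le_mul (mul_le_mul_of_nonneg_right (Nat.cast_le.2 (Nat.factorial_le (by omega)))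
              (by positivity)) hρZ hρ (by positivity)
        _ = n.factorial * A * (fp D.δ (0 + 1) * Z ^ (d - 2)) := by ring
        _ ≤ _ := by
          rw [hQ]
          gcongr
          exact le_add_of_nonneg_left (by positivity)
  rw [hε'] at hcS
  have e : 5 * (d : ℝ) ^ 4 * (4 * (d : ℝ) ^ 3 * (1 / (40 * d ^ 7) * L.card)) = L.card / 2 := by
    field_simp
    ring
  have k := mul_le_mul_of_nonneg_left hfin (show 0 ≤ 5 * (d : ℝ) ^ 4 by positivity)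
  rw [mul_add, e] at k
  have k1 : (L.card : ℝ) ≤ 10 * d ^ 4 * Q * (fp D.δ (l + 1) * Z ^ (d - 1 - (l + 1))) := by
    linarith
  have k2 := thmBL_low hδ1 D.mono (l + 1) (d - 1 - (l + 1))
  rw [show l + 1 + (d - 1 - (l + 1)) = d - 1 by omega] at k2
  have k3 := (k2.trans D.le_card).trans (mul_le_mul_of_nonneg_left k1 (by linarith))
  have he : d - 1 - (l + 1) ≠ 0 := Nat.sub_ne_zero_of_lt (by omega)
  refine thmBL_root he (by linarith) hZ
    (le_of_mul_le_mul_left (k3.trans ?_) hfp)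
  calc _ = fp D.δ (l + 1) * (A * (10 * d ^ 4 * Q) * Z ^ (d - 1 - (l + 1))) := by ring
    _ ≤ _ := by gcongr; linarith

theorem thmBL_num {A c N M α : ℝ} {d : ℕ} (hd : 0 < d) (hα : α = 1 / (2 * d)) (hA : 1 ≤ A)
    (hc : 0 ≤ c) (hM : 0 < M) (hN : 0 < N) {f : ℕ → ℝ} (h0 : ∀ r < d, 0 ≤ f r)
    (h1 : ∀ r < d, f r ≤ c * (N / M)) (h : N ≤ A * M * ∏ r ∈ Finset.range d, f r ^ α) :
    N ≤ A ^ 2 * c * M := by
  have hd0 : (0 : ℝ) < d := by exact_mod_cast hd
  have hα0 : 0 ≤ α := by rw [hα]; positivity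
  have ht : 0 ≤ c * (N / M) := by positivity
  have k1 : ∏ r ∈ Finset.range d, f r ^ α ≤ √(c * (N / M)) := by
    calc _ ≤ ∏ _r ∈ Finset.range d, (c * (N / M)) ^ α :=
          Finset.prod_le_prod (fun r hr => Real.rpow_nonneg (h0 r (Finset.mem_range.1 hr)) _)
            fun r hr => Real.rpow_le_rpow (h0 r (Finset.mem_range.1 hr))
              (h1 r (Finset.mem_range.1 hr)) hα0
      _ = _ := by
          rw [Finset.prod_const, Finset.card_range, ← Real.rpow_mul_natCast ht, Real.sqrt_eq_rpow,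
            hα]
          congr 1
          field_simp
  have k2 := h.trans (mul_le_mul_of_nonneg_left k1 (by positivity))
  have k3 := pow_le_pow_left₀ hN.le k2 2
  rw [mul_pow, Real.sq_sqrt ht] at k3
  refine le_of_mul_le_mul_left (le_of_eq_of_le (sq N).symm (k3.trans (le_of_eq ?_))) hN
  field_simp

/-- Theorem B without loss in the exponent. -/
theorem thmBL (d : ℕ) (hd : 3 ≤ d) : ∃ C : ℝ, 0 < C ∧
    ∀ (K : Type) [Field K] [CharZero K] [IsAlgClosed K] (ε : Type) [Fintype ε] [LinearOrder ε]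
    (i0 : ε) (𝓝 : Finset (ε ⊕ ε → K)) (E X ρ : ℝ) (h : MvPolynomial (Pr ε) K),
    Fintype.card ε = d → (∀ η ∈ 𝓝, Nrm i0 η) → 1 ≤ E → 1 ≤ X → 0 ≤ ρ → h ≠ 0 →
    (h.totalDegree : ℝ) ≤ E → (∀ η ∈ 𝓝, h ∈ IL η) → HSep 𝓝 id X →
    (∀ S : Finset (ε ⊕ ε → K), S ⊆ 𝓝 → (∀ η ∈ S, ∀ η' ∈ S, bil η η' = 0) → (S.card : ℝ) ≤ ρ) →
    (𝓝.card : ℝ) ≤ C * (E * (E + X) ^ (d - 2) + E * ρ) := by
  obtain ⟨n, hn⟩ : ∃ n, n = d * (d - 1) / 2 := ⟨_, rfl⟩
  have hdn : d ≤ n := by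
    rw [hn, Nat.le_div_iff_mul_le two_pos]
    exact Nat.mul_le_mul_left _ (by omega)
  have hd0 : (0 : ℝ) < d := by positivity
  obtain ⟨α, hαd⟩ : ∃ α : ℝ, α = 1 / (2 * d) := ⟨_, rfl⟩
  have hα : 0 < α := by rw [hαd]; positivity
  obtain ⟨A, hA, H⟩ := celM n (d - 1) (2 ^ n) α (one_le_pow₀ one_le_two) hα (by omega)
  obtain ⟨κ0, hκ0, -, H0⟩ := cel_small A α (1 / 2) hA hα (by norm_num)
  obtain ⟨W, hW, HW⟩ := thmBL_step d hd A α hA hα
  obtain ⟨G0, hG2, hG0⟩ : ∃ G0 : ℝ, 1 ≤ G0 ∧ 2 ^ n * 2 ^ n ≤ κ0 * G0 :=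
    ⟨_, le_max_left _ _, (div_le_iff₀' hκ0).1 (le_max_right _ _)⟩
  obtain ⟨V, hV⟩ : ∃ V, V = W ^ d * G0 := ⟨_, rfl⟩
  have hV1 : 1 ≤ V := hV ▸ one_le_mul_of_one_le_of_one_le (one_le_pow₀ hW) hG2
  refine ⟨A ^ 2 * (2 ^ n * 2 ^ n * (A * V ^ d)) * (A * G0 * V ^ d) + 1, by positivity,
    fun K _ _ _ ε _ _ i0 𝓝 E X ρ h hε' hN hE hX hρ h0 hdeg hh hsep hb0 => ?_⟩
  obtain ⟨Z, hZ0, hZ⟩ : ∃ Z : ℝ, 0 ≤ Z ∧ Z ^ (d - 2) = (E + X) ^ (d - 2) + ρ :=
    ⟨_, Real.rpow_nonneg (by positivity) _, Real.rpow_inv_natCast_pow (by positivity) (by omega)⟩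
  have hZ1 : E + X ≤ Z := le_of_pow_le_pow_left₀ (n := d - 2) (by omega) hZ0 (by linarith)
  have hZ2 : ρ ≤ Z ^ (d - 2) := by
    rw [hZ]; exact le_add_of_nonneg_left (by positivity)
  have hZ3 : 1 ≤ Z := by linarith
  rw [← mul_add, ← hZ]
  have hB : 0 < E * Z ^ (d - 2) := by positivity
  rw [add_mul _ 1, one_mul]
  rcases le_total (𝓝.card : ℝ) (E * Z ^ (d - 2)) with hs | hs
  · exact le_add_of_nonneg_of_le (by positivity) hs
  refine le_add_of_le_of_nonneg ?_ hB.le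
  have hN0 : (0 : ℝ) < 𝓝.card := hB.trans_le hs
  have hne : 𝓝.Nonempty := Finset.card_pos.1 (by exact_mod_cast hN0)
  have hc : Fintype.card (Pr ε) = n := by
    have := card_Pr_eq (ε := ε)
    rw [hε'] at this
    omega
  have hc' := card_Pr i0
  have hIL : ∀ η ∈ 𝓝, HB (IL η) (2 ^ n) (Fintype.card (Pr (Ne0 i0))) := fun η hη =>
    (hb_IL (hN η hη)).mono le_rfl (pow_le_pow_right₀ one_le_two (by omega))
  obtain ⟨L, hL, hLne, D, hmax⟩ := H K (Pr ε) _ (Pr (Ne0 i0)) IL 𝓝 hc (by omega) hne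
    (fun η hη η' hη' k => IL_inj (by omega) (hN η hη) (hN η' hη') k) fun η hη =>
      ⟨IL_isPrime (hN η hη), dn_IL η, hIL η hη, ind_IL (hN η hη)⟩
  have hL0 : (0 : ℝ) < L.card := by exact_mod_cast hLne.card_pos
  have hLN : (L.card : ℝ) ≤ 𝓝.card := by exact_mod_cast Finset.card_le_card hL
  have hcut : HB (⨅ η ∈ 𝓝, IL η) (2 ^ n * 2 ^ n * E) (n - 1) := by
    have k2 := hb_card (⊥ : Ideal (MvPolynomial (Pr ε) K))
    rw [hc, show n = n - 1 + 1 by omega] at k2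
    have k3 := hb_cut (I' := ⨅ η ∈ 𝓝, IL η) bot_le (by
      simp only [Ideal.mem_iInf]
      exact hh) (fun f hf => (mul_eq_zero.1 hf).resolve_left h0) hdeg hE k2
    rw [← show n = n - 1 + 1 by omega] at k3
    exact k3
  have hδ1 := D.one_le
  have hδ0 : D.δ 0 ≤ G0 * E := by
    by_contra k
    have k1 := H0 K (Pr ε) _ _ IL L D 1 (by omega) L subset_rfl (2 ^ n * 2 ^ n * E) (by
      rw [fp_succ, fp, Finset.prod_range_zero, one_mul]
      calc _ ≤ κ0 * G0 * E := by gcongr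
        _ ≤ _ := by rw [mul_assoc]; gcongr; exact (not_le.1 k).le) (by
      rw [hc]
      exact hcut.mono (biInf_mono hL) le_rfl)
    linarith
  have hstep := HW K ε i0 L X ρ Z D hε' (fun η hη => hN η (hL hη)) hX hρ (fun η hη => by
    obtain ⟨m, F, e1, e2, e3, e4⟩ := hsep η (hL hη)
    exact ⟨m, F, e1, e2, e3, fun b hb => e4 b (hL hb)⟩) (fun S hS => hb0 S (hS.trans hL))
    (by linarith) hZ2
  have hδ2 : ∀ i, i ≤ d - 2 → D.δ i ≤ W ^ i * (G0 * Z) := fun i => by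
    induction i with
    | zero =>
      intro _
      rw [pow_zero, one_mul]
      exact hδ0.trans (mul_le_mul_of_nonneg_left (by linarith) (by linarith))
    | succ i ih =>
      intro hi
      rw [pow_succ', mul_assoc]
      refine (hstep i hi).elim (fun k => k.trans ?_) fun k => k.trans ?_
      · exact mul_le_mul_of_nonneg_left (ih (by omega)) (by linarith)
      · refine mul_le_mul_of_nonneg_left ?_ (by linarith)
        exact (le_mul_of_one_le_left hZ0 hG2).trans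
          (le_mul_of_one_le_left (by positivity) (one_le_pow₀ hW))
  have hδ3 : ∀ i, i < d - 1 → D.δ i ≤ V * Z := fun i hi => (hδ2 i (by omega)).trans (by
    rw [hV, mul_assoc]
    gcongr
    omega)
  have hup : ∀ r, r ≤ d - 1 → (L.card : ℝ) ≤ A * V ^ d * (fp D.δ r * Z ^ (d - 1 - r)) := by
    intro r hr
    have k1 := thmBL_up hδ1 (B := V * Z) (by positivity) r (d - 1 - r) fun i hi =>
      hδ3 i (by omega)
    rw [show r + (d - 1 - r) = d - 1 by omega, mul_pow] at k1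
    have k2 := fp_pos hδ1 r
    calc _ ≤ A * fp D.δ (d - 1) := D.card_le
      _ ≤ A * (fp D.δ r * (V ^ (d - 1 - r) * Z ^ (d - 1 - r))) := by gcongr
      _ ≤ A * (fp D.δ r * (V ^ d * Z ^ (d - 1 - r))) := by gcongr; omega
      _ = _ := by ring
  have hm := hmax 𝓝 subset_rfl
    (fun r => if r = 0 then 2 ^ n else 2 ^ n * 2 ^ n * (𝓝.card / Z ^ (d - 1 - r))) fun r hr => by
      rw [hc]
      split_ifs with hr0
      · have := hb_card (⨅ η ∈ 𝓝, IL η)
        rw [hc] at this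
        rw [hr0]
        exact this
      intro m hm1
      have hm0 : (1 : ℝ) ≤ m := by exact_mod_cast hm1
      have hZp : 0 < Z ^ (d - 1 - r) := by positivity
      rcases le_total (m : ℝ) Z with k | k
      · refine (hcut m hm1).trans ?_
        have k1 : E * Z ^ (r - 1) ≤ 𝓝.card / Z ^ (d - 1 - r) := by
          rw [le_div_iff₀ hZp, mul_assoc, ← pow_add, show r - 1 + (d - 1 - r) = d - 2 by omega]
          exact hs
        rw [show n - 1 = r - 1 + (n - r) by omega, pow_add]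
        calc _ = 2 ^ n * 2 ^ n * (E * (m : ℝ) ^ (r - 1)) * (m : ℝ) ^ (n - r) := by ring
          _ ≤ 2 ^ n * 2 ^ n * (E * Z ^ (r - 1)) * (m : ℝ) ^ (n - r) := by gcongr
          _ ≤ _ := by gcongr
      · refine (hb_iInf 𝓝 IL _ hIL m hm1).trans ?_
        rw [Finset.sum_const, nsmul_eq_mul,
          show n - r = d - 1 - r + Fintype.card (Pr (Ne0 i0)) by omega, pow_add]
        have k1 : (1 : ℝ) ≤ 2 ^ n := one_le_pow₀ one_le_two
        calc _ = 1 * 2 ^ n * (𝓝.card / Z ^ (d - 1 - r)) *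
              (Z ^ (d - 1 - r) * (m : ℝ) ^ Fintype.card (Pr (Ne0 i0))) := by field_simp
          _ ≤ _ := by gcongr
  rw [show d - 1 + 1 = d by omega] at hm
  have hAV : 1 ≤ A * V ^ d := one_le_mul_of_one_le_of_one_le hA (one_le_pow₀ hV1)
  have hfin := thmBL_num (c := 2 ^ n * 2 ^ n * (A * V ^ d)) (by omega) hαd hA (by positivity) hL0
    hN0 (fun r _ => by
      have := fp_pos hδ1 r
      split_ifs <;> positivity) (fun r hr => by
      have k0 := fp_pos hδ1 r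
      have k1 : (1 : ℝ) ≤ 2 ^ n := one_le_pow₀ one_le_two
      split_ifs with hr0
      · rw [hr0, fp, Finset.prod_range_zero, div_one]
        calc (2 : ℝ) ^ n = 2 ^ n * 1 * 1 * 1 := by ring
          _ ≤ _ := by
            gcongr
            exact (one_le_div hL0).2 hLN
      · have k2 := hup r (by omega)
        have hZp : 0 < Z ^ (d - 1 - r) := by positivity
        rw [mul_div_assoc, mul_assoc (2 ^ n * 2 ^ n), div_div]
        refine mul_le_mul_of_nonneg_left ?_ (by positivity)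
        rw [mul_div_assoc', div_le_div_iff₀ (by positivity) hL0]
        calc _ ≤ 𝓝.card * (A * V ^ d * (fp D.δ r * Z ^ (d - 1 - r))) := by gcongr
          _ = _ := by ring) hm
  refine hfin.trans ?_
  rw [mul_assoc _ (A * G0 * V ^ d)]
  refine mul_le_mul_of_nonneg_left ((hup 1 (by omega)).trans ?_) (by positivity)
  rw [fp_succ, fp, Finset.prod_range_zero, one_mul, show d - 1 - 1 = d - 2 by omega]
  calc _ ≤ A * V ^ d * (G0 * E * Z ^ (d - 2)) := by gcongr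
    _ = _ := by ring

end

end Vale.Agent.P054
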