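import Vale.Agent.P054.MNcAll
import Vale.Agent.P054.WB

namespace Vale.Agent.P054

open MvPolynomial

noncomputable section

open Classical in
theorem thmCL_line {σ : Type} [Fintype σ] (hσ : 2 ≤ Fintype.card σ) {i0 : σ}
    {P : Finset (σ → ℝ)} {H : ℝ} (hH : HypB P H) {x y : σ → ℝ} (hxy : x i0 ≠ y i0) :
    ((P.filter fun z => Col x y z).card : ℝ) ≤ H := by
  obtain ⟨j, hj⟩ := Fintype.exists_ne_of_one_lt_card (by omega : 1 < Fintype.card σ) i0
  refine hH (Pi.single j (y i0 - x i0) - Pi.single i0 (y j - x j))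
    ((y i0 - x i0) * x j - (y j - x j) * x i0) _ (fun h => ?_) (Finset.filter_subset _ _)
    fun z hz => ?_
  · have := congrFun h j
    simp only [Pi.sub_apply, Pi.single_eq_same, Pi.single_eq_of_ne hj, sub_zero,
      Pi.zero_apply] at this
    exact hxy (sub_eq_zero.1 this).symm
  · obtain ⟨s, rfl⟩ := (Finset.mem_filter.1 hz).2
    simp only [Pi.sub_apply, sub_mul, Finset.sum_sub_distrib, Pi.single_apply, ite_mul, zero_mul,
      Finset.sum_ite_eq', Finset.mem_univ, if_true]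
    ring

theorem thmCL_col {σ : Type} [DecidableEq σ] {i0 : σ} {a b b' : σ → ℝ} (hb : b i0 ≠ a i0)
    (hb' : b' i0 ≠ a i0) (h : dirv i0 (cx a) (cx b') = dirv i0 (cx a) (cx b)) : Col a b b' := by
  have h1 : b i0 - a i0 ≠ 0 := sub_ne_zero.2 hb
  have h2 : b' i0 - a i0 ≠ 0 := sub_ne_zero.2 hb'
  refine ⟨(b' i0 - a i0) / (b i0 - a i0), funext fun k => ?_⟩
  by_cases hk : k = i0
  · subst hk
    field_simp
    ring
  · have h3 := congrFun h ⟨k, hk⟩
    simp only [dirv, cx] at h3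
    have h4 : (b' k - a k) / (b' i0 - a i0) = (b k - a k) / (b i0 - a i0) := by exact_mod_cast h3
    field_simp at h4 ⊢
    linear_combination h4

theorem thmCL_num {d : ℕ} (hd : 1 ≤ d) {B n : ℝ} (hB : 0 < B) (hn : 1 ≤ n) (h : B ^ d ≤ n) :
    B * (n ^ (1 - 1 / (2 * (d : ℝ)))) ^ 2 ≤ n ^ 2 := by
  have hn0 : 0 < n := by linarith
  have hd0 : (0 : ℝ) < d := by exact_mod_cast hd
  have h1 : B ≤ n ^ (1 / (d : ℝ)) := by
    calc B = (B ^ d) ^ (1 / (d : ℝ)) := by
          rw [one_div, Real.pow_rpow_inv_natCast hB.le (by omega)]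
      _ ≤ _ := Real.rpow_le_rpow (by positivity) h (by positivity)
  calc _ ≤ n ^ (1 / (d : ℝ)) * (n ^ (1 - 1 / (2 * (d : ℝ)))) ^ 2 := by gcongr
    _ = n ^ 2 := by
        rw [← Real.rpow_natCast, ← Real.rpow_mul hn0.le, ← Real.rpow_add hn0,
          ← Real.rpow_natCast n 2]
        congr 1
        push_cast
        field_simp
        ring

open Classical in
/-- Theorem C without loss: a positive proportion of the directions has separators. -/
theorem thmCL (d : ℕ) (hd : 3 ≤ d) : ∃ C c N0 : ℝ, 1 ≤ C ∧ 0 < c ∧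
    ∀ (σ : Type) [Fintype σ] (i0 : σ) (P : Finset (σ → ℝ)) (H : ℝ),
    Fintype.card σ = d → N0 ≤ P.card → (∀ a ∈ P, ∀ b ∈ P, a ≠ b → a i0 ≠ b i0) → HypB P H →
    H ≤ (P.card : ℝ) ^ (1 - 1 / (2 * (d : ℝ))) → (nd P : ℝ) ≤ (P.card : ℝ) ^ ((2 : ℝ) / d) →
    ∃ G : Finset ((σ → ℝ) × (σ → ℝ)), c * (P.card : ℝ) ^ 2 ≤ G.card ∧
      (∀ x ∈ G, x.1 ∈ P ∧ x.2 ∈ P ∧ x.1 ≠ x.2) ∧
      ∀ a ∈ P, HSep (P.filter fun b => (a, b) ∈ G) (fun b => cx fun k => b k - a k)
        (C * (P.card : ℝ) ^ ((2 : ℝ) / d)) := by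
  obtain ⟨C1, c1, N1, hC1, hc1, hnc⟩ := thm_nc d hd
  obtain ⟨CB, hCB, hbeck⟩ := weighted_beck
  obtain ⟨C2, hC2, hcl⟩ := exists_classL d (by omega)
  set μ : ℝ := 1 + 6 * CB / c1 with hμ
  set θ : ℝ := min 1 (c1 / (6 * CB)) with hθ
  have hμ1 : 1 ≤ μ := le_add_of_nonneg_right (by positivity)
  have hθ0 : 0 < θ := lt_min one_pos (by positivity)
  refine ⟨C2 * C1, c1 / (4 * μ), max N1 (max 1 ((6 * CB / (c1 * θ ^ 2)) ^ d)),
    one_le_mul_of_one_le_of_one_le hC2 hC1, by positivity, ?_⟩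
  intro σ _ i0 P H hσ hN hi0 hH hHc hnd
  have hn1 : (1 : ℝ) ≤ P.card := (le_max_left _ _).trans ((le_max_right _ _).trans hN)
  obtain ⟨G0, hG0, hG0m, hG0n⟩ := hnc σ i0 P H hσ ((le_max_left _ _).trans hN) hi0 hH hHc hnd
  have hneq : ∀ a b, (a, b) ∈ G0 → a i0 ≠ b i0 := fun a b h =>
    hi0 a (hG0m _ h).1 b (hG0m _ h).2.1 (hG0m _ h).2.2
  set E := G0.filter fun x => μ ≤ ((P.filter fun z => Col x.1 x.2 z).card : ℝ) with hE
  have hEc : (E.card : ℝ) ≤ c1 / 2 * (P.card : ℝ) ^ 2 := by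
    have h1 := hbeck σ P (fun _ => 1) E P.card 1 ((P.card : ℝ) ^ (1 - 1 / (2 * (d : ℝ)))) μ θ
      le_rfl (fun _ _ => by simp) hμ1 hθ0 (min_le_left _ _) (fun x hx => by
        obtain ⟨h1, h2⟩ := Finset.mem_filter.1 hx
        refine ⟨(hG0m x h1).1, (hG0m x h1).2.1, (hG0m x h1).2.2, h2, ?_⟩
        rw [← Finset.card_eq_sum_ones]
        exact (thmCL_line (by omega) hH (hneq _ _ h1)).trans hHc)
    simp only [mul_one, one_pow, one_mul, ← Finset.card_eq_sum_ones] at h1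
    have h2 := thmCL_num (d := d) (by omega) (B := 6 * CB / (c1 * θ ^ 2)) (by positivity) hn1
      ((le_max_right _ _).trans ((le_max_right _ _).trans hN))
    have h3 : CB / μ ≤ c1 / 6 := by
      rw [div_le_div_iff₀ (by linarith) (by norm_num), hμ, mul_add, mul_div_cancel₀ _ hc1.ne']
      linarith
    have h4 : CB * θ ≤ c1 / 6 := by
      calc CB * θ ≤ CB * (c1 / (6 * CB)) := by gcongr; exact min_le_right _ _
        _ = c1 / 6 := by field_simp
    have h5 : CB * (((P.card : ℝ) ^ (1 - 1 / (2 * (d : ℝ)))) ^ 2 / θ ^ 2) ≤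
        c1 / 6 * (P.card : ℝ) ^ 2 := by
      calc _ = c1 / 6 * (6 * CB / (c1 * θ ^ 2) *
            ((P.card : ℝ) ^ (1 - 1 / (2 * (d : ℝ)))) ^ 2) := by field_simp
        _ ≤ _ := by gcongr
    have h6 := mul_le_mul_of_nonneg_right h3 (sq_nonneg (P.card : ℝ))
    have h7 := mul_le_mul_of_nonneg_right h4 (sq_nonneg (P.card : ℝ))
    calc (E.card : ℝ) ≤ _ := h1
      _ = CB / μ * (P.card : ℝ) ^ 2 + CB * θ * (P.card : ℝ) ^ 2 +
          CB * (((P.card : ℝ) ^ (1 - 1 / (2 * (d : ℝ)))) ^ 2 / θ ^ 2) := by ring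
      _ ≤ _ := by linarith
  have hG1 : c1 / 2 * (P.card : ℝ) ^ 2 ≤ ((G0 \ E).card : ℝ) := by
    have h1 : (((G0 \ E).card + E.card : ℕ) : ℝ) = G0.card := by
      rw [Finset.card_sdiff_add_card_eq_card (Finset.filter_subset _ _)]
    push_cast at h1
    linarith
  have hX1 : 1 ≤ C1 * (P.card : ℝ) ^ ((2 : ℝ) / d) :=
    one_le_mul_of_one_le_of_one_le hC1 (Real.one_le_rpow hn1 (by positivity))
  have hS : ∀ a ∈ P, ∃ S : Finset (σ → ℝ), S ⊆ P.filter (fun b => (a, b) ∈ G0 \ E) ∧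
      HSep S (fun b => cx fun k => b k - a k) (C2 * C1 * (P.card : ℝ) ^ ((2 : ℝ) / d)) ∧
      ((P.filter fun b => (a, b) ∈ G0 \ E).card : ℝ) ≤ 2 * μ * S.card := by
    intro a ha
    have hR : ∀ b ∈ P.filter (fun b => (a, b) ∈ G0 \ E), (a, b) ∈ G0 ∧ (a, b) ∉ E := fun b hb =>
      Finset.mem_sdiff.1 (Finset.mem_filter.1 hb).2
    obtain ⟨R', hR', hinj, hRc⟩ := thmC_reps (P.filter fun b => (a, b) ∈ G0 \ E)
      (fun b => dirv i0 (cx a) (cx b)) μ (by
        intro b hb T hT hTb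
        have h1 : ¬ μ ≤ ((P.filter fun z => Col a b z).card : ℝ) := fun h =>
          (hR b hb).2 (Finset.mem_filter.2 ⟨(hR b hb).1, h⟩)
        refine le_trans ?_ (not_le.1 h1).le
        refine Nat.cast_le.2 (Finset.card_le_card fun b' hb' => ?_)
        exact Finset.mem_filter.2 ⟨(Finset.mem_filter.1 (hT hb')).1,
          thmCL_col (hneq _ _ (hR b hb).1).symm (hneq _ _ (hR b' (hT hb')).1).symm (hTb b' hb')⟩)
    have hdir : (fun b : σ → ℝ => fun k : Ne0 i0 => cx (fun k => b k - a k) k /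
        cx (fun k => b k - a k) i0) = fun b => dirv i0 (cx a) (cx b) := by
      funext b k
      simp only [cx, dirv, Complex.ofReal_sub]
    obtain ⟨S, hS, hsep, hSc⟩ := hcl σ (σ → ℝ) i0 R' (fun b => cx fun k => b k - a k) _ hσ hX1
      (fun b hb => by
        have := sub_ne_zero.mpr (hneq a b (hR b (hR' hb)).1).symm
        simpa only [cx, ne_eq, Complex.ofReal_eq_zero] using this)
      (by rw [hdir]; exact hinj) (by
        rw [hdir]
        exact (hG0n a ha).mono (fun b hb => Finset.mem_filter.2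
          ⟨(Finset.mem_filter.1 (hR' hb)).1, (hR b (hR' hb)).1⟩) le_rfl)
    refine ⟨S, hS.trans hR', by rwa [mul_assoc], hRc.trans ?_⟩
    have h2 : (R'.card : ℝ) ≤ 2 * S.card := by exact_mod_cast hSc
    calc μ * R'.card ≤ μ * (2 * S.card) := by gcongr
      _ = _ := by ring
  choose! S hS1 hS2 hS3 using hS
  have hfil : ∀ a ∈ P, (P.filter fun b => b ∈ S a) = S a := fun a ha => by
    ext b
    simp only [Finset.mem_filter, and_iff_right_iff_imp]
    exact fun hb => (Finset.mem_filter.1 (hS1 a ha hb)).1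
  refine ⟨(P ×ˢ P).filter fun x => x.2 ∈ S x.1, ?_, fun x hx => ?_, fun a ha => ?_⟩
  · have e1 : G0 \ E = (P ×ˢ P).filter fun x => (x.1, x.2) ∈ G0 \ E := by
      ext x
      simp only [Finset.mem_filter, Finset.mem_product, iff_and_self]
      exact fun hx => ⟨(hG0m x (Finset.mem_sdiff.1 hx).1).1, (hG0m x (Finset.mem_sdiff.1 hx).1).2.1⟩
    have e2 := thmC_card_rel P fun a b => (a, b) ∈ G0 \ E
    have e3 := thmC_card_rel P fun a b => b ∈ S a
    rw [← e1] at e2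
    have e4 : ((G0 \ E).card : ℝ) ≤
        2 * μ * (((P ×ˢ P).filter fun x => x.2 ∈ S x.1).card : ℝ) := by
      rw [e2, e3, Finset.mul_sum]
      refine Finset.sum_le_sum fun a ha => ?_
      rw [hfil a ha]
      exact hS3 a ha
    rw [div_mul_eq_mul_div, div_le_iff₀ (by positivity)]
    linarith
  · obtain ⟨h1, h2⟩ := Finset.mem_filter.1 hx
    have h3 := (Finset.mem_product.1 h1).1
    exact hG0m _ (Finset.mem_sdiff.1 (Finset.mem_filter.1 (hS1 _ h3 h2)).2).1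
  · have e : (P.filter fun b => (a, b) ∈ (P ×ˢ P).filter fun x => x.2 ∈ S x.1) = S a := by
      rw [← hfil a ha]
      refine Finset.filter_congr fun b hb => ?_
      simp only [Finset.mem_filter, Finset.mem_product, ha, hb, true_and]
    rw [e]
    exact hS2 a ha


end

end Vale.Agent.P054
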