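import Vale.Agent.P054.Iso3
import Vale.Agent.P054.FinGraph

namespace Vale.Agent.P054

open MvPolynomial

noncomputable section

theorem upart_bil_add {ε : Type} [Fintype ε] (a b c : ε ⊕ ε → ℂ) (s : ℂ) :
    bil c (a + s • b) = bil c a + s * bil c b := by
  simp only [bil, Pi.add_apply, Pi.smul_apply, smul_eq_mul, Finset.mul_sum,
    ← Finset.sum_add_distrib]
  exact Finset.sum_congr rfl fun i _ => by ring

theorem upart_bil_comm {ε : Type} [Fintype ε] (a b : ε ⊕ ε → ℂ) : bil a b = bil b a := by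
  simp only [bil]
  exact Finset.sum_congr rfl fun i _ => by ring

theorem upart_bil_self {ε : Type} [Fintype ε] {a : ε ⊕ ε → ℂ} (h : Nul a) : bil a a = 0 := by
  have h1 : ∑ i, a (Sum.inl i) * a (Sum.inr i) = 0 := h
  simp only [bil, Finset.sum_add_distrib, h1, add_zero]

theorem upart_bil_span {ε : Type} [Fintype ε] (c : ε ⊕ ε → ℂ) (T : Set (ε ⊕ ε → ℂ))
    (h : ∀ w ∈ T, bil c w = 0) : ∀ η ∈ Submodule.span ℂ T, bil c η = 0 := by
  intro η hη
  induction hη using Submodule.span_induction with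
  | mem w hw => exact h w hw
  | zero => simp [bil]
  | add a b _ _ ha hb =>
    have h1 := upart_bil_add a b c 1
    rw [one_smul] at h1
    rw [h1, ha, hb]
    simp
  | smul s a _ ha =>
    have h1 := upart_bil_add 0 a c s
    rw [zero_add] at h1
    rw [h1, ha]
    simp [bil]

/-- null vectors in a space containing an isotropic hyperplane. -/
theorem null_two {ε : Type} [Fintype ε] (U : Submodule ℂ (ε ⊕ ε → ℂ)) (hU : Module.finrank ℂ U ≤ 4)
    (v : Fin 3 → ε ⊕ ε → ℂ) (hv : LinearIndependent ℂ v) (hvU : ∀ i, v i ∈ U)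
    (hb : ∀ i j, bil (v i) (v j) = 0) :
    (∀ η ∈ Submodule.span ℂ (Set.range v), ∀ η' ∈ Submodule.span ℂ (Set.range v), bil η η' = 0) ∧
      ∀ η ∈ U, ∀ η' ∈ U, η ∉ Submodule.span ℂ (Set.range v) →
        η' ∉ Submodule.span ℂ (Set.range v) → Nul η → Nul η' → bil η η' = 0 := by
  have h1 : ∀ η ∈ Submodule.span ℂ (Set.range v), ∀ η' ∈ Submodule.span ℂ (Set.range v),
      bil η η' = 0 := by
    intro η hη
    refine upart_bil_span η _ ?_
    rintro _ ⟨j, rfl⟩
    rw [upart_bil_comm]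
    refine upart_bil_span (v j) _ ?_ η hη
    rintro _ ⟨i, rfl⟩
    exact hb j i
  refine ⟨h1, ?_⟩
  intro η hη η' hη' hn hn' h0 h0'
  have h3 : Module.finrank ℂ (Submodule.span ℂ (Set.range v)) = 3 := by
    rw [finrank_span_eq_card hv]
    simp
  have hτ : Submodule.span ℂ (Set.range v) ≤ U := by
    rw [Submodule.span_le]
    rintro _ ⟨i, rfl⟩
    exact hvU i
  have hlt : Submodule.span ℂ (Set.range v) <
      Submodule.span ℂ (Set.range v) ⊔ Submodule.span ℂ {η} := by
    refine lt_of_le_of_ne le_sup_left fun e => hn ?_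
    rw [e]
    exact Submodule.mem_sup_right (Submodule.mem_span_singleton_self η)
  have h4 := Submodule.finrank_lt_finrank_of_lt hlt
  have hle : Submodule.span ℂ (Set.range v) ⊔ Submodule.span ℂ {η} ≤ U :=
    sup_le hτ ((Submodule.span_singleton_le_iff_mem η U).2 hη)
  have heq := Submodule.eq_of_le_of_finrank_le hle (by omega)
  rw [← heq, Submodule.mem_sup] at hη'
  obtain ⟨a, ha, b, hb', rfl⟩ := hη'
  obtain ⟨s, rfl⟩ := Submodule.mem_span_singleton.1 hb'
  have hs : s ≠ 0 := by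
    rintro rfl
    exact hn' (by simpa using ha)
  have e1 := upart_bil_self h0
  have e2 := upart_bil_self h0'
  have e3 := h1 a ha a ha
  rw [upart_bil_add, upart_bil_comm _ a, upart_bil_comm _ η, upart_bil_add, upart_bil_add, e1, e3,
    upart_bil_comm a η] at e2
  have e4 : s * (2 * bil η a) = 0 := by linear_combination e2
  have e5 : bil η a = 0 := by
    rcases mul_eq_zero.1 e4 with h | h
    · exact absurd h hs
    · linear_combination h / 2
  rw [upart_bil_add, e1, e5]
  simp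

theorem upart_real {x y z : Pt} (hxy : x ≠ y) (hz : ¬ Col x y z) (α β γ : ℝ)
    (h0 : α + β + γ = 0) (h : ∀ k, α * x k + β * y k + γ * z k = 0) : α = 0 ∧ β = 0 ∧ γ = 0 := by
  have hγ : γ = 0 := by
    by_contra hγ
    refine hz ⟨-β / γ, funext fun k => ?_⟩
    have h1 := h k
    have h2 : α = -β - γ := by linarith
    rw [h2] at h1
    field_simp
    linarith
  have hβ : β = 0 := by
    by_contra hβ
    refine hxy (funext fun k => ?_)
    have h1 := h k
    have h2 : α = -β := by linarith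
    rw [h2, hγ] at h1
    have h3 : β * (x k - y k) = 0 := by linarith
    rcases mul_eq_zero.1 h3 with h4 | h4
    · exact absurd h4 hβ
    · linarith
  exact ⟨by linarith, hβ, hγ⟩

theorem hat_indep {x y z : Pt × Pt} (hxy : x.1 ≠ y.1) (hz : ¬ Col x.1 y.1 z.1) :
    LinearIndependent ℂ ![hat x, hat y, hat z] := by
  rw [Fintype.linearIndependent_iff]
  intro g hg
  have hc : ∀ j, g 0 * hat x j + g 1 * hat y j + g 2 * hat z j = 0 := by
    intro j
    have h1 := congrFun hg j
    simpa [Fin.sum_univ_three] using h1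
  have h0 : g 0 + g 1 + g 2 = 0 := by
    have h1 := hc (Sum.inl 0)
    simpa [hat] using h1
  have h1 : ∀ k : Fin 3, g 0 * (x.1 k : ℂ) + g 1 * (y.1 k : ℂ) + g 2 * (z.1 k : ℂ) = 0 := by
    intro k
    have h2 := hc (Sum.inl k.succ)
    have h3 := hc (Sum.inr k.succ)
    simp only [hat, Sum.elim_inl, Sum.elim_inr, Fin.cons_succ] at h2 h3
    push_cast at h2 h3
    linear_combination (h3 - h2) / 2
  have hre := upart_real hxy hz (g 0).re (g 1).re (g 2).re
    (by simpa using congrArg Complex.re h0) fun k => by simpa using congrArg Complex.re (h1 k)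
  have him := upart_real hxy hz (g 0).im (g 1).im (g 2).im
    (by simpa using congrArg Complex.im h0) fun k => by simpa using congrArg Complex.im (h1 k)
  intro i
  fin_cases i
  · exact Complex.ext hre.1 him.1
  · exact Complex.ext hre.2.1 him.2.1
  · exact Complex.ext hre.2.2 him.2.2

theorem upart_cmp {S : Finset (Pt × Pt)} (h : ∀ y ∈ S, ∀ z ∈ S, bil (hat y) (hat z) = 0) :
    Cmp S := by
  intro y hy z hz
  have h1 := h y hy z hz
  rw [bil_hat] at h1
  have h2 : sqd y.1 z.1 - sqd y.2 z.2 = 0 := by exact_mod_cast h1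
  linarith

open Classical in
/-- neighbours in a subspace of small dimension. -/
theorem u_part {x : Pt × Pt} {N : Finset (Pt × Pt)} {𝓖 : Finset Mo} {τ l ρ : ℝ} {C0 : ℕ}
    (h : Nb x N 𝓖 τ l ρ C0) (hl : 1 ≤ l) (U : Submodule ℂ (Fin (3 + 1) ⊕ Fin (3 + 1) → ℂ))
    (hU : Module.finrank ℂ U ≤ 4) :
    ((N.filter fun y => hat y ∈ U).card : ℝ) ≤ l * 𝓖.card + 2 * ρ := by
  set S := N.filter fun y => hat y ∈ U with hS
  have hSN : S ⊆ N := Finset.filter_subset _ _
  have hSU : ∀ y ∈ S, hat y ∈ U := fun y hy => (Finset.mem_filter.1 hy).2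
  have hρ : 0 ≤ ρ := by
    have h1 := h.cmp ∅ (Finset.empty_subset _) (fun y hy => absurd hy (Finset.notMem_empty y))
    simpa using h1
  have hG : (0 : ℝ) ≤ l * 𝓖.card := by positivity
  by_cases hA : ∃ g ∈ 𝓖, ∃ a ∈ gr S g, ∃ b ∈ gr S g, ∃ c ∈ gr S g, a.1 ≠ b.1 ∧ ¬ Col a.1 b.1 c.1
  · obtain ⟨g, hg, a, ha, b, hb, c, hc, hab, hcol⟩ := hA
    have hcm := cmp_gr (h.iso g hg).1 S
    have hz : ∀ y ∈ gr S g, ∀ z ∈ gr S g, bil (hat y) (hat z) = 0 := by
      intro y hy z hz
      rw [bil_hat, hcm y hy z hz]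
      simp
    have hmem : ∀ i, ∃ y ∈ gr S g, (![hat a, hat b, hat c] : Fin 3 → _) i = hat y := by
      intro i
      fin_cases i
      · exact ⟨a, ha, rfl⟩
      · exact ⟨b, hb, rfl⟩
      · exact ⟨c, hc, rfl⟩
    have key := null_two U hU ![hat a, hat b, hat c] (hat_indep hab hcol)
      (fun i => by
        obtain ⟨y, hy, e⟩ := hmem i
        rw [e]
        exact hSU y (mem_gr.1 hy).1)
      (fun i j => by
        obtain ⟨y, hy, e⟩ := hmem i
        obtain ⟨z, hz', e'⟩ := hmem j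
        rw [e, e']
        exact hz y hy z hz')
    set T := Submodule.span ℂ (Set.range (![hat a, hat b, hat c] : Fin 3 → _)) with hT
    have c1 := h.cmp (S.filter fun y => hat y ∈ T) ((Finset.filter_subset _ _).trans hSN)
      (upart_cmp fun y hy z hz => key.1 _ (Finset.mem_filter.1 hy).2 _ (Finset.mem_filter.1 hz).2)
    have c2 := h.cmp (S.filter fun y => ¬ hat y ∈ T) ((Finset.filter_subset _ _).trans hSN)
      (upart_cmp fun y hy z hz => key.2 _ (hSU y (Finset.mem_filter.1 hy).1) _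
        (hSU z (Finset.mem_filter.1 hz).1) (Finset.mem_filter.1 hy).2 (Finset.mem_filter.1 hz).2
        (nrm_hat y).2 (nrm_hat z).2)
    have c3 : ((S.filter fun y => hat y ∈ T).card : ℝ) + (S.filter fun y => ¬ hat y ∈ T).card =
        S.card := by
      exact_mod_cast Finset.card_filter_add_card_filter_not (s := S) fun y => hat y ∈ T
    linarith
  · have hB : ∀ g ∈ 𝓖, ((gr S g).card : ℝ) ≤ l := by
      intro g hg
      by_cases h1 : ∃ a ∈ gr S g, ∃ b ∈ gr S g, a.1 ≠ b.1
      · obtain ⟨a, ha, b, hb, hab⟩ := h1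
        refine le_trans ?_ (h.lin g hg a.1 b.1 hab)
        refine Nat.cast_le.2 (Finset.card_le_card fun c hc => mem_onL.2 ⟨gr_mono hSN g hc, ?_⟩)
        by_contra hcol
        exact hA ⟨g, hg, a, ha, b, hb, c, hc, hab, hcol⟩
      · have h2 : (gr S g).card ≤ 1 := by
          refine Finset.card_le_one.2 fun a ha b hb => gr_inj ha hb ?_
          by_contra hab
          exact h1 ⟨a, ha, b, hb, hab⟩
        have h3 : ((gr S g).card : ℝ) ≤ 1 := by exact_mod_cast h2
        linarith
    have hsub : S ⊆ 𝓖.biUnion fun g => gr S g := by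
      intro y hy
      obtain ⟨g, hg, e⟩ := h.ex y (hSN hy)
      exact Finset.mem_biUnion.2 ⟨g, hg, mem_gr.2 ⟨hy, e⟩⟩
    have h1 : S.card ≤ ∑ g ∈ 𝓖, (gr S g).card :=
      (Finset.card_le_card hsub).trans Finset.card_biUnion_le
    have h2 : (S.card : ℝ) ≤ ∑ g ∈ 𝓖, ((gr S g).card : ℝ) := by exact_mod_cast h1
    have h3 : ∑ g ∈ 𝓖, ((gr S g).card : ℝ) ≤ ∑ _g ∈ 𝓖, l := Finset.sum_le_sum hB
    rw [Finset.sum_const, nsmul_eq_mul] at h3
    linarith

end

end Vale.Agent.P054
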